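import Vale.Agent.P352.H246.Uniq

set_option linter.all false

noncomputable section

open MeasureTheory SchwartzMap Complex Filter Topology
open scoped SchwartzMap ComplexConjugate ENNReal LineDeriv

namespace Vale.Agent.P352.H246

open GF (Ix V Fn Sch ev pd bar sim one bas o)

variable {D : Type*} [NormedAddCommGroup D] [InnerProductSpace ℂ D]
variable {Q : GF.Theory D}

lemma continuous_conjS : Continuous conjS :=
  (SchwartzMap.postcompCLM (𝕜 := ℝ) (Complex.conjCLE : ℂ →L[ℝ] ℂ) :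
    𝓢(Mink, ℂ) →L[ℝ] 𝓢(Mink, ℂ)).continuous

/-- translations -/
abbrev U1 (Q : GF.Theory D) (a : Mink) (v : D) : D := Q.U 1 one a.ofLp v

lemma U1_add (a : Mink) (v w : D) : U1 Q a (v + w) = U1 Q a v + U1 Q a w :=
  U_add one_pos isLor_one _ _ _

lemma U1_smul (a : Mink) (c : ℂ) (v : D) : U1 Q a (c • v) = c • U1 Q a v :=
  U_smul one_pos isLor_one _ _ _

lemma U1_inner (a : Mink) (v w : D) : inner ℂ (U1 Q a v) (U1 Q a w) = inner ℂ v w :=
  Q.U_inner _ _ _ _ _ one_pos isLor_one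

lemma U1_vac (a : Mink) : U1 Q a Q.vac = Q.vac := Q.U_vac _ _ _ one_pos isLor_one

lemma U1_norm (a : Mink) (v : D) : ‖U1 Q a v‖ = ‖v‖ := by
  have h := U1_inner (Q := Q) a v v
  rw [inner_self_eq_norm_sq_to_K, inner_self_eq_norm_sq_to_K] at h
  have h2 : ‖U1 Q a v‖ ^ 2 = ‖v‖ ^ 2 := by exact_mod_cast h
  exact (pow_left_inj₀ (norm_nonneg _) (norm_nonneg _) (by norm_num)).1 h2

lemma U1_sub (a : Mink) (v w : D) : U1 Q a (v - w) = U1 Q a v - U1 Q a w := by
  have h1 : v - w = v + (-1 : ℂ) • w := by rw [neg_one_smul, sub_eq_add_neg]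
  rw [h1, U1_add, U1_smul, neg_one_smul, ← sub_eq_add_neg]

variable {W : Set Mink}

lemma pw_zero : PW Q W 0 := by
  have := PW.smul (0 : ℂ) (PW.vac (Q := Q) (W := W))
  rwa [zero_smul] at this

lemma pw_sub {v w : D} (hv : PW Q W v) (hw : PW Q W w) : PW Q W (v - w) := by
  have h1 : v - w = v + (-1 : ℂ) • w := by rw [neg_one_smul, sub_eq_add_neg]
  rw [h1]
  exact .add hv (.smul _ hw)

lemma pw_mono {W' : Set Mink} (h : W ⊆ W') {v : D} (hv : PW Q W v) : PW Q W' v := by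
  induction hv with
  | vac => exact .vac
  | add _ _ h1 h2 => exact .add h1 h2
  | smul c _ h1 => exact .smul c h1
  | fld hB hg _ h1 => exact .fld hB ⟨hg.1, hg.2.trans h⟩ h1

lemma U1_U1 {v : D} (hv : PW Q W v) (a b : Mink) : U1 Q a (U1 Q b v) = U1 Q (a + b) v := by
  induction hv with
  | vac => rw [U1_vac, U1_vac, U1_vac]
  | add _ _ h1 h2 => rw [U1_add, U1_add, U1_add, h1, h2]
  | smul c _ h1 => rw [U1_smul, U1_smul, U1_smul, h1]
  | fld hB hg _ h1 =>
    unfold U1 at *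
    rw [U_fld hB, U_fld hB, U_fld hB, h1, tauS_tauS, add_comm b a]

lemma U1_zero {v : D} (hv : PW Q W v) : U1 Q 0 v = v := by
  induction hv with
  | vac => rw [U1_vac]
  | add _ _ h1 h2 => rw [U1_add, h1, h2]
  | smul c _ h1 => rw [U1_smul, h1]
  | fld hB hg _ h1 =>
    unfold U1 at *
    rw [U_fld hB, h1, tauS_zero']

lemma pw_U1 {v : D} (hv : PW Q Set.univ v) (a : Mink) : PW Q Set.univ (U1 Q a v) :=
  PW.transl (W := Set.univ) (W' := Set.univ) a (fun _ _ => trivial) hv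

/-- strong continuity of the translations -/
lemma U1_tendsto {v : D} (hv : PW Q W v) : Tendsto (fun a => U1 Q a v) (𝓝 0) (𝓝 v) := by
  obtain ⟨ν, hfin, hcone, hν⟩ := spec_meas Q v
  have hc : Continuous fun a : Mink => ∫ p, chr a p ∂ν := by
    apply continuous_of_dominated (bound := fun _ => (1 : ℝ))
    · intro a
      exact (continuous_chr a).aestronglyMeasurable
    · intro a
      exact Eventually.of_forall fun p => by rw [norm_chr]
    · exact integrable_const _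
    · refine Eventually.of_forall fun p => ?_
      exact continuous_chr2.comp (continuous_id.prodMk continuous_const)
  have h1 : Tendsto (fun a => inner ℂ v (U1 Q a v)) (𝓝 0) (𝓝 (inner ℂ v v)) := by
    have h2 : (fun a => inner ℂ v (U1 Q a v)) = fun a : Mink => ∫ p, chr a p ∂ν := by
      funext a; exact hν a
    have h3 : inner ℂ v v = ∫ p, chr 0 p ∂ν := by
      rw [← hν 0]
      congr 1
      exact (U1_zero hv).symm
    rw [h2, h3]
    exact hc.tendsto 0
  rw [tendsto_iff_norm_sub_tendsto_zero]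
  have h4 : ∀ a, ‖U1 Q a v - v‖ ^ 2 = 2 * ‖v‖ ^ 2 - 2 * (inner ℂ v (U1 Q a v)).re := by
    intro a
    rw [@norm_sub_sq ℂ, U1_norm]
    have : RCLike.re (inner ℂ (U1 Q a v) v) = (inner ℂ v (U1 Q a v)).re := by
      rw [← inner_conj_symm]
      exact conj_re _
    rw [this]
    ring
  have h5 : Tendsto (fun a => ‖U1 Q a v - v‖ ^ 2) (𝓝 0) (𝓝 0) := by
    simp only [h4]
    have h6 : Tendsto (fun a => 2 * ‖v‖ ^ 2 - 2 * (inner ℂ v (U1 Q a v)).re) (𝓝 0)
        (𝓝 (2 * ‖v‖ ^ 2 - 2 * (inner ℂ v v).re)) :=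
      tendsto_const_nhds.sub ((continuous_re.tendsto _).comp h1 |>.const_mul 2)
    have h7 : (inner ℂ v v).re = ‖v‖ ^ 2 := by
      rw [inner_self_eq_norm_sq_to_K]
      norm_cast
    rw [h7, sub_self] at h6
    exact h6
  have h8 := (Real.continuous_sqrt.tendsto 0).comp h5
  rw [Real.sqrt_zero] at h8
  refine h8.congr fun a => ?_
  simp [Real.sqrt_sq (norm_nonneg _)]

lemma fld_zero {B : GF.Fld D} (hB : Q.fld B) (v : D) : B (fl 0) v = 0 := by
  have h2 := fld_lin hB 0 0 1 v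
  simp only [smul_zero, add_zero, one_smul] at h2
  simpa using h2

lemma fld_smulf {B : GF.Fld D} (hB : Q.fld B) (c : ℂ) (g : 𝓢(Mink, ℂ)) (v : D) :
    B (fl (c • g)) v = c • B (fl g) v := by
  have h1 := fld_lin hB 0 g c v
  rwa [zero_add, fld_zero hB, zero_add] at h1

lemma fld_addf {B : GF.Fld D} (hB : Q.fld B) (f g : 𝓢(Mink, ℂ)) (v : D) :
    B (fl (f + g)) v = B (fl f) v + B (fl g) v := by
  have h1 := fld_lin hB f g 1 v
  simpa only [one_smul] using h1

lemma fld_negf {B : GF.Fld D} (hB : Q.fld B) (g : 𝓢(Mink, ℂ)) (v : D) :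
    B (fl (-g)) v = - B (fl g) v := by
  have := fld_smulf hB (-1) g v
  rwa [neg_one_smul, neg_one_smul] at this

lemma fld_subf {B : GF.Fld D} (hB : Q.fld B) (f g : 𝓢(Mink, ℂ)) (v : D) :
    B (fl (f - g)) v = B (fl f) v - B (fl g) v := by
  rw [sub_eq_add_neg, fld_addf hB, fld_negf hB, sub_eq_add_neg]

lemma fld_sub {B : GF.Fld D} (hB : Q.fld B) (g : 𝓢(Mink, ℂ)) (v w : D) :
    B (fl g) (v - w) = B (fl g) v - B (fl g) w := by
  have h1 : v - w = v + (-1 : ℂ) • w := by rw [neg_one_smul, sub_eq_add_neg]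
  rw [h1, fld_add hB, fld_smul hB, neg_one_smul, ← sub_eq_add_neg]

lemma isTest_lineDeriv {g : 𝓢(Mink, ℂ)} (hg : IsTest W g) (e : Mink) :
    IsTest W (∂_{e} g : 𝓢(Mink, ℂ)) := hg.lineDeriv e

lemma isTest_neg {g : 𝓢(Mink, ℂ)} (hg : IsTest W g) : IsTest W (-g) := by
  have := hg.smul (-1)
  rwa [neg_one_smul] at this

/-- scalar mean value estimate -/
lemma mean_val {φ φ' : ℝ → ℂ} (h : ∀ s, HasDerivAt φ (φ' s) s) {C t : ℝ}
    (hC : ∀ s, |s| ≤ |t| → ‖φ' s‖ ≤ C) : ‖φ t - φ 0‖ ≤ C * |t| := by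
  have := (convex_closedBall (0 : ℝ) |t|).norm_image_sub_le_of_norm_hasDerivWithin_le
    (f := φ) (f' := φ') (C := C) (fun s _ => (h s).hasDerivWithinAt) (fun s hs => by
      apply hC
      rwa [Metric.mem_closedBall, dist_zero_right, Real.norm_eq_abs] at hs)
    (x := 0) (y := t) (by simp) (by simp)
  rwa [sub_zero, Real.norm_eq_abs] at this

/-- Leibniz rule -/
theorem deriv_fld (e : Mink) {B : GF.Fld D} {g : 𝓢(Mink, ℂ)} {v v' : D} (hB : Q.fld B)
    (hg : IsTest W g) (hpv : PW Q W v) (p' : PW Q W v')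
    (d' : HasDerivAt (fun t : ℝ => U1 Q (t • e) v) v' 0) :
    HasDerivAt (fun t : ℝ => U1 Q (t • e) (B (fl g) v))
      (B (fl (-(∂_{e} g : 𝓢(Mink, ℂ)))) v + B (fl g) v') 0 := by
  set w : D := B (fl g) v with hw
  set w' : D := B (fl (-(∂_{e} g : 𝓢(Mink, ℂ)))) v + B (fl g) v' with hw'
  have hpw : PW Q W w := .fld hB hg hpv
  have hpw' : PW Q W w' := .add (.fld hB (isTest_neg (isTest_lineDeriv hg _)) hpv)
    (.fld hB hg p')
  change HasDerivAt (fun t : ℝ => U1 Q (t • e) w) w' 0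
  obtain ⟨B', hB', hadj⟩ := Q.adj B hB
  have hadj2 : ∀ (h : 𝓢(Mink, ℂ)) (z u : D), inner ℂ z (B (fl h) u) =
      inner ℂ (B' (fl (conjS h)) z) u := by
    intro h z u
    rw [← inner_conj_symm, hadj _ _ _ (isTest_fl h), bar_fl, inner_conj_symm]
  have hUw : ∀ t : ℝ, U1 Q (t • e) w = B (fl (tauS (t • e) g)) (U1 Q (t • e) v) :=
    fun t => U_fld hB g _ v
  have hsc : Tendsto (fun t : ℝ => t • e) (𝓝 0) (𝓝 0) := by
    have : Continuous fun t : ℝ => t • e := by fun_prop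
    simpa using this.tendsto 0
  have hd0 : ∀ z : D, HasDerivAt (fun t : ℝ => inner ℂ z (U1 Q (t • e) w))
      (inner ℂ z w') 0 := by
    intro z
    rw [hasDerivAt_iff_tendsto_slope]
    have e1 : ∀ t : ℝ, t ≠ 0 → slope (fun t : ℝ => inner ℂ z (U1 Q (t • e) w)) 0 t =
        inner ℂ (B' (fl (conjS ((t : ℂ)⁻¹ • (tauS (t • e) g - g)))) z)
          (U1 Q (t • e) v) +
        inner ℂ (B' (fl (conjS g)) z) ((t : ℝ)⁻¹ • (U1 Q (t • e) v - v)) := by
      intro t ht
      rw [slope_def_module, ← hadj2, ← hadj2]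
      simp only [sub_zero]
      rw [zero_smul, U1_zero hpw, hUw, hw, fld_smulf hB, fld_subf hB]
      have e3 : (t : ℝ)⁻¹ • (U1 Q (t • e) v - v) = ((t : ℂ)⁻¹) • (U1 Q (t • e) v - v) := by
        rw [← ofReal_inv]
        rfl
      rw [e3, fld_smul hB, fld_sub hB, ← inner_add_right, ← smul_add, real_smul,
        inner_smul_right, ofReal_inv]
      congr 1
      rw [← inner_sub_right]
      congr 1
      abel
    have e2 : Tendsto (fun t : ℝ =>
        inner ℂ (B' (fl (conjS ((t : ℂ)⁻¹ • (tauS (t • e) g - g)))) z)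
          (U1 Q (t • e) v) +
        inner ℂ (B' (fl (conjS g)) z) ((t : ℝ)⁻¹ • (U1 Q (t • e) v - v))) (𝓝[≠] 0)
        (𝓝 (inner ℂ (B' (fl (conjS (-(∂_{e} g : 𝓢(Mink, ℂ))))) z) v +
          inner ℂ (B' (fl (conjS g)) z) v')) := by
      apply Tendsto.add
      · have t1 : Tendsto (fun t : ℝ => B' (fl (conjS ((t : ℂ)⁻¹ • (tauS (t • e) g - g)))) z)
          (𝓝[≠] 0) (𝓝 (B' (fl (conjS (-(∂_{e} g : 𝓢(Mink, ℂ))))) z)) :=
          (((fld_cont hB' z).comp continuous_conjS).tendsto _).comp (tendsto_shift g e)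
        have t2 : Tendsto (fun t : ℝ => U1 Q (t • e) v) (𝓝[≠] 0) (𝓝 v) :=
          ((U1_tendsto hpv).comp hsc).mono_left nhdsWithin_le_nhds
        exact Filter.Tendsto.inner t1 t2
      · have t3 := hasDerivAt_iff_tendsto_slope.1 d'
        have t4 : Tendsto (fun t : ℝ => (t : ℝ)⁻¹ • (U1 Q (t • e) v - v)) (𝓝[≠] 0) (𝓝 v') := by
          refine t3.congr fun t => ?_
          rw [slope_def_module]
          simp only [sub_zero]
          rw [zero_smul, U1_zero hpv]
        exact Filter.Tendsto.inner tendsto_const_nhds t4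
    have e4 : inner ℂ z w' = inner ℂ (B' (fl (conjS (-(∂_{e} g : 𝓢(Mink, ℂ))))) z) v +
          inner ℂ (B' (fl (conjS g)) z) v' := by
      rw [hw', inner_add_right, hadj2, hadj2]
    rw [e4]
    refine e2.congr' ?_
    filter_upwards [self_mem_nhdsWithin] with t ht
    exact (e1 t ht).symm
  have hpu : PW Q Set.univ w := pw_mono (Set.subset_univ _) hpw
  have hpu' : PW Q Set.univ w' := pw_mono (Set.subset_univ _) hpw'
  have hds : ∀ z : D, PW Q Set.univ z → ∀ s : ℝ,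
      HasDerivAt (fun t : ℝ => inner ℂ z (U1 Q (t • e) w))
      (inner ℂ z (U1 Q (s • e) w')) s := by
    intro z hz s
    have hzs : z = U1 Q (s • e) (U1 Q (-(s • e)) z) := by
      rw [U1_U1 hz, add_neg_cancel, U1_zero hz]
    have h3 := (hd0 (U1 Q (-(s • e)) z))
    have h4 : (fun t : ℝ => inner ℂ z (U1 Q (t • e) w)) =
        fun t : ℝ => inner ℂ (U1 Q (-(s • e)) z) (U1 Q ((t - s) • e) w) := by
      funext t
      rw [← U1_inner (Q := Q) (s • e) (U1 Q (-(s • e)) z), ← hzs, U1_U1 hpu]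
      congr 3
      module
    have h5 : inner ℂ z (U1 Q (s • e) w') = inner ℂ (U1 Q (-(s • e)) z) w' := by
      conv_lhs => rw [hzs]
      rw [U1_inner]
    rw [h4, h5]
    have h6 : HasDerivAt (fun t : ℝ => inner ℂ (U1 Q (-(s • e)) z) (U1 Q (t • e) w))
      (inner ℂ (U1 Q (-(s • e)) z) w') (s - s) := by
      rw [sub_self]; exact h3
    exact h6.comp_sub_const s s
  rw [hasDerivAt_iff_isLittleO_nhds_zero, Asymptotics.isLittleO_iff]
  intro ε hε
  have hcont : ∀ᶠ t : ℝ in 𝓝 0, ‖U1 Q (t • e) w' - w'‖ ≤ ε := by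
    have h7 : Tendsto (fun t : ℝ => ‖U1 Q (t • e) w' - w'‖) (𝓝 0) (𝓝 0) := by
      have := (U1_tendsto hpw').comp hsc
      rw [tendsto_iff_norm_sub_tendsto_zero] at this
      exact this
    exact h7.eventually_le_const hε
  obtain ⟨δ, hδ, hball⟩ := Metric.eventually_nhds_iff.1 hcont
  refine Metric.eventually_nhds_iff.2 ⟨δ, hδ, fun t ht => ?_⟩
  rw [dist_zero_right, Real.norm_eq_abs] at ht
  simp only [zero_add, zero_smul]
  rw [U1_zero hpw]
  set R : D := U1 Q (t • e) w - w - t • w' with hR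
  have hts : t • w' = (t : ℂ) • w' := rfl
  have hpR : PW Q Set.univ R := by
    rw [hR, hts]
    exact pw_sub (pw_sub (pw_U1 hpu _) hpu) (.smul _ hpu')
  have key := mean_val (φ := fun s : ℝ => inner ℂ R (U1 Q (s • e) w) - (s : ℂ) * inner ℂ R w')
    (φ' := fun s => inner ℂ R (U1 Q (s • e) w') - inner ℂ R w') (C := ε * ‖R‖) (t := t)
    (fun s => by
      have h8 : HasDerivAt (fun s : ℝ => (s : ℂ) * inner ℂ R w') (inner ℂ R w') s := by
        simpa using (Complex.ofRealCLM.hasDerivAt (x := s)).mul_const (inner ℂ R w')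
      exact (hds R hpR s).sub h8)
    (fun s hs => by
      rw [← inner_sub_right]
      have h9 : ‖U1 Q (s • e) w' - w'‖ ≤ ε := by
        apply hball
        rw [dist_zero_right, Real.norm_eq_abs]
        exact hs.trans_lt ht
      calc ‖inner ℂ R (U1 Q (s • e) w' - w')‖ ≤ ‖R‖ * ‖U1 Q (s • e) w' - w'‖ :=
            norm_inner_le_norm _ _
        _ ≤ ‖R‖ * ε := by gcongr
        _ = ε * ‖R‖ := mul_comm _ _)
  have e5 : (inner ℂ R (U1 Q (t • e) w) - (t : ℂ) * inner ℂ R w') -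
      (inner ℂ R (U1 Q ((0 : ℝ) • e) w) - ((0 : ℝ) : ℂ) * inner ℂ R w') = inner ℂ R R := by
    rw [zero_smul, U1_zero hpw, ofReal_zero, zero_mul, sub_zero]
    conv_rhs => rw [hR, hts]
    rw [← hts, ← hR, hR, hts]
    simp only [inner_sub_right, inner_smul_right]
    ring
  rw [e5] at key
  have e6 : ‖(inner ℂ R R : ℂ)‖ = ‖R‖ * ‖R‖ := by
    rw [inner_self_eq_norm_sq_to_K]
    norm_cast
    rw [abs_of_nonneg (by positivity)]
    ring
  rw [e6] at key
  rw [Real.norm_eq_abs]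
  rcases eq_or_lt_of_le (norm_nonneg R) with h0 | h0
  · rw [← h0]; positivity
  · have : ‖R‖ * ‖R‖ ≤ (ε * |t|) * ‖R‖ := by linarith
    exact le_of_mul_le_mul_right this h0


/-- the vectors generated by the fields are smooth -/
theorem pw_deriv (m : Ix) {v : D} (hv : PW Q W v) : ∃ v', PW Q W v' ∧
    HasDerivAt (fun t : ℝ => U1 Q (t • eb m) v) v' 0 := by
  induction hv with
  | vac =>
    refine ⟨0, pw_zero, ?_⟩
    simp only [U1_vac]
    exact hasDerivAt_const _ _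
  | add _ _ h1 h2 =>
    obtain ⟨v1, p1, d1⟩ := h1
    obtain ⟨v2, p2, d2⟩ := h2
    refine ⟨v1 + v2, .add p1 p2, ?_⟩
    simp only [U1_add]
    exact d1.add d2
  | smul c _ h1 =>
    obtain ⟨v1, p1, d1⟩ := h1
    refine ⟨c • v1, .smul c p1, ?_⟩
    simp only [U1_smul]
    exact d1.const_smul c
  | @fld B g v hB hg hpv h1 =>
    obtain ⟨v', p', d'⟩ := h1
    exact ⟨_, .add (.fld hB (isTest_neg (isTest_lineDeriv hg _)) hpv) (.fld hB hg p'),
      deriv_fld (eb m) hB hg hpv p' d'⟩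

end Vale.Agent.P352.H246

end
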