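import Vale.Agent.P352.H246.Words

set_option linter.all false

noncomputable section

open MeasureTheory SchwartzMap Complex Filter Topology
open scoped SchwartzMap ComplexConjugate ENNReal LineDeriv NNReal

namespace Vale.Agent.P352.H246

open GF (Ix V Fn Sch ev pd bar sim one bas o)

variable {D : Type*} [NormedAddCommGroup D] [InnerProductSpace ℂ D]
variable {Q : GF.Theory D}

/-! ### Polynomial vectors and the algebras -/

lemma Al.pw {W : Set V} {X X' : D → D} (h : Al Q W X X') {v : D} (hv : PW Q (MW W) v) :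
    PW Q (MW W) (X v) := by
  induction h with
  | one => exact hv
  | add X X' Y Y' _ _ ih1 ih2 => exact .add ih1 ih2
  | smul c X X' _ ih => exact .smul c ih
  | fld A B g X X' hA hB h hg _ ih =>
    obtain ⟨G, rfl, hG⟩ := exists_In hg
    exact .fld hA hG ih

lemma MW_univ : MW (Set.univ : Set V) = Set.univ := rfl

lemma Al.pwu {W : Set V} {X X' : D → D} (h : Al Q W X X') {v : D} (hv : PW Q Set.univ v) :
    PW Q Set.univ (X v) := by
  have h2 := (h.mono (Set.subset_univ W)).pw (v := v) (by rwa [MW_univ])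
  rwa [MW_univ] at h2

lemma exists_Al {W : Set V} {v : D} (hv : PW Q (MW W) v) : ∃ X X', Al Q W X X' ∧ X Q.vac = v := by
  induction hv with
  | vac => exact ⟨_, _, .one, rfl⟩
  | add _ _ h1 h2 =>
    obtain ⟨X, X', h1, rfl⟩ := h1
    obtain ⟨Y, Y', h2, rfl⟩ := h2
    exact ⟨_, _, .add _ _ _ _ h1 h2, rfl⟩
  | smul c _ h1 =>
    obtain ⟨X, X', h1, rfl⟩ := h1
    exact ⟨_, _, .smul c _ _ h1, rfl⟩
  | @fld B g v hB hg _ h1 =>
    obtain ⟨X, X', h1, rfl⟩ := h1
    obtain ⟨B', hB', hadj⟩ := Q.adj B hB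
    exact ⟨_, _, .fld B B' (fl g) _ _ hB hB' hadj (In_fl.2 hg) h1, rfl⟩

lemma Al.sub {W : Set V} {X X' Y Y' : D → D} (h : Al Q W X X') (h2 : Al Q W Y Y') :
    Al Q W (fun v => X v - Y v) (fun v => X' v - Y' v) := by
  have := Al.add _ _ _ _ h (Al.smul (-1) _ _ h2)
  have e1 : (fun v => X v + (-1 : ℂ) • Y v) = fun v => X v - Y v := by
    funext v; rw [neg_one_smul, sub_eq_add_neg]
  have e2 : (fun v => X' v + Star.star (-1 : ℂ) • Y' v) = fun v => X' v - Y' v := by
    funext v; rw [star_neg, star_one, neg_one_smul, sub_eq_add_neg]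
  rwa [e1, e2] at this

lemma Al.zero {W : Set V} : Al Q W (fun _ => 0) (fun _ => 0) := by
  have := Al.smul 0 _ _ (Al.one (Q := Q) (W := W))
  simp only [zero_smul, star_zero] at this
  exact this

/-! ### Vectors of the completion -/

lemma norm_le_of_inner {x : UniformSpace.Completion D} {C : ℝ} (hC : 0 ≤ C)
    (h : ∀ z : D, ‖inner ℂ (z : UniformSpace.Completion D) x‖ ≤ C * ‖z‖) : ‖x‖ ≤ C := by
  have h2 : ∀ y : UniformSpace.Completion D, ‖inner ℂ y x‖ ≤ C * ‖y‖ := by
    intro y
    refine UniformSpace.Completion.induction_on y ?_ ?_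
    · exact isClosed_le (by fun_prop) (by fun_prop)
    · intro z
      rw [UniformSpace.Completion.norm_coe]
      exact h z
  have h3 := h2 x
  rw [inner_self_eq_norm_sq_to_K] at h3
  have h4 : ‖((‖x‖ : ℂ)) ^ 2‖ = ‖x‖ * ‖x‖ := by
    rw [norm_pow, norm_real, norm_norm]; ring
  have h5 : ‖x‖ * ‖x‖ ≤ C * ‖x‖ := by
    rw [← h4]; exact h3
  rcases eq_or_lt_of_le (norm_nonneg x) with h0 | h0
  · rw [← h0]; exact hC
  · exact le_of_mul_le_mul_right h5 h0

lemma ext_coe {x y : UniformSpace.Completion D}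
    (h : ∀ z : D, inner ℂ (z : UniformSpace.Completion D) x =
      inner ℂ (z : UniformSpace.Completion D) y) : x = y := by
  have : ‖x - y‖ ≤ 0 := norm_le_of_inner le_rfl fun z => by
    rw [inner_sub_right, h z, sub_self, norm_zero, zero_mul]
  exact sub_eq_zero.1 (norm_le_zero_iff.1 this)

lemma eq_of_small {a b : ℂ} {K : ℝ} (h : ∀ ε : ℝ, 0 < ε → ε ≤ 1 → ‖a - b‖ ≤ K * ε) : a = b := by
  apply eq_of_forall_dist_le
  intro ε hε
  rw [dist_eq_norm]
  have hK : 0 < |K| + 1 := by positivity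
  have h1 := h (min 1 (ε / (|K| + 1))) (by positivity) (min_le_left _ _)
  refine h1.trans ?_
  calc K * min 1 (ε / (|K| + 1)) ≤ (|K| + 1) * min 1 (ε / (|K| + 1)) := by
        gcongr
        linarith [le_abs_self K]
    _ ≤ (|K| + 1) * (ε / (|K| + 1)) := by gcongr; exact min_le_right _ _
    _ = ε := by field_simp

/-- Riesz representation on the dense domain -/
lemma exists_riesz {X' : D → D} (hadd : ∀ v w, X' (v + w) = X' v + X' w)
    (hsmul : ∀ (c : ℂ) v, X' (c • v) = c • X' v) (u : UniformSpace.Completion D) {C : ℝ}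
    (hC : ∀ z : D, ‖inner ℂ ((X' z : D) : UniformSpace.Completion D) u‖ ≤ C * ‖z‖) :
    ∃ x : UniformSpace.Completion D, ∀ z : D, inner ℂ (z : UniformSpace.Completion D) x =
      inner ℂ ((X' z : D) : UniformSpace.Completion D) u := by
  set φ0 : D →ₗ[ℂ] ℂ :=
    { toFun := fun z => inner ℂ u ((X' z : D) : UniformSpace.Completion D)
      map_add' := fun v w => by
        rw [hadd, UniformSpace.Completion.coe_add, inner_add_right]
      map_smul' := fun c v => by
        rw [hsmul, UniformSpace.Completion.coe_smul, inner_smul_right]; rfl } with hφ0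
  set φ : D →L[ℂ] ℂ := φ0.mkContinuous C (fun z => by
    change ‖inner ℂ u ((X' z : D) : UniformSpace.Completion D)‖ ≤ _
    rw [← inner_conj_symm, RCLike.norm_conj]
    exact hC z) with hφ
  set ψ : UniformSpace.Completion D →L[ℂ] ℂ :=
    φ.extend (UniformSpace.Completion.toComplL (𝕜 := ℂ) (E := D)) with hψ
  have hψz : ∀ z : D, ψ (z : UniformSpace.Completion D) = φ z := fun z =>
    φ.extend_eq (UniformSpace.Completion.denseRange_coe)
      (UniformSpace.Completion.isUniformInducing_coe D) z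
  refine ⟨(InnerProductSpace.toDual ℂ _).symm ψ, fun z => ?_⟩
  rw [← inner_conj_symm, InnerProductSpace.toDual_symm_apply, hψz]
  change conj (inner ℂ u ((X' z : D) : UniformSpace.Completion D)) = _
  rw [inner_conj_symm]

/-! ### Values of the potential -/

variable (lam : 𝓢(Mink, ℂ) → UniformSpace.Completion D)

/-- `x` is the value of the extended operator with symbol `f` on `v` -/
def Val (Q : GF.Theory D) (S : Set V) (k : ℕ) (M : ℝ) (f : 𝓢(Mink, ℂ)) (v : D)
    (x : UniformSpace.Completion D) : Prop :=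
  ∀ X X', Al Q S X X' → ∀ z : D, ‖inner ℂ (z : UniformSpace.Completion D) x -
    inner ℂ ((X' z : D) : UniformSpace.Completion D) (lam f)‖ ≤ M * ‖z‖ * en Q k (v - X Q.vac)

/-- the bound on the wedge operators -/
def HB (Q : GF.Theory D) (S : Set V) (k : ℕ) (M : ℝ) (f : 𝓢(Mink, ℂ)) : Prop :=
  ∀ X X', Al Q S X X' → ∀ z : D, ‖inner ℂ ((X' z : D) : UniformSpace.Completion D) (lam f)‖ ≤
    M * ‖z‖ * en Q k (X Q.vac)

variable {lam}
variable {S S' : Set V} {k : ℕ} {M M' : ℝ} {f g : 𝓢(Mink, ℂ)} {v w : D}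
  {x y : UniformSpace.Completion D}

lemma Val.mono (h : Val lam Q S k M f v x) (hS : S' ⊆ S) : Val lam Q S' k M f v x :=
  fun X X' hX z => h X X' (hX.mono hS) z

lemma Val.unique (h : Val lam Q S k M f v x) (h' : Val lam Q S' k M' f v y) {S'' : Set V}
    (h1 : S'' ⊆ S) (h2 : S'' ⊆ S') (hB : Big (MW S'')) (hv : PW Q Set.univ v) : x = y := by
  apply ext_coe
  intro z
  apply eq_of_small (K := (|M| + |M'|) * ‖z‖)
  intro ε hε _
  obtain ⟨v', hv', h3⟩ := dense_en hB k hv hε
  obtain ⟨X, X', hX, rfl⟩ := exists_Al hv'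
  have e1 := h X X' (hX.mono h1) z
  have e2 := h' X X' (hX.mono h2) z
  have e3 : inner ℂ (z : UniformSpace.Completion D) x -
      inner ℂ (z : UniformSpace.Completion D) y =
      (inner ℂ (z : UniformSpace.Completion D) x -
        inner ℂ ((X' z : D) : UniformSpace.Completion D) (lam f)) -
      (inner ℂ (z : UniformSpace.Completion D) y -
        inner ℂ ((X' z : D) : UniformSpace.Completion D) (lam f)) := by ring
  rw [e3]
  have hn := en_nonneg (Q := Q) k (v - X Q.vac)
  have b1 : M * ‖z‖ * en Q k (v - X Q.vac) ≤ |M| * ‖z‖ * ε := by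
    gcongr
    exact le_abs_self M
  have b2 : M' * ‖z‖ * en Q k (v - X Q.vac) ≤ |M'| * ‖z‖ * ε := by
    gcongr
    exact le_abs_self M'
  calc _ ≤ _ := norm_sub_le _ _
    _ ≤ |M| * ‖z‖ * ε + |M'| * ‖z‖ * ε := add_le_add (e1.trans b1) (e2.trans b2)
    _ = (|M| + |M'|) * ‖z‖ * ε := by ring

/-- existence of the values -/
theorem Val.exists (hb : HB lam Q S k M f) (hM : 0 ≤ M) (hB : Big (MW S))
    (hv : PW Q Set.univ v) : ∃ x, Val lam Q S k M f v x := by
  have hex : ∀ n : ℕ, ∃ X X', Al Q S X X' ∧ en Q k (v - X Q.vac) < 1 / ((n : ℝ) + 1) := by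
    intro n
    obtain ⟨v', hv', h3⟩ := dense_en hB k hv (ε := 1 / ((n : ℝ) + 1)) (by positivity)
    obtain ⟨X, X', hX, rfl⟩ := exists_Al hv'
    exact ⟨X, X', hX, h3⟩
  choose X X' hX hlt using hex
  have hpw : ∀ n, PW Q Set.univ (X n Q.vac) := fun n => (hX n).pwu .vac
  have hr : ∀ n, ∃ x : UniformSpace.Completion D, ∀ z : D,
      inner ℂ (z : UniformSpace.Completion D) x =
      inner ℂ ((X' n z : D) : UniformSpace.Completion D) (lam f) := by
    intro n
    refine exists_riesz (hX n).map_add' (hX n).map_smul' (lam f)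
      (C := M * en Q k (X n Q.vac)) fun z => ?_
    refine (hb _ _ (hX n) z).trans (le_of_eq (by ring))
  choose x hx using hr
  have hdist : ∀ n m, ‖x n - x m‖ ≤ M * (1 / ((n : ℝ) + 1) + 1 / ((m : ℝ) + 1)) := by
    intro n m
    apply norm_le_of_inner (by positivity)
    intro z
    have h1 := hb _ _ ((hX n).sub (hX m)) z
    have e1 : inner ℂ (z : UniformSpace.Completion D) (x n - x m) =
        inner ℂ ((X' n z - X' m z : D) : UniformSpace.Completion D) (lam f) := by
      rw [inner_sub_right, hx, hx, UniformSpace.Completion.coe_sub, inner_sub_left]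
    rw [e1]
    refine h1.trans ?_
    have e2 : en Q k (X n Q.vac - X m Q.vac) ≤ 1 / ((n : ℝ) + 1) + 1 / ((m : ℝ) + 1) := by
      have e3 : X n Q.vac - X m Q.vac = (X n Q.vac - v) + (v - X m Q.vac) := by abel
      rw [e3]
      refine (en_add k (pw_sub (hpw n) hv) (pw_sub hv (hpw m))).trans ?_
      rw [en_sub_comm k (hpw n) hv]
      exact add_le_add (hlt n).le (hlt m).le
    calc M * ‖z‖ * en Q k (X n Q.vac - X m Q.vac)
        ≤ M * ‖z‖ * (1 / ((n : ℝ) + 1) + 1 / ((m : ℝ) + 1)) := by gcongr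
      _ = _ := by ring
  have ht0 : Tendsto (fun n : ℕ => 1 / ((n : ℝ) + 1)) atTop (𝓝 0) :=
    tendsto_one_div_add_atTop_nhds_zero_nat
  have hC : CauchySeq x := by
    rw [Metric.cauchySeq_iff']
    intro ε hε
    have h1 : Tendsto (fun n : ℕ => M * (2 * (1 / ((n : ℝ) + 1)))) atTop (𝓝 0) := by
      have := (ht0.const_mul 2).const_mul M
      simpa using this
    obtain ⟨N, hN⟩ := (h1.eventually_lt_const hε).exists
    refine ⟨N, fun n hn => ?_⟩
    rw [dist_eq_norm]
    refine lt_of_le_of_lt ((hdist n N).trans ?_) hN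
    have h2 : 1 / ((n : ℝ) + 1) ≤ 1 / ((N : ℝ) + 1) := by
      have : (N : ℝ) ≤ n := by exact_mod_cast hn
      gcongr
    gcongr
    linarith
  obtain ⟨y, hy⟩ := cauchySeq_tendsto_of_complete hC
  refine ⟨y, fun Y Y' hY z => ?_⟩
  have h1 : Tendsto (fun n => ‖inner ℂ (z : UniformSpace.Completion D) (x n) -
      inner ℂ ((Y' z : D) : UniformSpace.Completion D) (lam f)‖) atTop
      (𝓝 ‖inner ℂ (z : UniformSpace.Completion D) y -
      inner ℂ ((Y' z : D) : UniformSpace.Completion D) (lam f)‖) :=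
    ((tendsto_const_nhds.inner hy).sub tendsto_const_nhds).norm
  have h2 : Tendsto (fun n : ℕ => M * ‖z‖ * (1 / ((n : ℝ) + 1) + en Q k (v - Y Q.vac))) atTop
      (𝓝 (M * ‖z‖ * (0 + en Q k (v - Y Q.vac)))) :=
    (ht0.add tendsto_const_nhds).const_mul _
  rw [zero_add] at h2
  refine le_of_tendsto_of_tendsto' h1 h2 fun n => ?_
  have h3 := hb _ _ ((hX n).sub hY) z
  have e1 : inner ℂ (z : UniformSpace.Completion D) (x n) -
      inner ℂ ((Y' z : D) : UniformSpace.Completion D) (lam f) =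
      inner ℂ ((X' n z - Y' z : D) : UniformSpace.Completion D) (lam f) := by
    rw [hx, UniformSpace.Completion.coe_sub, inner_sub_left]
  rw [e1]
  refine h3.trans ?_
  have hpY : PW Q Set.univ (Y Q.vac) := hY.pwu .vac
  have e3 : X n Q.vac - Y Q.vac = (X n Q.vac - v) + (v - Y Q.vac) := by abel
  have e2 : en Q k (X n Q.vac - Y Q.vac) ≤ 1 / ((n : ℝ) + 1) + en Q k (v - Y Q.vac) := by
    rw [e3]
    refine (en_add k (pw_sub (hpw n) hv) (pw_sub hv hpY)).trans ?_
    rw [en_sub_comm k (hpw n) hv]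
    exact add_le_add (hlt n).le le_rfl
  gcongr

lemma Val.bound (h : Val lam Q S k M f v x) (hM : 0 ≤ M) : ‖x‖ ≤ M * en Q k v := by
  have hn := en_nonneg (Q := Q) k v
  apply norm_le_of_inner (by positivity)
  intro z
  have := h _ _ Al.zero z
  rw [UniformSpace.Completion.coe_zero, inner_zero_left, sub_zero, sub_zero] at this
  exact this.trans (le_of_eq (by ring))

lemma Val.on (h : Val lam Q S k M f v x) {X X' : D → D} (hX : Al Q S X X') (e : v = X Q.vac)
    (z : D) : inner ℂ (z : UniformSpace.Completion D) x =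
      inner ℂ ((X' z : D) : UniformSpace.Completion D) (lam f) := by
  have := h X X' hX z
  rw [e, sub_self, en_zero, mul_zero] at this
  exact sub_eq_zero.1 (norm_le_zero_iff.1 this)

lemma HB.val (hb : HB lam Q S k M f) {X X' : D → D} (hX : Al Q S X X')
    (hx : ∀ z : D, inner ℂ (z : UniformSpace.Completion D) x =
      inner ℂ ((X' z : D) : UniformSpace.Completion D) (lam f)) :
    Val lam Q S k M f (X Q.vac) x := by
  intro Y Y' hY z
  rw [hx z, ← inner_sub_left, ← UniformSpace.Completion.coe_sub]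
  exact hb _ _ (hX.sub hY) z

lemma Val.vac (hb : HB lam Q S k M f) : Val lam Q S k M f Q.vac (lam f) :=
  hb.val Al.one fun z => rfl

lemma Val.mono_M (h : Val lam Q S k M f v x) (hM : M ≤ M') : Val lam Q S k M' f v x :=
  fun X X' hX z => (h X X' hX z).trans (by
    have hn := en_nonneg (Q := Q) k (v - X Q.vac)
    gcongr)

end Vale.Agent.P352.H246

end
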