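import Vale.Agent.P352.H246.Smooth
import Vale.Agent.P352.H246.Ext
import Mathlib.MeasureTheory.Measure.LevyConvergence

set_option linter.all false

noncomputable section

open MeasureTheory SchwartzMap Complex Filter Topology
open scoped SchwartzMap ComplexConjugate ENNReal LineDeriv NNReal BoundedContinuousFunction

namespace Vale.Agent.P352.H246

open GF (Ix V Fn Sch ev pd bar sim one bas o)

lemma isClosed_fwdCone : IsClosed fwdCone := by
  have h1 : Continuous fun p : Mink => p 0 := by fun_prop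
  have h2 : Continuous fun p : Mink => mdot p p := by
    unfold mdot; fun_prop
  exact (isClosed_le continuous_const h1).inter (isClosed_le continuous_const h2)

lemma chr_flip (t p : Mink) : chr (flipS t) p = exp ((inner ℝ p t : ℝ) * I) := by
  rw [chr, mdot_flipS, mul_comm]

/-- limits of measures with convergent characters -/
theorem exists_limit {ν : ℕ → Measure Mink} {m : ℝ} {mn : ℕ → ℝ} {φ : Mink → ℂ}
    (hfin : ∀ n, IsFiniteMeasure (ν n)) (hm : 0 < m) (hmn : ∀ n, 0 < mn n)
    (hmass : ∀ n, ν n Set.univ = ENNReal.ofReal (mn n)) (hlim : Tendsto mn atTop (𝓝 m))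
    (hcone : ∀ n, ν n fwdConeᶜ = 0) (hφ : Continuous φ)
    (h : ∀ a, Tendsto (fun n => ∫ p, chr a p ∂(ν n)) atTop (𝓝 (φ a))) :
    ∃ ν' : Measure Mink, IsFiniteMeasure ν' ∧ ν' fwdConeᶜ = 0 ∧
      ∀ a, φ a = ∫ p, chr a p ∂ν' := by
  set P0 : ℕ → Measure Mink := fun n => ENNReal.ofReal (mn n)⁻¹ • ν n with hP0
  have hprob : ∀ n, IsProbabilityMeasure (P0 n) := by
    intro n
    constructor
    rw [hP0]
    simp only [Measure.smul_apply, hmass, smul_eq_mul]
    rw [← ENNReal.ofReal_mul (inv_nonneg.2 (hmn n).le), inv_mul_cancel₀ (hmn n).ne',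
      ENNReal.ofReal_one]
  set P : ℕ → ProbabilityMeasure Mink := fun n => ⟨P0 n, hprob n⟩ with hP
  have hint : ∀ n a, ∫ p, chr a p ∂(P0 n) = ((mn n)⁻¹ : ℝ) * ∫ p, chr a p ∂(ν n) := by
    intro n a
    rw [hP0, integral_smul_measure, ENNReal.toReal_ofReal (inv_nonneg.2 (hmn n).le), real_smul]
  have hlim2 : ∀ a, Tendsto (fun n => ∫ p, chr a p ∂(P0 n)) atTop (𝓝 ((m⁻¹ : ℝ) * φ a)) := by
    intro a
    simp only [hint]
    apply Tendsto.mul _ (h a)
    exact (continuous_ofReal.tendsto _).comp (hlim.inv₀ hm.ne')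
  have htight : IsTightMeasureSet (Set.range P0) := by
    apply isTightMeasureSet_of_tendsto_charFun (f := fun t => (m⁻¹ : ℝ) * φ (flipS t))
    · have : Continuous flipS := by
        unfold flipS
        apply (PiLp.continuous_toLp 2 _).comp
        apply continuous_pi
        intro i
        fin_cases i <;> simp <;> fun_prop
      exact (continuous_const.mul (hφ.comp this)).continuousAt
    · intro t
      refine (hlim2 (flipS t)).congr fun n => ?_
      rw [charFun_apply]
      congr 1
      ext p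
      exact chr_flip t p
  have hc : IsCompact (closure (Set.range P)) := by
    apply isCompact_closure_of_isTightMeasureSet
    convert htight using 1
    ext μ
    constructor
    · rintro ⟨_, ⟨n, rfl⟩, rfl⟩
      exact ⟨n, rfl⟩
    · rintro ⟨n, rfl⟩
      exact ⟨_, ⟨n, rfl⟩, rfl⟩
  obtain ⟨μ', -, hμ'⟩ := hc.ultrafilter_le_nhds (((Filter.hyperfilter ℕ : Ultrafilter ℕ)).map P)
    (by
      apply le_trans _ (monotone_principal subset_closure)
      simp)
  have hμt : Tendsto P (Filter.hyperfilter ℕ : Filter ℕ) (𝓝 μ') := hμ'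
  refine ⟨ENNReal.ofReal m • (μ' : Measure Mink), ?_, ?_, fun a => ?_⟩
  · exact Measure.smul_finite _ ENNReal.ofReal_ne_top
  · have h1 := ProbabilityMeasure.le_liminf_measure_open_of_tendsto hμt
      isClosed_fwdCone.isOpen_compl
    have h2 : (fun n => ((P n : ProbabilityMeasure Mink) : Measure Mink) fwdConeᶜ) =
        fun _ => 0 := by
      funext n
      show P0 n fwdConeᶜ = 0
      rw [hP0]
      simp [hcone n]
    rw [h2] at h1
    simp only [liminf_const] at h1
    rw [Measure.smul_apply, le_antisymm h1 (zero_le), smul_zero]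
  · set F : Mink →ᵇ ℂ := BoundedContinuousFunction.ofNormedAddCommGroup (chr a)
      (continuous_chr a) 1 (fun p => (norm_chr a p).le) with hF
    have h3 := (ProbabilityMeasure.tendsto_iff_forall_integral_rclike_tendsto ℂ).1 hμt F
    have h4 := (hlim2 a).mono_left Nat.hyperfilter_le_atTop
    have h5 : ∫ p, chr a p ∂(μ' : Measure Mink) = (m⁻¹ : ℝ) * φ a := tendsto_nhds_unique h3 h4
    rw [integral_smul_measure, ENNReal.toReal_ofReal hm.le, h5, real_smul]
    have : (m : ℂ) ≠ 0 := by exact_mod_cast hm.ne'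
    push_cast
    field_simp

variable {D : Type*} [NormedAddCommGroup D] [InnerProductSpace ℂ D]
variable {Q : GF.Theory D}

lemma U1_zero_all (v : D) : U1 Q 0 v = v := by
  set S : Submodule ℂ D :=
    { carrier := {v | U1 Q 0 v = v}
      add_mem' := fun {v w} hv hw => by
        show U1 Q 0 (v + w) = v + w
        rw [U1_add, hv, hw]
      zero_mem' := by
        have := U1_smul (Q := Q) 0 0 (0 : D)
        rwa [zero_smul, zero_smul] at this
      smul_mem' := fun c v hv => by
        show U1 Q 0 (c • v) = c • v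
        rw [U1_smul, hv] } with hS
  have hd := Q.cyclic S (U1_vac 0) (fun A f v hA hf hv => by
    obtain ⟨F, rfl⟩ := exists_fl hf
    show U1 Q 0 (A (fl F) v) = A (fl F) v
    have h1 : U1 Q 0 (A (fl F) v) = A (fl (tauS 0 F)) (U1 Q 0 v) := U_fld hA F 0 v
    rw [h1, tauS_zero']
    congr 1)
  have hcl : IsClosed (S : Set D) := by
    have hc : Continuous fun v : D => U1 Q 0 v := by
      apply continuous_of_linear_of_bound (𝕜 := ℂ) (U1_add 0) (fun c v => U1_smul 0 c v) (C := 1)
      intro v
      rw [U1_norm, one_mul]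
    exact isClosed_eq hc continuous_id
  have : v ∈ closure (S : Set D) := hd v
  rw [hcl.closure_eq] at this
  exact this

/-- spectral measures of vectors of the completion -/
theorem exists_spec {x : UniformSpace.Completion D} {y : Mink → UniformSpace.Completion D}
    (hxy : ∀ (a : Mink) (z : D), inner ℂ ((U1 Q a z : D) : UniformSpace.Completion D) (y a) =
      inner ℂ (z : UniformSpace.Completion D) x) (hy : ∀ a, ‖y a‖ ≤ ‖x‖) :
    ∃ ν : Measure Mink, IsFiniteMeasure ν ∧ ν fwdConeᶜ = 0 ∧
      ∀ a, inner ℂ x (y a) = ∫ p, chr a p ∂ν := by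
  by_cases hx : x = 0
  · refine ⟨0, inferInstance, by simp, fun a => ?_⟩
    rw [hx, inner_zero_left, integral_zero_measure]
  have hx0 : 0 < ‖x‖ := norm_pos_iff.2 hx
  have hex : ∀ n : ℕ, ∃ z : D, ‖x - (z : UniformSpace.Completion D)‖ <
      min (‖x‖ / 2) (1 / ((n : ℝ) + 1)) := fun n => exists_coe x (by positivity)
  choose z hz using hex
  choose ν hfin hcone hν using fun n => spec_meas Q (z n)
  have hzpos : ∀ n, 0 < ‖z n‖ := by
    intro n
    have h1 := (hz n).trans_le (min_le_left _ _)
    have h2 : ‖x‖ ≤ ‖x - (z n : UniformSpace.Completion D)‖ + ‖z n‖ := by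
      have := norm_add_le (x - (z n : UniformSpace.Completion D)) (z n : UniformSpace.Completion D)
      rwa [sub_add_cancel, UniformSpace.Completion.norm_coe] at this
    linarith
  have ht : Tendsto (fun n => (z n : UniformSpace.Completion D)) atTop (𝓝 x) := by
    rw [tendsto_iff_norm_sub_tendsto_zero]
    refine squeeze_zero (fun n => norm_nonneg _) (fun n => ?_)
      tendsto_one_div_add_atTop_nhds_zero_nat
    rw [norm_sub_rev]
    exact ((hz n).trans_le (min_le_right _ _)).le
  have hnt : Tendsto (fun n => ‖z n‖) atTop (𝓝 ‖x‖) := by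
    have := ht.norm
    simpa only [UniformSpace.Completion.norm_coe] using this
  -- the key estimate
  have hest : ∀ n a, ‖((U1 Q a (z n) : D) : UniformSpace.Completion D) - y a‖ ≤
      ‖x - (z n : UniformSpace.Completion D)‖ := by
    intro n a
    have h1 : ‖((U1 Q a (z n) : D) : UniformSpace.Completion D) - y a‖ ^ 2 ≤
        ‖x - (z n : UniformSpace.Completion D)‖ ^ 2 := by
      rw [norm_sub_rev x, @norm_sub_sq ℂ, @norm_sub_sq ℂ, hxy a (z n),
        UniformSpace.Completion.norm_coe, U1_norm, UniformSpace.Completion.norm_coe]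
      have := hy a
      gcongr
    exact (pow_le_pow_iff_left₀ (norm_nonneg _) (norm_nonneg _) (by norm_num)).1 h1
  have hunif : ∀ n a, ‖inner ℂ x (y a) - ∫ p, chr a p ∂(ν n)‖ ≤
      ‖x - (z n : UniformSpace.Completion D)‖ * (‖x‖ + ‖z n‖) := by
    intro n a
    have e1 : ∫ p, chr a p ∂(ν n) = inner ℂ (z n : UniformSpace.Completion D)
        ((U1 Q a (z n) : D) : UniformSpace.Completion D) := by
      rw [← hν, UniformSpace.Completion.inner_coe]
    have e2 : inner ℂ x (y a) - inner ℂ (z n : UniformSpace.Completion D)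
        ((U1 Q a (z n) : D) : UniformSpace.Completion D) =
        inner ℂ (x - (z n : UniformSpace.Completion D)) (y a) -
        inner ℂ (z n : UniformSpace.Completion D)
          (((U1 Q a (z n) : D) : UniformSpace.Completion D) - y a) := by
      rw [inner_sub_left, inner_sub_right]; ring
    rw [e1, e2]
    calc _ ≤ _ := norm_sub_le _ _
      _ ≤ ‖x - (z n : UniformSpace.Completion D)‖ * ‖x‖ +
          ‖z n‖ * ‖x - (z n : UniformSpace.Completion D)‖ := by
          refine add_le_add ?_ ?_
          · refine (norm_inner_le_norm _ _).trans ?_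
            gcongr
            exact hy a
          · refine (norm_inner_le_norm _ _).trans ?_
            rw [UniformSpace.Completion.norm_coe]
            gcongr
            exact hest n a
      _ = _ := by ring
  have hB0 : Tendsto (fun n => ‖x - (z n : UniformSpace.Completion D)‖ * (‖x‖ + ‖z n‖)) atTop
      (𝓝 0) := by
    have h1 : Tendsto (fun n => ‖x - (z n : UniformSpace.Completion D)‖) atTop (𝓝 0) := by
      have := (tendsto_const_nhds (x := x)).sub ht
      simpa using this.norm
    have h2 := h1.mul ((tendsto_const_nhds (x := ‖x‖)).add hnt)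
    simpa using h2
  have hcn : ∀ n, Continuous fun a : Mink => ∫ p, chr a p ∂(ν n) := by
    intro n
    have := hfin n
    apply continuous_of_dominated (bound := fun _ => (1 : ℝ))
    · intro a
      exact (continuous_chr a).aestronglyMeasurable
    · intro a
      exact Eventually.of_forall fun p => by rw [norm_chr]
    · exact integrable_const _
    · refine Eventually.of_forall fun p => ?_
      exact continuous_chr2.comp (continuous_id.prodMk continuous_const)
  have hφ : Continuous fun a => inner ℂ x (y a) := by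
    have hu : TendstoUniformly (fun n a => ∫ p, chr a p ∂(ν n)) (fun a => inner ℂ x (y a))
        atTop := by
      rw [Metric.tendstoUniformly_iff]
      intro ε hε
      filter_upwards [hB0.eventually_lt_const hε] with n hn a
      rw [dist_eq_norm]
      exact (hunif n a).trans_lt hn
    exact hu.continuous (Frequently.of_forall hcn)
  have hmass : ∀ n, ν n Set.univ = ENNReal.ofReal (‖z n‖ ^ 2) := by
    intro n
    have := hfin n
    have h1 := hν n 0
    have h2 : ∫ p, chr 0 p ∂(ν n) = ((ν n).real Set.univ : ℂ) := by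
      simp only [chr_zero']
      simp
    have h3 : Q.U 1 one (0 : Mink).ofLp (z n) = z n := U1_zero_all (z n)
    rw [h3, h2, inner_self_eq_norm_sq_to_K] at h1
    have h5 : (((ν n).real Set.univ : ℝ) : ℂ) = ((‖z n‖ ^ 2 : ℝ) : ℂ) := by
      rw [← h1]; push_cast; rfl
    have h4 : (ν n).real Set.univ = ‖z n‖ ^ 2 := Complex.ofReal_injective h5
    rw [← h4, ofReal_measureReal]
  obtain ⟨ν', h1, h2, h3⟩ := exists_limit (ν := ν) (m := ‖x‖ ^ 2) (mn := fun n => ‖z n‖ ^ 2)
    (φ := fun a => inner ℂ x (y a)) hfin (by positivity) (fun n => by have := hzpos n; positivity)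
    hmass (hnt.pow 2) hcone hφ (fun a => by
      rw [tendsto_iff_norm_sub_tendsto_zero]
      refine squeeze_zero (fun n => norm_nonneg _) (fun n => ?_) hB0
      rw [norm_sub_rev]
      exact hunif n a)
  exact ⟨ν', h1, h2, h3⟩

lemma U_nrm0 {s : ℝ} (hs : 0 < s) {L : Ix → V} (hL : GF.IsLor L) (a : V) (v : D) :
    ‖Q.U s L a v‖ = ‖v‖ := by
  have h := Q.U_inner s L a v v hs hL
  rw [inner_self_eq_norm_sq_to_K, inner_self_eq_norm_sq_to_K] at h
  have h2 : ‖Q.U s L a v‖ ^ 2 = ‖v‖ ^ 2 := by exact_mod_cast h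
  exact (pow_left_inj₀ (norm_nonneg _) (norm_nonneg _) (by norm_num)).1 h2

/-- scaling as a linear map -/
def scaleL (s : ℝ) (hs : s ≠ 0) : 𝓢(Mink, ℂ) →ₗ[ℂ] 𝓢(Mink, ℂ) where
  toFun := scaleS s hs
  map_add' f g := by ext x; simp
  map_smul' c f := by ext x; simp

/-- weakly covariant vector valued distributions -/
def VCov (Q : GF.Theory D) (κ : 𝓢(Mink, ℂ) → UniformSpace.Completion D) (d : ℝ) : Prop :=
  ∀ s (hs : 0 < s) L (hL : GF.IsLor L) a f (v : D),
    inner ℂ ((Q.U s L a v : D) : UniformSpace.Completion D) (κ f) =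
      ((s ^ (4 - d) : ℝ) : ℂ) * inner ℂ (v : UniformSpace.Completion D) (κ (simS s hs hL a f))

/-- the inverse matrix -/
def linv (L : Ix → V) : Ix → V := fun m n => GF.eta m * GF.eta n * L n m

lemma isLor_linv {L : Ix → V} (hL : GF.IsLor L) : GF.IsLor (linv L) := by
  refine ⟨?_, ?_, ?_⟩
  · intro m n
    have h := lor_transpose hL m n
    have e : GF.mdot (linv L m) (linv L n) =
        GF.eta m * GF.eta n * ∑ k, GF.eta k * L k m * L k n := by
      unfold GF.mdot linv
      rw [Finset.mul_sum]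
      refine Finset.sum_congr rfl fun k _ => ?_
      have := eta_sq k
      linear_combination (GF.eta m * GF.eta n * GF.eta k * L k m * L k n) * this
    rw [e, h]
    unfold bas
    split_ifs with hnm
    · subst hnm
      have := eta_sq n
      linear_combination GF.eta n * this
    · ring
  · have : linv L o o = L o o := by simp [linv, GF.eta]
    rw [this]; exact hL.2.1
  · set E : Matrix Ix Ix ℝ := Matrix.diagonal GF.eta with hE
    have h1 : (Matrix.of (linv L)) = E * (Matrix.of L).transpose * E := by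
      ext m n
      rw [hE, Matrix.mul_diagonal, Matrix.diagonal_mul]
      simp only [linv, Matrix.of_apply, Matrix.transpose_apply]
      ring
    have h2 : E.det * E.det = 1 := by
      rw [← Matrix.det_mul, hE, Matrix.diagonal_mul_diagonal]
      have : (fun i => GF.eta i * GF.eta i) = fun _ => 1 := by
        funext i; exact eta_sq i
      rw [this, Matrix.diagonal_one, Matrix.det_one]
    have h3 : (Matrix.of L).det = 1 := hL.2.2
    show (Matrix.of (linv L)).det = 1
    rw [h1, Matrix.det_mul, Matrix.det_mul, Matrix.det_transpose, h3]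
    linear_combination h2

lemma lam_linv {L : Ix → V} (hL : GF.IsLor L) (x : Mink) : lam L (lam (linv L) x) = x := by
  ext n
  simp only [lam_apply, linv]
  have h1 : ∀ k, ∑ m, GF.eta m * L m k * L m n = bas k (GF.eta k) n :=
    fun k => lor_transpose hL k n
  have : ∀ m, (∑ k, x k * (GF.eta k * GF.eta m * L m k)) * L m n =
      ∑ k, (GF.eta k * x k) * (GF.eta m * L m k * L m n) := by
    intro m
    rw [Finset.sum_mul]
    refine Finset.sum_congr rfl fun k _ => by ring
  simp only [this]
  rw [Finset.sum_comm]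
  simp only [← Finset.mul_sum, h1]
  simp only [bas, mul_ite, mul_zero, Finset.sum_ite_eq, Finset.mem_univ, if_true]
  have := eta_sq n
  linear_combination (x n) * this

lemma inner_of_norm {E F G : Type*} [AddCommGroup E] [Module ℂ E] [NormedAddCommGroup F]
    [InnerProductSpace ℂ F] [NormedAddCommGroup G] [InnerProductSpace ℂ G] (A : E →ₗ[ℂ] F)
    (B : E →ₗ[ℂ] G) (h : ∀ f, ‖A f‖ = ‖B f‖) (f g : E) :
    inner ℂ (A f) (A g) = inner ℂ (B f) (B g) := by
  rw [inner_eq_sum_norm_sq_div_four (𝕜 := ℂ) (A f) (A g),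
    inner_eq_sum_norm_sq_div_four (𝕜 := ℂ) (B f) (B g)]
  simp only [← map_smul, ← map_add, ← map_sub, h]

section

variable {κ : 𝓢(Mink, ℂ) →L[ℂ] UniformSpace.Completion D} {d : ℝ}

lemma VCov.le (hκ : VCov Q κ d) {s : ℝ} (hs : 0 < s) {L : Ix → V} (hL : GF.IsLor L) (a : V)
    (f : 𝓢(Mink, ℂ)) : s ^ (4 - d) * ‖κ (simS s hs hL a f)‖ ≤ ‖κ f‖ := by
  have hp : 0 < s ^ (4 - d) := Real.rpow_pos_of_pos hs _
  rw [← le_div_iff₀' hp]
  apply norm_le_of_inner (by positivity)
  intro z
  have h1 := hκ s hs L hL a f z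
  have h2 : ‖((s ^ (4 - d) : ℝ) : ℂ) * inner ℂ (z : UniformSpace.Completion D)
      (κ (simS s hs hL a f))‖ ≤ ‖z‖ * ‖κ f‖ := by
    rw [← h1]
    refine (norm_inner_le_norm _ _).trans ?_
    rw [UniformSpace.Completion.norm_coe, U_nrm0 hs hL]
  rw [norm_mul, norm_real, Real.norm_of_nonneg hp.le] at h2
  rw [div_mul_eq_mul_div, le_div_iff₀' hp]
  linarith

/-- the two point measure of a covariant vector valued distribution -/
theorem VCov.sym (hκ : VCov Q κ d) : ∃ μ : Measure Mink, SymMeasure μ d ∧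
    ∀ f g, inner ℂ (κ f) (κ g) = ∫ p, conj (mft f p) * mft g p ∂μ := by
  have htau : ∀ a g, ‖κ (tauS a g)‖ ≤ ‖κ g‖ := by
    intro a g
    have h1 := hκ.le one_pos isLor_one (-a).ofLp g
    rw [Real.one_rpow, one_mul] at h1
    have e : simS 1 one_pos isLor_one (-a).ofLp g = tauS a g := by
      have := simS_tauS (-a) (tauS a g)
      rwa [tauS_tauS, add_neg_cancel, tauS_zero'] at this
    rwa [e] at h1
  have htau' : ∀ a g, ‖κ (tauS a g)‖ = ‖κ g‖ := by
    intro a g
    refine le_antisymm (htau a g) ?_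
    have := htau (-a) (tauS a g)
    rwa [tauS_tauS, add_neg_cancel, tauS_zero'] at this
  have hx : ∀ g (a : Mink) (z : D), inner ℂ ((U1 Q a z : D) : UniformSpace.Completion D)
      (κ (tauS a g)) = inner ℂ (z : UniformSpace.Completion D) (κ g) := by
    intro g a z
    have h1 := hκ 1 one_pos one isLor_one a.ofLp (tauS a g) z
    rw [simS_tauS, Real.one_rpow, ofReal_one, one_mul] at h1
    exact h1
  choose ν hfin hcone hν using fun g => exists_spec (x := κ g) (y := fun a => κ (tauS a g))
    (hx g) (fun a => htau a g)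
  have tauL : ∀ a : Mink, ∃ B : 𝓢(Mink, ℂ) →ₗ[ℂ] UniformSpace.Completion D,
      ∀ g, B g = κ (tauS a g) := fun a =>
    ⟨(κ : 𝓢(Mink, ℂ) →ₗ[ℂ] _) ∘ₗ ((SchwartzMap.compSubConstCLM ℂ a : 𝓢(Mink, ℂ) →L[ℂ] _) :
      𝓢(Mink, ℂ) →ₗ[ℂ] 𝓢(Mink, ℂ)), fun g => rfl⟩
  have S : SpecData (fun g => (κ : 𝓢(Mink, ℂ) →ₗ[ℂ] UniformSpace.Completion D) g) ν := by
    refine ⟨?_, hfin, hcone, ?_, ?_⟩
    · intro g k c hc
      exact ⟨conv_integrable κ g k, conv_identity κ g k c hc⟩
    · intro g a
      exact hν g a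
    · intro f g a
      obtain ⟨B, hB⟩ := tauL a
      have := inner_of_norm B (κ : 𝓢(Mink, ℂ) →ₗ[ℂ] UniformSpace.Completion D)
        (fun f => by rw [hB]; exact htau' a f) f g
      rw [hB, hB] at this
      exact this
  obtain ⟨μ, hμ, hd⟩ := S.sym (d := d)
    (fun L hL f g => by
      set B : 𝓢(Mink, ℂ) →ₗ[ℂ] UniformSpace.Completion D :=
        (κ : 𝓢(Mink, ℂ) →ₗ[ℂ] _) ∘ₗ ((SchwartzMap.compCLMOfContinuousLinearEquiv ℂ (lamE hL) :
          𝓢(Mink, ℂ) →L[ℂ] _) : 𝓢(Mink, ℂ) →ₗ[ℂ] 𝓢(Mink, ℂ)) with hB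
      refine (inner_of_norm B (κ : 𝓢(Mink, ℂ) →ₗ[ℂ] UniformSpace.Completion D)
        (fun f => ?_) f g).symm
      show ‖κ (compLam hL f)‖ = ‖κ f‖
      apply le_antisymm
      · have h1 := hκ.le one_pos hL 0 f
        rwa [Real.one_rpow, one_mul, simS_lam] at h1
      · have h1 := hκ.le one_pos (isLor_linv hL) 0 (compLam hL f)
        rw [Real.one_rpow, one_mul, simS_lam] at h1
        have e : compLam (isLor_linv hL) (compLam hL f) = f := by
          ext x
          rw [compLam_apply, compLam_apply, lam_linv hL]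
        rwa [e] at h1)
    (fun s hs f g => by
      have hp : 0 < s ^ (4 - d) := Real.rpow_pos_of_pos hs _
      set B : 𝓢(Mink, ℂ) →ₗ[ℂ] UniformSpace.Completion D :=
        ((s ^ (4 - d) : ℝ) : ℂ) • ((κ : 𝓢(Mink, ℂ) →ₗ[ℂ] _) ∘ₗ (scaleL s hs.ne')) with hB
      have hn : ∀ f, ‖B f‖ = ‖κ f‖ := by
        intro f
        show ‖((s ^ (4 - d) : ℝ) : ℂ) • κ (scaleS s hs.ne' f)‖ = ‖κ f‖
        rw [norm_smul, norm_real, Real.norm_of_nonneg hp.le]
        apply le_antisymm
        · have h1 := hκ.le hs isLor_one 0 f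
          rwa [simS_scale] at h1
        · have h1 := hκ.le (inv_pos.2 hs) isLor_one 0 (scaleS s hs.ne' f)
          rw [simS_scale] at h1
          have e : scaleS s⁻¹ (inv_pos.2 hs).ne' (scaleS s hs.ne' f) = f := by
            ext x
            rw [scaleS_apply, scaleS_apply, smul_smul, mul_inv_cancel₀ hs.ne', one_smul]
          rw [e, Real.inv_rpow hs.le, inv_mul_le_iff₀ hp] at h1
          exact h1
      have := inner_of_norm B (κ : 𝓢(Mink, ℂ) →ₗ[ℂ] UniformSpace.Completion D) hn f g
      rw [← this, hB]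
      show inner ℂ (((s ^ (4 - d) : ℝ) : ℂ) • κ (scaleS s hs.ne' f))
        (((s ^ (4 - d) : ℝ) : ℂ) • κ (scaleS s hs.ne' g)) = _
      rw [inner_smul_left, inner_smul_right, conj_ofReal]
      push_cast
      simp only [← mul_assoc, ← sq])
  refine ⟨μ, hμ, fun f g => ?_⟩
  exact S.two hμ.temp hd f g

/-- uniqueness of the potential -/
theorem VCov.unique (hκ : VCov Q κ 2) (h0 : ∀ f, κ (boxS f) = 0) (f : 𝓢(Mink, ℂ)) :
    κ f = 0 := by
  obtain ⟨μ, S, two⟩ := hκ.sym
  have h1 : ∀ f : 𝓢(Mink, ℂ), ∀ᵐ p ∂μ, mft (boxS f) p = 0 := by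
    intro f
    have h2 := two (boxS f) (boxS f)
    rw [h0, inner_zero_left] at h2
    have h3 : ∫ p, ‖mft (boxS f) p‖ ^ 2 ∂μ = 0 := by
      have e : (fun p => conj (mft (boxS f) p) * mft (boxS f) p) =
          fun p => ((‖mft (boxS f) p‖ ^ 2 : ℝ) : ℂ) := by
        funext p
        rw [conj_mul']
        push_cast
        rfl
      rw [e, integral_complex_ofReal] at h2
      exact_mod_cast h2.symm
    have hint : Integrable (fun p => ‖mft (boxS f) p‖ ^ 2) μ := by
      have := (mft_memLp S.temp (boxS f)).integrable_norm_pow (p := 2) (by norm_num)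
      simpa using this
    have h4 := (integral_eq_zero_iff_of_nonneg (fun p => by positivity) hint).1 h3
    filter_upwards [h4] with p hp
    simpa using hp
  choose g hg hne using fun n : ℕ => exists_test_ne_zero (W := (Set.univ : Set Mink))
    isOpen_univ ⟨0, trivial⟩ (n : ℝ)
  have h2 := ae_all_iff.2 fun n => h1 (g n)
  have h3 : ∀ᵐ p ∂μ, mass2 p = 0 := by
    filter_upwards [h2] with p hp
    obtain ⟨n, hn⟩ := exists_nat_ge ‖p‖
    have h4 := hp n
    rw [mft_boxS] at h4
    rcases mul_eq_zero.1 h4 with h | h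
    · simpa using h
    · exact absurd h (hne n p hn)
  have h4 : μ {p | mass2 p = 0} = 0 := S.null_zero (by norm_num)
  have hμ : μ = 0 := by
    rw [← Measure.measure_univ_eq_zero]
    have h5 : (Set.univ : Set Mink) ⊆ {p | mass2 p = 0} ∪ {p | ¬ mass2 p = 0} := by
      intro p _
      exact em _
    exact measure_mono_null h5 (measure_union_null h4 (ae_iff.1 h3))
  have h5 := two f f
  rw [hμ, integral_zero_measure] at h5
  exact inner_self_eq_zero.1 h5

end

end Vale.Agent.P352.H246

end
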