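import Vale.Agent.P352.H246.Defs

open MeasureTheory Filter Topology
open scoped SchwartzMap ComplexConjugate

namespace Vale.Agent.P352.H246

open GF UniformSpace

noncomputable section

variable {D : Type*} [NormedAddCommGroup D] [InnerProductSpace ℂ D]
variable {D' : Type*} [NormedAddCommGroup D'] [InnerProductSpace ℂ D']

/-- `Λ` is a local traceless improvement of `T`: in addition to `IsExt`, the vectors `Λ f v` are
continuous in the test function `f` (for supports in a fixed compact set), and `Λ` is covariant
under all similitudes. -/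
structure IsImp (Q : Theory D) (T : Ix → Ix → Fld D) (l : Fn → Completion D)
    (Λ : Fn → D → Completion D) : Prop extends IsExt Q T l Λ where
  cont : ∀ (K : Set V) v, IsCompact K → Gen Q Set.univ v →
    ContinuousOn (fun g => Λ (ev g) v) {g | tsupport (ev g) ⊆ K}
  cova : ∀ s L a f v z, 0 < s → IsLor L → In Set.univ f → Gen Q Set.univ v →
    inner ℂ (Q.U s L a z : Completion D) (Λ f (Q.U s L a v)) =
      (s ^ 2 : ℝ) * inner ℂ (z : Completion D) (Λ (fun x => f (sim s L a x)) v)

/-- `J` is a virial current: a hermitian local vector field (with contravariant components `J m`)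
of scaling dimension three whose divergence is the trace of `T`. -/
structure IsVirial (Q : Theory D) (T : Ix → Ix → Fld D) (J : Ix → Fld D) : Prop where
  bose : ∀ m, Q.bose (J m)
  herm : ∀ m f v w, IsTest f → inner ℂ (J m f v) w = inner ℂ v (J m (bar f) w)
  cov : ∀ m s L a f v, 0 < s → IsLor L → IsTest f → J m f (Q.U s L a v) =
    ∑ k, (s * L k m : ℂ) • Q.U s L a (J k (fun x => f (sim s L a x)) v)
  div : ∀ f v, IsTest f → tr T f v = -∑ m, J m (pd m f) v

/-- The theory `Q` with stress tensor `T` is, by means of the isometry `i`, a subsector of the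
theory `Q'` with stress tensor `T'`: the vacuum and the representation of the similitudes are
restricted, the fields of `Q` (with their adjoints) are restrictions of fields of `Q'`, and `T` is
the restriction of `T'`. -/
structure IsSub (Q : Theory D) (T : Ix → Ix → Fld D) (Q' : Theory D') (T' : Ix → Ix → Fld D')
    (i : D →ₗᵢ[ℂ] D') : Prop where
  vac : i Q.vac = Q'.vac
  U : ∀ s L a v, 0 < s → IsLor L → i (Q.U s L a v) = Q'.U s L a (i v)
  fld : ∀ A B, Q.fld A → Q.fld B →
    (∀ f v w, IsTest f → inner ℂ (A f v) w = inner ℂ v (B (bar f) w)) →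
    ∃ A' B', Q'.fld A' ∧ Q'.fld B' ∧
      (∀ f v w, IsTest f → inner ℂ (A' f v) w = inner ℂ v (B' (bar f) w)) ∧
      (∀ f v, IsTest f → i (A f v) = A' f (i v)) ∧ ∀ f v, IsTest f → i (B f v) = B' f (i v)
  stress : ∀ m n f v, IsTest f → i (T m n f v) = T' m n f (i v)

end

end Vale.Agent.P352.H246
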