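import Vale.Agent.P352.H148.Ext1
import Vale.Agent.P352.H755.ChInt
import Vale.Agent.P352.H246.Smooth

set_option linter.all false

noncomputable section

open MeasureTheory SchwartzMap Complex Filter Topology
open scoped SchwartzMap ComplexConjugate ContDiff

namespace Vale.Agent.P352.H246D

open GF (Ix V Fn Fld bas eta o bar sim Theory Sep)
open H246 H755 SubConf
open UniformSpace (Completion)

variable {D : Type*} [NormedAddCommGroup D] [InnerProductSpace ℂ D]
variable {Q : Theory D}

lemma ext_cs {α : Type*} [TopologicalSpace α] [T2Space α] {u v : 𝓢(Mink, ℂ) → α}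
    (hu : Continuous u) (hv : Continuous v) (h : ∀ f : 𝓢(Mink, ℂ), HasCompactSupport f → u f = v f)
    (f : 𝓢(Mink, ℂ)) : u f = v f := by
  obtain ⟨g, hg, -, hlim⟩ := H496.exists_compact_sup f
  have h1 := (hu.tendsto f).comp hlim
  have h2 := (hv.tendsto f).comp hlim
  refine tendsto_nhds_unique (h1.congr fun n => ?_) h2
  exact h _ (hg n)

lemma ofSch_toSchL (F : 𝓢(Mink, ℂ)) : ofSch (toSchL F) = F := by
  ext x
  rfl

lemma hcs_fl {F : 𝓢(Mink, ℂ)} (h : HasCompactSupport F) : HasCompactSupport (fl F) := by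
  unfold HasCompactSupport
  rw [tsupport_fl]
  exact (PiLp.continuousLinearEquiv 2 ℝ fun _ : Ix => ℝ).symm.toHomeomorph.isClosedEmbedding.isCompact_preimage h

lemma hcs_of_fl {F : 𝓢(Mink, ℂ)} (h : HasCompactSupport (fl F)) : HasCompactSupport F := by
  have h2 : IsCompact (tsupport (fl F)) := h
  rw [tsupport_fl] at h2
  have h3 := h2.image (PiLp.continuous_toLp 2 (fun _ : Ix => ℝ))
  refine h3.of_isClosed_subset (isClosed_tsupport _) fun x hx => ⟨x.ofLp, hx, rfl⟩

lemma cs_fl {F : 𝓢(Mink, ℂ)} (h : HasCompactSupport F) : H755.CS (fl F) := ⟨isTest_fl F, hcs_fl h⟩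

/-- extension of a local field from the test functions with compact support, for one vector -/
lemma exists_E {A P P' : Fld D} (h : CField Q A P P') (v : D) :
    ∃ E : 𝓢(Mink, ℂ) →L[ℂ] Completion D, ∀ F : 𝓢(Mink, ℂ), HasCompactSupport F →
      E F = ((P (fl F) v : D) : Completion D) := by
  obtain ⟨p, hp, hb⟩ := h.bdd v
  have hz : HasCompactSupport (0 : 𝓢(Mink, ℂ)) := by
    show HasCompactSupport (fun _ : Mink => (0 : ℂ))
    exact HasCompactSupport.zero
  have hP0 : P (fl 0) v = 0 := by
    have h2 := h.linf (fl 0) (fl 0) 1 v (cs_fl hz) (cs_fl hz)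
    rw [fl_add_smul] at h2
    simp only [smul_zero, add_zero, one_smul] at h2
    simpa using h2
  refine H148.ext_of_bd (c := fun F => ((P (fl F) v : D) : Completion D)) (fun f g hf hg => ?_)
    (fun z f hf => ?_) (p := p) hp (fun f hf => ?_)
  · have h2 := h.linf (fl f) (fl g) 1 v (cs_fl hf) (cs_fl hg)
    rw [fl_add_smul] at h2
    simp only [one_smul] at h2
    rw [h2, Completion.coe_add]
  · have h2 := h.linf (fl 0) (fl f) z v (cs_fl hz) (cs_fl hf)
    rw [fl_add_smul, hP0, zero_add, zero_add] at h2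
    rw [h2, Completion.coe_smul]
  · rw [Completion.norm_coe]
    exact hb f (hcs_fl hf)

open Classical in
/-- the extension as a function of arbitrary functions -/
def Ex {A P P' : Fld D} (h : CField Q A P P') (f : Fn) (v : D) : Completion D :=
  if hf : GF.IsTest f then (exists_E h v).choose (exists_fl hf).choose else 0

lemma Ex_fl {A P P' : Fld D} (h : CField Q A P P') (F : 𝓢(Mink, ℂ)) (v : D) :
    Ex h (fl F) v = (exists_E h v).choose F := by
  unfold Ex
  rw [dif_pos (isTest_fl F)]
  congr 1
  exact fl_inj (exists_fl (isTest_fl F)).choose_spec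

lemma Ex_cs {A P P' : Fld D} (h : CField Q A P P') {f : Fn} (hf : H755.CS f) (v : D) :
    Ex h f v = ((P f v : D) : Completion D) := by
  obtain ⟨F, rfl⟩ := exists_fl hf.1
  rw [Ex_fl]
  exact (exists_E h v).choose_spec F (hcs_of_fl hf.2)

lemma Ex_cont {A P P' : Fld D} (h : CField Q A P P') (v : D) :
    Continuous fun F : 𝓢(Mink, ℂ) => Ex h (fl F) v := by
  simp only [Ex_fl]
  exact (exists_E h v).choose.continuous

lemma sim_fl (a : V) (F : 𝓢(Mink, ℂ)) : (fun x => fl F (sim 1 GF.one a x)) =
    fl (tauS (-WithLp.toLp 2 a) F) := by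
  funext x
  show F (WithLp.toLp 2 (sim 1 GF.one a x)) = tauS (-WithLp.toLp 2 a) F (WithLp.toLp 2 x)
  rw [tauS_apply, Vale.Agent.P352.sim_one]
  congr 1
  ext n
  simp [add_comm]

lemma continuous_tauS (a : Mink) : Continuous (tauS a) :=
  (SchwartzMap.compSubConstCLM ℂ a).continuous

lemma hcs_tauS (a : Mink) {F : 𝓢(Mink, ℂ)} (h : HasCompactSupport F) :
    HasCompactSupport (tauS a F) := by
  have e : (tauS a F : Mink → ℂ) = F ∘ (Homeomorph.addRight (-a)) := by
    funext x
    simp [sub_eq_add_neg]
  rw [e]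
  exact h.comp_homeomorph _

lemma hcs_conjS {F : 𝓢(Mink, ℂ)} (h : HasCompactSupport F) : HasCompactSupport (conjS F) := by
  have : (conjS F : Mink → ℂ) = (fun z => conj z) ∘ F := by ext x; simp
  rw [this]
  exact h.comp_left (map_zero _)

/-- Extension of local fields from the test functions with compact support to all test
functions. -/
theorem cf_ext {A B P P' : Fld D} (hh : CField Q A P P') (hh' : CField Q B P' P)
    (tr : ∀ a f v, H755.CS f → P f (Q.U 1 GF.one a v) =
      Q.U 1 GF.one a (P (fun x => f (sim 1 GF.one a x)) v)) :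
    IsLocF Q A (Ex hh) (Ex hh') := by
  have hadj : ∀ f (v w : D), GF.IsTest f →
      inner ℂ (Ex hh f v) (w : Completion D) = inner ℂ (v : Completion D) (Ex hh' (bar f) w) := by
    intro f v w hf
    obtain ⟨F, rfl⟩ := exists_fl hf
    refine ext_cs (u := fun F => inner ℂ (Ex hh (fl F) v) (w : Completion D))
      (v := fun F => inner ℂ (v : Completion D) (Ex hh' (bar (fl F)) w)) ?_ ?_ (fun F hF => ?_) F
    · exact (Ex_cont hh v).inner continuous_const
    · simp only [bar_fl]
      exact continuous_const.inner ((Ex_cont hh' w).comp continuous_conjS)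
    · simp only [bar_fl]
      rw [Ex_cs hh (cs_fl hF), Ex_cs hh' (cs_fl (hcs_conjS hF)), Completion.inner_coe,
        Completion.inner_coe, ← bar_fl]
      exact hh.adj _ _ _ (cs_fl hF)
  have hc : ∀ {C : Fld D}, Q.fld C → ∀ v, Continuous fun F : 𝓢(Mink, ℂ) => C (fl F) v := by
    intro C hC v
    have h2 : (fun f : 𝓢(Mink, ℂ) => C (fl f) v) = (fun g => C (GF.ev g) v) ∘ toSchL := rfl
    rw [h2]
    exact (Q.cont C v hC).comp toSchL.continuous
  refine
    { linf := ?_
      linv := ?_
      cont := ?_
      adj := hadj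
      transl := ?_
      loc := ?_ }
  · intro f g c v hf hg
    obtain ⟨F, rfl⟩ := exists_fl hf
    obtain ⟨G, rfl⟩ := exists_fl hg
    rw [fl_add_smul, Ex_fl, Ex_fl, Ex_fl, map_add, map_smul]
  · intro f c v w hf
    obtain ⟨F, rfl⟩ := exists_fl hf
    refine ext_cs (u := fun F => Ex hh (fl F) (v + c • w))
      (v := fun F => Ex hh (fl F) v + c • Ex hh (fl F) w) (Ex_cont hh _)
      ((Ex_cont hh v).add ((Ex_cont hh w).const_smul c)) (fun F hF => ?_) F
    rw [Ex_cs hh (cs_fl hF), Ex_cs hh (cs_fl hF), Ex_cs hh (cs_fl hF),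
      hh.linv _ _ _ _ (cs_fl hF), Completion.coe_add, Completion.coe_smul]
  · intro v
    have h2 : (fun g => Ex hh (GF.ev g) v) = (fun F : 𝓢(Mink, ℂ) => Ex hh (fl F) v) ∘ ofSch := by
      funext g
      rw [ev_fl]
      rfl
    rw [h2]
    exact (Ex_cont hh v).comp ofSch.continuous
  · intro a f v z hf
    obtain ⟨F, rfl⟩ := exists_fl hf
    refine ext_cs (u := fun F => inner ℂ (Q.U 1 GF.one a z : Completion D)
        (Ex hh (fl F) (Q.U 1 GF.one a v)))
      (v := fun F => inner ℂ (z : Completion D) (Ex hh (fun x => fl F (sim 1 GF.one a x)) v))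
      ?_ ?_ (fun F hF => ?_) F
    · exact continuous_const.inner (Ex_cont hh _)
    · simp only [sim_fl]
      exact continuous_const.inner ((Ex_cont hh v).comp (continuous_tauS _))
    · rw [Ex_cs hh (cs_fl hF), tr a _ v (cs_fl hF), sim_fl, Ex_cs hh (cs_fl (hcs_tauS _ hF)),
        Completion.inner_coe, Completion.inner_coe]
      exact Q.U_inner _ _ _ _ _ one_pos Vale.Agent.P352.isLor_one
  · intro C C' f g v z hC hC' hadjC hbose hf hg hs
    obtain ⟨F, rfl⟩ := exists_fl hf
    obtain ⟨G, rfl⟩ := exists_fl hg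
    obtain ⟨u, hu, hus, hulim⟩ := H496.exists_compact_sup F
    obtain ⟨w, hw, hws, hwlim⟩ := H496.exists_compact_sup G
    have hsep : ∀ n m, Sep (fl (u n)) (fl (w m)) := by
      intro n m x hx y hy
      rw [tsupport_fl] at hx hy
      refine hs x ?_ y ?_
      · rw [tsupport_fl]
        exact hus n hx
      · rw [tsupport_fl]
        exact hws m hy
    -- compact supports
    have h1 : ∀ n m, inner ℂ (C' (bar (fl (w m))) z : Completion D) (Ex hh (fl (u n)) v) =
        inner ℂ (Ex hh' (bar (fl (u n))) z) ((C (fl (w m)) v : D) : Completion D) := by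
      intro n m
      have k1 := hadj (fl (u n)) (C (fl (w m)) v) z (isTest_fl _)
      have k2 := congrArg conj (hadj (fl (u n)) (C (fl (w m)) v) z (isTest_fl _))
      rw [inner_conj_symm, inner_conj_symm] at k2
      rw [← k2, Ex_cs hh (cs_fl (hu n)), Ex_cs hh (cs_fl (hu n)), Completion.inner_coe,
        Completion.inner_coe, hh.loc C _ _ v hC hbose (cs_fl (hu n)) (cs_fl (hw m)) (hsep n m)]
      have k3 := hadjC (fl (w m)) (P (fl (u n)) v) z (isTest_fl _)
      have k4 := congrArg conj k3
      rw [inner_conj_symm, inner_conj_symm] at k4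
      exact k4.symm
    -- the test function of the field of the theory
    have h2 : ∀ n, inner ℂ (C' (bar (fl G)) z : Completion D) (Ex hh (fl (u n)) v) =
        inner ℂ (Ex hh' (bar (fl (u n))) z) ((C (fl G) v : D) : Completion D) := by
      intro n
      have c1 : Tendsto (fun m => inner ℂ (C' (bar (fl (w m))) z : Completion D)
          (Ex hh (fl (u n)) v)) atTop (𝓝 (inner ℂ (C' (bar (fl G)) z : Completion D)
            (Ex hh (fl (u n)) v))) := by
        have k1 : Continuous fun G : 𝓢(Mink, ℂ) => inner ℂ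
            ((C' (bar (fl G)) z : D) : Completion D) (Ex hh (fl (u n)) v) := by
          simp only [bar_fl]
          exact ((Completion.continuous_coe D).comp ((hc hC' z).comp continuous_conjS)).inner
            continuous_const
        exact (k1.tendsto G).comp hwlim
      have c2 : Tendsto (fun m => inner ℂ (Ex hh' (bar (fl (u n))) z)
          ((C (fl (w m)) v : D) : Completion D)) atTop (𝓝 (inner ℂ (Ex hh' (bar (fl (u n))) z)
            ((C (fl G) v : D) : Completion D))) := by
        have k1 : Continuous fun G : 𝓢(Mink, ℂ) => inner ℂ (Ex hh' (bar (fl (u n))) z)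
            ((C (fl G) v : D) : Completion D) :=
          continuous_const.inner ((Completion.continuous_coe D).comp (hc hC v))
        exact (k1.tendsto G).comp hwlim
      exact tendsto_nhds_unique (c1.congr fun m => h1 n m) c2
    -- the test function of the extended field
    have h3 : ∀ n, inner ℂ (C' (bar (fl G)) z : Completion D) (Ex hh (fl (u n)) v) =
        inner ℂ (z : Completion D) (Ex hh (fl (u n)) (C (fl G) v)) := by
      intro n
      rw [h2]
      have k2 := congrArg conj (hadj (fl (u n)) (C (fl G) v) z (isTest_fl _))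
      rw [inner_conj_symm, inner_conj_symm] at k2
      exact k2.symm
    have c1 : Tendsto (fun n => inner ℂ (C' (bar (fl G)) z : Completion D) (Ex hh (fl (u n)) v))
        atTop (𝓝 (inner ℂ (C' (bar (fl G)) z : Completion D) (Ex hh (fl F) v))) := by
      have k1 : Continuous fun F : 𝓢(Mink, ℂ) => inner ℂ (C' (bar (fl G)) z : Completion D)
          (Ex hh (fl F) v) := continuous_const.inner (Ex_cont hh v)
      exact (k1.tendsto F).comp hulim
    have c2 : Tendsto (fun n => inner ℂ (z : Completion D) (Ex hh (fl (u n)) (C (fl G) v)))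
        atTop (𝓝 (inner ℂ (z : Completion D) (Ex hh (fl F) (C (fl G) v)))) := by
      have k1 : Continuous fun F : 𝓢(Mink, ℂ) => inner ℂ (z : Completion D)
          (Ex hh (fl F) (C (fl G) v)) := continuous_const.inner (Ex_cont hh _)
      exact (k1.tendsto F).comp hulim
    exact tendsto_nhds_unique (c1.congr fun n => h3 n) c2

/-- the form in which the assembly of the conformal action uses it -/
theorem cf_ext' {A B P P' : Fld D} (hh : CField Q A P P') (hh' : CField Q B P' P)
    (tr : ∀ a f v, H755.CS f → P f (Q.U 1 GF.one a v) =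
      Q.U 1 GF.one a (P (fun x => f (sim 1 GF.one a x)) v)) :
    ∃ Ψ Ψ' : Fn → D → Completion D, IsLocF Q A Ψ Ψ' ∧
      (∀ f v, H755.CS f → Ψ f v = ((P f v : D) : Completion D)) ∧
      ∀ f v, H755.CS f → Ψ' f v = ((P' f v : D) : Completion D) :=
  ⟨Ex hh, Ex hh', cf_ext hh hh' tr, fun _ _ hf => Ex_cs hh hf _, fun _ _ hf => Ex_cs hh' hf _⟩

end Vale.Agent.P352.H246D

end
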