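import Vale.Agent.P352.H246.Cov2
import Vale.Agent.P352.H246.Vec

set_option linter.all false

noncomputable section

open MeasureTheory SchwartzMap Complex Filter Topology
open scoped SchwartzMap ComplexConjugate ENNReal LineDeriv NNReal

namespace Vale.Agent.P352.H246

open GF (Ix V Fn Sch ev pd bar sim one bas o)

variable {D : Type*} [NormedAddCommGroup D] [InnerProductSpace ℂ D]
variable {Q : GF.Theory D} {T : Ix → Ix → GF.Fld D}

lemma fl_inj {f g : 𝓢(Mink, ℂ)} (h : fl f = fl g) : f = g := by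
  ext x
  have := congrFun h x.ofLp
  simpa [fl] using this

lemma box_fl (f : 𝓢(Mink, ℂ)) : box (fl f) = fl (boxS f) := by
  rw [← boxF_fl]
  rfl

lemma ev_fl (g : Sch) : ev g = fl (ofSch g) := by
  funext x
  simp [ev, fl, ofSch]
  rfl

lemma nrm_nonneg (m : ℕ) (f : Fn) : 0 ≤ nrm m f := by
  induction m generalizing f with
  | zero => exact integral_nonneg fun x => norm_nonneg _
  | succ m ih => exact add_nonneg (ih f) (Finset.sum_nonneg fun i _ => ih _)

lemma in_univ {f : 𝓢(Mink, ℂ)} : In Set.univ (fl f) ↔ IsTest Set.univ f := by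
  rw [In_fl, MW_univ]

lemma gen_iff {v : D} : Gen Q Set.univ v ↔ PW Q Set.univ v := by
  constructor
  · rintro ⟨X, X', hX, rfl⟩
    exact hX.pwu .vac
  · intro h
    rw [← MW_univ] at h
    obtain ⟨X, X', hX, rfl⟩ := exists_Al h
    exact ⟨X, X', hX, rfl⟩

/-! ### Uniqueness of the potential -/

/-- potentials as distributions on Schwartz space -/
lemma IsPot.exists_clm {l : Fn → UniformSpace.Completion D} (h : IsPot Q T l) :
    ∃ κ : 𝓢(Mink, ℂ) →L[ℂ] UniformSpace.Completion D, ∀ f, κ f = l (fl f) := by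
  have h0 : l (fl 0) = 0 := by
    have h2 := h.lin (fl 0) (fl 0) 1 (isTest_fl _) (isTest_fl _)
    rw [fl_add_smul] at h2
    simp only [smul_zero, add_zero, one_smul] at h2
    simpa using h2
  refine ⟨⟨⟨⟨fun f => l (fl f), fun f g => ?_⟩, fun c g => ?_⟩, ?_⟩, fun f => rfl⟩
  · have h2 := h.lin (fl f) (fl g) 1 (isTest_fl _) (isTest_fl _)
    rw [fl_add_smul] at h2
    simpa only [one_smul] using h2
  · have h2 := h.lin (fl 0) (fl g) c (isTest_fl _) (isTest_fl _)
    rw [fl_add_smul, h0, zero_add, zero_add] at h2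
    exact h2
  · have h2 : (fun f : 𝓢(Mink, ℂ) => l (fl f)) = (fun g => l (ev g)) ∘ toSchL := rfl
    show Continuous fun f : 𝓢(Mink, ℂ) => l (fl f)
    rw [h2]
    exact h.cont.comp toSchL.continuous

theorem IsPot.unique {l l' : Fn → UniformSpace.Completion D} (h : IsPot Q T l)
    (h' : IsPot Q T l') (f : Fn) (hf : GF.IsTest f) : l' f = l f := by
  obtain ⟨κ, hκ⟩ := h.exists_clm
  obtain ⟨κ', hκ'⟩ := h'.exists_clm
  obtain ⟨F, rfl⟩ := exists_fl hf
  have hc : VCov Q (κ' - κ : 𝓢(Mink, ℂ) →L[ℂ] UniformSpace.Completion D) 2 := by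
    intro s hs L hL a f v
    have h1 := h.cov s L a (fl f) v hs hL (isTest_fl _)
    have h2 := h'.cov s L a (fl f) v hs hL (isTest_fl _)
    rw [fl_sim s hs hL a] at h1 h2
    rw [ContinuousLinearMap.sub_apply, ContinuousLinearMap.sub_apply, inner_sub_right,
      inner_sub_right, hκ, hκ', hκ, hκ', h1, h2]
    have e : (s ^ ((4 : ℝ) - 2) : ℝ) = s ^ 2 := by
      rw [show ((4 : ℝ) - 2) = ((2 : ℕ) : ℝ) by norm_num, Real.rpow_natCast]
    rw [e]
    ring
  have h0 := hc.unique (fun f => by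
    rw [ContinuousLinearMap.sub_apply, hκ, hκ', ← box_fl]
    have h1 := h.trace (fl f) (isTest_fl _)
    have h2 := h'.trace (fl f) (isTest_fl _)
    rw [← h1] at h2
    have h3 : (3 : ℂ) • (l' (box (fl f)) - l (box (fl f))) = 0 := by
      rw [smul_sub, h2, sub_self]
    exact (smul_eq_zero.1 h3).resolve_left (by norm_num)) F
  rw [ContinuousLinearMap.sub_apply, hκ, hκ'] at h0
  exact sub_eq_zero.1 h0

/-! ### The potential of a scalar field -/

lemma sum_box (f : 𝓢(Mink, ℂ)) {L : GF.Fld D} (hL : Q.fld L) (v : D) :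
    ∑ k, (GF.eta k : ℂ) • L (pd k (pd k (fl f))) v = L (fl (boxS f)) v := by
  unfold boxS
  rw [fld_sumf hL]
  refine Finset.sum_congr rfl fun k _ => ?_
  rw [pd_fl, pd_fl]

lemma tr_improve {L : GF.Fld D} (hL : Q.fld L) (f : 𝓢(Mink, ℂ)) (v : D) :
    GF.tr (GF.improve T L) (fl f) v = GF.tr T (fl f) v - (3 : ℂ) • L (fl (boxS f)) v := by
  unfold GF.tr GF.improve
  simp only [sum_box f hL v]
  have h1 : ∀ m : Ix, (GF.eta m : ℂ) • (T m m (fl f) v +
      ((GF.eta m : ℂ) * (GF.eta m : ℂ)) • L (pd m (pd m (fl f))) v -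
      (bas m (GF.eta m) m : ℂ) • L (fl (boxS f)) v) = (GF.eta m : ℂ) • T m m (fl f) v +
      (GF.eta m : ℂ) • L (pd m (pd m (fl f))) v - L (fl (boxS f)) v := by
    intro m
    have h2 : ((GF.eta m : ℂ) * (GF.eta m : ℂ)) = 1 := by
      have := eta_sq m
      exact_mod_cast this
    have h3 : (bas m (GF.eta m) m : ℂ) = GF.eta m := by simp [bas]
    rw [h3, smul_sub, smul_add, smul_smul, smul_smul, h2, mul_one, one_smul]
  simp only [h1, Finset.sum_sub_distrib, Finset.sum_add_distrib, sum_box f hL v,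
    Finset.sum_const, Finset.card_univ, Fintype.card_fin]
  module

lemma isPot_of_scalar (hT : Q.IsStress T) {L : GF.Fld D} (hL : Q.IsScalar L 2)
    (h : ∀ f v, GF.IsTest f → GF.tr (GF.improve T L) f v = 0) :
    IsPot Q T fun f => ((L f Q.vac : D) : UniformSpace.Completion D) where
  lin f g c hf hg := by
    rw [Q.lin L f g c _ (Q.bose_fld _ hL.1) hf hg, UniformSpace.Completion.coe_add,
      UniformSpace.Completion.coe_smul]
  cont := (UniformSpace.Completion.continuous_coe D).comp (Q.cont L _ (Q.bose_fld _ hL.1))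
  trace f hf := by
    obtain ⟨F, rfl⟩ := exists_fl hf
    have h1 := h (fl F) Q.vac hf
    rw [tr_improve (Q.bose_fld _ hL.1), sub_eq_zero] at h1
    rw [h1, box_fl, UniformSpace.Completion.coe_smul]
  cov s L' a f v hs hL' hf := by
    have h1 := hL.2.2 s L' a f Q.vac hs hL' hf
    have e : (s ^ ((4 : ℝ) - 2) : ℝ) = s ^ 2 := by
      rw [show ((4 : ℝ) - 2) = ((2 : ℕ) : ℝ) by norm_num, Real.rpow_natCast]
    rw [Q.U_vac _ _ _ hs hL', e] at h1
    rw [h1, UniformSpace.Completion.coe_smul, inner_smul_right,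
      UniformSpace.Completion.inner_coe, UniformSpace.Completion.inner_coe,
      Q.U_inner _ _ _ _ _ hs hL']

/-! ### The canonical potential -/

section

variable {μ : Measure Mink} (S : SymMeasure μ 4) (hA : PField Q T (GF.tr T) 4)
  (two : Two Q (GF.tr T) μ)

open Classical in
/-- the potential as a function on test functions -/
def lamF (f : Fn) : UniformSpace.Completion D :=
  if h : GF.IsTest f then lamV S hA (exists_fl h).choose else 0

lemma lamF_fl (f : 𝓢(Mink, ℂ)) : lamF S hA (fl f) = lamV S hA f := by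
  unfold lamF
  rw [dif_pos (isTest_fl f)]
  congr 1
  exact fl_inj (exists_fl (isTest_fl f)).choose_spec

include two in
lemma isPot_lamF : IsPot Q T (lamF S hA) where
  lin f g c hf hg := by
    obtain ⟨F, rfl⟩ := exists_fl hf
    obtain ⟨G, rfl⟩ := exists_fl hg
    rw [fl_add_smul, lamF_fl, lamF_fl, lamF_fl, map_add, map_smul]
  cont := by
    have : (fun g : Sch => lamF S hA (ev g)) = fun g => lamV S hA (ofSch g) := by
      funext g
      rw [ev_fl, lamF_fl]
    rw [this]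
    exact (lamV S hA).continuous.comp ofSch.continuous
  trace f hf := by
    obtain ⟨F, rfl⟩ := exists_fl hf
    rw [box_fl, lamF_fl, lamV_box S hA two, hA.kap_apply]
  cov s L a f v hs hL hf := by
    obtain ⟨F, rfl⟩ := exists_fl hf
    rw [fl_sim s hs hL a, lamF_fl, lamF_fl]
    exact lamV_cov S hA two s hs hL a F v

include two in
lemma lamF_rel (L : Ix → V) (a : V) (f : Fn) (X X' : D → D) (hL : GF.IsLor L)
    (hf : In (Wed L a 1) f) (hX : Al Q (Wed L a (-1)) X X') :
    inner ℂ ((X' Q.vac : D) : UniformSpace.Completion D) (lamF S hA f) =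
      inner ℂ (lamF S hA (bar f)) ((X Q.vac : D) : UniformSpace.Completion D) := by
  obtain ⟨F, rfl, hF⟩ := exists_In hf
  rw [bar_fl, lamF_fl, lamF_fl]
  exact wedge_rel S hA two hL a hF hX

end

/-! ### The criterion -/

section

variable {l : Fn → UniformSpace.Completion D}

/-- local extensions act on the wedge algebras by multiplication -/
lemma IsExt.al {Λ : Fn → D → UniformSpace.Completion D} (h : IsExt Q T l Λ) {L : Ix → V}
    (hL : GF.IsLor L) {a : V} {f : Fn} (hf : In (Wed L a 1) f) {X X' : D → D}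
    (hX : Al Q (Wed L a (-1)) X X') : ∀ (z v : D), Gen Q Set.univ v →
    inner ℂ ((X' z : D) : UniformSpace.Completion D) (Λ f v) =
      inner ℂ (z : UniformSpace.Completion D) (Λ f (X v)) := by
  have hfu : In Set.univ f := ⟨hf.1, hf.2.1, Set.subset_univ _⟩
  have g0 : Gen Q Set.univ (0 : D) := gen_iff.2 pw_zero
  have l0 : Λ f 0 = 0 := by
    have := h.linv f 1 0 0 hfu g0 g0
    simpa using this
  have lsm : ∀ (c : ℂ) v, Gen Q Set.univ v → Λ f (c • v) = c • Λ f v := by
    intro c v hv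
    have := h.linv f c 0 v hfu g0 hv
    rwa [zero_add, l0, zero_add] at this
  have ladd : ∀ v w, Gen Q Set.univ v → Gen Q Set.univ w → Λ f (v + w) = Λ f v + Λ f w := by
    intro v w hv hw
    have := h.linv f 1 v w hfu hv hw
    rwa [one_smul, one_smul] at this
  have hgen : ∀ {Y Y' : D → D}, Al Q (Wed L a (-1)) Y Y' → ∀ v, Gen Q Set.univ v →
      Gen Q Set.univ (Y v) := fun hY v hv => gen_iff.2 (hY.pwu (gen_iff.1 hv))
  induction hX with
  | one => intro z v hv; rfl
  | add X X' Y Y' hX hY ih1 ih2 =>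
    intro z v hv
    rw [UniformSpace.Completion.coe_add, inner_add_left, ih1 z v hv, ih2 z v hv,
      ladd _ _ (hgen hX v hv) (hgen hY v hv), inner_add_right]
  | smul c X X' hX ih =>
    intro z v hv
    rw [UniformSpace.Completion.coe_smul, inner_smul_left, ih z v hv, lsm _ _ (hgen hX v hv),
      inner_smul_right]
    congr 1
    show Star.star (Star.star c) = c
    rw [star_star]
  | fld A B g X X' hA hB hadj hg hX ih =>
    intro z v hv
    have hsep : GF.Sep f g := by
      obtain ⟨F, rfl, hF⟩ := exists_In hf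
      obtain ⟨G, rfl, hG⟩ := exists_In hg
      exact sep_fl (wed_sep hL a hF hG)
    rw [ih (B (bar g) z) v hv]
    exact h.loc A B f g (X v) z hA hB hadj hfu ⟨hg.1, hg.2.1, Set.subset_univ _⟩ hsep
      (hgen hX v hv)

theorem wedBdd_of_ext {Λ : Fn → D → UniformSpace.Completion D} (h : IsExt Q T l Λ)
    (hb : Bdd Q Λ) : WedBdd Q l := by
  obtain ⟨k, m, C, hC⟩ := hb
  refine ⟨k, m, C, fun L a f X X' z hL hf hX => ?_⟩
  have hfu : In Set.univ f := ⟨hf.1, hf.2.1, Set.subset_univ _⟩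
  have gv : Gen Q Set.univ Q.vac := gen_iff.2 .vac
  have h1 := h.al hL hf hX z Q.vac gv
  rw [h.vac f hfu] at h1
  rw [h1]
  refine (norm_inner_le_norm _ _).trans ?_
  rw [UniformSpace.Completion.norm_coe]
  have h2 := hC f (X Q.vac) hfu (gen_iff.2 (hX.pwu .vac))
  calc ‖z‖ * ‖Λ f (X Q.vac)‖ ≤ ‖z‖ * (C * nrm m f * en Q k (X Q.vac)) := by gcongr
    _ = _ := by ring

lemma en_succ_le (k : ℕ) (v : D) : en Q k v ≤ en Q (k + 1) v := by
  have : 0 ≤ ∑ m, en Q k (Dv Q m v) := Finset.sum_nonneg fun m _ => en_nonneg k _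
  simp only [en]
  linarith

lemma en_le {k k' : ℕ} (h : k ≤ k') (v : D) : en Q k v ≤ en Q k' v := by
  induction h with
  | refl => exact le_rfl
  | step _ ih => exact ih.trans (en_succ_le _ v)

/-- the extension is unique -/
theorem ext_unique {Λ Λ' : Fn → D → UniformSpace.Completion D} (h : IsExt Q T l Λ)
    (hb : Bdd Q Λ) (h' : IsExt Q T l Λ') (hb' : Bdd Q Λ') {f : Fn} (hf : In Set.univ f) {v : D}
    (hv : Gen Q Set.univ v) : Λ f v = Λ' f v := by
  obtain ⟨k, m, C, hC⟩ := hb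
  obtain ⟨k', m', C', hC'⟩ := hb'
  obtain ⟨F, rfl⟩ := exists_fl hf.1
  have hF := in_univ.1 hf
  obtain ⟨a, ha, _⟩ := exists_far_test hF hF 0 0
  have hfa : In (Wed (Rt 0 0) a 1) (fl F) := In_fl.2 ha
  have hvp := gen_iff.1 hv
  have lsub : ∀ (Γ : Fn → D → UniformSpace.Completion D), IsExt Q T l Γ → ∀ w, Gen Q Set.univ w →
      Γ (fl F) (v - w) = Γ (fl F) v - Γ (fl F) w := by
    intro Γ hΓ w hw
    have := hΓ.linv (fl F) (-1) v w hf hv hw
    rwa [neg_one_smul, neg_one_smul, ← sub_eq_add_neg, ← sub_eq_add_neg] at this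
  have hK : ‖Λ (fl F) v - Λ' (fl F) v‖ ≤ 0 := by
    refine le_of_forall_pos_le_add fun ε hε => ?_
    set K : ℝ := |C| * nrm m (fl F) + |C'| * nrm m' (fl F) with hKd
    have hK0 : 0 ≤ K := by
      have := nrm_nonneg m (fl F)
      have := nrm_nonneg m' (fl F)
      positivity
    obtain ⟨v', hv', h1⟩ := dense_en (big_wed 0 0 a) (max k k') hvp (ε := ε / (K + 1))
      (by positivity)
    obtain ⟨X, X', hX, rfl⟩ := exists_Al hv'
    have hw : Gen Q Set.univ (X Q.vac) := gen_iff.2 (hX.pwu .vac)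
    have e1 : Λ (fl F) (X Q.vac) = Λ' (fl F) (X Q.vac) := by
      apply ext_coe
      intro z
      have gv : Gen Q Set.univ Q.vac := gen_iff.2 .vac
      rw [← h.al (isLor_Rt 0 0) hfa hX z Q.vac gv, ← h'.al (isLor_Rt 0 0) hfa hX z Q.vac gv,
        h.vac _ hf, h'.vac _ hf]
    have e2 : Λ (fl F) v - Λ' (fl F) v =
        Λ (fl F) (v - X Q.vac) - Λ' (fl F) (v - X Q.vac) := by
      rw [lsub Λ h _ hw, lsub Λ' h' _ hw, e1]; abel
    have hd : Gen Q Set.univ (v - X Q.vac) := gen_iff.2 (pw_sub hvp (gen_iff.1 hw))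
    have b1 := hC (fl F) _ hf hd
    have b2 := hC' (fl F) _ hf hd
    have c1 : C * nrm m (fl F) * en Q k (v - X Q.vac) ≤
        |C| * nrm m (fl F) * (ε / (K + 1)) := by
      have := nrm_nonneg m (fl F)
      have h3 := en_le (Q := Q) (le_max_left k k') (v - X Q.vac)
      have h4 := en_nonneg (Q := Q) k (v - X Q.vac)
      gcongr
      · exact le_abs_self C
      · linarith
    have c2 : C' * nrm m' (fl F) * en Q k' (v - X Q.vac) ≤
        |C'| * nrm m' (fl F) * (ε / (K + 1)) := by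
      have := nrm_nonneg m' (fl F)
      have h3 := en_le (Q := Q) (le_max_right k k') (v - X Q.vac)
      have h4 := en_nonneg (Q := Q) k' (v - X Q.vac)
      gcongr
      · exact le_abs_self C'
      · linarith
    rw [e2]
    calc _ ≤ _ := norm_sub_le _ _
      _ ≤ |C| * nrm m (fl F) * (ε / (K + 1)) + |C'| * nrm m' (fl F) * (ε / (K + 1)) :=
          add_le_add (b1.trans c1) (b2.trans c2)
      _ = ε * (K / (K + 1)) := by rw [hKd]; ring
      _ ≤ ε * 1 := by
          gcongr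
          rw [div_le_one (by positivity)]
          linarith
      _ = 0 + ε := by ring
  exact sub_eq_zero.1 (norm_le_zero_iff.1 hK)

open Classical in
/-- the wedge bound implies the existence of the extension -/
theorem ext_of_wedBdd (hT : Q.IsStress T) {μ : Measure Mink} (S : SymMeasure μ 4)
    (two : Two Q (GF.tr T) μ) (hb : WedBdd Q (lamF S (PField.tr hT))) :
    ∃ Λ, IsExt Q T (lamF S (PField.tr hT)) Λ ∧ Bdd Q Λ := by
  obtain ⟨k, m, C, hC⟩ := hb
  set hA := PField.tr hT with hAd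
  set Mf : 𝓢(Mink, ℂ) → ℝ := fun f => |C| * nrm m (fl f) with hMf
  have hM : ∀ f, 0 ≤ Mf f := fun f => mul_nonneg (abs_nonneg _) (nrm_nonneg m _)
  have hG : ∀ f, HG (lamV S hA) Q k (Mf f) f := by
    intro f L a hL hf X X' hX z
    have h1 := hC L a (fl f) X X' z hL (In_fl.2 hf) hX
    rw [lamF_fl] at h1
    refine h1.trans ?_
    have h2 := en_nonneg (Q := Q) k (X Q.vac)
    have h3 := nrm_nonneg m (fl f)
    show C * nrm m (fl f) * ‖z‖ * en Q k (X Q.vac) ≤
      |C| * nrm m (fl f) * ‖z‖ * en Q k (X Q.vac)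
    gcongr
    exact le_abs_self C
  have hW : ∀ f, HW (lamV S hA) Q k (Mf f) f := fun f => (hG f).hw
  set Λ : Fn → D → UniformSpace.Completion D := fun f v =>
    if h : GF.IsTest f then LL (lamV S hA) Q k Mf (exists_fl h).choose v else 0 with hΛ
  have hΛf : ∀ f v, Λ (fl f) v = LL (lamV S hA) Q k Mf f v := by
    intro f v
    rw [hΛ]
    simp only
    rw [dif_pos (isTest_fl f), fl_inj (exists_fl (isTest_fl f)).choose_spec]
  have hadd : ∀ f g, lamV S hA (f + g) = lamV S hA f + lamV S hA g := fun f g => map_add _ _ _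
  have hsmul : ∀ (c : ℂ) f, lamV S hA (c • f) = c • lamV S hA f := fun c f => map_smul _ _ _
  refine ⟨Λ, ⟨?_, ?_, ?_, ?_, ?_, ?_, ?_⟩, k, m, |C|, ?_⟩
  · intro f hf
    obtain ⟨F, rfl⟩ := exists_fl hf.1
    rw [hΛf, lamF_fl, LL_vac hM hW (in_univ.1 hf)]
  · intro f g c v hf hg hv
    obtain ⟨F, rfl⟩ := exists_fl hf.1
    obtain ⟨G, rfl⟩ := exists_fl hg.1
    rw [fl_add_smul, hΛf, hΛf, hΛf,
      LL_addf hM hW hadd (in_univ.1 hf) ((in_univ.1 hg).smul c) (gen_iff.1 hv),
      LL_smulf hM hW hsmul (in_univ.1 hg) (gen_iff.1 hv)]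
  · intro f c v w hf hv hw
    obtain ⟨F, rfl⟩ := exists_fl hf.1
    rw [hΛf, hΛf, hΛf,
      LL_addv hM hW (in_univ.1 hf) (gen_iff.1 hv) (.smul c (gen_iff.1 hw)),
      LL_smulv hM hW (in_univ.1 hf) (gen_iff.1 hw)]
  · intro f v w hf hv hw
    obtain ⟨F, rfl⟩ := exists_fl hf.1
    rw [bar_fl, hΛf, hΛf]
    exact LL_herm hM hW (fun θ φ a f X X' hf hX => wedge_rel S hA two (isLor_Rt θ φ) a hf hX)
      (in_univ.1 hf) (gen_iff.1 hw) (gen_iff.1 hv)
  · intro A B f g v z hA' hB' hadj hf hg hs hv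
    obtain ⟨F, rfl⟩ := exists_fl hf.1
    obtain ⟨G, rfl⟩ := exists_fl hg.1
    rw [bar_fl, hΛf, hΛf]
    refine LL_local hM hW hadd hsmul hA' hB' hadj (in_univ.1 hf) (in_univ.1 hg) ?_
      (gen_iff.1 hv) z
    intro x hx y hy
    have hx' : x.ofLp ∈ tsupport (fl F) := by
      rw [tsupport_fl]
      exact hx
    have hy' : y.ofLp ∈ tsupport (fl G) := by
      rw [tsupport_fl]
      exact hy
    have := hs _ hx' _ hy'
    rw [mdot_eq]
    exact this
  · intro s L a f v z hs hL hc hf hv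
    obtain ⟨F, rfl⟩ := exists_fl hf.1
    rw [fl_sim s hs hL a, hΛf, hΛf]
    have ht : Tran Q s L a := by
      rcases hc with hc | ⟨rfl, rfl⟩
      · exact tran_of_cov hs hL hc
      · exact tran_one a
    exact LL_cov hM hG hs hL ht (fun f v => lamV_cov S hA two s hs hL a f v) (in_univ.1 hf)
      (gen_iff.1 hv) z
  · intro f v hf hv
    obtain ⟨F, rfl⟩ := exists_fl hf.1
    rw [box_fl, hΛf]
    refine LL_box hM hW hT (fun f => ?_) (in_univ.1 hf) (gen_iff.1 hv)
    rw [lamV_box S hA two, hA.kap_apply]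
  · intro f v hf hv
    obtain ⟨F, rfl⟩ := exists_fl hf.1
    rw [hΛf]
    exact LL_bound hM hW (in_univ.1 hf) (gen_iff.1 hv)

end

/-- the main theorem -/
theorem main (hT : Q.IsStress T) : ∃ l : Fn → UniformSpace.Completion D, IsPot Q T l ∧
    (∀ l', IsPot Q T l' → ∀ f, GF.IsTest f → l' f = l f) ∧
    (∀ L, Q.IsScalar L 2 → (∀ f v, GF.IsTest f → GF.tr (GF.improve T L) f v = 0) →
      ∀ f, GF.IsTest f → ((L f Q.vac : D) : UniformSpace.Completion D) = l f) ∧
    (∀ L a f X X', GF.IsLor L → In (Wed L a 1) f → Al Q (Wed L a (-1)) X X' →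
      inner ℂ ((X' Q.vac : D) : UniformSpace.Completion D) (l f) =
        inner ℂ (l (bar f)) ((X Q.vac : D) : UniformSpace.Completion D)) ∧
    ((∃ Λ, IsExt Q T l Λ ∧ Bdd Q Λ) ↔ WedBdd Q l) ∧
    ∀ Λ Λ', IsExt Q T l Λ → Bdd Q Λ → IsExt Q T l Λ' → Bdd Q Λ' →
      ∀ f v, In Set.univ f → Gen Q Set.univ v → Λ f v = Λ' f v := by
  obtain ⟨μ, S, two⟩ := (PField.tr hT).exists_sym
  have hp := isPot_lamF S (PField.tr hT) two
  refine ⟨lamF S (PField.tr hT), hp, fun l' h' f hf => hp.unique h' f hf,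
    fun L hL h f hf => hp.unique (isPot_of_scalar hT hL h) f hf,
    fun L a f X X' hL hf hX => lamF_rel S (PField.tr hT) two L a f X X' hL hf hX,
    ⟨fun ⟨Λ, h, hb⟩ => wedBdd_of_ext h hb, ext_of_wedBdd hT S two⟩,
    fun Λ Λ' h hb h' hb' f v hf hv => ext_unique h hb h' hb' hf hv⟩

end Vale.Agent.P352.H246

end
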