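import Vale.Agent.P352.H246.Taylor

set_option linter.all false

noncomputable section

open MeasureTheory SchwartzMap Complex Filter Topology
open scoped SchwartzMap ComplexConjugate ENNReal LineDeriv

namespace Vale.Agent.P352.H246

open GF (Ix V Fn Sch ev pd bar sim one bas o)

/-! ### Multiplication by coordinates -/

lemma growth_coord (m : Ix) : (fun x : Mink => ((x m : ℝ) : ℂ)).HasTemperateGrowth := by
  have : (fun x : Mink => ((x m : ℝ) : ℂ)) =
      (Complex.ofRealCLM.comp (EuclideanSpace.proj m : Mink →L[ℝ] ℝ)) := by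
    funext x; simp
  rw [this]
  exact ContinuousLinearMap.hasTemperateGrowth _

/-- multiplication by a coordinate -/
def Xm (m : Ix) : 𝓢(Mink, ℂ) →L[ℂ] 𝓢(Mink, ℂ) :=
  SchwartzMap.smulLeftCLM ℂ (fun x : Mink => ((x m : ℝ) : ℂ))

@[simp] lemma Xm_apply (m : Ix) (f : 𝓢(Mink, ℂ)) (x : Mink) : Xm m f x = (x m : ℂ) * f x := by
  rw [Xm, SchwartzMap.smulLeftCLM_apply_apply (growth_coord m)]
  rfl

/-- the Euler operator -/
def Eu (f : 𝓢(Mink, ℂ)) : 𝓢(Mink, ℂ) := ∑ n, Xm n (∂_{eb n} f)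

lemma sum_eb' (b : Mink) : b = ∑ n, b n • (eb n : Mink) := by
  ext i
  fin_cases i <;> simp [Fin.sum_univ_four, eb]

lemma Eu_apply (f : 𝓢(Mink, ℂ)) (x : Mink) : Eu f x = fderiv ℝ f x x := by
  unfold Eu
  rw [SchwartzMap.sum_apply]
  conv_rhs => rw [show fderiv ℝ f x x = fderiv ℝ f x (∑ n, x n • (eb n : Mink)) by
    rw [← sum_eb' x]]
  rw [map_sum]
  refine Finset.sum_congr rfl fun n _ => ?_
  rw [Xm_apply, map_smul, lineDerivOp_apply_eq_fderiv]
  simp

lemma coe_Eu (f : 𝓢(Mink, ℂ)) : (Eu f : Mink → ℂ) = fun x => fderiv ℝ f x x := by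
  funext x; exact Eu_apply f x

/-- Euler identity -/
lemma iter_Eu (g : 𝓢(Mink, ℂ)) (n : ℕ) (y : Mink) (m : Fin n → Mink) :
    iteratedFDeriv ℝ n (Eu g) y m = (n : ℂ) * iteratedFDeriv ℝ n g y m +
      fderiv ℝ (fun z => iteratedFDeriv ℝ n g z m) y y := by
  induction n generalizing y with
  | zero =>
    simp only [iteratedFDeriv_zero_apply, coe_Eu]
    simp
  | succ n ih =>
    have hG := contDiff_iter g n 2
    have hfd : DifferentiableAt ℝ (iteratedFDeriv ℝ n (Eu g)) y :=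
      (contDiff_iter (Eu g) n 1).differentiable (by norm_num) y
    have hGd : ∀ z, DifferentiableAt ℝ (iteratedFDeriv ℝ n g) z := fun z =>
      (hG.differentiable (by norm_num)) z
    rw [hfd.iteratedFDeriv_succ_apply_left']
    have e1 : ∀ z, iteratedFDeriv ℝ (n + 1) g z m =
        fderiv ℝ (fun w => iteratedFDeriv ℝ n g w (Fin.tail m)) z (m 0) := by
      intro z
      rw [(hGd z).iteratedFDeriv_succ_apply_left']
    simp only [e1]
    set H : Mink → ℂ := fun w => iteratedFDeriv ℝ n g w (Fin.tail m) with hH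
    have e2 : (fun z => iteratedFDeriv ℝ n (Eu g) z (Fin.tail m)) = fun z =>
        (n : ℂ) * H z + fderiv ℝ H z z := by
      funext z
      rw [ih]
    rw [e2]
    have hH2 : ContDiff ℝ 2 H := by
      have : H = (ContinuousMultilinearMap.apply ℝ (fun _ : Fin n => Mink) ℂ (Fin.tail m)) ∘
        iteratedFDeriv ℝ n g := rfl
      rw [this]
      exact (ContinuousLinearMap.contDiff _).comp hG
    have hHd : DifferentiableAt ℝ H y := hH2.differentiable (by norm_num) y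
    have hd : DifferentiableAt ℝ (fderiv ℝ H) y :=
      (hH2.fderiv_right (m := 1) (by norm_num)).differentiable (by norm_num) y
    have hs : IsSymmSndFDerivAt ℝ H y := (hH2.contDiffAt (x := y)).isSymmSndFDerivAt (by simp)
    have hA : HasFDerivAt (fun z => fderiv ℝ H z z) _ y :=
      hd.hasFDerivAt.clm_apply (hasFDerivAt_id y)
    have hB : HasFDerivAt (fun z => fderiv ℝ H z (m 0)) _ y :=
      hd.hasFDerivAt.clm_apply (hasFDerivAt_const (m 0) y)
    have hC : HasFDerivAt (fun z => (n : ℂ) * H z + fderiv ℝ H z z) _ y :=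
      (hHd.hasFDerivAt.const_mul (n : ℂ)).add hA
    rw [hC.fderiv, hB.fderiv]
    simp only [ContinuousLinearMap.add_apply, ContinuousLinearMap.smul_apply, smul_eq_mul,
      ContinuousLinearMap.comp_apply, ContinuousLinearMap.flip_apply,
      ContinuousLinearMap.id_apply,
      ContinuousLinearMap.zero_apply, map_zero, zero_add, id]
    rw [hs.eq y (m 0)]
    push_cast
    ring

/-! ### Dilations -/

/-- `f(e^t x)` -/
def Dl (t : ℝ) : 𝓢(Mink, ℂ) →L[ℂ] 𝓢(Mink, ℂ) :=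
  SchwartzMap.compCLMOfContinuousLinearEquiv ℂ
    (LinearEquiv.smulOfNeZero ℝ Mink (Real.exp t) (Real.exp_pos t).ne').toContinuousLinearEquiv

lemma Dl_eq (t : ℝ) (f : 𝓢(Mink, ℂ)) : Dl t f = scaleS (Real.exp t) (Real.exp_pos t).ne' f := rfl

@[simp] lemma Dl_apply (t : ℝ) (f : 𝓢(Mink, ℂ)) (x : Mink) : Dl t f x = f (Real.exp t • x) := by
  rw [Dl_eq, scaleS_apply]

lemma Dl_zero (f : 𝓢(Mink, ℂ)) : Dl 0 f = f := by
  ext x; simp

lemma Dl_add (s t : ℝ) (f : 𝓢(Mink, ℂ)) : Dl (s + t) f = Dl s (Dl t f) := by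
  ext x
  rw [Dl_apply, Dl_apply, Dl_apply, smul_smul, Real.exp_add, mul_comm]

lemma iter_Dl (t : ℝ) (g : 𝓢(Mink, ℂ)) (n : ℕ) (x : Mink) :
    iteratedFDeriv ℝ n (Dl t g) x = Real.exp t ^ n • iteratedFDeriv ℝ n g (Real.exp t • x) := by
  have : (Dl t g : Mink → ℂ) = fun y => g (Real.exp t • y) := by
    funext y; rw [Dl_apply]
  rw [this, iteratedFDeriv_comp_const_smul (Real.exp t) (g.smooth n)]

lemma seminorm_Dl (t : ℝ) (ht : |t| ≤ 1) (g : 𝓢(Mink, ℂ)) (k n : ℕ) (x : Mink) :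
    ‖x‖ ^ k * ‖iteratedFDeriv ℝ n (Dl t g) x‖ ≤
      Real.exp 1 ^ (n + k) * SchwartzMap.seminorm ℂ k n g := by
  have hE : 0 < Real.exp t := Real.exp_pos t
  have h1 := le_seminorm ℂ k n g (Real.exp t • x)
  rw [norm_smul, Real.norm_of_nonneg hE.le, mul_pow] at h1
  rw [iter_Dl, norm_smul, norm_pow, Real.norm_of_nonneg hE.le]
  have hle : Real.exp t ≤ Real.exp 1 := Real.exp_le_exp.2 ((le_abs_self t).trans ht)
  have hinv : 1 ≤ Real.exp 1 * Real.exp t := by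
    rw [← Real.exp_add]
    apply Real.one_le_exp
    linarith [neg_abs_le t]
  have h2 : ‖x‖ ^ k ≤ Real.exp 1 ^ k * (Real.exp t ^ k * ‖x‖ ^ k) := by
    rw [← mul_assoc, ← mul_pow]
    exact le_mul_of_one_le_left (by positivity) (one_le_pow₀ hinv)
  calc ‖x‖ ^ k * (Real.exp t ^ n * ‖iteratedFDeriv ℝ n g (Real.exp t • x)‖)
      ≤ (Real.exp 1 ^ k * (Real.exp t ^ k * ‖x‖ ^ k)) *
        (Real.exp 1 ^ n * ‖iteratedFDeriv ℝ n g (Real.exp t • x)‖) := by gcongr
    _ = Real.exp 1 ^ (n + k) * (Real.exp t ^ k * ‖x‖ ^ k *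
        ‖iteratedFDeriv ℝ n g (Real.exp t • x)‖) := by rw [pow_add]; ring
    _ ≤ _ := by gcongr

lemma hasDeriv_iter (g : 𝓢(Mink, ℂ)) (n : ℕ) (x : Mink) (m : Fin n → Mink) (t : ℝ) :
    HasDerivAt (fun t => iteratedFDeriv ℝ n (Dl t g) x m)
      (iteratedFDeriv ℝ n (Dl t (Eu g)) x m) t := by
  have hG : DifferentiableAt ℝ (fun z => iteratedFDeriv ℝ n g z m) (Real.exp t • x) := by
    have : (fun z => iteratedFDeriv ℝ n g z m) =
      (ContinuousMultilinearMap.apply ℝ (fun _ : Fin n => Mink) ℂ m) ∘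
        iteratedFDeriv ℝ n g := rfl
    rw [this]
    exact (ContinuousLinearMap.differentiableAt _).comp _
      ((contDiff_iter g n 1).differentiable (by norm_num) _)
  have h1 : HasDerivAt (fun s : ℝ => Real.exp s • x) (Real.exp t • x) t :=
    (Real.hasDerivAt_exp t).smul_const x
  have h2 := hG.hasFDerivAt.comp_hasDerivAt t h1
  have h3 : HasDerivAt (fun s : ℝ => Real.exp s ^ n) (n * Real.exp t ^ n) t := by
    have := (Real.hasDerivAt_exp t).pow n
    refine this.congr_deriv ?_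
    rcases n with _ | n
    · simp
    · rw [Nat.add_sub_cancel, pow_succ]; push_cast; ring
  have h4 := h3.smul h2
  have e1 : (fun t => iteratedFDeriv ℝ n (Dl t g) x m) = fun s : ℝ =>
      Real.exp s ^ n • iteratedFDeriv ℝ n g (Real.exp s • x) m := by
    funext s
    rw [iter_Dl]
    rfl
  rw [e1]
  refine h4.congr_deriv ?_
  rw [iter_Dl, ContinuousMultilinearMap.smul_apply, iter_Eu]
  simp only [Function.comp_apply, real_smul]
  push_cast
  ring

lemma exists_dil (g : 𝓢(Mink, ℂ)) (k n : ℕ) : ∃ C : ℝ, 0 ≤ C ∧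
    ∀ t : ℝ, |t| ≤ 1 → SchwartzMap.seminorm ℂ k n (Dl t g - g) ≤ C * |t| := by
  refine ⟨Real.exp 1 ^ (n + k) * SchwartzMap.seminorm ℂ k n (Eu g), by positivity,
    fun t ht => ?_⟩
  set C := Real.exp 1 ^ (n + k) * SchwartzMap.seminorm ℂ k n (Eu g) with hCd
  have hC0 : 0 ≤ C := by positivity
  refine seminorm_le_bound ℂ k n _ (by positivity) fun x => ?_
  have e0 : iteratedFDeriv ℝ n (⇑(Dl t g - g)) x =
      iteratedFDeriv ℝ n (Dl t g) x - iteratedFDeriv ℝ n g x := by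
    have : (⇑(Dl t g - g) : Mink → ℂ) = ⇑(Dl t g) - ⇑g := rfl
    rw [this, iteratedFDeriv_sub_apply (((Dl t g).smooth n).contDiffAt) (g.smooth n).contDiffAt]
  rw [e0]
  have key : ∀ m : Fin n → Mink, ‖x‖ ^ k * ‖(iteratedFDeriv ℝ n (Dl t g) x -
      iteratedFDeriv ℝ n g x) m‖ ≤ C * |t| * ∏ i, ‖m i‖ := by
    intro m
    have hp : 0 ≤ ∏ i, ‖m i‖ := Finset.prod_nonneg fun i _ => norm_nonneg _
    have hbd : ∀ s ∈ Metric.closedBall (0 : ℝ) |t|, ‖(‖x‖ ^ k : ℝ) •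
        (iteratedFDeriv ℝ n (Dl s (Eu g)) x m)‖ ≤ C * ∏ i, ‖m i‖ := by
      intro s hs
      rw [Metric.mem_closedBall, dist_zero_right, Real.norm_eq_abs] at hs
      rw [norm_smul, Real.norm_of_nonneg (by positivity)]
      calc _ ≤ ‖x‖ ^ k * (‖iteratedFDeriv ℝ n (Dl s (Eu g)) x‖ * ∏ i, ‖m i‖) := by
            gcongr
            exact ContinuousMultilinearMap.le_opNorm _ _
        _ = (‖x‖ ^ k * ‖iteratedFDeriv ℝ n (Dl s (Eu g)) x‖) * ∏ i, ‖m i‖ := by ring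
        _ ≤ C * ∏ i, ‖m i‖ :=
            mul_le_mul_of_nonneg_right (seminorm_Dl s (hs.trans ht) (Eu g) k n x) hp
    have hmv := (convex_closedBall (0 : ℝ) |t|).norm_image_sub_le_of_norm_hasDerivWithin_le
      (f := fun s => (‖x‖ ^ k : ℝ) • iteratedFDeriv ℝ n (Dl s g) x m)
      (fun s _ => ((hasDeriv_iter g n x m s).const_smul (‖x‖ ^ k : ℝ)).hasDerivWithinAt) hbd
      (x := 0) (y := t) (by simp) (by simp)
    rw [← smul_sub, norm_smul, Real.norm_of_nonneg (by positivity), sub_zero,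
      Real.norm_eq_abs, Dl_zero] at hmv
    rw [ContinuousMultilinearMap.sub_apply]
    refine hmv.trans (le_of_eq ?_)
    ring
  rcases eq_or_lt_of_le (pow_nonneg (norm_nonneg x) k) with h0 | h0
  · rw [← h0, zero_mul]; positivity
  · rw [← le_div_iff₀' h0]
    refine ContinuousMultilinearMap.opNorm_le_bound (by positivity) fun m => ?_
    have := key m
    rw [div_mul_eq_mul_div, le_div_iff₀' h0]
    exact this

lemma seminorm_dil (g : 𝓢(Mink, ℂ)) (k n : ℕ) : ∃ C : ℝ, 0 ≤ C ∧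
    ∀ t : ℝ, |t| ≤ 1 → SchwartzMap.seminorm ℂ k n (Dl t g - g - (t : ℂ) • Eu g) ≤
      C * |t| * |t| := by
  obtain ⟨C, hC0, hC⟩ := exists_dil (Eu g) k n
  refine ⟨C, hC0, fun t ht => ?_⟩
  refine seminorm_le_bound ℂ k n _ (by positivity) fun x => ?_
  have hdg : ContDiff ℝ n (Eu g : Mink → ℂ) := (Eu g).smooth n
  have e0 : iteratedFDeriv ℝ n (⇑(Dl t g - g - (t : ℂ) • Eu g)) x =
      iteratedFDeriv ℝ n (Dl t g) x - iteratedFDeriv ℝ n g x -
        t • iteratedFDeriv ℝ n (Eu g) x := by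
    have h1 : (⇑(Dl t g - g - (t : ℂ) • Eu g) : Mink → ℂ) =
        (⇑(Dl t g) - ⇑g) - t • ⇑(Eu g) := by
      funext y
      simp
    have c1 : ContDiffAt ℝ n (⇑(Dl t g)) x := ((Dl t g).smooth n).contDiffAt
    have c2 : ContDiffAt ℝ n (⇑g) x := (g.smooth n).contDiffAt
    have c3 : ContDiffAt ℝ n (⇑(Dl t g) - ⇑g) x := c1.sub c2
    have c4 : ContDiffAt ℝ n (t • ⇑(Eu g)) x := hdg.contDiffAt.const_smul t
    rw [h1, iteratedFDeriv_sub_apply c3 c4, iteratedFDeriv_sub_apply c1 c2,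
      iteratedFDeriv_const_smul_apply hdg.contDiffAt]
  rw [e0]
  have key : ∀ m : Fin n → Mink, ‖x‖ ^ k * ‖(iteratedFDeriv ℝ n (Dl t g) x -
      iteratedFDeriv ℝ n g x - t • iteratedFDeriv ℝ n (Eu g) x) m‖ ≤
      C * |t| * |t| * ∏ i, ‖m i‖ := by
    intro m
    set φ : ℝ → ℂ := fun s => iteratedFDeriv ℝ n (Dl s g) x m -
      (s : ℂ) * iteratedFDeriv ℝ n (Eu g) x m with hφ
    have hder : ∀ s : ℝ, HasDerivAt φ (iteratedFDeriv ℝ n (Dl s (Eu g)) x m -
        iteratedFDeriv ℝ n (Eu g) x m) s := by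
      intro s
      have h4 : HasDerivAt (fun s : ℝ => (s : ℂ) * iteratedFDeriv ℝ n (Eu g) x m)
          (iteratedFDeriv ℝ n (Eu g) x m) s := by
        simpa using (Complex.ofRealCLM.hasDerivAt (x := s)).mul_const
          (iteratedFDeriv ℝ n (Eu g) x m)
      exact (hasDeriv_iter g n x m s).sub h4
    have hbd : ∀ s ∈ Metric.closedBall (0 : ℝ) |t|, ‖(‖x‖ ^ k : ℝ) •
        (iteratedFDeriv ℝ n (Dl s (Eu g)) x m - iteratedFDeriv ℝ n (Eu g) x m)‖ ≤
          C * |t| * ∏ i, ‖m i‖ := by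
      intro s hs
      rw [Metric.mem_closedBall, dist_zero_right, Real.norm_eq_abs] at hs
      have h1 := hC s (hs.trans ht)
      have h2 := le_seminorm ℂ k n (Dl s (Eu g) - Eu g) x
      have h3 : iteratedFDeriv ℝ n (⇑(Dl s (Eu g) - Eu g)) x =
          iteratedFDeriv ℝ n (Dl s (Eu g)) x - iteratedFDeriv ℝ n (Eu g) x := by
        have : (⇑(Dl s (Eu g) - Eu g) : Mink → ℂ) = ⇑(Dl s (Eu g)) - ⇑(Eu g) := rfl
        rw [this, iteratedFDeriv_sub_apply (((Dl s (Eu g)).smooth n).contDiffAt) hdg.contDiffAt]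
      rw [h3] at h2
      rw [norm_smul, Real.norm_of_nonneg (by positivity)]
      have h5 : ‖iteratedFDeriv ℝ n (Dl s (Eu g)) x m - iteratedFDeriv ℝ n (Eu g) x m‖ ≤
          ‖iteratedFDeriv ℝ n (Dl s (Eu g)) x - iteratedFDeriv ℝ n (Eu g) x‖ * ∏ i, ‖m i‖ :=
        (iteratedFDeriv ℝ n (Dl s (Eu g)) x - iteratedFDeriv ℝ n (Eu g) x).le_opNorm m
      have hp : 0 ≤ ∏ i, ‖m i‖ := Finset.prod_nonneg fun i _ => norm_nonneg _
      calc _ ≤ ‖x‖ ^ k * (‖iteratedFDeriv ℝ n (Dl s (Eu g)) x -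
            iteratedFDeriv ℝ n (Eu g) x‖ * ∏ i, ‖m i‖) := by gcongr
        _ = (‖x‖ ^ k * ‖iteratedFDeriv ℝ n (Dl s (Eu g)) x -
            iteratedFDeriv ℝ n (Eu g) x‖) * ∏ i, ‖m i‖ := by ring
        _ ≤ (C * |s|) * ∏ i, ‖m i‖ := mul_le_mul_of_nonneg_right (h2.trans h1) hp
        _ ≤ C * |t| * ∏ i, ‖m i‖ := by gcongr
    have hmv := (convex_closedBall (0 : ℝ) |t|).norm_image_sub_le_of_norm_hasDerivWithin_le
      (f := fun s => (‖x‖ ^ k : ℝ) • φ s)
      (fun s _ => ((hder s).const_smul (‖x‖ ^ k : ℝ)).hasDerivWithinAt) hbd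
      (x := 0) (y := t) (by simp) (by simp)
    rw [← smul_sub, norm_smul, Real.norm_of_nonneg (by positivity), sub_zero,
      Real.norm_eq_abs] at hmv
    have e1 : φ t - φ 0 = (iteratedFDeriv ℝ n (Dl t g) x -
      iteratedFDeriv ℝ n g x - t • iteratedFDeriv ℝ n (Eu g) x) m := by
      simp only [hφ, Dl_zero, ofReal_zero, zero_mul, sub_zero,
        ContinuousMultilinearMap.sub_apply, ContinuousMultilinearMap.smul_apply, real_smul]
      ring
    rw [e1] at hmv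
    refine hmv.trans (le_of_eq ?_)
    ring
  rcases eq_or_lt_of_le (pow_nonneg (norm_nonneg x) k) with h0 | h0
  · rw [← h0, zero_mul]; positivity
  · rw [← le_div_iff₀' h0]
    refine ContinuousMultilinearMap.opNorm_le_bound (by positivity) fun m => ?_
    have := key m
    rw [div_mul_eq_mul_div, le_div_iff₀' h0]
    exact this

/-- dilations are differentiable in Schwartz space -/
lemma tendsto_dil (g : 𝓢(Mink, ℂ)) :
    Tendsto (fun t : ℝ => ((t : ℂ)⁻¹) • (Dl t g - g)) (𝓝[≠] 0) (𝓝 (Eu g)) := by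
  rw [(schwartz_withSeminorms ℂ Mink ℂ).tendsto_nhds]
  intro i ε hε
  obtain ⟨C, hC0, hC⟩ := seminorm_dil g i.1 i.2
  have hball : Metric.ball (0 : ℝ) (min 1 (ε / (C + 1))) ∈ 𝓝 (0 : ℝ) :=
    Metric.ball_mem_nhds 0 (by positivity)
  filter_upwards [nhdsWithin_le_nhds hball, self_mem_nhdsWithin] with t ht ht0
  have ht0' : (t : ℂ) ≠ 0 := by exact_mod_cast ht0
  rw [Metric.mem_ball, dist_zero_right, Real.norm_eq_abs] at ht
  have h1 : |t| ≤ 1 := ht.le.trans (min_le_left _ _)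
  have h2 : |t| < ε / (C + 1) := ht.trans_le (min_le_right _ _)
  have e1 : (t : ℂ)⁻¹ • (Dl t g - g) - Eu g =
      (t : ℂ)⁻¹ • (Dl t g - g - (t : ℂ) • Eu g) := by
    rw [smul_sub _ _ ((t : ℂ) • Eu g), smul_smul, inv_mul_cancel₀ ht0', one_smul]
  rw [e1]
  change SchwartzMap.seminorm ℂ i.1 i.2 _ < ε
  rw [map_smul_eq_mul, norm_inv, norm_real, Real.norm_eq_abs]
  have ht1 : 0 < |t| := abs_pos.2 ht0
  calc |t|⁻¹ * SchwartzMap.seminorm ℂ i.1 i.2 _ ≤ |t|⁻¹ * (C * |t| * |t|) := by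
        gcongr; exact hC t h1
    _ = C * |t| := by field_simp
    _ ≤ (C + 1) * |t| := by gcongr; linarith
    _ < (C + 1) * (ε / (C + 1)) := by gcongr
    _ = ε := by field_simp

section

variable {F : Type*} [NormedAddCommGroup F] [NormedSpace ℂ F]

lemma hasDerivAt_Dl0 (κ : 𝓢(Mink, ℂ) →L[ℂ] F) (g : 𝓢(Mink, ℂ)) :
    HasDerivAt (fun t : ℝ => κ (Dl t g)) (κ (Eu g)) 0 := by
  rw [hasDerivAt_iff_tendsto_slope]
  refine ((κ.continuous.tendsto _).comp (tendsto_dil g)).congr fun t => ?_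
  rw [slope_def_module, Function.comp_apply, map_smul, map_sub, Dl_zero, sub_zero]
  rw [← ofReal_inv]
  rfl

lemma hasDerivAt_Dl (κ : 𝓢(Mink, ℂ) →L[ℂ] F) (g : 𝓢(Mink, ℂ)) (t : ℝ) :
    HasDerivAt (fun t : ℝ => κ (Dl t g)) (κ (Dl t (Eu g))) t := by
  have h1 := hasDerivAt_Dl0 (κ.comp (Dl t)) g
  have h2 : (fun s : ℝ => κ (Dl s g)) = fun s : ℝ => (κ.comp (Dl t)) (Dl (s - t) g) := by
    funext s
    rw [ContinuousLinearMap.comp_apply, ← Dl_add]
    congr 3
    ring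
  rw [h2]
  have h3 : HasDerivAt (fun t' : ℝ => (κ.comp (Dl t)) (Dl t' g)) ((κ.comp (Dl t)) (Eu g))
      (t - t) := by rw [sub_self]; exact h1
  exact h3.comp_sub_const t t

end

end Vale.Agent.P352.H246

end
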