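import Vale.Agent.P352.H246.Rc7
import Vale.Agent.P352.H846.Nonvan2

set_option linter.all false

noncomputable section

open MeasureTheory SchwartzMap Complex Filter Topology
open scoped SchwartzMap ComplexConjugate ENNReal LineDeriv ContDiff FourierTransform

namespace Vale.Agent.P352.H246R

open GF (Ix V Fn Sch ev pd bar sim bas o)
open H246
open H496
open UniformSpace (Completion)

/-! ### Fourier inversion -/

lemma exists_inv : ∃ c : ℂ, c ≠ 0 ∧ ∀ g : 𝓢(Mink, ℂ), MI (mftS g) = c * g 0 := by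
  set f : Mink →ₗ[ℝ] Mink := (mftEquiv.toLinearEquiv : Mink →ₗ[ℝ] Mink) with hf
  have hdet : LinearMap.det f ≠ 0 := (LinearEquiv.isUnit_det' mftEquiv.toLinearEquiv).ne_zero
  have h := Measure.map_linearMap_addHaar_eq_smul_addHaar (μ := (volume : Measure Mink)) hdet
  refine ⟨((|(LinearMap.det f)⁻¹| : ℝ) : ℂ), by
    exact_mod_cast abs_ne_zero.2 (inv_ne_zero hdet), fun g => ?_⟩
  have h1 : ∀ p, mftS g p = (𝓕 g : 𝓢(Mink, ℂ)) (mftEquiv p) := by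
    intro p
    simp [mftS]
  have h2 : ∫ w, (𝓕 g : 𝓢(Mink, ℂ)) w = g 0 := by
    have h3 : (𝓕⁻ (𝓕 g : 𝓢(Mink, ℂ)) : 𝓢(Mink, ℂ)) = g := FourierTransform.fourierInv_fourier_eq g
    have h4 : (𝓕⁻ (𝓕 g : 𝓢(Mink, ℂ)) : 𝓢(Mink, ℂ)) 0 = g 0 := by rw [h3]
    have h5 : (𝓕⁻ (𝓕 g : 𝓢(Mink, ℂ)) : 𝓢(Mink, ℂ)) 0 = ∫ w, (𝓕 g : 𝓢(Mink, ℂ)) w := by
      rw [SchwartzMap.fourierInv_coe, Real.fourierInv_eq']
      congr 1
      ext w
      rw [inner_zero_right]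
      simp
    rw [← h5, h4]
  have hme : MeasurableEmbedding (mftEquiv : Mink → Mink) :=
    mftEquiv.toHomeomorph.measurableEmbedding
  have hh : Measure.map (mftEquiv : Mink → Mink) (volume : Measure Mink) =
      ENNReal.ofReal |(LinearMap.det f)⁻¹| • volume := h
  rw [MI_apply]
  simp only [h1]
  rw [← hme.integral_map (fun w => (𝓕 g : 𝓢(Mink, ℂ)) w), hh, integral_smul_measure, h2,
    ENNReal.toReal_ofReal (abs_nonneg _), real_smul]

lemma mftS_tauS (a : Mink) (g : 𝓢(Mink, ℂ)) (p : Mink) :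
    mftS (tauS a g) p = chr a p * mftS g p := by
  rw [mftS_apply, mft_tauS, ← mftS_apply]

lemma PC_tauS {g : 𝓢(Mink, ℂ)} (hg : PC (mftS g)) (a : Mink) : PC (mftS (tauS a g)) := by
  have h : tsupport (mftS (tauS a g)) ⊆ tsupport (mftS g) := by
    apply closure_mono
    intro p hp h0
    apply hp
    rw [mftS_tauS, h0, mul_zero]
  exact ⟨IsCompact.of_isClosed_subset hg.1 (isClosed_tsupport _) h, h.trans hg.2⟩

lemma PC_deriv {g : 𝓢(Mink, ℂ)} (hg : PC (mftS g)) (v : Mink) :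
    PC (mftS (∂_{v} g : 𝓢(Mink, ℂ))) := by
  have h : tsupport (mftS (∂_{v} g : 𝓢(Mink, ℂ))) ⊆ tsupport (mftS g) := by
    apply closure_mono
    intro p hp h0
    apply hp
    rw [mftS_apply, mft_lineDeriv, ← mftS_apply, h0, mul_zero]
  exact ⟨IsCompact.of_isClosed_subset hg.1 (isClosed_tsupport _) h, h.trans hg.2⟩

lemma PC_sim {g : 𝓢(Mink, ℂ)} (hg : PC (mftS g)) {L : Ix → V} (hL : GF.IsLor L)
    (hpos : ∀ p ∈ Vp, lam (linv L) p ∈ Vp) : PC (mftS (simS 1 one_pos hL 0 g)) := by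
  have e : ∀ p, mftS (simS 1 one_pos hL 0 g) p = mftS g (lam L p) := by
    intro p
    rw [mftS_apply, mft_simS, ← mftS_apply]
    have : (-WithLp.toLp 2 (0 : V) : Mink) = 0 := by ext n; simp
    rw [this, chr_zero']
    simp
  have h : tsupport (mftS (simS 1 one_pos hL 0 g)) ⊆ lam (linv L) '' tsupport (mftS g) := by
    refine closure_minimal (fun p hp => ?_)
      (IsCompact.isClosed (IsCompact.image hg.1 (continuous_lam _)))
    refine ⟨lam L p, subset_tsupport _ ?_, linv_lam hL p⟩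
    intro h0
    apply hp
    rw [e, h0]
  refine ⟨IsCompact.of_isClosed_subset (IsCompact.image hg.1 (continuous_lam _))
    (isClosed_tsupport _) h, fun p hp => ?_⟩
  obtain ⟨q, hq, rfl⟩ := h hp
  exact hpos q (hg.2 hq)

variable {D : Type*} [NormedAddCommGroup D] [InnerProductSpace ℂ D]
variable {Q : GF.Theory D}
variable {H : D → D} {alg : Set V → Set (D → D)} {S : V → ℝ → D → D}

section

variable (N : CNet Q H alg S) {G : V → D → D}
variable (hG : ∀ a v, IsNull a → HasDerivAt (fun s : ℝ => S a s v) (I • G a v) 0)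
variable (hmem : ∀ a, IsNull a → G a ∈ alg Set.univ)
variable {φ : Completion D} {B : D → D} (hB : B ∈ alg Set.univ)
variable (hq : ∀ σ L v, 0 < σ → GF.IsLor L → pt φ B (Q.U σ L 0 v) = ((σ ^ 2)⁻¹ : ℝ) * pt φ B v)
variable {J : Ix → GF.Fld D} (hJ : VFld Q J)

include N hG hB hq hmem hJ in
/-- the values of the deformed potential on the virial current, first null vector -/
theorem exists_kap : ∃ κ : ℂ, ∀ g, PC (mftS g) →
    pt φ B (G (nu (-1)) (J 0 (fl g) Q.vac)) = κ * g 0 ∧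
    pt φ B (G (nu (-1)) (J 1 (fl g) Q.vac)) = -(κ * g 0) ∧
    pt φ B (G (nu (-1)) (J 2 (fl g) Q.vac)) = 0 ∧
    pt φ B (G (nu (-1)) (J 3 (fl g) Q.vac)) = 0 := by
  obtain ⟨T, hT, hTJ⟩ := exists_tens N hG hmem hB hq hJ
  obtain ⟨c, hc⟩ := hT.cls
  obtain ⟨c0, h0, h1⟩ := exists_inv
  refine ⟨c * c0, fun g hg => ?_⟩
  obtain ⟨a0, a1, a2, a3⟩ := hc _ hg
  rw [hTJ] at a0 a1 a2 a3
  rw [h1] at a0 a1
  refine ⟨by rw [a0]; ring, by rw [a1]; ring, a2, a3⟩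

lemma isLor_rot12' : GF.IsLor mRot12 := isLor_rot12

lemma rot12_nu : sim 1 mRot12 0 (nu (-1)) = (1 : ℝ) • nu 1 := by
  funext n
  fin_cases n <;> simp [sim, nu, mRot12, Fin.sum_univ_four]

lemma Vp_iff (p : Mink) : p ∈ Vp ↔ 0 < p 0 ∧ 0 < mass2 p := by
  have e : mass2 p = (p 0 + p 1) * (p 0 - p 1) - p 2 ^ 2 - p 3 ^ 2 := by
    unfold mass2 mdot; ring
  constructor
  · rintro ⟨h1, h2⟩
    have h1' : 0 < p 0 + p 1 := h1
    rw [e] at h2
    have h3 : 0 < (p 0 + p 1) * (p 0 - p 1) := by nlinarith [sq_nonneg (p 2), sq_nonneg (p 3)]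
    have h4 : 0 < p 0 - p 1 := (mul_pos_iff_of_pos_left h1').1 h3
    refine ⟨by linarith, by rw [e]; exact h2⟩
  · rintro ⟨h1, h2⟩
    refine ⟨?_, h2⟩
    rw [e] at h2
    show 0 < p 0 + p 1
    by_contra h3
    rw [not_lt] at h3
    have h4 : 0 < p 0 - p 1 := by linarith
    nlinarith [sq_nonneg (p 2), sq_nonneg (p 3)]

lemma Vp_rot12 (p : Mink) (hp : p ∈ Vp) : lam (linv mRot12) p ∈ Vp := by
  rw [Vp_iff] at hp ⊢
  refine ⟨?_, ?_⟩
  · have : lam (linv mRot12) p 0 = p 0 := by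
      simp [lam_apply, linv, Fin.sum_univ_four, mRot12, GF.eta, o]
    rw [this]; exact hp.1
  · rw [mass2_lam (isLor_linv isLor_rot12)]
    exact hp.2

include N hG hB hq hmem hJ in
/-- the values of the deformed potential on the virial current, second null vector -/
theorem exists_kap2 : ∃ κ : ℂ, ∀ g, PC (mftS g) →
    (pt φ B (G (nu (-1)) (J 0 (fl g) Q.vac)) = κ * g 0 ∧
    pt φ B (G (nu (-1)) (J 1 (fl g) Q.vac)) = -(κ * g 0) ∧
    pt φ B (G (nu (-1)) (J 2 (fl g) Q.vac)) = 0 ∧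
    pt φ B (G (nu (-1)) (J 3 (fl g) Q.vac)) = 0) ∧
    pt φ B (G (nu 1) (J 0 (fl g) Q.vac)) = κ * g 0 ∧
    pt φ B (G (nu 1) (J 1 (fl g) Q.vac)) = κ * g 0 ∧
    pt φ B (G (nu 1) (J 2 (fl g) Q.vac)) = 0 ∧
    pt φ B (G (nu 1) (J 3 (fl g) Q.vac)) = 0 := by
  obtain ⟨κ, hκ⟩ := exists_kap N hG hmem hB hq hJ
  refine ⟨κ, fun g hg => ⟨hκ g hg, ?_⟩⟩
  have ha : IsNull (nu (-1)) := isNull_nu (Or.inr rfl)
  have hb : IsNull (nu 1) := isNull_nu (Or.inl rfl)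
  have h := fun m => ze_J N hG hmem hB hq hJ one_pos one_pos isLor_rot12 ha hb rot12_nu m g
  have hg' := PC_sim hg isLor_rot12 Vp_rot12
  obtain ⟨a0, a1, a2, a3⟩ := hκ _ hg'
  have e : simS 1 one_pos isLor_rot12 0 g 0 = g 0 := by
    rw [simS_apply]
    congr 1
    ext n
    simp [sim]
  rw [e] at a0 a1
  refine ⟨?_, ?_, ?_, ?_⟩
  · rw [h 0, Fin.sum_univ_four, a0, a1, a2, a3]
    simp [mRot12]
  · rw [h 1, Fin.sum_univ_four, a0, a1, a2, a3]
    simp [mRot12]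
  · rw [h 2, Fin.sum_univ_four, a0, a1, a2, a3]
    simp [mRot12]
  · rw [h 3, Fin.sum_univ_four, a0, a1, a2, a3]
    simp [mRot12]

include hJ in
lemma U1_J (y : Mink) (m : Ix) (g : 𝓢(Mink, ℂ)) :
    U1 Q (-y) (J m (fl g) Q.vac) = J m (fl (tauS (-y) g)) Q.vac := by
  have h1 := U_fld (Q.bose_fld _ (hJ.bose m)) g (-y) Q.vac
  have h3 : U1 Q (-y) (J m (fl g) Q.vac) = J m (fl (tauS (-y) g)) (U1 Q (-y) Q.vac) := h1
  rw [h3, U1_vac]

lemma tauS_neg_zero (y : Mink) (g : 𝓢(Mink, ℂ)) : tauS (-y) g 0 = g y := by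
  rw [tauS_apply]
  congr 1
  simp

include N hG hB hq hmem hJ in
/-- explicit form of the smeared values -/
theorem exists_kap3 : ∃ κ : ℂ, ∀ g, PC (mftS g) → ∀ y,
    (pt φ B (G (nu (-1)) (U1 Q (-y) (J 0 (fl g) Q.vac))) = κ * g y ∧
    pt φ B (G (nu (-1)) (U1 Q (-y) (J 1 (fl g) Q.vac))) = -(κ * g y) ∧
    pt φ B (G (nu (-1)) (U1 Q (-y) (J 2 (fl g) Q.vac))) = 0 ∧
    pt φ B (G (nu (-1)) (U1 Q (-y) (J 3 (fl g) Q.vac))) = 0) ∧
    pt φ B (G (nu 1) (U1 Q (-y) (J 0 (fl g) Q.vac))) = κ * g y ∧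
    pt φ B (G (nu 1) (U1 Q (-y) (J 1 (fl g) Q.vac))) = κ * g y ∧
    pt φ B (G (nu 1) (U1 Q (-y) (J 2 (fl g) Q.vac))) = 0 ∧
    pt φ B (G (nu 1) (U1 Q (-y) (J 3 (fl g) Q.vac))) = 0 := by
  obtain ⟨κ, hκ⟩ := exists_kap2 N hG hmem hB hq hJ
  refine ⟨κ, fun g hg y => ?_⟩
  have h := hκ _ (PC_tauS hg (-y))
  rw [tauS_neg_zero] at h
  simp only [U1_J hJ]
  exact h

end

end Vale.Agent.P352.H246R

end
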