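import Vale.Agent.P352.H246.Part

set_option linter.all false

noncomputable section

open MeasureTheory SchwartzMap Complex Filter Topology
open scoped SchwartzMap ComplexConjugate ENNReal LineDeriv NNReal

namespace Vale.Agent.P352.H246

open GF (Ix V Fn Sch ev pd bar sim one bas o)

variable {D : Type*} [NormedAddCommGroup D] [InnerProductSpace ℂ D]
variable {Q : GF.Theory D} {W : Set Mink}

/-! ### Directional derivatives -/

lemma fld_sumf {B : GF.Fld D} (hB : Q.fld B) {ι : Type*} (s : Finset ι) (c : ι → ℂ)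
    (g : ι → 𝓢(Mink, ℂ)) (v : D) :
    B (fl (∑ i ∈ s, c i • g i)) v = ∑ i ∈ s, c i • B (fl (g i)) v := by
  classical
  induction s using Finset.induction_on with
  | empty => simp only [Finset.sum_empty]; exact fld_zero hB v
  | insert i s hi ih =>
    rw [Finset.sum_insert hi, Finset.sum_insert hi, fld_addf hB, fld_smulf hB, ih]

lemma fld_sumv {B : GF.Fld D} (hB : Q.fld B) (g : 𝓢(Mink, ℂ)) {ι : Type*} (s : Finset ι)
    (c : ι → ℂ) (w : ι → D) :
    B (fl g) (∑ i ∈ s, c i • w i) = ∑ i ∈ s, c i • B (fl g) (w i) := by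
  classical
  induction s using Finset.induction_on with
  | empty =>
    simp only [Finset.sum_empty]
    have := fld_smul hB g 0 (0 : D)
    rwa [zero_smul, zero_smul] at this
  | insert i s hi ih =>
    rw [Finset.sum_insert hi, Finset.sum_insert hi, fld_add hB, fld_smul hB, ih]

lemma sum_eb (b : Mink) : b = ∑ n, b n • (eb n : Mink) := by
  ext i
  fin_cases i <;> simp [Fin.sum_univ_four, eb]

lemma lineDeriv_dir (b : Mink) (g : 𝓢(Mink, ℂ)) :
    (∂_{b} g : 𝓢(Mink, ℂ)) = ∑ n, (b n : ℂ) • (∂_{eb n} g : 𝓢(Mink, ℂ)) := by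
  ext x
  rw [lineDerivOp_apply_eq_fderiv]
  conv_lhs => rw [sum_eb b]
  rw [map_sum, SchwartzMap.sum_apply]
  refine Finset.sum_congr rfl fun n _ => ?_
  rw [map_smul, smul_apply, lineDerivOp_apply_eq_fderiv]
  simp

/-- the derivative in the direction `b` -/
def Db (Q : GF.Theory D) (b : Mink) (v : D) : D := ∑ n, (b n : ℂ) • Dv Q n v

lemma pw_sum {ι : Type*} (s : Finset ι) {w : ι → D} (h : ∀ i ∈ s, PW Q W (w i)) :
    PW Q W (∑ i ∈ s, w i) := by
  classical
  induction s using Finset.induction_on with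
  | empty => simpa using pw_zero
  | insert i s hi ih =>
    rw [Finset.sum_insert hi]
    exact .add (h i (Finset.mem_insert_self _ _)) (ih fun j hj => h j (Finset.mem_insert_of_mem hj))

lemma pw_Db {v : D} (b : Mink) (hv : PW Q W v) : PW Q W (Db Q b v) :=
  pw_sum _ fun n _ => .smul _ (pw_Dv n hv)

lemma Dv_vac (m : Ix) : Dv Q m Q.vac = 0 := by
  apply Dv_eq
  simp only [U1_vac]
  exact hasDerivAt_const _ _

lemma hasDeriv_dir {v : D} (b : Mink) (hv : PW Q W v) :
    HasDerivAt (fun t : ℝ => U1 Q (t • b) v) (Db Q b v) 0 := by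
  induction hv with
  | vac =>
    have : Db Q b Q.vac = 0 := by simp [Db, Dv_vac]
    rw [this]
    simp only [U1_vac]
    exact hasDerivAt_const _ _
  | @add v w hv hw h1 h2 =>
    have : Db Q b (v + w) = Db Q b v + Db Q b w := by
      unfold Db
      rw [← Finset.sum_add_distrib]
      refine Finset.sum_congr rfl fun n _ => ?_
      rw [Dv_add n hv hw, smul_add]
    rw [this]
    simp only [U1_add]
    exact h1.add h2
  | @smul c v hv h1 =>
    have : Db Q b (c • v) = c • Db Q b v := by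
      unfold Db
      rw [Finset.smul_sum]
      refine Finset.sum_congr rfl fun n _ => ?_
      rw [Dv_smul n c hv, smul_comm]
    rw [this]
    simp only [U1_smul]
    exact h1.const_smul c
  | @fld B g v hB hg hv h1 =>
    have h2 := deriv_fld b hB hg hv (pw_Db b hv) h1
    have : Db Q b (B (fl g) v) = B (fl (-(∂_{b} g : 𝓢(Mink, ℂ)))) v + B (fl g) (Db Q b v) := by
      unfold Db
      rw [fld_sumv hB, fld_negf hB, lineDeriv_dir, fld_sumf hB, ← Finset.sum_neg_distrib,
        ← Finset.sum_add_distrib]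
      refine Finset.sum_congr rfl fun n _ => ?_
      rw [Dv_fld n hB hg hv, smul_add, fld_negf hB, smul_neg]
    rw [this]
    exact h2

/-! ### Similitudes -/

section

variable {s : ℝ} (hs : 0 < s) {L : Ix → V} (hL : GF.IsLor L) (a : V)

/-- the linear part -/
def simE : Mink ≃L[ℝ] Mink :=
  (lamE hL).trans (ContinuousLinearEquiv.smulLeft (Units.mk0 s hs.ne'))

lemma simE_apply (x : Mink) : simE hs hL x = s • lam L x := rfl

/-- the similitude as a homeomorphism -/
def simH : Mink ≃ₜ Mink :=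
  (simE hs hL).toHomeomorph.trans (Homeomorph.addLeft (WithLp.toLp 2 a))

lemma simH_apply (x : Mink) : simH hs hL a x = WithLp.toLp 2 (sim s L a x.ofLp) := by
  ext n
  simp [simH, simE_apply, sim]

lemma simS_eqH (f : 𝓢(Mink, ℂ)) : (simS s hs hL a f : Mink → ℂ) = f ∘ simH hs hL a := by
  ext x
  rw [simS_apply, Function.comp_apply, simH_apply]

/-- the inverse substitution -/
def simJ (g : 𝓢(Mink, ℂ)) : 𝓢(Mink, ℂ) :=
  tauS (WithLp.toLp 2 a) (SchwartzMap.compCLMOfContinuousLinearEquiv ℂ (simE hs hL).symm g)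

lemma simS_simJ (g : 𝓢(Mink, ℂ)) : simS s hs hL a (simJ hs hL a g) = g := by
  ext x
  rw [simS_eqH, Function.comp_apply]
  simp only [simJ, tauS_apply]
  have : simH hs hL a x - WithLp.toLp 2 a = simE hs hL x := by
    simp [simH]
  rw [this]
  simp

lemma simJ_simS (g : 𝓢(Mink, ℂ)) : simJ hs hL a (simS s hs hL a g) = g := by
  ext x
  obtain ⟨y, rfl⟩ := (simH hs hL a).surjective x
  have h := congrFun (congrArg DFunLike.coe (simS_simJ hs hL a (simS s hs hL a g))) y
  rw [simS_eqH, Function.comp_apply] at h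
  rw [h, simS_eqH]
  rfl

lemma isTest_simS' {W : Set V} {f : 𝓢(Mink, ℂ)} (h : IsTest (MW W) (simS s hs hL a f)) :
    IsTest (MW (sim s L a '' W)) f := by
  unfold IsTest at h ⊢
  rw [simS_eqH, tsupport_comp_eq_preimage] at h
  have hc : HasCompactSupport f := by
    have := h.1.comp_homeomorph (simH hs hL a).symm
    have e : (f ∘ simH hs hL a) ∘ (simH hs hL a).symm = f := by
      ext x; simp
    rwa [e] at this
  refine ⟨hc, fun x hx => ?_⟩
  obtain ⟨y, rfl⟩ := (simH hs hL a).surjective x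
  have := h.2 hx
  rw [simH_apply]
  exact ⟨y.ofLp, this, rfl⟩

lemma isTest_simS_univ {f : 𝓢(Mink, ℂ)} (h : IsTest Set.univ f) :
    IsTest Set.univ (simS s hs hL a f) := by
  refine ⟨?_, Set.subset_univ _⟩
  rw [simS_eqH]
  exact h.1.comp_homeomorph _

include hs in
lemma sim_wed (b : V) (r : ℝ) : sim s L a '' (Wed one b r) ⊆ Wed L (sim s L a b) r := by
  rintro _ ⟨_, ⟨y, hy, rfl⟩, rfl⟩
  refine ⟨fun i => s * y i, ?_, ?_⟩
  · rw [abs_mul, abs_of_pos hs]
    calc s * |y 0| < s * (r * y 1) := by gcongr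
      _ = r * (s * y 1) := by ring
  · funext n
    simp only [sim, one, bas, Fin.sum_univ_four]
    simp
    ring

lemma Rt_zero : Rt 0 0 = one := by
  funext m n
  fin_cases m <;> fin_cases n <;> simp [Rt, one, bas]

end

/-- well behaved similitudes -/
structure Tran (Q : GF.Theory D) (s : ℝ) (L : Ix → V) (a : V) : Prop where
  pw : ∀ v, PW Q Set.univ v → PW Q Set.univ (Q.U s L a v)
  en : ∀ k, ∃ C, 0 ≤ C ∧ ∀ v, PW Q Set.univ v → en Q k (Q.U s L a v) ≤ C * en Q k v
  al : ∀ W X X', Al Q W X X' → ∃ Y Y', Al Q (sim s L a '' W) Y Y' ∧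
    (∀ v, Q.U s L a (X v) = Y (Q.U s L a v)) ∧ ∀ v, Q.U s L a (X' v) = Y' (Q.U s L a v)

lemma Al.finsum {W : Set V} {ι : Type*} (s : Finset ι) {X X' : ι → D → D}
    (h : ∀ i ∈ s, Al Q W (X i) (X' i)) :
    Al Q W (fun v => ∑ i ∈ s, X i v) (fun v => ∑ i ∈ s, X' i v) := by
  classical
  induction s using Finset.induction_on with
  | empty => simpa using Al.zero
  | insert i s hi ih =>
    simp only [Finset.sum_insert hi]
    exact Al.add _ _ _ _ (h i (Finset.mem_insert_self _ _))
      (ih fun j hj => h j (Finset.mem_insert_of_mem hj))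

section

variable {s : ℝ} (hs : 0 < s) {L : Ix → V} (hL : GF.IsLor L) {a : V} (hC : Cov Q s L a)
include hs hL hC

lemma U_norm' (v : D) : ‖Q.U s L a v‖ = ‖v‖ := by
  have h := Q.U_inner s L a v v hs hL
  rw [inner_self_eq_norm_sq_to_K, inner_self_eq_norm_sq_to_K] at h
  have h2 : ‖Q.U s L a v‖ ^ 2 = ‖v‖ ^ 2 := by exact_mod_cast h
  exact (pow_left_inj₀ (norm_nonneg _) (norm_nonneg _) (by norm_num)).1 h2

lemma cov_fl {B : GF.Fld D} (hB : Q.fld B) : ∃ (n : ℕ) (c : Fin n → ℂ) (A : Fin n → GF.Fld D),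
    (∀ i, Q.fld (A i)) ∧ ∀ g v, Q.U s L a (B (fl g) v) =
      ∑ i, c i • A i (fl (simJ hs hL a g)) (Q.U s L a v) := by
  obtain ⟨n, c, A, hA, h⟩ := hC.2 B hB
  refine ⟨n, c, A, hA, fun g v => ?_⟩
  rw [← h _ _ (isTest_fl _), fl_sim s hs hL a, simS_simJ]

lemma isTest_simJ {W : Set V} {g : 𝓢(Mink, ℂ)} (hg : IsTest (MW W) g) :
    IsTest (MW (sim s L a '' W)) (simJ hs hL a g) := by
  apply isTest_simS' hs hL a
  rwa [simS_simJ]

lemma cov_pw {v : D} (hv : PW Q Set.univ v) : PW Q Set.univ (Q.U s L a v) := by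
  induction hv with
  | vac => rw [Q.U_vac _ _ _ hs hL]; exact .vac
  | add _ _ h1 h2 => rw [U_add hs hL]; exact .add h1 h2
  | smul c _ h1 => rw [U_smul hs hL]; exact .smul c h1
  | @fld B g v hB hg _ h1 =>
    obtain ⟨n, c, A, hA, h⟩ := cov_fl hs hL hC hB
    rw [h]
    refine pw_sum _ fun i _ => .smul _ (.fld (hA i) ?_ h1)
    exact isTest_univ (isTest_simJ (W := Set.univ) hs hL hC hg)

/-- the group law -/
lemma cov_group {v : D} (hv : PW Q Set.univ v) (b : Mink) :
    U1 Q (s • lam L b) (Q.U s L a v) = Q.U s L a (U1 Q b v) := by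
  induction hv with
  | vac => rw [U1_vac, Q.U_vac _ _ _ hs hL, U1_vac]
  | add _ _ h1 h2 => rw [U1_add, U_add hs hL, U1_add, U_add hs hL, h1, h2]
  | smul c _ h1 => rw [U1_smul, U_smul hs hL, U1_smul, U_smul hs hL, h1]
  | @fld B g v hB hg _ h1 =>
    obtain ⟨n, c, A, hA, h⟩ := cov_fl hs hL hC hB
    have e1 : U1 Q b (B (fl g) v) = B (fl (tauS b g)) (U1 Q b v) := U_fld hB g b v
    rw [e1, h, h, ← h1]
    have hlin : ∀ w : Fin n → D, U1 Q (s • lam L b) (∑ i, c i • w i) =
        ∑ i, c i • U1 Q (s • lam L b) (w i) := by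
      intro w
      have := map_sum (LinearMap.mk ⟨U1 Q (s • lam L b), U1_add _⟩ (U1_smul _) : D →ₗ[ℂ] D)
        (fun i => c i • w i) Finset.univ
      simp only [LinearMap.coe_mk, AddHom.coe_mk] at this
      rw [this]
      refine Finset.sum_congr rfl fun i _ => U1_smul _ _ _
    rw [hlin]
    refine Finset.sum_congr rfl fun i _ => ?_
    have e2 : U1 Q (s • lam L b) (A i (fl (simJ hs hL a g)) (Q.U s L a v)) =
        A i (fl (tauS (s • lam L b) (simJ hs hL a g))) (U1 Q (s • lam L b) (Q.U s L a v)) :=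
      U_fld (hA i) _ _ _
    rw [e2]
    congr 3
    ext x
    obtain ⟨y, rfl⟩ := (simH hs hL a).surjective x
    have e3 : simJ hs hL a (tauS b g) (simH hs hL a y) = tauS b g y := by
      have := congrFun (congrArg DFunLike.coe (simS_simJ hs hL a (tauS b g))) y
      rwa [simS_eqH, Function.comp_apply] at this
    have e4 : ∀ y, simJ hs hL a g (simH hs hL a y) = g y := by
      intro y
      have := congrFun (congrArg DFunLike.coe (simS_simJ hs hL a g)) y
      rwa [simS_eqH, Function.comp_apply] at this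
    rw [e3, tauS_apply, tauS_apply, ← e4]
    congr 1
    have : simH hs hL a (y - b) = simH hs hL a y - simE hs hL b := by
      simp [simH]
      abel
    rw [this, simE_apply]

lemma hasDerivAt_U {f : ℝ → D} {f' : D} {t : ℝ} (h : HasDerivAt f f' t) :
    HasDerivAt (fun s' => Q.U s L a (f s')) (Q.U s L a f') t := by
  rw [hasDerivAt_iff_isLittleO_nhds_zero] at h ⊢
  refine Asymptotics.IsLittleO.congr_left
    (f₁ := fun h => Q.U s L a (f (t + h) - f t - h • f')) ?_ ?_
  · exact Asymptotics.IsLittleO.of_norm_left (by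
      simp only [U_norm' hs hL hC]; exact h.norm_left)
  · intro r
    have e1 : r • f' = (r : ℂ) • f' := rfl
    have e2 : r • Q.U s L a f' = (r : ℂ) • Q.U s L a f' := rfl
    have hsub : ∀ x y : D, Q.U s L a (x - y) = Q.U s L a x - Q.U s L a y := by
      intro x y
      have h1 : x - y = x + (-1 : ℂ) • y := by rw [neg_one_smul, sub_eq_add_neg]
      rw [h1, U_add hs hL, U_smul hs hL, neg_one_smul, ← sub_eq_add_neg]
    rw [e1, e2, hsub, hsub, U_smul hs hL]

lemma cov_Dv {v : D} (hv : PW Q Set.univ v) (m : Ix) : Dv Q m (Q.U s L a v) =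
    Q.U s L a (Db Q ((simE hs hL).symm (eb m)) v) := by
  apply Dv_eq
  have h := hasDerivAt_U hs hL hC (hasDeriv_dir ((simE hs hL).symm (eb m)) hv)
  refine h.congr_of_eventuallyEq (Eventually.of_forall fun t => ?_)
  show U1 Q (t • eb m) (Q.U s L a v) = Q.U s L a (U1 Q (t • (simE hs hL).symm (eb m)) v)
  rw [← cov_group hs hL hC hv, ← simE_apply hs hL, map_smul,
    ContinuousLinearEquiv.apply_symm_apply]

lemma cov_en (k : ℕ) : ∃ C, 0 ≤ C ∧ ∀ v, PW Q Set.univ v →
    en Q k (Q.U s L a v) ≤ C * en Q k v := by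
  induction k with
  | zero =>
    refine ⟨1, zero_le_one, fun v hv => ?_⟩
    simp only [en]
    rw [U_norm' hs hL hC, one_mul]
  | succ k ih =>
    obtain ⟨C, hC0, h⟩ := ih
    set E : ℝ := ∑ m : Ix, ∑ n : Ix, |(simE hs hL).symm (eb m) n| with hE
    have hE0 : 0 ≤ E := Finset.sum_nonneg fun m _ => Finset.sum_nonneg fun n _ => abs_nonneg _
    refine ⟨C * (1 + E), by positivity, fun v hv => ?_⟩
    have hdb : ∀ m : Ix, en Q k (Db Q ((simE hs hL).symm (eb m)) v) ≤
        ∑ n : Ix, |(simE hs hL).symm (eb m) n| * en Q k (Dv Q n v) := by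
      intro m
      have key : ∀ t : Finset Ix, en Q k (∑ n ∈ t, (((simE hs hL).symm (eb m) n : ℝ) : ℂ) •
          Dv Q n v) ≤ ∑ n ∈ t, |(simE hs hL).symm (eb m) n| * en Q k (Dv Q n v) := by
        intro t
        classical
        induction t using Finset.induction_on with
        | empty => simp [en_zero]
        | insert i t hi iht =>
          rw [Finset.sum_insert hi, Finset.sum_insert hi]
          have p1 : PW Q Set.univ ((((simE hs hL).symm (eb m) i : ℝ) : ℂ) • Dv Q i v) :=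
            .smul _ (pw_Dv i hv)
          refine (en_add k p1 (pw_sum _ fun n _ => .smul _ (pw_Dv n hv))).trans ?_
          refine add_le_add ?_ iht
          rw [en_smul k _ (pw_Dv i hv), norm_real, Real.norm_eq_abs]
      exact key Finset.univ
    have hle : ∀ n : Ix, en Q k (Dv Q n v) ≤ ∑ n, en Q k (Dv Q n v) := fun n =>
      Finset.single_le_sum (f := fun n => en Q k (Dv Q n v)) (fun n _ => en_nonneg k _)
        (Finset.mem_univ n)
    set G : ℝ := ∑ n, en Q k (Dv Q n v) with hG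
    have hG0 : 0 ≤ G := Finset.sum_nonneg fun n _ => en_nonneg k _
    have h1 : ∑ m, en Q k (Dv Q m (Q.U s L a v)) ≤ C * (E * G) := by
      calc ∑ m, en Q k (Dv Q m (Q.U s L a v)) ≤
          ∑ m : Ix, C * ((∑ n : Ix, |(simE hs hL).symm (eb m) n|) * G) := by
            refine Finset.sum_le_sum fun m _ => ?_
            rw [cov_Dv hs hL hC hv]
            refine (h _ (pw_Db _ hv)).trans ?_
            refine mul_le_mul_of_nonneg_left ((hdb m).trans ?_) hC0
            rw [Finset.sum_mul]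
            exact Finset.sum_le_sum fun n _ => mul_le_mul_of_nonneg_left (hle n) (abs_nonneg _)
        _ = C * (E * G) := by
            rw [← Finset.mul_sum, ← Finset.sum_mul]
    have h2 := h v hv
    have h3 := en_nonneg (Q := Q) k v
    simp only [en]
    rw [← hG]
    calc _ ≤ C * en Q k v + C * (E * G) := add_le_add h2 h1
      _ ≤ C * (1 + E) * (en Q k v + G) := by
        have a1 : 0 ≤ C * E * en Q k v := by positivity
        have a2 : 0 ≤ C * G := by positivity
        nlinarith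

lemma cov_al {W : Set V} {X X' : D → D} (hX : Al Q W X X') :
    ∃ Y Y', Al Q (sim s L a '' W) Y Y' ∧ (∀ v, Q.U s L a (X v) = Y (Q.U s L a v)) ∧
    ∀ v, Q.U s L a (X' v) = Y' (Q.U s L a v) := by
  have h1 : ∃ Y Y', Al Q (sim s L a '' W) Y Y' ∧ (∀ v, Q.U s L a (X v) = Y (Q.U s L a v)) := by
    induction hX with
    | one => exact ⟨_, _, .one, fun v => rfl⟩
    | add X X' Z Z' _ _ ih1 ih2 =>
      obtain ⟨Y1, Y1', h1, e1⟩ := ih1
      obtain ⟨Y2, Y2', h2, e2⟩ := ih2
      exact ⟨_, _, .add _ _ _ _ h1 h2, fun v => by rw [U_add hs hL, e1, e2]⟩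
    | smul c X X' _ ih =>
      obtain ⟨Y1, Y1', h1, e1⟩ := ih
      exact ⟨_, _, .smul c _ _ h1, fun v => by rw [U_smul hs hL, e1]⟩
    | fld B B' g X X' hB hB' hadj hg _ ih =>
      obtain ⟨Y1, Y1', h1, e1⟩ := ih
      obtain ⟨g, rfl, hg2⟩ := exists_In hg
      obtain ⟨n, c, A, hA, h⟩ := cov_fl hs hL hC hB
      choose A' hA' hadj' using fun i => Q.adj (A i) (hA i)
      refine ⟨_, _, Al.finsum Finset.univ fun i _ => Al.smul (c i) _ _
        (Al.fld (A i) (A' i) (fl (simJ hs hL a g)) _ _ (hA i) (hA' i) (hadj' i)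
          (In_fl.2 (isTest_simJ hs hL hC hg2)) h1), fun v => ?_⟩
      rw [h, e1]
  obtain ⟨Y, Y', hY, e⟩ := h1
  refine ⟨Y, Y', hY, e, fun z => ?_⟩
  have h2 := hC.1.equalizer (g := fun y => (inner ℂ (Q.U s L a (X' z)) y : ℂ))
    (h := fun y => inner ℂ (Y' (Q.U s L a z)) y) (by fun_prop) (by fun_prop) (by
      funext w
      simp only [Function.comp_apply]
      rw [Q.U_inner _ _ _ _ _ hs hL, hX.adj', hY.adj', ← e, Q.U_inner _ _ _ _ _ hs hL])
  exact ext_inner_right ℂ fun y => congrFun h2 y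

lemma tran_of_cov : Tran Q s L a :=
  ⟨fun v => cov_pw hs hL hC, cov_en hs hL hC, fun W X X' => cov_al hs hL hC⟩

end

end Vale.Agent.P352.H246

end
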