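import Vale.Agent.P352.H246.Main

set_option linter.all false

noncomputable section

open MeasureTheory SchwartzMap Complex Filter Topology
open scoped SchwartzMap ComplexConjugate ENNReal LineDeriv NNReal

namespace Vale.Agent.P352.H246

open GF (Ix V Fn Sch ev pd bar sim one bas o)

variable {D : Type*} [NormedAddCommGroup D] [InnerProductSpace ℂ D]
variable {Q : GF.Theory D} {T : Ix → Ix → GF.Fld D}

lemma orth_of_wedge {θ φ : ℝ} {a : V} {u : D}
    (h : ∀ v, PW Q (MW (Wed (Rt θ φ) a (-1))) v → inner ℂ u v = 0) : u = 0 := by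
  apply PW.orth (Q := Q)
  intro v hv
  have hb := big_wed θ φ a
  apply eq_of_small (K := ‖u‖)
  intro ε hε _
  obtain ⟨v', hv', h1⟩ := dense_en hb 0 hv hε
  have e : inner ℂ u v - 0 = inner ℂ u (v - v') := by
    rw [inner_sub_right, h v' hv']
  rw [e]
  refine (norm_inner_le_norm _ _).trans ?_
  have : ‖v - v'‖ ≤ ε := (norm_le_en 0 _).trans h1.le
  gcongr

/-- the vacuum separates local operator valued distributions -/
lemma van {B B' : 𝓢(Mink, ℂ) → D → D}
    (hadj : ∀ f v w, inner ℂ (B f v) w = inner ℂ v (B' (conjS f) w))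
    (hloc : ∀ f a X X', IsTest (MW (Wed (Rt 0 0) a 1)) f → Al Q (Wed (Rt 0 0) a (-1)) X X' →
      B' f (X Q.vac) = X (B' f Q.vac))
    (hvac : ∀ f, IsTest Set.univ f → B' f Q.vac = 0) (hcont : ∀ v, Continuous fun f => B f v)
    (f : 𝓢(Mink, ℂ)) (w : D) : B f w = 0 := by
  have hc : ∀ f, IsTest Set.univ f → B f w = 0 := by
    intro f hf
    obtain ⟨a, ha, _⟩ := exists_far_test hf hf 0 0
    apply orth_of_wedge (Q := Q) (θ := 0) (φ := 0) (a := a)
    intro v hv
    obtain ⟨X, X', hX, rfl⟩ := exists_Al hv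
    have ha' := isTest_conj ha
    rw [hadj, hloc _ _ _ _ ha' hX, hvac _ (isTest_univ ha')]
    have : X 0 = 0 := by
      have := hX.map_smul 0 0
      rwa [zero_smul, zero_smul] at this
    rw [this, inner_zero_right]
  obtain ⟨g, hg, hlim⟩ := exists_compact_seq f
  have h1 := ((hcont w).tendsto f).comp hlim
  have h2 : ((fun g : 𝓢(Mink, ℂ) => B g w) ∘ g) = fun _ => 0 := by
    funext n
    exact hc _ ⟨hg n, Set.subset_univ _⟩
  rw [h2] at h1
  exact tendsto_nhds_unique h1 tendsto_const_nhds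

lemma bose_comm {L : GF.Fld D} (hL : Q.bose L) {W : Set V} {f : 𝓢(Mink, ℂ)}
    (hsep : ∀ G, IsTest (MW W) G → SpSep f G) {X X' : D → D} (h : Al Q W X X') :
    ∀ v, L (fl f) (X v) = X (L (fl f) v) := by
  have hf := Q.bose_fld _ hL
  induction h with
  | one => intro v; rfl
  | add X X' Y Y' _ _ ih1 ih2 => intro v; rw [fld_add hf, ih1, ih2]
  | smul c X X' _ ih => intro v; rw [fld_smul hf, ih]
  | fld B B' g X X' hB hB' h hg _ ih =>
    intro v
    obtain ⟨G, rfl, hG⟩ := exists_In hg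
    rw [Q.loc L B (fl f) (fl G) _ hL hB (isTest_fl _) (isTest_fl _) (sep_fl (hsep G hG)), ih]

/-- a local field whose action on the vacuum is the potential is hermitian and makes the
improved stress tensor traceless -/
theorem field_of_vac (hT : Q.IsStress T) {l : Fn → UniformSpace.Completion D}
    (hl : IsPot Q T l)
    (hrel : ∀ L a f X X', GF.IsLor L → In (Wed L a 1) f → Al Q (Wed L a (-1)) X X' →
      inner ℂ ((X' Q.vac : D) : UniformSpace.Completion D) (l f) =
        inner ℂ (l (bar f)) ((X Q.vac : D) : UniformSpace.Completion D))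
    {L : GF.Fld D} (hL : Q.bose L)
    (h : ∀ f, GF.IsTest f → ((L f Q.vac : D) : UniformSpace.Completion D) = l f) :
    (∀ f v w, GF.IsTest f → inner ℂ (L f v) w = inner ℂ v (L (bar f) w)) ∧
    ∀ f v, GF.IsTest f → GF.tr (GF.improve T L) f v = 0 := by
  have hf := Q.bose_fld _ hL
  obtain ⟨L', hL', hadj⟩ := Q.adj L hf
  have hadj1 : ∀ (f : 𝓢(Mink, ℂ)) v w, inner ℂ (L (fl f) v) w =
      inner ℂ v (L' (fl (conjS f)) w) := by
    intro f v w
    rw [hadj _ _ _ (isTest_fl f), bar_fl]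
  have hadj2 : ∀ (f : 𝓢(Mink, ℂ)) v w, inner ℂ (L' (fl f) v) w =
      inner ℂ v (L (fl (conjS f)) w) := by
    intro f v w
    rw [← inner_conj_symm, ← conjS_conjS f, ← hadj1, inner_conj_symm, conjS_conjS]
  have hcm : ∀ f a X X', IsTest (MW (Wed (Rt 0 0) a 1)) f → Al Q (Wed (Rt 0 0) a (-1)) X X' →
      ∀ v, L (fl f) (X v) = X (L (fl f) v) := fun f a X X' hf hX =>
    bose_comm hL (fun G hG => wed_sep (isLor_Rt 0 0) a hf hG) hX
  have hcm' : ∀ f a X X', IsTest (MW (Wed (Rt 0 0) a 1)) f → Al Q (Wed (Rt 0 0) a (-1)) X X' →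
      ∀ v, L' (fl f) (X v) = X (L' (fl f) v) := by
    intro f a X X' hf hX v
    refine ext_inner_right ℂ fun w => ?_
    rw [hadj2, hX.adj, hX.adj, hadj2, hcm _ a _ _ (isTest_conj hf) hX.star]
  have hv1 : ∀ f, IsTest Set.univ f → L' (fl f) Q.vac = L (fl f) Q.vac := by
    intro f hf
    obtain ⟨a, ha, _⟩ := exists_far_test hf hf 0 0
    rw [← sub_eq_zero]
    apply orth_of_wedge (Q := Q) (θ := 0) (φ := 0) (a := a)
    intro v hv
    obtain ⟨X, X', hX, rfl⟩ := exists_Al hv
    have ha' := isTest_conj ha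
    have h1 := hrel (Rt 0 0) a (fl (conjS f)) X X' (isLor_Rt 0 0) (In_fl.2 ha') hX
    rw [bar_fl, conjS_conjS, ← h _ (isTest_fl _), ← h _ (isTest_fl _),
      UniformSpace.Completion.inner_coe, UniformSpace.Completion.inner_coe, hX.adj',
      ← hcm _ a _ _ ha' hX] at h1
    rw [inner_sub_left, ← h1, sub_eq_zero, hadj2]
  -- hermiticity
  have hz : ∀ (f : 𝓢(Mink, ℂ)) (v : D), L' (fl f) v - L (fl f) v = 0 := by
    intro f v
    refine van (Q := Q) (B := fun f v => L' (fl f) v - L (fl f) v)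
      (B' := fun f v => L (fl f) v - L' (fl f) v) ?_ ?_ ?_ ?_ f v
    · intro f v w
      rw [inner_sub_left, inner_sub_right, hadj1, hadj2]
    · intro f a X X' hf hX
      rw [hcm f a X X' hf hX, hcm' f a X X' hf hX]
      have := (hX.map_add (L (fl f) Q.vac) ((-1 : ℂ) • L' (fl f) Q.vac))
      rw [hX.map_smul, neg_one_smul, neg_one_smul, ← sub_eq_add_neg, ← sub_eq_add_neg] at this
      exact this.symm
    · intro f hf
      rw [hv1 f hf, sub_self]
    · intro v
      exact (fld_cont hL' v).sub (fld_cont hf v)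
  have hherm : ∀ f v w, GF.IsTest f → inner ℂ (L f v) w = inner ℂ v (L (bar f) w) := by
    intro f v w hf'
    obtain ⟨F, rfl⟩ := exists_fl hf'
    rw [bar_fl, hadj1, sub_eq_zero.1 (hz (conjS F) w)]
  refine ⟨hherm, ?_⟩
  have hA := PField.tr hT
  have hz2 : ∀ (f : 𝓢(Mink, ℂ)) (v : D),
      GF.tr T (fl f) v - (3 : ℂ) • L (fl (boxS f)) v = 0 := by
    intro f v
    refine van (Q := Q) (B := fun f v => GF.tr T (fl f) v - (3 : ℂ) • L (fl (boxS f)) v)
      (B' := fun f v => GF.tr T (fl f) v - (3 : ℂ) • L (fl (boxS f)) v) ?_ ?_ ?_ ?_ f v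
    · intro f v w
      rw [inner_sub_left, inner_sub_right, inner_smul_left, inner_smul_right, hA.herm,
        hherm _ _ _ (isTest_fl _), bar_fl, conjS_boxS, map_ofNat]
    · intro f a X X' hf hX
      rw [hcm _ a X X' (isTest_box hf) hX, hX.comm hA (fun G hG => wed_sep (isLor_Rt 0 0) a hf hG)]
      have := (hX.map_add (GF.tr T (fl f) Q.vac) ((-1 : ℂ) • ((3 : ℂ) • L (fl (boxS f)) Q.vac)))
      rw [hX.map_smul, hX.map_smul, neg_one_smul, neg_one_smul, ← sub_eq_add_neg,
        ← sub_eq_add_neg] at this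
      exact this.symm
    · intro f hf'
      rw [sub_eq_zero]
      have h1 := hl.trace (fl f) (isTest_fl _)
      rw [box_fl, ← h _ (isTest_fl _), ← UniformSpace.Completion.coe_smul] at h1
      exact (UniformSpace.Completion.coe_injective D h1).symm
    · intro v
      exact (hA.cont v).sub (((fld_cont hf v).comp continuous_boxS).const_smul (3 : ℂ))
  intro f v hf'
  obtain ⟨F, rfl⟩ := exists_fl hf'
  rw [tr_improve hf, hz2]

/-- conformal improvements by scalar fields are extensions of the potential -/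
theorem ext_of_scalar (hT : Q.IsStress T) {l : Fn → UniformSpace.Completion D}
    (hl : IsPot Q T l) {L : GF.Fld D} (hL : Q.IsScalar L 2)
    (h : ∀ f v, GF.IsTest f → GF.tr (GF.improve T L) f v = 0) :
    (∀ f, GF.IsTest f → ((L f Q.vac : D) : UniformSpace.Completion D) = l f) ∧
    IsExt Q T l fun f v => ((L f v : D) : UniformSpace.Completion D) := by
  have hf := Q.bose_fld _ hL.1
  have hv : ∀ f, GF.IsTest f → ((L f Q.vac : D) : UniformSpace.Completion D) = l f :=
    fun f hf => hl.unique (isPot_of_scalar hT hL h) f hf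
  refine ⟨hv, fun f hf' => hv f hf'.1, ?_, ?_, ?_, ?_, ?_, ?_⟩
  · intro f g c v hf' hg _
    rw [Q.lin L f g c v hf hf'.1 hg.1, UniformSpace.Completion.coe_add,
      UniformSpace.Completion.coe_smul]
  · intro f c v w hf' _ _
    obtain ⟨F, rfl⟩ := exists_fl hf'.1
    rw [fld_add hf, fld_smul hf, UniformSpace.Completion.coe_add,
      UniformSpace.Completion.coe_smul]
  · intro f v w hf' _ _
    rw [UniformSpace.Completion.inner_coe, UniformSpace.Completion.inner_coe,
      hL.2.1 _ _ _ (isTest_bar hf'.1), bar_bar]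
  · intro A B f g v z hA hB hadj hf' hg hs _
    rw [UniformSpace.Completion.inner_coe, UniformSpace.Completion.inner_coe,
      Q.loc L A f g v hL.1 hA hf'.1 hg.1 hs, ← inner_conj_symm z, hadj _ _ _ hg.1,
      inner_conj_symm]
  · intro s M a f v z hs hM _ hf' _
    have e : (s ^ ((4 : ℝ) - 2) : ℝ) = s ^ 2 := by
      rw [show ((4 : ℝ) - 2) = ((2 : ℕ) : ℝ) by norm_num, Real.rpow_natCast]
    rw [hL.2.2 s M a f v hs hM hf'.1, e, UniformSpace.Completion.coe_smul, inner_smul_right,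
      UniformSpace.Completion.inner_coe, UniformSpace.Completion.inner_coe,
      Q.U_inner _ _ _ _ _ hs hM]
  · intro f v hf' _
    obtain ⟨F, rfl⟩ := exists_fl hf'.1
    have h1 := h (fl F) v hf'.1
    rw [tr_improve hf, sub_eq_zero] at h1
    rw [h1, box_fl, UniformSpace.Completion.coe_smul]

/-- the main theorem -/
theorem main2 (hT : Q.IsStress T) : ∃ l : Fn → UniformSpace.Completion D, IsPot Q T l ∧
    (∀ l', IsPot Q T l' → ∀ f, GF.IsTest f → l' f = l f) ∧
    (∀ L, Q.IsScalar L 2 → (∀ f v, GF.IsTest f → GF.tr (GF.improve T L) f v = 0) →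
      (∀ f, GF.IsTest f → ((L f Q.vac : D) : UniformSpace.Completion D) = l f) ∧
      IsExt Q T l fun f v => ((L f v : D) : UniformSpace.Completion D)) ∧
    (∀ L, Q.bose L → (∀ f, GF.IsTest f →
      ((L f Q.vac : D) : UniformSpace.Completion D) = l f) →
      (∀ f v w, GF.IsTest f → inner ℂ (L f v) w = inner ℂ v (L (bar f) w)) ∧
      ∀ f v, GF.IsTest f → GF.tr (GF.improve T L) f v = 0) ∧
    (∀ L a f X X', GF.IsLor L → In (Wed L a 1) f → Al Q (Wed L a (-1)) X X' →
      inner ℂ ((X' Q.vac : D) : UniformSpace.Completion D) (l f) =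
        inner ℂ (l (bar f)) ((X Q.vac : D) : UniformSpace.Completion D)) ∧
    ((∃ Λ, IsExt Q T l Λ ∧ Bdd Q Λ) ↔ WedBdd Q l) ∧
    ∀ Λ Λ', IsExt Q T l Λ → Bdd Q Λ → IsExt Q T l Λ' → Bdd Q Λ' →
      ∀ f v, In Set.univ f → Gen Q Set.univ v → Λ f v = Λ' f v := by
  obtain ⟨l, h1, h2, h3, h4, h5, h6⟩ := main hT
  exact ⟨l, h1, h2, fun L hL h => ext_of_scalar hT h1 hL h,
    fun L hL h => field_of_vac hT h1 h4 hL h, h4, h5, h6⟩

end Vale.Agent.P352.H246

end
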