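import Vale.Agent.P352.H246.Compl

set_option linter.all false

noncomputable section

open MeasureTheory SchwartzMap Complex Filter Topology
open scoped SchwartzMap ComplexConjugate ENNReal LineDeriv NNReal Uniformity

namespace Vale.Agent.P352.H246

open GF (Ix V Fn Sch ev pd bar sim one bas o)

variable {D : Type*} [NormedAddCommGroup D] [InnerProductSpace ℂ D]
variable {Q : GF.Theory D}

/-- products of fields smeared with Schwartz functions, with their adjoints -/
inductive WO (Q : GF.Theory D) : (D → D) → (D → D) → Prop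
  | one : WO Q (fun v => v) (fun v => v)
  | fld (A B : GF.Fld D) (f : 𝓢(Mink, ℂ)) (X X' : D → D) : Q.fld A → Q.fld B →
      (∀ f v w, GF.IsTest f → inner ℂ (A f v) w = inner ℂ v (B (bar f) w)) → WO Q X X' →
      WO Q (fun v => X (A (fl f) v)) (fun v => B (fl (conjS f)) (X' v))

lemma WO.adj {X X' : D → D} (h : WO Q X X') : ∀ v w, inner ℂ (X v) w = inner ℂ v (X' w) := by
  induction h with
  | one => intro v w; rfl
  | fld A B f X X' hA hB hadj _ ih =>
    intro v w
    rw [ih, hadj _ _ _ (isTest_fl f), bar_fl]

lemma WO.map_add {X X' : D → D} (h : WO Q X X') (v w : D) : X (v + w) = X v + X w := by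
  refine ext_inner_right ℂ fun u => ?_
  rw [inner_add_left, h.adj, h.adj, h.adj, inner_add_left]

lemma WO.map_smul {X X' : D → D} (h : WO Q X X') (c : ℂ) (v : D) : X (c • v) = c • X v := by
  refine ext_inner_right ℂ fun u => ?_
  rw [inner_smul_left, h.adj, h.adj, inner_smul_left]

lemma WO.left {X X' : D → D} (h : WO Q X X') {A B : GF.Fld D} (hA : Q.fld A) (hB : Q.fld B)
    (hadj : ∀ f v w, GF.IsTest f → inner ℂ (A f v) w = inner ℂ v (B (bar f) w))
    (f : 𝓢(Mink, ℂ)) :
    WO Q (fun v => A (fl f) (X v)) (fun v => X' (B (fl (conjS f)) v)) := by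
  induction h with
  | one => exact .fld A B f _ _ hA hB hadj .one
  | fld A1 B1 f1 X X' hA1 hB1 hadj1 _ ih =>
    exact .fld A1 B1 f1 _ _ hA1 hB1 hadj1 ih

/-- strong continuity of products of fields -/
lemma WO.cont {X X' : D → D} (h : WO Q X X') {A : GF.Fld D} (hA : Q.fld A) (v : D) :
    Continuous fun f : 𝓢(Mink, ℂ) => X (A (fl f) v) := by
  have := barrelled_schwartz
  set Ψ : 𝓢(Mink, ℂ) →ₗ[ℂ] D :=
    { toFun := fun f => X (A (fl f) v)
      map_add' := fun f g => by rw [fld_addf hA, h.map_add]
      map_smul' := fun c f => by rw [fld_smulf hA, h.map_smul]; rfl } with hΨ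
  refine cont_of_weak Ψ (Z := Set.univ) dense_univ fun z _ => ?_
  have e : (fun f : 𝓢(Mink, ℂ) => inner ℂ z (Ψ f)) = fun f => inner ℂ (X' z) (A (fl f) v) := by
    funext f
    show inner ℂ z (X (A (fl f) v)) = _
    rw [← inner_conj_symm, h.adj, inner_conj_symm]
  rw [e]
  exact continuous_const.inner (fld_cont hA v)

/-- the polynomial vectors as a subspace -/
def PS (Q : GF.Theory D) (W : Set Mink) : Submodule ℂ D where
  carrier := {v | PW Q W v}
  add_mem' := fun h h' => .add h h'
  zero_mem' := pw_zero
  smul_mem' := fun c _ h => .smul c h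

lemma WO.mem_closure {X X' : D → D} (h : WO Q X X') : ∀ w, PW Q Set.univ w →
    X w ∈ closure (PS Q Set.univ : Set D) := by
  induction h with
  | one => intro w hw; exact subset_closure hw
  | fld A B f X X' hA hB hadj h ih =>
    intro w hw
    obtain ⟨g, hg, hlim⟩ := exists_compact_seq f
    have h1 := ((h.cont hA w).tendsto f).comp hlim
    refine isClosed_closure.mem_of_tendsto h1 (Eventually.of_forall fun n => ?_)
    exact ih _ (.fld hA ⟨hg n, Set.subset_univ _⟩ hw)

/-- the polynomial vectors are dense -/
theorem dense_PS : Dense (PS Q Set.univ : Set D) := by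
  set S : Submodule ℂ D := Submodule.span ℂ {v | ∃ X X', WO Q X X' ∧ v = X Q.vac} with hS
  have hSP : (S : Set D) ⊆ ((PS Q Set.univ).topologicalClosure : Set D) := by
    apply Submodule.span_le.2
    rintro v ⟨X, X', hX, rfl⟩
    exact hX.mem_closure _ .vac
  have hd : Dense (S : Set D) := by
    apply Q.cyclic S
    · exact Submodule.subset_span ⟨_, _, .one, rfl⟩
    · intro A f v hA hf hv
      obtain ⟨F, rfl⟩ := exists_fl hf
      obtain ⟨B, hB, hadj⟩ := Q.adj A hA
      induction hv using Submodule.span_induction with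
      | mem v hv =>
        obtain ⟨X, X', hX, rfl⟩ := hv
        exact Submodule.subset_span ⟨_, _, hX.left hA hB hadj F, rfl⟩
      | zero =>
        have := fld_smul hA F 0 (0 : D)
        rw [zero_smul, zero_smul] at this
        rw [this]
        exact S.zero_mem
      | add v w _ _ h1 h2 =>
        rw [fld_add hA]
        exact S.add_mem h1 h2
      | smul c v _ h1 =>
        rw [fld_smul hA]
        exact S.smul_mem c h1
  intro v
  have h1 : v ∈ closure (S : Set D) := hd v
  have h2 : closure (S : Set D) ⊆ closure (PS Q Set.univ : Set D) :=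
    closure_minimal hSP isClosed_closure
  exact h2 h1

theorem dense_big {S : Set Mink} (hS : Big S) : Dense (PS Q S : Set D) := by
  have h1 : (PS Q Set.univ : Set D) ⊆ closure (PS Q S : Set D) := by
    intro v hv
    rw [Metric.mem_closure_iff]
    intro ε hε
    obtain ⟨v', hv', h⟩ := dense_en hS 0 hv hε
    exact ⟨v', hv', by rw [dist_eq_norm]; exact (norm_le_en 0 _).trans_lt h⟩
  intro v
  have h2 := dense_PS (Q := Q) v
  exact closure_minimal h1 isClosed_closure h2

/-- the polynomial vectors in the Hilbert space -/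
def PC (Q : GF.Theory D) (S : Set Mink) : Set (UniformSpace.Completion D) :=
  (fun v : D => (v : UniformSpace.Completion D)) '' (PS Q S : Set D)

theorem dense_PC {S : Set Mink} (hS : Big S) : Dense (PC Q S) :=
  (UniformSpace.Completion.denseRange_coe).dense_image
    (UniformSpace.Completion.continuous_coe D) (dense_big hS)

/-- vectors of the Hilbert space are determined by their scalar products with local vectors -/
lemma ext_big {S : Set Mink} (hS : Big S) {x y : UniformSpace.Completion D}
    (h : ∀ v, PW Q S v → inner ℂ (v : UniformSpace.Completion D) x =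
      inner ℂ (v : UniformSpace.Completion D) y) : x = y := by
  refine (dense_PC (Q := Q) hS).eq_of_inner_right ℂ ?_
  rintro _ ⟨v, hv, rfl⟩
  exact h v hv

end Vale.Agent.P352.H246

end
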