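import Vale.Agent.P352.H246.Rad3
import Mathlib.Analysis.LocallyConvex.Barrelled
import Mathlib.Analysis.Calculus.SmoothSeries

set_option linter.all false

noncomputable section

open MeasureTheory SchwartzMap Complex Filter Topology
open scoped SchwartzMap ComplexConjugate ENNReal LineDeriv NNReal Uniformity

namespace Vale.Agent.P352.H246

/-! ### Completeness of Schwartz space -/

/-- evaluation of derivatives -/
def evD (l : ℕ) (x : Mink) : 𝓢(Mink, ℂ) →+ (Mink [×l]→L[ℝ] ℂ) where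
  toFun f := iteratedFDeriv ℝ l f x
  map_zero' := by
    have : ((0 : 𝓢(Mink, ℂ)) : Mink → ℂ) = fun _ => 0 := rfl
    rw [this]
    simp
  map_add' f g := by
    have : (⇑(f + g) : Mink → ℂ) = ⇑f + ⇑g := rfl
    rw [this, iteratedFDeriv_add_apply (f.smooth l).contDiffAt (g.smooth l).contDiffAt]

lemma evD_apply (l : ℕ) (x : Mink) (f : 𝓢(Mink, ℂ)) : evD l x f = iteratedFDeriv ℝ l f x := rfl

lemma norm_evD_le (k l : ℕ) (x : Mink) (f : 𝓢(Mink, ℂ)) :
    ‖x‖ ^ k * ‖evD l x f‖ ≤ SchwartzMap.seminorm ℂ k l f := le_seminorm ℂ k l f x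

/-- absolutely convergent series converge -/
theorem exists_sum (d : ℕ → 𝓢(Mink, ℂ))
    (h : ∀ k l, Summable fun i => SchwartzMap.seminorm ℂ k l (d i)) :
    ∃ S : 𝓢(Mink, ℂ), Tendsto (fun n => ∑ i ∈ Finset.range n, d i) atTop (𝓝 S) := by
  set F : Mink → ℂ := fun x => ∑' i, d i x with hF
  have h0 : ∀ (l i : ℕ) (x : Mink), ‖iteratedFDeriv ℝ l (d i) x‖ ≤
      SchwartzMap.seminorm ℂ 0 l (d i) := by
    intro l i x
    have := norm_evD_le 0 l x (d i)
    rwa [pow_zero, one_mul] at this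
  have hFs : ContDiff ℝ ((⊤ : ℕ∞) : WithTop ℕ∞) F :=
    contDiff_tsum (v := fun l i => SchwartzMap.seminorm ℂ 0 l (d i)) (fun i => (d i).smooth ⊤)
      (fun l _ => h 0 l) (fun l i x _ => h0 l i x)
  have hFd : ∀ (l : ℕ) (x : Mink), iteratedFDeriv ℝ l F x = ∑' i, evD l x (d i) := fun l x =>
    iteratedFDeriv_tsum_apply (N := ⊤) (v := fun l i => SchwartzMap.seminorm ℂ 0 l (d i))
      (fun i => (d i).smooth ⊤) (fun l _ => h 0 l) (fun l i x _ => h0 l i x) (by simp) x
  have hs : ∀ (k l : ℕ) (x : Mink), Summable fun i => ‖x‖ ^ k * ‖evD l x (d i)‖ := fun k l x =>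
    (h k l).of_nonneg_of_le (fun i => by positivity) (fun i => norm_evD_le k l x (d i))
  have hn : ∀ (l : ℕ) (x : Mink), Summable fun i => ‖evD l x (d i)‖ := fun l x => by
    simpa using hs 0 l x
  have hb : ∀ (k l n : ℕ) (x : Mink), ‖x‖ ^ k * ‖∑' i, evD l x (d (i + n))‖ ≤
      ∑' i, SchwartzMap.seminorm ℂ k l (d (i + n)) := by
    intro k l n x
    have h1 : ‖∑' i, evD l x (d (i + n))‖ ≤ ∑' i, ‖evD l x (d (i + n))‖ :=
      norm_tsum_le_tsum_norm ((summable_nat_add_iff (f := fun i => ‖evD l x (d i)‖) n).2 (hn l x))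
    calc _ ≤ ‖x‖ ^ k * ∑' i, ‖evD l x (d (i + n))‖ := by gcongr
      _ = ∑' i, ‖x‖ ^ k * ‖evD l x (d (i + n))‖ := (tsum_mul_left).symm
      _ ≤ _ := by
        refine Summable.tsum_le_tsum (fun i => norm_evD_le k l x _) ?_ ?_
        · exact (summable_nat_add_iff (f := fun i => ‖x‖ ^ k * ‖evD l x (d i)‖) n).2 (hs k l x)
        · exact (summable_nat_add_iff (f := fun i => SchwartzMap.seminorm ℂ k l (d i)) n).2
            (h k l)
  set S : 𝓢(Mink, ℂ) := ⟨F, hFs, fun k l => ⟨_, fun x => by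
    rw [hFd]
    exact hb k l 0 x⟩⟩ with hS
  refine ⟨S, ?_⟩
  rw [(schwartz_withSeminorms ℂ Mink ℂ).tendsto_nhds]
  intro i ε hε
  have ht := tendsto_sum_nat_add fun j => SchwartzMap.seminorm ℂ i.1 i.2 (d j)
  filter_upwards [ht.eventually_lt_const hε] with n hn'
  refine lt_of_le_of_lt ?_ hn'
  change SchwartzMap.seminorm ℂ i.1 i.2 (∑ i ∈ Finset.range n, d i - S) ≤ _
  refine seminorm_le_bound ℂ i.1 i.2 _ (tsum_nonneg fun j => apply_nonneg _ _) fun x => ?_
  have e1 : iteratedFDeriv ℝ i.2 (⇑(∑ i ∈ Finset.range n, d i - S)) x =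
      -∑' j, evD i.2 x (d (j + n)) := by
    have e2 : iteratedFDeriv ℝ i.2 (⇑(∑ i ∈ Finset.range n, d i - S)) x =
        evD i.2 x (∑ i ∈ Finset.range n, d i - S) := rfl
    have e3 : evD i.2 x S = ∑' j, evD i.2 x (d j) := hFd i.2 x
    rw [e2, map_sub, map_sum, e3, ← (Summable.of_norm (hn i.2 x)).sum_add_tsum_nat_add n]
    abel
  rw [e1, norm_neg]
  exact hb i.1 i.2 n x

lemma countable_schwartz : (𝓤 (𝓢(Mink, ℂ))).IsCountablyGenerated :=
  IsUniformAddGroup.uniformity_countably_generated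

/-- Schwartz space is complete -/
theorem complete_schwartz : CompleteSpace 𝓢(Mink, ℂ) := by
  have := countable_schwartz
  set U : ℕ → Set (𝓢(Mink, ℂ) × 𝓢(Mink, ℂ)) := fun N => {p | ∀ k ≤ N, ∀ l ≤ N,
    SchwartzMap.seminorm ℂ k l (p.2 - p.1) < (1 / 2 : ℝ) ^ N} with hU
  refine UniformSpace.complete_of_convergent_controlled_sequences U (fun N => ?_) fun u hu => ?_
  · rw [uniformity_eq_comap_nhds_zero]
    refine ⟨{f | ∀ k ≤ N, ∀ l ≤ N, SchwartzMap.seminorm ℂ k l f < (1 / 2 : ℝ) ^ N}, ?_,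
      fun p hp => hp⟩
    have h1 : ∀ k l, ∀ᶠ f : 𝓢(Mink, ℂ) in 𝓝 0,
        SchwartzMap.seminorm ℂ k l f < (1 / 2 : ℝ) ^ N := by
      intro k l
      have hc : Continuous (SchwartzMap.seminorm ℂ k l : 𝓢(Mink, ℂ) → ℝ) :=
        (schwartz_withSeminorms ℂ Mink ℂ).continuous_seminorm (k, l)
      have := hc.tendsto 0
      rw [map_zero] at this
      exact this.eventually_lt_const (by positivity)
    have h2 : ∀ᶠ f : 𝓢(Mink, ℂ) in 𝓝 0, ∀ k ∈ Set.Iic N, ∀ l ∈ Set.Iic N,
        SchwartzMap.seminorm ℂ k l f < (1 / 2 : ℝ) ^ N := by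
      rw [eventually_all_finite (Set.finite_Iic N)]
      intro k _
      rw [eventually_all_finite (Set.finite_Iic N)]
      exact fun l _ => h1 k l
    exact h2
  · have h1 : ∀ k l i, k ≤ i → l ≤ i → SchwartzMap.seminorm ℂ k l (u (i + 1) - u i) <
        (1 / 2 : ℝ) ^ i := fun k l i hk hl => hu i i (i + 1) le_rfl (Nat.le_succ i) k hk l hl
    obtain ⟨S, hS⟩ := exists_sum (fun i => u (i + 1) - u i) (fun k l => by
      refine (summable_nat_add_iff (f := fun i => SchwartzMap.seminorm ℂ k l (u (i + 1) - u i))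
        (max k l)).1 ?_
      refine Summable.of_nonneg_of_le (fun i => apply_nonneg _ _)
        (fun i => (h1 k l (i + max k l) ?_ ?_).le) ?_
      · exact (le_max_left k l).trans (Nat.le_add_left _ _)
      · exact (le_max_right k l).trans (Nat.le_add_left _ _)
      · exact (summable_nat_add_iff (f := fun i => (1 / 2 : ℝ) ^ i) (max k l)).2
          summable_geometric_two)
    refine ⟨u 0 + S, ?_⟩
    have h2 : ∀ n, u 0 + ∑ i ∈ Finset.range n, (u (i + 1) - u i) = u n := by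
      intro n
      rw [Finset.sum_range_sub]
      abel
    exact ((tendsto_const_nhds (x := u 0)).add hS).congr h2

theorem barrelled_schwartz : BarrelledSpace ℂ 𝓢(Mink, ℂ) := by
  have := countable_schwartz
  have := complete_schwartz
  infer_instance

/-- Schwartz functions that vanish outside of `K` -/
def DK (K : Set Mink) : Submodule ℂ 𝓢(Mink, ℂ) where
  carrier := {f | ∀ x ∉ K, f x = 0}
  add_mem' := fun {f g} hf hg x hx => by rw [add_apply, hf x hx, hg x hx, add_zero]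
  zero_mem' := fun x _ => rfl
  smul_mem' := fun c f hf x hx => by rw [smul_apply, hf x hx, smul_zero]

lemma isClosed_DK (K : Set Mink) : IsClosed (DK K : Set 𝓢(Mink, ℂ)) := by
  have : (DK K : Set 𝓢(Mink, ℂ)) = ⋂ x ∈ Kᶜ, {f | f x = 0} := by
    ext f
    simp [DK]
  rw [this]
  refine isClosed_biInter fun x _ => ?_
  have hc : Continuous fun f : 𝓢(Mink, ℂ) => f x := by
    exact (BoundedContinuousFunction.evalCLM ℂ x).continuous.comp
      (toBoundedContinuousFunctionCLM ℂ Mink ℂ).continuous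
  exact isClosed_eq hc continuous_const

theorem barrelled_DK (K : Set Mink) : BarrelledSpace ℂ (DK K) := by
  have := countable_schwartz
  have := complete_schwartz
  have := (isClosed_DK K).completeSpace_coe
  have : CompleteSpace (DK K) := this
  have : (𝓤 (DK K)).IsCountablyGenerated := by
    have h : 𝓤 (DK K) = comap (fun q : DK K × DK K => ((q.1 : 𝓢(Mink, ℂ)), (q.2 : 𝓢(Mink, ℂ))))
        (𝓤 𝓢(Mink, ℂ)) := uniformity_subtype
    rw [h]
    infer_instance
  infer_instance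

/-- Banach-Steinhaus for weakly continuous linear maps -/
theorem cont_of_weak {E H : Type*} [AddCommGroup E] [Module ℂ E] [TopologicalSpace E]
    [IsTopologicalAddGroup E] [BarrelledSpace ℂ E] [NormedAddCommGroup H] [InnerProductSpace ℂ H]
    (Ψ : E →ₗ[ℂ] H) {Z : Set H} (hZ : Dense Z)
    (h : ∀ z ∈ Z, Continuous fun f => inner ℂ z (Ψ f)) : Continuous Ψ := by
  set p : Seminorm ℂ E := (normSeminorm ℂ H).comp Ψ with hp
  have hpa : ∀ f, p f = ‖Ψ f‖ := fun f => rfl
  have hlsc : LowerSemicontinuous p := by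
    intro f y hy
    rw [hpa] at hy
    rcases lt_or_ge y 0 with h0 | h0
    · exact Eventually.of_forall fun f' => h0.trans_le (apply_nonneg p f')
    · have hx : 0 < ‖Ψ f‖ := h0.trans_lt hy
      have hO : IsOpen {z : H | y * ‖z‖ < ‖inner ℂ z (Ψ f)‖} :=
        isOpen_lt (continuous_const.mul continuous_norm) (by fun_prop)
      have hmem : Ψ f ∈ {z : H | y * ‖z‖ < ‖inner ℂ z (Ψ f)‖} := by
        show y * ‖Ψ f‖ < ‖inner ℂ (Ψ f) (Ψ f)‖
        rw [inner_self_eq_norm_sq_to_K, norm_pow, RCLike.norm_ofReal, abs_norm, sq]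
        gcongr
      obtain ⟨z, hz, hzZ⟩ := hZ.inter_open_nonempty _ hO ⟨_, hmem⟩
      have hc := (h z hzZ).norm
      filter_upwards [hc.tendsto f |>.eventually_const_lt hz] with f' hf'
      rw [hpa]
      have h1 := hf'.trans_le (norm_inner_le_norm z (Ψ f'))
      rw [mul_comm ‖z‖] at h1
      exact lt_of_mul_lt_mul_right h1 (norm_nonneg z)
  have hc := p.continuous_of_lowerSemicontinuous hlsc
  have h0 : ContinuousAt Ψ 0 := by
    unfold ContinuousAt
    rw [map_zero, tendsto_zero_iff_norm_tendsto_zero]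
    have := hc.tendsto 0
    rwa [map_zero] at this
  exact continuous_of_continuousAt_zero Ψ h0

end Vale.Agent.P352.H246

end
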