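import Vale.Agent.P352.H121.Vir
import Vale.Agent.P352.H496.Br5
import Vale.Agent.P352.H746.Flow3
import Vale.Agent.P352.H746.Br2
import Vale.Agent.P352.H246.Fldl
import Vale.Agent.P352.H755.R7d

/-!
# Locality of the null-plane charge of the virial current
-/

set_option linter.all false

noncomputable section

open MeasureTheory SchwartzMap Filter Topology Set
open scoped SchwartzMap ContDiff ComplexConjugate

namespace Vale.Agent.P352.H246

open GF (Ix V Fn Fld bas eta o bar)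
open H755 H496 H15 H121

variable {D : Type*} [NormedAddCommGroup D] [InnerProductSpace ℂ D]
variable {Q : GF.Theory D} {T : Ix → Ix → GF.Fld D} {J : Ix → GF.Fld D}
  {A : (V → V) → D → D} {K : V → D → D}

/-- bosonic fields commute with the polynomials at spacelike distance -/
lemma bose_al {L : GF.Fld D} (hL : Q.bose L) {f : Fn} (hf : GF.IsTest f) {W : Set V}
    (hW : ∀ x ∈ tsupport f, ∀ y ∈ W, GF.mdot (x - y) (x - y) < 0) {X X' : D → D}
    (hX : Al Q W X X') : ∀ v, L f (X v) = X (L f v) := by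
  obtain ⟨F, rfl⟩ := exists_fl hf
  induction hX with
  | one => intro v; rfl
  | add X X' Y Y' _ _ ih1 ih2 => intro v; rw [fld_add (Q.bose_fld _ hL), ih1, ih2]
  | smul c X X' _ ih => intro v; rw [Vale.Agent.P352.fld_smul (Q.bose_fld _ hL), ih]
  | fld B B' g X X' hB hB' hh hg _ ih =>
    intro v
    have hsep : GF.Sep (fl F) g := fun x hx y hy => hW x hx y (hg.2.2 hy)
    rw [Q.loc L B (fl F) g (X v) hL hB hf hg.1 hsep, ih]

/-- the component `J_a` smeared with a real function -/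
def jt (J : Ix → GF.Fld D) (a : V) (p : V → ℝ) (v : D) : D :=
  ∑ m, J m (fun x => ((eta m * a m * p x : ℝ) : ℂ)) v

lemma tst_c {p : V → ℝ} (hp : Tst p) (c : ℝ) : Tst fun x => c * p x :=
  H755.tst_smul contDiff_const hp

lemma jt_add (hJ : IsVirial Q T J) (a : V) {p q : V → ℝ} (hp : Tst p) (hq : Tst q) (v : D) :
    jt J a (fun x => p x + q x) v = jt J a p v + jt J a q v := by
  unfold jt
  rw [← Finset.sum_add_distrib]
  refine Finset.sum_congr rfl fun m _ => ?_
  have h3 := Q.lin (J m) (fun x => ((eta m * a m * p x : ℝ) : ℂ))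
    (fun x => ((eta m * a m * q x : ℝ) : ℂ)) 1 v
    (Q.bose_fld _ (hJ.bose m)) (tst_c hp _).isTest (tst_c hq _).isTest
  rw [one_smul] at h3
  rw [← h3]
  refine congrArg (fun f => J m f v) (funext fun x => ?_)
  push_cast
  ring

lemma tsup_c {p : V → ℝ} {c : ℝ} : tsupport (fun x => ((c * p x : ℝ) : ℂ)) ⊆ tsupport p := by
  refine closure_mono fun x hx => ?_
  simp only [Function.mem_support] at hx ⊢
  intro h
  exact hx (by rw [h]; simp)

lemma jt_al (hJ : IsVirial Q T J) (a : V) {p : V → ℝ} (hp : Tst p) {W : Set V}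
    (hW : ∀ x ∈ tsupport p, ∀ y ∈ W, GF.mdot (x - y) (x - y) < 0) {X X' : D → D}
    (hX : Al Q W X X') (v : D) : jt J a p (X v) = X (jt J a p v) := by
  unfold jt
  simp only [Fin.sum_univ_four]
  rw [hX.map_add, hX.map_add, hX.map_add]
  have h : ∀ m, J m (fun x => ((eta m * a m * p x : ℝ) : ℂ)) (X v) =
      X (J m (fun x => ((eta m * a m * p x : ℝ) : ℂ)) v) := fun m =>
    bose_al (hJ.bose m) (tst_c hp _).isTest (fun x hx => hW x (tsup_c hx)) hX v
  rw [h, h, h, h]

lemma jt_fld (hJ : IsVirial Q T J) (a : V) {p : V → ℝ} (hp : Tst p) {φ : GF.Fld D}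
    (hφ : Q.fld φ) {f : Fn} (hf : GF.IsTest f)
    (hW : ∀ x ∈ tsupport p, ∀ y ∈ tsupport f, GF.mdot (x - y) (x - y) < 0) (v : D) :
    jt J a p (φ f v) = φ f (jt J a p v) := by
  obtain ⟨F, rfl⟩ := exists_fl hf
  unfold jt
  simp only [Fin.sum_univ_four]
  rw [fld_add hφ, fld_add hφ, fld_add hφ]
  have h : ∀ m, J m (fun x => ((eta m * a m * p x : ℝ) : ℂ)) (φ (fl F) v) =
      φ (fl F) (J m (fun x => ((eta m * a m * p x : ℝ) : ℂ)) v) := fun m =>
    Q.loc (J m) φ _ (fl F) v (hJ.bose m) hφ (tst_c hp _).isTest hf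
      fun x hx y hy => hW x (tsup_c hx) y hy
  rw [h, h, h, h]

/-- commutation at finite `R` -/
lemma comm_R (hJ : IsVirial Q T J) {a : V} {p p1 p2 : V → ℝ} (hp1 : Tst p1) (hp2 : Tst p2)
    (hp : p = fun x => p1 x + p2 x) {φ : GF.Fld D} (hφ : Q.bose φ) {f : Fn} (hf : GF.IsTest f)
    {W : Set V}
    (h1 : ∀ x ∈ tsupport p1, ∀ y ∈ tsupport f, GF.mdot (x - y) (x - y) < 0)
    (h2 : ∀ x ∈ tsupport p2, ∀ y ∈ W, GF.mdot (x - y) (x - y) < 0)
    (h3 : ∀ x ∈ tsupport f, ∀ y ∈ W, GF.mdot (x - y) (x - y) < 0)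
    {X X' : D → D} (hX : Al Q W X X') (v : D) :
    jt J a p (φ f (X v)) - φ f (jt J a p (X v)) = X (jt J a p (φ f v) - φ f (jt J a p v)) := by
  have hφ' := Q.bose_fld _ hφ
  have hadd : ∀ u w, φ f (u + w) = φ f u + φ f w := by
    obtain ⟨F, rfl⟩ := exists_fl hf
    exact fun u w => fld_add hφ' _ _ _
  have key : ∀ v, jt J a p (φ f v) - φ f (jt J a p v) =
      jt J a p2 (φ f v) - φ f (jt J a p2 v) := by
    intro v
    rw [hp, jt_add hJ a hp1 hp2, jt_add hJ a hp1 hp2, hadd, jt_fld hJ a hp1 hφ' hf h1]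
    abel
  have hsub : ∀ u w, X (u - w) = X u - X w := by
    intro u w
    have := hX.map_add (u - w) w
    rw [sub_add_cancel] at this
    rw [this, add_sub_cancel_right]
  rw [key, key, bose_al hφ hf h3 hX, jt_al hJ a hp2 h2 hX, jt_al hJ a hp2 h2 hX,
    bose_al hφ hf h3 hX, hsub]

/-- the second moments annihilate the vacuum -/
lemma K_vac (hT : Q.IsStress T) (h : NullCharges Q T J A K) {a : V} (ha : IsNull a) :
    K a Q.vac = 0 := by
  have e : GF.sim 1 GF.one 0 a = (1 : ℝ) • a := by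
    rw [sim_one, one_smul]
    funext n
    simp
  have h1 := nc_cov hT h Q.vac two_pos one_pos isLor_one ha ha e
  rw [Q.U_vac 2 GF.one 0 two_pos isLor_one] at h1
  have h2 : ‖K a Q.vac‖ = (1 / 2) * ‖K a Q.vac‖ := by
    have h3 := congrArg norm h1
    rw [U_nrm0 two_pos isLor_one, norm_smul, Complex.norm_real,
      Real.norm_of_nonneg (by norm_num)] at h3
    exact h3
  have h4 : ‖K a Q.vac‖ = 0 := by linarith
  exact norm_eq_zero.1 h4

lemma Cop_vac (hT : Q.IsStress T) (h : NullCharges Q T J A K) {a : V} (ha : IsNull a) (b : V) :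
    Cop Q A K a b Q.vac = 0 := by
  unfold Cop
  have e1 : Q.U 1 GF.one (-b) Q.vac = Q.vac := Q.U_vac _ _ _ one_pos isLor_one
  have e2 : Q.U 1 GF.one b 0 = 0 := by
    have := U_smul (Q := Q) one_pos isLor_one b 0 0
    simpa using this
  rw [e1, K_vac hT h ha, H746.A_vac h.toRep (H846.isSim_Xw a b),
    H746.A_vac h.toRep (H846.isSim_const b), e2]
  simp

/-- a test function of the affine parameter with support near `c` and nonzero integral -/
lemma exists_bmp (c : ℝ) : ∃ G : ℝ → ℝ, Tst G ∧ (∀ u, G u ≠ 0 → |u - c| < 1) ∧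
    (∫ u, (G u : ℂ)) ≠ 0 := by
  let f : ContDiffBump c := ⟨1 / 4, 1 / 2, by norm_num, by norm_num⟩
  refine ⟨f, ⟨f.contDiff, f.hasCompactSupport⟩, fun u hu => ?_, ?_⟩
  · have h1 : u ∈ Function.support f := hu
    rw [f.support_eq, Metric.mem_ball, Real.dist_eq] at h1
    have : f.rOut = 1 / 2 := rfl
    rw [this] at h1
    linarith
  · rw [integral_complex_ofReal]
    have h1 : 0 < ∫ u, f u := f.integral_pos
    exact_mod_cast h1.ne'

section

variable {a b : V} (ha : IsNull a) (hb : IsNull b) (hab : GF.mdot a b = 1)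
include ha hb hab

lemma sep_pm {x y : V} (h1 : GF.mdot a y < GF.mdot a x) (h2 : GF.mdot b x < GF.mdot b y) :
    GF.mdot (x - y) (x - y) < 0 := by
  refine H746.sep_ab ha hb hab ?_
  rw [md_sub, md_sub]
  exact mul_neg_of_pos_of_neg (by linarith) (by linarith)

lemma sep_mp {x y : V} (h1 : GF.mdot a x < GF.mdot a y) (h2 : GF.mdot b y < GF.mdot b x) :
    GF.mdot (x - y) (x - y) < 0 := by
  refine H746.sep_ab ha hb hab ?_
  rw [md_sub, md_sub]
  exact mul_neg_of_neg_of_pos (by linarith) (by linarith)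

/-- the commutator of the charge with a bosonic field commutes with the algebra of a wedge -/
lemma cop_comm (hT : Q.IsStress T) (hJ : IsVirial Q T J) (h : NullCharges Q T J A K)
    (ht : TrNull T) {φ φ' : GF.Fld D} (hφ : Q.bose φ) (hφ' : Q.fld φ')
    (hadj : ∀ f v w, GF.IsTest f → inner ℂ (φ f v) w = inner ℂ v (φ' (bar f) w))
    {f : Fn} (hf : GF.IsTest f) (hc : HasCompactSupport f)
    (h0 : Cop Q A K a b (φ f Q.vac) = 0) : ∃ M M' : ℝ, ∀ X X',
      Al Q {y | M < GF.mdot a y ∧ GF.mdot b y < M'} X X' →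
      Cop Q A K a b (φ f (X Q.vac)) = φ f (Cop Q A K a b (X Q.vac)) := by
  -- bounds on the support
  obtain ⟨A0, hA0⟩ : ∃ A0, ∀ z ∈ tsupport f, GF.mdot a z ≤ A0 := by
    have h1 : IsCompact ((fun z : V => GF.mdot a z) '' tsupport f) :=
      IsCompact.image hc (H846.contDiff_mdot a).continuous
    obtain ⟨c, hc⟩ := h1.bddAbove
    exact ⟨c, fun z hz => hc ⟨z, hz, rfl⟩⟩
  obtain ⟨B0, hB0⟩ : ∃ B0, ∀ z ∈ tsupport f, -B0 ≤ GF.mdot b z := by
    have h1 : IsCompact ((fun z : V => GF.mdot b z) '' tsupport f) :=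
      IsCompact.image hc (H846.contDiff_mdot b).continuous
    obtain ⟨c, hc⟩ := h1.bddBelow
    exact ⟨-c, fun z hz => by rw [neg_neg]; exact hc ⟨z, hz, rfl⟩⟩
  refine ⟨A0 + 4, -B0 - 4, fun X X' hX => ?_⟩
  obtain ⟨G, hG, hGs, hG0⟩ := exists_bmp (A0 + 2)
  obtain ⟨κ, hκ, hκ1⟩ := exists_kp
  have hAd : Adm a b κ G := ⟨ha, hb, hab, hκ, hκ1, hG⟩
  set p : ℝ → V → ℝ := fun R => ctf a b κ 0 G R with hp
  have hpt : ∀ R, 1 ≤ R → Tst (p R) := fun R hR => H755.ctf_tst hAd 0 hR
  -- support of the cutoff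
  have hps : ∀ R x, p R x ≠ 0 → A0 + 1 ≤ GF.mdot a x ∧ GF.mdot a x ≤ A0 + 3 := by
    intro R x hx
    have h1 : G (GF.mdot a x) ≠ 0 := fun h => hx (by simp only [hp, ctf, h, mul_zero])
    have h2 := abs_lt.1 (hGs _ h1)
    exact ⟨by linarith [h2.1], by linarith [h2.2]⟩
  have hca := (H846.contDiff_mdot a).continuous
  have hcb := (H846.contDiff_mdot b).continuous
  set p1 : ℝ → V → ℝ := fun R x => H746.chi (GF.mdot b x + B0 + 2) * p R x with hp1
  set p2 : ℝ → V → ℝ := fun R x => (1 - H746.chi (GF.mdot b x + B0 + 2)) * p R x with hp2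
  have hchi : ContDiff ℝ ∞ fun x : V => H746.chi (GF.mdot b x + B0 + 2) :=
    H746.chi_smooth.comp (((H846.contDiff_mdot b).add contDiff_const).add contDiff_const)
  have hp1t : ∀ R, 1 ≤ R → Tst (p1 R) := fun R hR => H755.tst_smul hchi (hpt R hR)
  have hp2t : ∀ R, 1 ≤ R → Tst (p2 R) := fun R hR =>
    H755.tst_smul (contDiff_const.sub hchi) (hpt R hR)
  have hsum : ∀ R, p R = fun x => p1 R x + p2 R x := by
    intro R
    funext x
    simp only [hp1, hp2]
    ring
  have s1 : ∀ R, ∀ x ∈ tsupport (p1 R), A0 + 1 ≤ GF.mdot a x ∧ GF.mdot b x ≤ -B0 - 1 := by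
    intro R x hx
    have hcl : IsClosed {x : V | A0 + 1 ≤ GF.mdot a x ∧ GF.mdot b x ≤ -B0 - 1} :=
      (isClosed_le continuous_const hca).inter (isClosed_le hcb continuous_const)
    refine closure_minimal (fun z hz => ?_) hcl hx
    have hz' : p1 R z ≠ 0 := hz
    have h1 : p R z ≠ 0 := fun h => hz' (by simp only [hp1, h, mul_zero])
    have h2 : H746.chi (GF.mdot b z + B0 + 2) ≠ 0 := fun h => hz' (by simp only [hp1, h, zero_mul])
    refine ⟨(hps R z h1).1, ?_⟩
    by_contra hle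
    push Not at hle
    exact h2 (H746.chi_ge (by linarith))
  have s2 : ∀ R, ∀ x ∈ tsupport (p2 R), GF.mdot a x ≤ A0 + 3 ∧ -B0 - 3 ≤ GF.mdot b x := by
    intro R x hx
    have hcl : IsClosed {x : V | GF.mdot a x ≤ A0 + 3 ∧ -B0 - 3 ≤ GF.mdot b x} :=
      (isClosed_le hca continuous_const).inter (isClosed_le continuous_const hcb)
    refine closure_minimal (fun z hz => ?_) hcl hx
    have hz' : p2 R z ≠ 0 := hz
    have h1 : p R z ≠ 0 := fun h => hz' (by simp only [hp2, h, mul_zero])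
    have h2 : 1 - H746.chi (GF.mdot b z + B0 + 2) ≠ 0 :=
      fun h => hz' (by simp only [hp2, h, zero_mul])
    refine ⟨(hps R z h1).2, ?_⟩
    by_contra hle
    push Not at hle
    exact h2 (by rw [H746.chi_le (by linarith), sub_self])
  -- the identity at finite `R`
  have hR : ∀ w, ∀ R, 1 ≤ R → inner ℂ w (jt J a (p R) (φ f (X Q.vac))) -
      inner ℂ (φ' (bar f) w) (jt J a (p R) (X Q.vac)) =
      inner ℂ (X' w) (jt J a (p R) (φ f Q.vac)) -
        inner ℂ (φ' (bar f) (X' w)) (jt J a (p R) Q.vac) := by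
    intro w R hR
    have k := comm_R hJ (a := a) (hp1t R hR) (hp2t R hR) (hsum R) hφ hf
      (W := {y | A0 + 4 < GF.mdot a y ∧ GF.mdot b y < -B0 - 4})
      (fun x hx y hy => sep_pm ha hb hab (by linarith [(s1 R x hx).1, hA0 y hy])
        (by linarith [(s1 R x hx).2, hB0 y hy]))
      (fun x hx y hy => sep_mp ha hb hab (by linarith [(s2 R x hx).1, hy.1])
        (by linarith [(s2 R x hx).2, hy.2]))
      (fun x hx y hy => sep_mp ha hb hab (by linarith [hA0 x hx, hy.1])
        (by linarith [hB0 x hx, hy.2])) hX Q.vac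
    have k2 := congrArg (fun z => inner ℂ w z) k
    simp only [inner_sub_right] at k2
    rw [← hX.adj', inner_sub_right] at k2
    have e : ∀ u z, inner ℂ u (φ f z) = inner ℂ (φ' (bar f) u) z := by
      intro u z
      rw [← inner_conj_symm, hadj f z u hf, inner_conj_symm]
    rw [e, e (X' w)] at k2
    exact k2
  -- the limits
  refine ext_inner_left ℂ fun w => ?_
  have l1 := lim0 hT hJ h ht hAd (φ f (X Q.vac)) w
  have l2 := lim0 hT hJ h ht hAd (X Q.vac) (φ' (bar f) w)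
  have l3 := lim0 hT hJ h ht hAd (φ f Q.vac) (X' w)
  have l4 := lim0 hT hJ h ht hAd Q.vac (φ' (bar f) (X' w))
  rw [h0, inner_zero_right, mul_zero] at l3
  rw [Cop_vac hT h ha, inner_zero_right, mul_zero] at l4
  have l5 := l3.sub l4
  rw [sub_zero] at l5
  have l6 := (l1.sub l2).congr' (f₂ := fun R => Ja J a b κ 0 G R (φ f Q.vac) (X' w) -
    Ja J a b κ 0 G R Q.vac (φ' (bar f) (X' w))) (by
      filter_upwards [eventually_ge_atTop (1:ℝ)] with R hR1
      exact hR w R hR1)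
  have l7 := tendsto_nhds_unique l6 l5
  rw [← mul_sub] at l7
  have l8 := (mul_eq_zero.1 l7).resolve_left hG0
  have e : ∀ u z, inner ℂ u (φ f z) = inner ℂ (φ' (bar f) u) z := by
    intro u z
    rw [← inner_conj_symm, hadj f z u hf, inner_conj_symm]
  rw [e, ← sub_eq_zero]
  exact l8

lemma dens_eq {W : Set V} (hW : Big (MW W)) {d : D}
    (h : ∀ X X', Al Q W X X' → inner ℂ (X Q.vac) d = 0) : d = 0 := by
  by_contra hd
  have hn : 0 < ‖d‖ := norm_pos_iff.2 hd
  obtain ⟨X, X', hX, hlt⟩ := dens_al (Q := Q) hW d hn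
  have h1 := h X X' hX
  have h2 : inner ℂ (d - X Q.vac) d = inner ℂ d d := by
    rw [inner_sub_left, h1, sub_zero]
  have h3 : ‖inner ℂ (d - X Q.vac) d‖ ≤ ‖d - X Q.vac‖ * ‖d‖ := norm_inner_le_norm _ _
  rw [h2, inner_self_eq_norm_sq_to_K] at h3
  have h4 : ‖((‖d‖ : ℂ) ^ 2)‖ = ‖d‖ * ‖d‖ := by
    rw [norm_pow, Complex.norm_real, norm_norm, pow_two]
  have h5 : ‖d‖ * ‖d‖ ≤ ‖d - X Q.vac‖ * ‖d‖ := by
    rw [← h4]; exact h3
  have h6 : ‖d‖ ≤ ‖d - X Q.vac‖ := le_of_mul_le_mul_right h5 hn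
  rw [norm_sub_rev] at h6
  linarith

/-- locality of the charge, test functions with compact support -/
lemma cop_loc_cs (hT : Q.IsStress T) (hJ : IsVirial Q T J) (h : NullCharges Q T J A K)
    (ht : TrNull T)
    (hsym : ∀ v w, inner ℂ (Cop Q A K a b v) w = inner ℂ v (Cop Q A K a b w))
    {φ φ' : GF.Fld D} (hφ : Q.fld φ) (hφ' : Q.bose φ')
    (hadj : ∀ f v w, GF.IsTest f → inner ℂ (φ f v) w = inner ℂ v (φ' (bar f) w))
    (h0 : ∀ f, GF.IsTest f → HasCompactSupport f → Cop Q A K a b (φ' f Q.vac) = 0)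
    {f : Fn} (hf : GF.IsTest f) (hc : HasCompactSupport f) (v : D) :
    Cop Q A K a b (φ f v) = φ f (Cop Q A K a b v) := by
  have hcb : HasCompactSupport (bar f) := by
    rw [HasCompactSupport, tsupport_bar]; exact hc
  obtain ⟨M, M', hM⟩ := cop_comm ha hb hab hT hJ h ht hφ' hφ (adj_symm hadj) (isTest_bar hf) hcb
    (h0 _ (isTest_bar hf) hcb)
  have hba : GF.mdot b a = 1 := by rw [md_comm]; exact hab
  have hW : Big (MW {y : V | M < GF.mdot a y ∧ GF.mdot b y < M'}) := by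
    refine big_two (c := b - a) one_pos one_pos ?_ ?_
    · rw [md_sub, hab, ha.1, sub_zero]
    · rw [md_sub, hba, hb.1, zero_sub]
  rw [← sub_eq_zero]
  refine dens_eq (Q := Q) ha hb hab hW fun X X' hX => ?_
  have e : ∀ u z, inner ℂ u (φ f z) = inner ℂ (φ' (bar f) u) z := by
    intro u z
    rw [← inner_conj_symm, hadj f z u hf, inner_conj_symm]
  rw [inner_sub_right, ← hsym, e, ← hM X X' hX, hsym, ← e, sub_self]

/-- **Locality of the charge.** If the charge annihilates the vectors `φ' f Ω`, it commutes with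
the adjoint `φ` of the bosonic field `φ'`. -/
theorem cop_loc (hT : Q.IsStress T) (hJ : IsVirial Q T J) (h : NullCharges Q T J A K)
    (ht : TrNull T)
    (hsym : ∀ v w, inner ℂ (Cop Q A K a b v) w = inner ℂ v (Cop Q A K a b w))
    {φ φ' : GF.Fld D} (hφ : Q.fld φ) (hφ' : Q.bose φ')
    (hadj : ∀ f v w, GF.IsTest f → inner ℂ (φ f v) w = inner ℂ v (φ' (bar f) w))
    (h0 : ∀ f, GF.IsTest f → HasCompactSupport f → Cop Q A K a b (φ' f Q.vac) = 0)
    {f : Fn} (hf : GF.IsTest f) (v : D) :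
    Cop Q A K a b (φ f v) = φ f (Cop Q A K a b v) := by
  obtain ⟨F, rfl⟩ := exists_fl hf
  obtain ⟨g, hg, hlim⟩ := exists_compact_seq F
  refine ext_inner_left ℂ fun w => ?_
  rw [← hsym]
  have c1 : Continuous fun F : 𝓢(Mink, ℂ) => inner ℂ (Cop Q A K a b w) (φ (fl F) v) :=
    continuous_const.inner (fld_cont hφ v)
  have c2 : Continuous fun F : 𝓢(Mink, ℂ) => inner ℂ w (φ (fl F) (Cop Q A K a b v)) :=
    continuous_const.inner (fld_cont hφ _)
  have l1 := (c1.tendsto F).comp hlim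
  have l2 := (c2.tendsto F).comp hlim
  refine tendsto_nhds_unique l1 (l2.congr fun n => ?_)
  simp only [Function.comp_apply]
  rw [hsym, cop_loc_cs ha hb hab hT hJ h ht hsym hφ hφ' hadj h0 (isTest_fl _)
    (hasCompactSupport_fl (hg n))]

/-- **The charge vanishes** if it annihilates the vectors `φ f Ω` for a generating set `P` of
bosonic fields. -/
theorem cop_zero (hT : Q.IsStress T) (hJ : IsVirial Q T J) (h : NullCharges Q T J A K)
    (ht : TrNull T)
    (hsym : ∀ v w, inner ℂ (Cop Q A K a b v) w = inner ℂ v (Cop Q A K a b w))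
    {P : GF.Fld D → Prop} (hP : ∀ φ, P φ → Q.bose φ ∧ ∃ φ', P φ' ∧
      ∀ f v w, GF.IsTest f → inner ℂ (φ f v) w = inner ℂ v (φ' (bar f) w))
    (hd : ∀ S : Submodule ℂ D, Q.vac ∈ S → (∀ φ f v, P φ → GF.IsTest f → v ∈ S → φ f v ∈ S) →
      Dense (S : Set D))
    (h0 : ∀ φ, P φ → ∀ f, GF.IsTest f → HasCompactSupport f →
      Cop Q A K a b (φ f Q.vac) = 0) (v : D) : Cop Q A K a b v = 0 := by
  have hadd : ∀ v w, Cop Q A K a b (v + w) = Cop Q A K a b v + Cop Q A K a b w := by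
    intro v w
    refine ext_inner_left ℂ fun u => ?_
    rw [← hsym, inner_add_right, inner_add_right, hsym, hsym]
  have hsmul : ∀ (c : ℂ) v, Cop Q A K a b (c • v) = c • Cop Q A K a b v := by
    intro c v
    refine ext_inner_left ℂ fun u => ?_
    rw [← hsym, inner_smul_right, inner_smul_right, hsym]
  let S : Submodule ℂ D :=
    { carrier := {v | Cop Q A K a b v = 0}
      add_mem' := fun {v w} hv hw => by
        show Cop Q A K a b (v + w) = 0
        rw [hadd, show Cop Q A K a b v = 0 from hv, show Cop Q A K a b w = 0 from hw, add_zero]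
      zero_mem' := by
        show Cop Q A K a b 0 = 0
        have := hsmul 0 0
        simpa using this
      smul_mem' := fun c v hv => by
        show Cop Q A K a b (c • v) = 0
        rw [hsmul, show Cop Q A K a b v = 0 from hv, smul_zero] }
  have hS : Dense (S : Set D) := by
    refine hd S (Cop_vac hT h ha b) fun φ f v hφ hf hv => ?_
    obtain ⟨hb1, φ', hφ', hadj⟩ := hP φ hφ
    show Cop Q A K a b (φ f v) = 0
    rw [cop_loc ha hb hab hT hJ h ht hsym (Q.bose_fld _ hb1) (hP φ' hφ').1 hadj (h0 φ' hφ') hf,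
      show Cop Q A K a b v = 0 from hv]
    obtain ⟨F, rfl⟩ := exists_fl hf
    have := Vale.Agent.P352.fld_smul (Q.bose_fld _ hb1) F 0 0
    simpa using this
  refine hS.eq_zero_of_inner_left ℂ (x := Cop Q A K a b v) fun w hw => ?_
  rw [hsym v w, show Cop Q A K a b w = 0 from hw, inner_zero_right]

end

end Vale.Agent.P352.H246

end
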