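import Vale.Agent.P352.H246.Vir

set_option linter.all false

noncomputable section

open MeasureTheory SchwartzMap Complex Filter Topology
open scoped SchwartzMap ComplexConjugate ENNReal LineDeriv NNReal

namespace Vale.Agent.P352.H246

open GF (Ix V Fn Sch ev pd bar sim one bas o)
open UniformSpace (Completion)

variable {D : Type*} [NormedAddCommGroup D] [InnerProductSpace ℂ D]
variable {D' : Type*} [NormedAddCommGroup D'] [InnerProductSpace ℂ D']
variable {Q : GF.Theory D} {T : Ix → Ix → GF.Fld D}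
variable {Q' : GF.Theory D'} {T' : Ix → Ix → GF.Fld D'} {i : D →ₗᵢ[ℂ] D'}

/-! ### Uniqueness of local extensions -/

/-- local extensions are unique -/
theorem IsExt.unique {l : Fn → Completion D} {Λ Λ' : Fn → D → Completion D}
    (h : IsExt Q T l Λ) (h' : IsExt Q T l Λ') {f : Fn} (hf : In Set.univ f) {v : D}
    (hv : Gen Q Set.univ v) : Λ f v = Λ' f v := by
  obtain ⟨F, rfl⟩ := exists_fl hf.1
  have hF := in_univ.1 hf
  obtain ⟨a, ha, _⟩ := exists_far_test hF hF 0 0
  have ha' := isTest_conj ha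
  have hfa : In (Wed (Rt 0 0) a 1) (fl (conjS F)) := In_fl.2 ha'
  have hfb : In Set.univ (fl (conjS F)) := in_univ.2 (isTest_univ ha')
  have gv : Gen Q Set.univ Q.vac := gen_iff.2 .vac
  apply ext_big (Q := Q) (big_wed 0 0 a)
  intro y hy
  obtain ⟨Y, Y', hY, rfl⟩ := exists_Al hy
  have hw : Gen Q Set.univ (Y Q.vac) := gen_iff.2 (hY.pwu .vac)
  have e1 : Λ (fl (conjS F)) (Y Q.vac) = Λ' (fl (conjS F)) (Y Q.vac) := by
    apply ext_coe
    intro z
    rw [← h.al (isLor_Rt 0 0) hfa hY z Q.vac gv, ← h'.al (isLor_Rt 0 0) hfa hY z Q.vac gv,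
      h.vac _ hfb, h'.vac _ hfb]
  rw [h.herm _ _ _ hf hw hv, h'.herm _ _ _ hf hw hv, bar_fl, e1]

/-- the vectors generated by the fields are dense -/
theorem dense_gen_univ (Q : GF.Theory D) : Dense {v : D | Gen Q Set.univ v} := by
  have : {v : D | Gen Q Set.univ v} = (PS Q Set.univ : Set D) := by
    ext v
    exact gen_iff
  rw [this]
  exact dense_PS

/-! ### Improvements by fields of the theory -/

theorem imp_of_scalar (hT : Q.IsStress T) {l : Fn → Completion D} (hl : IsPot Q T l)
    {L : GF.Fld D} (hL : Q.IsScalar L 2)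
    (h : ∀ f v, GF.IsTest f → GF.tr (GF.improve T L) f v = 0) :
    IsImp Q T l fun f v => ((L f v : D) : Completion D) where
  toIsExt := (ext_of_scalar hT hl hL h).2
  cont K v _ _ := ((UniformSpace.Completion.continuous_coe D).comp
    (Q.cont L v (Q.bose_fld _ hL.1))).continuousOn
  cova s M a f v z hs hM hf _ := by
    have e : (s ^ ((4 : ℝ) - 2) : ℝ) = s ^ 2 := by
      rw [show ((4 : ℝ) - 2) = ((2 : ℕ) : ℝ) by norm_num, Real.rpow_natCast]
    rw [hL.2.2 s M a f v hs hM hf.1, e, UniformSpace.Completion.coe_smul, inner_smul_right,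
      UniformSpace.Completion.inner_coe, UniformSpace.Completion.inner_coe,
      Q.U_inner _ _ _ _ _ hs hM]

/-! ### Subsectors -/

/-- the isometry as a map into the big Hilbert space -/
def iC (i : D →ₗᵢ[ℂ] D') : D →L[ℂ] Completion D' :=
  (UniformSpace.Completion.toComplL (𝕜 := ℂ) (E := D')).comp i.toContinuousLinearMap

/-- the isometry of the Hilbert spaces -/
def iH (i : D →ₗᵢ[ℂ] D') : Completion D →L[ℂ] Completion D' :=
  (iC i).extend (UniformSpace.Completion.toComplL (𝕜 := ℂ) (E := D))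

lemma iH_coe (i : D →ₗᵢ[ℂ] D') (v : D) : iH i (v : Completion D) = ((i v : D') : Completion D') :=
  (iC i).extend_eq (UniformSpace.Completion.denseRange_coe)
    (UniformSpace.Completion.isUniformInducing_coe D) v

/-- the compression -/
def iA (i : D →ₗᵢ[ℂ] D') : Completion D' →L[ℂ] Completion D :=
  ContinuousLinearMap.adjoint (iH i)

lemma inner_iA (i : D →ₗᵢ[ℂ] D') (v : D) (x : Completion D') :
    inner ℂ (v : Completion D) (iA i x) = inner ℂ ((i v : D') : Completion D') x := by
  rw [iA, ContinuousLinearMap.adjoint_inner_right, iH_coe]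

lemma iA_coe (i : D →ₗᵢ[ℂ] D') (v : D) : iA i ((i v : D') : Completion D') =
    (v : Completion D) := by
  apply ext_coe
  intro z
  rw [inner_iA, UniformSpace.Completion.inner_coe, UniformSpace.Completion.inner_coe,
    i.inner_map_map]

lemma IsSub.tr (h : IsSub Q T Q' T' i) {f : Fn} (v : D) (hf : GF.IsTest f) :
    i (GF.tr T f v) = GF.tr T' f (i v) := by
  unfold GF.tr
  rw [map_sum]
  refine Finset.sum_congr rfl fun m _ => ?_
  rw [map_smul, h.stress m m f v hf]

lemma IsSub.gen (h : IsSub Q T Q' T' i) {v : D} (hv : Gen Q Set.univ v) :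
    Gen Q' Set.univ (i v) := by
  rw [gen_iff] at hv ⊢
  induction hv with
  | vac => rw [h.vac]; exact .vac
  | add _ _ h1 h2 => rw [map_add]; exact .add h1 h2
  | smul c _ h1 => rw [map_smul]; exact .smul c h1
  | @fld B g v hB hg _ h1 =>
    obtain ⟨B', hB', hadj⟩ := Q.adj B hB
    obtain ⟨A1, B1, hA1, hB1, hadj1, e1, e2⟩ := h.fld B B' hB hB' hadj
    rw [e1 _ _ (isTest_fl g)]
    exact .fld hA1 hg h1

/-- the compression of the potential -/
theorem IsSub.pot (h : IsSub Q T Q' T' i) {l' : Fn → Completion D'} (hl' : IsPot Q' T' l') :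
    IsPot Q T fun f => iA i (l' f) where
  lin f g c hf hg := by rw [hl'.lin f g c hf hg, map_add, map_smul]
  cont := (iA i).continuous.comp hl'.cont
  trace f hf := by
    rw [← map_smul, hl'.trace f hf, ← h.vac, ← h.tr _ hf, iA_coe]
  cov s L a f v hs hL hf := by
    rw [inner_iA, inner_iA, h.U s L a v hs hL, hl'.cov s L a f (i v) hs hL hf]

/-- local improvements can be compressed to subsectors -/
theorem IsSub.imp (h : IsSub Q T Q' T' i) {l : Fn → Completion D} {l' : Fn → Completion D'}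
    (hl : IsPot Q T l) (hl' : IsPot Q' T' l') {Λ' : Fn → D' → Completion D'}
    (hΛ : IsImp Q' T' l' Λ') : IsImp Q T l fun f v => iA i (Λ' f (i v)) := by
  have hcova : ∀ s L a f v z, 0 < s → GF.IsLor L → In Set.univ f → Gen Q Set.univ v →
      inner ℂ ((Q.U s L a z : D) : Completion D) (iA i (Λ' f (i (Q.U s L a v)))) =
        (s ^ 2 : ℝ) * inner ℂ (z : Completion D)
          (iA i (Λ' (fun x => f (sim s L a x)) (i v))) := by
    intro s L a f v z hs hL hf hv
    rw [inner_iA, inner_iA, h.U s L a _ hs hL, h.U s L a _ hs hL,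
      hΛ.cova s L a f (i v) (i z) hs hL hf (h.gen hv)]
  refine ⟨⟨?_, ?_, ?_, ?_, ?_, ?_, ?_⟩, ?_, hcova⟩
  · intro f hf
    show iA i (Λ' f (i Q.vac)) = l f
    rw [h.vac, hΛ.vac f hf]
    exact hl.unique (h.pot hl') f hf.1
  · intro f g c v hf hg hv
    show iA i (Λ' _ (i v)) = iA i (Λ' f (i v)) + c • iA i (Λ' g (i v))
    rw [hΛ.linf f g c (i v) hf hg (h.gen hv), map_add, map_smul]
  · intro f c v w hf hv hw
    show iA i (Λ' f (i (v + c • w))) = iA i (Λ' f (i v)) + c • iA i (Λ' f (i w))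
    rw [map_add, map_smul, hΛ.linv f c (i v) (i w) hf (h.gen hv) (h.gen hw), map_add, map_smul]
  · intro f v w hf hv hw
    rw [inner_iA, ← inner_conj_symm _ (w : Completion D), inner_iA, inner_conj_symm]
    exact hΛ.herm f (i v) (i w) hf (h.gen hv) (h.gen hw)
  · intro A B f g v z hA hB hadj hf hg hs hv
    obtain ⟨A', B', hA', hB', hadj', eA, eB⟩ := h.fld A B hA hB hadj
    have hbg : GF.IsTest (bar g) := isTest_bar hg.1
    rw [inner_iA, inner_iA, eB _ _ hbg, eA _ _ hg.1]
    exact hΛ.loc A' B' f g (i v) (i z) hA' hB' hadj' hf hg hs (h.gen hv)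
  · intro s L a f v z hs hL _ hf hv
    exact hcova s L a f v z hs hL hf hv
  · intro f v hf hv
    show (3 : ℂ) • iA i (Λ' (box f) (i v)) = _
    rw [← map_smul, hΛ.trace f (i v) hf (h.gen hv), ← h.tr _ hf.1, iA_coe]
  · intro K v hK hv
    exact (iA i).continuous.comp_continuousOn (hΛ.cont K (i v) hK (h.gen hv))

end Vale.Agent.P352.H246

end
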