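import Vale.Agent.P352.H846.T2

/-!
# The limits of the null plane charges of the conformal currents
-/

set_option linter.all false

noncomputable section

open MeasureTheory Filter Topology Set
open scoped ContDiff ComplexConjugate

namespace Vale.Agent.P352.H246D

open GF (Ix V Fn Fld bas eta o bar)
open H755 H496 H15 H246 H846

variable {D : Type*} [NormedAddCommGroup D] [InnerProductSpace ℂ D]
variable {Q : GF.Theory D} {T : Ix → Ix → GF.Fld D} {J : Ix → GF.Fld D}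
  {A : (V → V) → D → D} {K : V → D → D}

/-- plane limit for the similitudes -/
theorem pl_sim (h : NullCharges Q T J A K) (ho : OnShell Q T J) {a b : V} {κ : V → ℝ}
    {ψ : ℝ → ℝ} (had : Adm a b κ ψ) {r : ℝ} {X : V → V} (hX : IsSim r X) (v w : D) :
    Tendsto (fun R => inner ℂ w (sm T (fun m n x => eta m * a m * (eta n * X x n) *
      ctf a b κ 0 ψ R x) v)) atTop (𝓝 ((∫ u, (ψ u : ℂ)) * inner ℂ w (A X v))) := by
  have t1 := h.gen a b κ 0 ψ r X v w had hX
  have t2 := (ho.vir a b κ 0 ψ v w had).const_mul (r : ℂ)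
  rw [mul_zero] at t2
  have t3 := t1.add t2
  rw [add_zero] at t3
  refine t3.congr fun R => ?_
  rw [inner_sub_right]
  have e : inner ℂ w (∑ m, (r : ℂ) • J m (fun x => ((eta m * a m * ctf a b κ 0 ψ R x : ℝ) : ℂ)) v) =
      (r : ℂ) * inner ℂ w (∑ m, J m (fun x => ((eta m * a m * ctf a b κ 0 ψ R x : ℝ) : ℂ)) v) := by
    rw [← Finset.smul_sum, inner_smul_right]
  rw [e]
  ring

/-- decomposition of the plane term of the conformal current -/
lemma sm_cK (hT : Q.IsStress T) {a b : V} (haa : GF.mdot a a = 0) (hbb : GF.mdot b b = 0)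
    (hab : GF.mdot a b = 1) {κ : V → ℝ} (hκ : Tst κ) {ψ : ℝ → ℝ} (hψ : Tst ψ) {R : ℝ}
    (hR : 1 ≤ R) (v : D) :
    sm T (fun m n x => eta m * a m * (eta n * cK a x n) * ctf a b κ 0 ψ R x) v =
      sm T (fun m n x => eta m * a m * (eta n * Xw a b x n) *
        ctf a b κ 0 (fun u => 2 * u * ψ u) R x) v -
      sm T (fun m n x => eta m * a m * (eta n * (fun _ : V => b) x n) *
        ctf a b κ 0 (fun u => 2 * u ^ 2 * ψ u) R x) v +
      sm T (fun m n x => eta m * a m * (eta n * a n) * H15.sq a b x *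
        ctf a b κ 0 ψ R x) v := by
  have hXc : ∀ n : Ix, ContDiff ℝ ∞ fun x : V => Xw a b x n := by
    intro n
    unfold Xw
    simp only [Pi.add_apply, Pi.sub_apply, Pi.smul_apply, smul_eq_mul]
    exact ((contDiff_apply ℝ ℝ n).sub ((contDiff_mdot b).mul contDiff_const)).add
      ((contDiff_mdot a).mul contDiff_const)
  have hp1 : ContDiff ℝ ∞ fun u : ℝ => 2 * u := by fun_prop
  have hp2 : ContDiff ℝ ∞ fun u : ℝ => 2 * u ^ 2 := by fun_prop
  have hF2 : ∀ m n, Tst fun x => eta m * a m * (eta n * Xw a b x n) *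
      ctf a b κ 0 (fun u => 2 * u * ψ u) R x := fun m n =>
    ctf_tst haa hbb hab hκ (tst_pol hψ hp1) hR (contDiff_const.mul (contDiff_const.mul (hXc n)))
  have hF3 : ∀ m n, Tst fun x => eta m * a m * (eta n * (fun _ : V => b) x n) *
      ctf a b κ 0 (fun u => 2 * u ^ 2 * ψ u) R x := fun m n =>
    ctf_tst haa hbb hab hκ (tst_pol hψ hp2) hR contDiff_const
  have hF4 : ∀ m n, Tst fun x => eta m * a m * (eta n * a n) * H15.sq a b x *
      ctf a b κ 0 ψ R x := fun m n =>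
    ctf_tst haa hbb hab hκ hψ hR (contDiff_const.mul (contDiff_sq a b))
  have hsub : ∀ m n, Tst fun x => eta m * a m * (eta n * Xw a b x n) *
      ctf a b κ 0 (fun u => 2 * u * ψ u) R x -
      eta m * a m * (eta n * (fun _ : V => b) x n) *
        ctf a b κ 0 (fun u => 2 * u ^ 2 * ψ u) R x := fun m n => by
    refine (congrArg Tst (funext fun x => ?_)).mp (tst_add (hF2 m n) (tst_neg' (hF3 m n)))
    ring
  rw [← sm_sub hT hF2 hF3, ← sm_add hT hsub hF4]
  congr 1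
  funext m n x
  have h2 := congrFun (cK_dec (a := a) (b := b) x) n
  simp only [Pi.add_apply, Pi.sub_apply, Pi.smul_apply, smul_eq_mul] at h2
  simp only [ctf0]
  rw [h2]
  ring

/-- plane limit for the conformal current -/
theorem pl_cK (hT : Q.IsStress T) (h : NullCharges Q T J A K) (ho : OnShell Q T J) {a b : V}
    {κ : V → ℝ} {ψ : ℝ → ℝ} (had : Adm a b κ ψ) (v w : D) :
    Tendsto (fun R => inner ℂ w (sm T (fun m n x => eta m * a m * (eta n * cK a x n) *
      ctf a b κ 0 ψ R x) v)) atTop (𝓝 ((∫ u, (ψ u : ℂ)) * inner ℂ w (K a v))) := by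
  obtain ⟨ha, hb, hab, hκ, hκ1, hψ⟩ := had
  have hp1 : ContDiff ℝ ∞ fun u : ℝ => 2 * u := by fun_prop
  have hp2 : ContDiff ℝ ∞ fun u : ℝ => 2 * u ^ 2 := by fun_prop
  have t2 := pl_sim h ho (ψ := fun u => 2 * u * ψ u) ⟨ha, hb, hab, hκ, hκ1, tst_pol hψ hp1⟩
    (isSim_Xw a b) v w
  have t3 := pl_sim h ho (ψ := fun u => 2 * u ^ 2 * ψ u) ⟨ha, hb, hab, hκ, hκ1, tst_pol hψ hp2⟩
    (isSim_const b) v w
  have t4 := h.mom a b κ 0 ψ v w ⟨ha, hb, hab, hκ, hκ1, hψ⟩
  have t5 := (t2.sub t3).add t4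
  set α : ℂ := inner ℂ w (A (Xw a b) v) with hα
  set β : ℂ := inner ℂ w (A (fun _ => b) v) with hβ
  set γ : ℂ := inner ℂ w (K a v) with hγ
  have hci : ∀ {g : ℝ → ℝ}, Tst g → ∀ z : ℂ, Integrable fun u : ℝ => (g u : ℂ) * z := by
    intro g hg z
    have h2 : HasCompactSupport fun u : ℝ => ((g u : ℝ) : ℂ) :=
      hg.2.comp_left (g := fun r : ℝ => (r : ℂ)) (by simp)
    exact ((Complex.continuous_ofReal.comp hg.1.continuous).mul
      continuous_const).integrable_of_hasCompactSupport h2.mul_right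
  have i1 := hci hψ γ
  have i2 := hci (tst_pol hψ hp1) α
  have i3 := hci (tst_pol hψ hp2) β
  have e0 : ∀ u : ℝ, (ψ u : ℂ) * inner ℂ w
      (Q.U 1 GF.one (u • b) (K a (Q.U 1 GF.one (-(u • b)) v))) =
      (ψ u : ℂ) * γ - ((2 * u * ψ u : ℝ) : ℂ) * α + ((2 * u ^ 2 * ψ u : ℝ) : ℂ) * β := by
    intro u
    rw [tra_b hT h ho ha hb hab, inner_add_right, inner_sub_right, inner_smul_right,
      inner_smul_right]
    push_cast
    ring
  have e1 : ∫ u : ℝ, (ψ u : ℂ) * inner ℂ w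
      (Q.U 1 GF.one (u • b) (K a (Q.U 1 GF.one (-(u • b)) v))) =
      (∫ u : ℝ, (ψ u : ℂ)) * γ - (∫ u : ℝ, ((2 * u * ψ u : ℝ) : ℂ)) * α +
        (∫ u : ℝ, ((2 * u ^ 2 * ψ u : ℝ) : ℂ)) * β := by
    simp only [e0]
    have k1 := integral_add (i1.sub i2) i3
    have k2 := integral_sub i1 i2
    simp only [Pi.sub_apply] at k1
    rw [k1, k2, integral_mul_const, integral_mul_const, integral_mul_const]
  rw [e1] at t5
  have e2 : (∫ u : ℝ, ((2 * u * ψ u : ℝ) : ℂ)) * α - (∫ u : ℝ, ((2 * u ^ 2 * ψ u : ℝ) : ℂ)) * β +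
      ((∫ u : ℝ, (ψ u : ℂ)) * γ - (∫ u : ℝ, ((2 * u * ψ u : ℝ) : ℂ)) * α +
        (∫ u : ℝ, ((2 * u ^ 2 * ψ u : ℝ) : ℂ)) * β) = (∫ u : ℝ, (ψ u : ℂ)) * γ := by
    ring
  rw [e2] at t5
  refine t5.congr' ?_
  filter_upwards [eventually_ge_atTop (1:ℝ)] with R hR
  rw [sm_cK hT ha.1 hb.1 hab hκ hψ hR v, inner_add_right, inner_sub_right]

end Vale.Agent.P352.H246D

end
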