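import Vale.Agent.P352.H246.Rc5

set_option linter.all false

noncomputable section

open MeasureTheory SchwartzMap Complex Filter Topology
open scoped SchwartzMap ComplexConjugate ENNReal LineDeriv ContDiff FourierTransform

namespace Vale.Agent.P352.H246R

open GF (Ix V Fn Sch ev pd bar sim bas o)
open H246
open H496
open UniformSpace (Completion)

/-- the open forward cone -/
def Vp : Set Mink := {p | 0 < pm p ∧ 0 < mass2 p}

/-- test functions on momentum space with support in the open forward cone -/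
def PC (F : 𝓢(Mink, ℂ)) : Prop := HasCompactSupport F ∧ tsupport F ⊆ Vp

lemma PC.exists {F : 𝓢(Mink, ℂ)} (hF : PC F) : ∃ G, TF Pos G ∧ psi G = F := by
  obtain ⟨h1, h2, h3⟩ := exists_psi hF.1 (fun p hp => (hF.2 hp).1)
  refine ⟨_, ⟨h1, fun y hy => ?_⟩, h2⟩
  obtain ⟨p, hp, rfl⟩ := h3 hy
  show 0 < crd p 3
  rw [crd_3]
  exact (hF.2 hp).2

/-! ### The integral -/

/-- the integral -/
def MI : 𝓢(Mink, ℂ) →L[ℂ] ℂ := SchwartzMap.integralCLM ℂ (volume : Measure Mink)

lemma MI_apply (F : 𝓢(Mink, ℂ)) : MI F = ∫ p, F p := rfl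

lemma MI_act (s : ℝ) (hs : 0 < s) {L : Ix → V} (hL : GF.IsLor L) (F : 𝓢(Mink, ℂ)) :
    MI (act s hs hL F) = MI F := by
  rw [MI_apply, MI_apply]
  simp only [act_apply]
  rw [integral_const_mul]
  have h := int_sim (inv_pos.2 hs) hL (fun p => F p)
  rw [h]
  have hs' : (s : ℂ) ≠ 0 := by exact_mod_cast hs.ne'
  push_cast
  field_simp

lemma T_dil {T : 𝓢(Mink, ℂ) →L[ℂ] ℂ} (h : ∀ s (hs : 0 < s) F, T (act s hs isLor_one F) = T F)
    {O : Set Mink} (hO : Adm O) (t : ℝ) (G : Mink → ℂ) (hG : TF O G) :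
    T (psi fun y => G (dlt (t, y))) = exp (-4 * t) * T (psi G) := by
  have h1 := h (Real.exp (-t)) (Real.exp_pos _) (psi G)
  rw [psi_dil hG.1 t (TF_dlt hO hG t).1, map_smul, smul_eq_mul] at h1
  rw [← h1, ← mul_assoc, ← Complex.exp_add]
  have : (-4 : ℂ) * t + 4 * t = 0 := by ring
  rw [this, Complex.exp_zero, one_mul]

lemma Cvr_MI : Cvr MI Pos 0 (-4) where
  n1 b G hG := by
    rw [psi_null hG.1 b (TF_shi adm_Pos hG (Or.inl rfl) b).1, MI_act]
  n2 b G hG := by
    rw [psi_null' hG.1 b (TF_shi adm_Pos hG (Or.inr rfl) b).1, MI_act]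
  bo t G hG := by
    rw [psi_boost hG.1 t (TF_bst adm_Pos hG t).1, MI_act]
    simp
  di t G hG := T_dil (fun s hs F => MI_act s hs isLor_one F) adm_Pos t G hG

/-! ### Uniqueness -/

lemma contDiff_e (c : ℝ) : ContDiff ℝ ∞ fun y : Mink => ((Real.exp (c * y 0) : ℝ) : ℂ) :=
  ofRealCLM.contDiff.comp (Real.contDiff_exp.comp (contDiff_const.mul (contDiff_coord 0)))

lemma dd_e {G : Mink → ℂ} (hG : CS G) (c : ℝ) (i : Fin 4) (y : Mink) :
    dd i (fun y => ((Real.exp (c * y 0) : ℝ) : ℂ) * G y) y =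
      ((Real.exp (c * y 0) : ℝ) : ℂ) * dd i G y +
        (if i = 0 then (c : ℂ) else 0) * (((Real.exp (c * y 0) : ℝ) : ℂ) * G y) := by
  have h0 : HasFDerivAt (fun y : Mink => y 0) (EuclideanSpace.proj 0 : Mink →L[ℝ] ℝ) y :=
    (EuclideanSpace.proj 0 : Mink →L[ℝ] ℝ).hasFDerivAt
  have h1 : HasFDerivAt (fun y : Mink => Real.exp (c * y 0))
      (Real.exp (c * y 0) • (c • (EuclideanSpace.proj 0 : Mink →L[ℝ] ℝ))) y :=
    (h0.const_mul c).exp
  have h1' : HasFDerivAt (fun y : Mink => ((Real.exp (c * y 0) : ℝ) : ℂ))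
      (ofRealCLM.comp (Real.exp (c * y 0) • (c • (EuclideanSpace.proj 0 : Mink →L[ℝ] ℝ)))) y :=
    ofRealCLM.hasFDerivAt.comp y h1
  have h2 : HasFDerivAt G (fderiv ℝ G y) y := (hG.1.differentiable (by simp) y).hasFDerivAt
  have h3 : HasFDerivAt (fun y : Mink => ((Real.exp (c * y 0) : ℝ) : ℂ) * G y) _ y := h1'.mul h2
  unfold dd
  rw [h3.fderiv]
  fin_cases i <;> simp [eb] <;> ring

/-- uniqueness of covariant functionals on the open forward cone -/
theorem Cvr.unique {T : 𝓢(Mink, ℂ) →L[ℂ] ℂ} (C : Cvr T Pos 0 (-4)) : ∃ c : ℂ, ∀ G, TF Pos G →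
    T (psi G) = c * ∫ y : Mink, ((Real.exp (2 * y 0) : ℝ) : ℂ) * G y := by
  have hL := H283.exists_const
    (fun G => T (psi fun y => ((Real.exp ((-2) * y 0) : ℝ) : ℂ) * G y)) ?_ ?_ ?_
  · obtain ⟨c, hc⟩ := hL
    refine ⟨c, fun G hG => ?_⟩
    have h1 := hG.mul (contDiff_e 2)
    rw [← hc _ (tf_iff.2 h1)]
    congr 2
    funext y
    have : ((Real.exp ((-2) * y 0) : ℝ) : ℂ) * ((Real.exp (2 * y 0) : ℝ) : ℂ) = 1 := by
      rw [← ofReal_mul, ← Real.exp_add]
      have : (-2) * y 0 + 2 * y 0 = 0 := by ring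
      rw [this, Real.exp_zero, ofReal_one]
    rw [← mul_assoc, this, one_mul]
  · intro G G' h h'
    have t1 := (tf_iff.1 h).mul (contDiff_e (-2))
    have t2 := (tf_iff.1 h').mul (contDiff_e (-2))
    show T (psi _) = T (psi _) + T (psi _)
    rw [← T_add t1 t2]
    congr 2
    funext y
    simp only [Pi.add_apply]
    ring
  · intro c G h
    have t1 := (tf_iff.1 h).mul (contDiff_e (-2))
    show T (psi _) = c * T (psi _)
    rw [← T_smul c t1]
    congr 2
    funext y
    simp only [Pi.smul_apply, smul_eq_mul]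
    ring
  · intro j G h
    have hG := tf_iff.1 h
    have t1 := hG.mul (contDiff_e (-2))
    set K : Mink → ℂ := fun y => ((Real.exp ((-2) * y 0) : ℝ) : ℂ) * G y with hK
    have e : ∀ y, ((Real.exp ((-2) * y 0) : ℝ) : ℂ) * fderiv ℝ G y (EuclideanSpace.single j 1) =
        dd j K y - (if j = 0 then ((-2 : ℝ) : ℂ) else 0) * K y := by
      intro y
      have := dd_e hG.1 (-2) j y
      rw [hK, this]
      unfold dd eb
      ring
    show T (psi fun y => ((Real.exp ((-2) * y 0) : ℝ) : ℂ) *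
      fderiv ℝ G y (EuclideanSpace.single j 1)) = 0
    simp only [e]
    fin_cases j
    · have e2 : (fun y => dd 0 K y - (if (0 : Fin 4) = 0 then ((-2 : ℝ) : ℂ) else 0) * K y) =
          dd 0 K + (2 : ℂ) • K := by
        funext y
        simp only [if_true, Pi.add_apply, Pi.smul_apply, smul_eq_mul]
        push_cast
        ring
      show T (psi (fun y => dd 0 K y - (if (0 : Fin 4) = 0 then ((-2 : ℝ) : ℂ) else 0) * K y)) = 0
      rw [e2, T_add (t1.dd 0) (t1.smul _), T_smul _ t1, C.d0 t1]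
      ring
    · have e2 : (fun y => dd 1 K y - (if (1 : Fin 4) = 0 then ((-2 : ℝ) : ℂ) else 0) * K y) =
          dd 1 K := by
        funext y
        simp
      show T (psi (fun y => dd 1 K y - (if (1 : Fin 4) = 0 then ((-2 : ℝ) : ℂ) else 0) * K y)) = 0
      rw [e2, C.d1 t1]
    · have e2 : (fun y => dd 2 K y - (if (2 : Fin 4) = 0 then ((-2 : ℝ) : ℂ) else 0) * K y) =
          dd 2 K := by
        funext y
        simp
      show T (psi (fun y => dd 2 K y - (if (2 : Fin 4) = 0 then ((-2 : ℝ) : ℂ) else 0) * K y)) = 0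
      rw [e2, C.d2 t1]
    · have e2 : (fun y => dd 3 K y - (if (3 : Fin 4) = 0 then ((-2 : ℝ) : ℂ) else 0) * K y) =
          dd 3 K := by
        funext y
        simp
      show T (psi (fun y => dd 3 K y - (if (3 : Fin 4) = 0 then ((-2 : ℝ) : ℂ) else 0) * K y)) = 0
      rw [e2]
      have t2 : TF Pos (fun y => K y / (y 3 : ℂ)) := tf_iff.1 (H846.tf_div (tf_iff.2 t1))
      have h3 := C.d3 t2
      have e3 : (fun y => (y 3 : ℂ) * dd 3 (fun y => K y / (y 3 : ℂ)) y) =
          dd 3 K + (-1 : ℂ) • (fun y => K y / (y 3 : ℂ)) := by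
        funext y
        have h4 := dd_mul_coord t2.1 3 y
        have e4 : (fun y : Mink => (y 3 : ℂ) * (K y / (y 3 : ℂ))) = K := by
          funext y
          by_cases h0 : (y 3 : ℂ) = 0
          · have : y ∉ tsupport K := by
              intro h5
              have h6 : 0 < y 3 := t1.2 h5
              exact h6.ne' (by exact_mod_cast h0)
            rw [image_eq_zero_of_notMem_tsupport this]
            simp
          · field_simp
        rw [e4] at h4
        simp only [Pi.add_apply, Pi.smul_apply, smul_eq_mul]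
        rw [h4]
        ring
      rw [e3, T_add (t1.dd 3) (t2.smul _), T_smul _ t2] at h3
      linear_combination h3

end Vale.Agent.P352.H246R

end
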