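import Vale.Agent.P352.H121.TlS
import Vale.Agent.P352.H148.TlB

/-!
# TL criterion: similitudes
-/

set_option linter.all false

noncomputable section

open MeasureTheory SchwartzMap Filter Topology Set
open scoped SchwartzMap ComplexConjugate ENNReal LineDeriv ContDiff FourierTransform

namespace Vale.Agent.P352.H246.TL

open GF (Ix V Fn Sch ev pd bar sim bas o eta)
open H755 H496 H15 H246 H148 H121

variable {a b : V} {S : Ix → Ix → Fn → ℂ} {c : V → ℂ}

lemma SD_zero (hS : SD a S) (m n : Ix) : S m n (fun _ => 0) = 0 := by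
  have h0 : GF.IsTest (fun _ => 0) := ⟨0, rfl⟩
  have h := hS.lin m n (fun _ => 0) (fun _ => 0) (-1) h0 h0
  simp only [mul_zero, add_zero] at h
  linear_combination h

lemma SD_smul (hS : SD a S) (m n : Ix) {f : Fn} (hf : GF.IsTest f) (k : ℂ) :
    S m n (fun x => k * f x) = k * S m n f := by
  have h0 : GF.IsTest (fun _ => 0) := ⟨0, rfl⟩
  have h := hS.lin m n (fun _ => 0) f k h0 hf
  rw [SD_zero hS] at h
  simpa using h

lemma isTest_sum {ι : Type*} (s : Finset ι) (k : ι → ℂ) {f : ι → Fn}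
    (hf : ∀ i, GF.IsTest (f i)) : GF.IsTest fun x => ∑ i ∈ s, k i * f i x := by
  classical
  choose F hF using hf
  refine ⟨∑ i ∈ s, k i • F i, ?_⟩
  funext x
  simp only [ev, ← hF]
  rw [SchwartzMap.sum_apply]
  rfl

lemma SD_sum (hS : SD a S) (m n : Ix) {ι : Type*} (s : Finset ι) (k : ι → ℂ) {f : ι → Fn}
    (hf : ∀ i, GF.IsTest (f i)) :
    S m n (fun x => ∑ i ∈ s, k i * f i x) = ∑ i ∈ s, k i * S m n (f i) := by
  classical
  induction s using Finset.induction_on with
  | empty => simpa using SD_zero hS m n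
  | insert i s hi ih =>
    have e : (fun x => ∑ j ∈ insert i s, k j * f j x) =
        fun x => (fun x => ∑ j ∈ s, k j * f j x) x + k i * f i x := by
      funext x
      rw [Finset.sum_insert hi, add_comm]
    rw [e, hS.lin m n _ _ _ (isTest_sum s k hf) (hf i), ih, Finset.sum_insert hi, add_comm]

lemma SD_congr (hS : SD a S) (m n : Ix) {f g : Fn} (hf : GF.IsTest f) (hg : GF.IsTest g)
    {ε : ℝ} (hε : 0 < ε) (h : ∀ x, f x ≠ g x → GF.mdot x x ≤ -ε) : S m n f = S m n g := by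
  have h1 := hS.lin m n f g (-1) hf hg
  have h2 : S m n (fun x => f x + -1 * g x) = 0 := by
    refine hS.loc m n _ ε hε ?_ fun x hx => h x fun he => hx (by rw [he]; ring)
    obtain ⟨F, rfl⟩ := hf
    obtain ⟨G, rfl⟩ := hg
    refine ⟨F + (-1 : ℂ) • G, ?_⟩
    funext x
    simp [ev]
  rw [h2] at h1
  linear_combination -h1

lemma isTest_simf {s : ℝ} (hs : 0 < s) {L : Ix → V} (hL : GF.IsLor L) {f : Fn}
    (hf : GF.IsTest f) : GF.IsTest fun x => f (sim s L 0 x) := by
  obtain ⟨F, rfl⟩ := exists_fl hf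
  rw [fl_sim s hs hL]
  exact isTest_fl _

lemma temp_Yl (b : V) (n : Ix) : Function.HasTemperateGrowth fun x : V => Yl b n x := by
  have h : (fun x : V => Yl b n x) = fun x : V =>
      ((eta n * (2 * GF.mdot b x * x n - GF.mdot x x * b n) : ℝ) : ℂ) := by
    funext x
    simp [Yl, cK]
  rw [h]
  refine temp_of ?_
  refine (Function.HasTemperateGrowth.const _).mul (Function.HasTemperateGrowth.sub ?_ ?_)
  · exact ((Function.HasTemperateGrowth.const _).mul (temp_mdot b)).mul (temp_coord n)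
  · exact temp_sq.mul (Function.HasTemperateGrowth.const _)

section

variable {s r : ℝ} (hs : 0 < s) (hr : 0 < r) {L : Ix → V} (hL : GF.IsLor L)
  (hLa : sim 1 L 0 a = r • a) (hLb : sim 1 L 0 b = r⁻¹ • b)

include hL hr hLa in
lemma ev_a (k : Ix) : GF.mdot (L k) a = r⁻¹ * (eta k * a k) := by
  have h := md_L hL k a
  rw [hLa, md_smul] at h
  rw [← h, ← mul_assoc, inv_mul_cancel₀ hr.ne', one_mul]

include hL hr hLb in
lemma ev_b (k : Ix) : GF.mdot (L k) b = r * (eta k * b k) := by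
  have h := md_L hL k b
  rw [hLb, md_smul] at h
  rw [← h, ← mul_assoc, mul_inv_cancel₀ hr.ne', one_mul]

include hL hr hLa in
lemma md_a_sim (x : V) : GF.mdot a (sim s L 0 x) = s * r⁻¹ * GF.mdot a x := by
  have h := md_LL hL a x
  rw [hLa, md_smul_l] at h
  rw [sim_s, md_smul, ← h]
  field_simp

include hL hr hLb in
lemma md_b_sim (x : V) : GF.mdot b (sim s L 0 x) = s * r * GF.mdot b x := by
  have h := md_LL hL b x
  rw [hLb, md_smul_l] at h
  rw [sim_s, md_smul, ← h]
  field_simp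

include hL in
lemma md_sq_sim (x : V) : GF.mdot (sim s L 0 x) (sim s L 0 x) = s ^ 2 * GF.mdot x x := by
  rw [sim_s, md_smul, md_smul_l, md_LL hL]
  ring

include hL hr hLb in
lemma Yl_sim (j : Ix) (x : V) :
    ∑ n, ((L j n : ℝ) : ℂ) * Yl b n (sim s L 0 x) = ((s ^ 2 * r : ℝ) : ℂ) * Yl b j x := by
  have h1 : ∑ n, ((L j n : ℝ) : ℂ) * Yl b n (sim s L 0 x) =
      ((GF.mdot (L j) (cK b (sim s L 0 x)) : ℝ) : ℂ) := by
    unfold GF.mdot Yl
    push_cast
    exact Finset.sum_congr rfl fun n _ => by ring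
  rw [h1]
  unfold Yl
  rw [← Complex.ofReal_mul]
  congr 1
  have h2 : GF.mdot (L j) (sim s L 0 x) = s * (eta j * x j) := by
    rw [sim_s, md_smul, md_L hL]
  unfold cK
  rw [md_sub, md_smul, md_smul, md_b_sim hr hL hLb, md_sq_sim hL, h2, ev_b hr hL hLb]
  simp only [Pi.sub_apply, Pi.smul_apply, smul_eq_mul]
  ring

include hs hr hL hLa hLb in
/-- transformation of `Ph` under the similitude `sim s L 0` -/
lemma Ph_sim (hS : SD a S) (hc : Cn a b c) (e : V) (q : ℝ)
    (he : ∀ k, GF.mdot (L k) e = q * (eta k * e k)) {ε : ℝ} (hε : 0 < ε)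
    (hcut : ∀ x, c (sim s L 0 x) ≠ c x → GF.mdot x x ≤ -ε) {f g f' g' : 𝓢(ℝ, ℂ)}
    (hf : ∀ u, f' u = f (s * r⁻¹ * u)) (hg : ∀ u, g' u = g (s * r * u)) :
    H121.Ph S a b c e f g = ((s * q : ℝ) : ℂ) * H121.Ph S a b c e f' g' := by
  -- the transformed products
  have hP : ∀ m n, Function.HasTemperateGrowth fun x : V => ((eta m * e m : ℝ) : ℂ) * Yl b n x :=
    fun m n => (Function.HasTemperateGrowth.const _).mul (temp_Yl b n)
  have hPs : ∀ m n, Function.HasTemperateGrowth fun x : V =>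
      ((eta m * e m : ℝ) : ℂ) * Yl b n (sim s L 0 x) := by
    intro m n
    have h := (hP m n).comp (f := fun x : V => sim s L 0 x) ?_
    · exact h
    · have e1 : (fun x : V => sim s L 0 x) = fun x : V =>
          (s • ∑ m, (ContinuousLinearMap.proj (R := ℝ) (φ := fun _ : Ix => ℝ) m).smulRight (L m) :
            V →L[ℝ] V) x := by
        funext x n
        simp [sim, Finset.sum_apply, ContinuousLinearMap.sum_apply]
      rw [e1]
      exact ContinuousLinearMap.hasTemperateGrowth _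
  have hT1 : ∀ m n, GF.IsTest (pr a b c f g fun x => ((eta m * e m : ℝ) : ℂ) * Yl b n x) :=
    fun m n => hc.test f g _ (hP m n)
  have hT2 : ∀ m n, GF.IsTest
      (pr a b c f' g' fun x => ((eta m * e m : ℝ) : ℂ) * Yl b n (sim s L 0 x)) :=
    fun m n => hc.test f' g' _ (hPs m n)
  have hT3 : ∀ m n, GF.IsTest (pr a b c f' g' fun x => ((eta m * e m : ℝ) : ℂ) * Yl b n x) :=
    fun m n => hc.test f' g' _ (hP m n)
  have h1 : ∀ m n k j,
      S k j (fun x => pr a b c f g (fun x => ((eta m * e m : ℝ) : ℂ) * Yl b n x)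
        (sim s L 0 x)) =
      S k j (pr a b c f' g' fun x => ((eta m * e m : ℝ) : ℂ) * Yl b n (sim s L 0 x)) := by
    intro m n k j
    refine SD_congr hS k j (isTest_simf hs hL (hT1 m n)) (hT2 m n) hε fun x hx => hcut x ?_
    intro hh
    refine hx ?_
    simp only [pr, hh, md_a_sim hr hL hLa, md_b_sim hr hL hLb, hf, hg]
  -- the sums
  have h2 : ∀ k j, ∑ m, ∑ n, ((L k m * L j n : ℝ) : ℂ) *
      S k j (pr a b c f' g' fun x => ((eta m * e m : ℝ) : ℂ) * Yl b n (sim s L 0 x)) =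
      ((q * (s ^ 2 * r) : ℝ) : ℂ) *
        S k j (pr a b c f' g' fun x => ((eta k * e k : ℝ) : ℂ) * Yl b j x) := by
    intro k j
    rw [← SD_smul hS k j (hT3 k j)]
    rw [← Finset.sum_product']
    rw [← SD_sum hS k j _ (fun p : Ix × Ix => ((L k p.1 * L j p.2 : ℝ) : ℂ))
      (f := fun p => pr a b c f' g' fun x => ((eta p.1 * e p.1 : ℝ) : ℂ) *
        Yl b p.2 (sim s L 0 x)) (fun p => hT2 p.1 p.2)]
    congr 1
    funext x
    rw [Finset.sum_product]
    have e1 : ∀ m n, ((L k m * L j n : ℝ) : ℂ) * pr a b c f' g'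
        (fun x => ((eta m * e m : ℝ) : ℂ) * Yl b n (sim s L 0 x)) x =
        f' (GF.mdot a x) * g' (GF.mdot b x) * c x * (((eta m * L k m * e m : ℝ) : ℂ) *
          (((L j n : ℝ) : ℂ) * Yl b n (sim s L 0 x))) := by
      intro m n
      simp only [pr]
      push_cast
      ring
    simp only [e1, ← Finset.mul_sum]
    rw [← Finset.sum_mul, Yl_sim hr hL hLb]
    have e2 : ∑ m, ((eta m * L k m * e m : ℝ) : ℂ) = ((q * (eta k * e k) : ℝ) : ℂ) := by
      rw [← he k]
      unfold GF.mdot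
      push_cast
      rfl
    rw [e2]
    simp only [pr]
    push_cast
    ring
  have h3 : H121.Ph S a b c e f g = ∑ m, ∑ n, ∑ k, ∑ j, ((L k m * L j n / (r * s) : ℝ) : ℂ) *
      S k j (pr a b c f' g' fun x => ((eta m * e m : ℝ) : ℂ) * Yl b n (sim s L 0 x)) := by
    unfold H121.Ph
    refine Finset.sum_congr rfl fun m _ => Finset.sum_congr rfl fun n _ => ?_
    rw [hS.cov s r L _ m n hs hr hL hLa (hT1 m n)]
    refine Finset.sum_congr rfl fun k _ => Finset.sum_congr rfl fun j _ => ?_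
    rw [h1]
  have h4 : H121.Ph S a b c e f g = ∑ k, ∑ j, ((1 / (r * s) : ℝ) : ℂ) * ∑ m, ∑ n,
      ((L k m * L j n : ℝ) : ℂ) *
      S k j (pr a b c f' g' fun x => ((eta m * e m : ℝ) : ℂ) * Yl b n (sim s L 0 x)) := by
    rw [h3]
    have e1 : ∀ (F : Ix → Ix → Ix → Ix → ℂ), ∑ m, ∑ n, ∑ k, ∑ j, F m n k j =
        ∑ k, ∑ j, ∑ m, ∑ n, F m n k j := by
      intro F
      calc ∑ m, ∑ n, ∑ k, ∑ j, F m n k j = ∑ m, ∑ k, ∑ n, ∑ j, F m n k j :=
            Finset.sum_congr rfl fun m _ => Finset.sum_comm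
        _ = ∑ k, ∑ m, ∑ n, ∑ j, F m n k j := Finset.sum_comm
        _ = ∑ k, ∑ m, ∑ j, ∑ n, F m n k j := Finset.sum_congr rfl fun k _ =>
            Finset.sum_congr rfl fun m _ => Finset.sum_comm
        _ = ∑ k, ∑ j, ∑ m, ∑ n, F m n k j := Finset.sum_congr rfl fun k _ => Finset.sum_comm
    rw [e1]
    refine Finset.sum_congr rfl fun k _ => Finset.sum_congr rfl fun j _ => ?_
    rw [Finset.mul_sum]
    refine Finset.sum_congr rfl fun m _ => ?_
    rw [Finset.mul_sum]
    refine Finset.sum_congr rfl fun n _ => ?_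
    push_cast
    ring
  rw [h4]
  unfold H121.Ph
  rw [Finset.mul_sum]
  refine Finset.sum_congr rfl fun k _ => ?_
  rw [Finset.mul_sum]
  refine Finset.sum_congr rfl fun j _ => ?_
  rw [h2, ← mul_assoc, ← Complex.ofReal_mul]
  congr 2
  field_simp

end

section

variable (ha : IsNull a) (hb : IsNull b) (hab : GF.mdot a b = 1)

include ha hb hab in
lemma bst_a (α β : ℝ) : sim 1 (bst a b α β) 0 a = (1 + α) • a := by
  have hba : GF.mdot b a = 1 := by rw [md_comm]; exact hab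
  rw [sim_bst, hba, ha.1]
  simp [add_smul]

include ha hb hab in
lemma bst_b (α β : ℝ) : sim 1 (bst a b α β) 0 b = (1 + β) • b := by
  rw [sim_bst, hb.1, hab]
  simp [add_smul]

include ha hb hab in
lemma hom_a (hS : SD a S) (hc : Cn a b c) {f g β : 𝓢(ℝ, ℂ)} (h : ∀ u, g u = f (4 * u)) :
    H121.Ph S a b c a f β = 4 * H121.Ph S a b c a g β := by
  have hL : GF.IsLor (bst a b (-1 / 2) 1) := isLor_bst ha hb hab (by norm_num) (by norm_num)
  have hLa : sim 1 (bst a b (-1 / 2) 1) 0 a = (1 / 2 : ℝ) • a := by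
    rw [bst_a ha hb hab]; norm_num
  have hLb : sim 1 (bst a b (-1 / 2) 1) 0 b = (1 / 2 : ℝ)⁻¹ • b := by
    rw [bst_b ha hb hab]; norm_num
  have hr : (0:ℝ) < 1 / 2 := by norm_num
  have h1 := Ph_sim (s := 2) two_pos hr hL hLa hLb hS hc a (1 / 2 : ℝ)⁻¹ (ev_a hr hL hLa)
    (ε := 1 / 16) (by norm_num) (fun x hx => ?_) (f := f) (g := β) (f' := g) (g' := β)
    (fun u => by rw [h]; norm_num) (fun u => by norm_num)
  · rw [h1]; norm_num
  · by_contra hle
    push Not at hle
    refine hx ?_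
    rw [hc.one x (by nlinarith [sq_nonneg (GF.mdot a x), sq_nonneg (GF.mdot b x)]),
      hc.one _ (by
        rw [md_sq_sim hL, md_a_sim hr hL hLa, md_b_sim hr hL hLb]
        nlinarith [sq_nonneg (GF.mdot a x), sq_nonneg (GF.mdot b x)])]

include ha hb hab in
lemma hom_b (hS : SD a S) (hc : Cn a b c) {f g α : 𝓢(ℝ, ℂ)} (h : ∀ u, g u = f (4 * u)) :
    H121.Ph S a b c b α f = 4 * H121.Ph S a b c b α g := by
  have hL : GF.IsLor (bst a b 1 (-1 / 2)) := isLor_bst ha hb hab (by norm_num) (by norm_num)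
  have hLa : sim 1 (bst a b 1 (-1 / 2)) 0 a = (2 : ℝ) • a := by
    rw [bst_a ha hb hab]; norm_num
  have hLb : sim 1 (bst a b 1 (-1 / 2)) 0 b = (2 : ℝ)⁻¹ • b := by
    rw [bst_b ha hb hab]; norm_num
  have hr : (0:ℝ) < 2 := by norm_num
  have h1 := Ph_sim (s := 2) two_pos hr hL hLa hLb hS hc b 2 (ev_b hr hL hLb)
    (ε := 1 / 16) (by norm_num) (fun x hx => ?_) (f := α) (g := f) (f' := α) (g' := g)
    (fun u => by norm_num) (fun u => by rw [h]; norm_num)
  · rw [h1]; norm_num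
  · by_contra hle
    push Not at hle
    refine hx ?_
    rw [hc.one x (by nlinarith [sq_nonneg (GF.mdot a x), sq_nonneg (GF.mdot b x)]),
      hc.one _ (by
        rw [md_sq_sim hL, md_a_sim hr hL hLa, md_b_sim hr hL hLb]
        nlinarith [sq_nonneg (GF.mdot a x), sq_nonneg (GF.mdot b x)])]

end

end Vale.Agent.P352.H246.TL

end
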