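import Vale.Agent.P352.H246.Dens

set_option linter.all false

noncomputable section

open MeasureTheory SchwartzMap Complex Filter Topology
open scoped SchwartzMap ComplexConjugate ENNReal LineDeriv NNReal Uniformity

namespace Vale.Agent.P352.H246

open GF (Ix V Fn Sch ev pd bar sim one bas o)

/-! ### Products of Lorentz matrices -/

/-- matrix product -/
def lmul (A B : Ix → V) : Ix → V := fun m n => ∑ k, A m k * B k n

lemma isLor_lmul {A B : Ix → V} (hA : GF.IsLor A) (hB : GF.IsLor B) : GF.IsLor (lmul A B) := by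
  refine ⟨fun m n => ?_, ?_, ?_⟩
  · have h1 := mdot_lam hB (WithLp.toLp 2 (A m)) (WithLp.toLp 2 (A n))
    rw [mdot_eq, mdot_eq] at h1
    have e : ∀ m, (lam B (WithLp.toLp 2 (A m))).ofLp = lmul A B m := fun m => rfl
    rw [e, e] at h1
    rw [h1]
    exact hA.1 m n
  · have h00 := hA.1 0 0
    have ht := lor_transpose hB 0 0
    have a0 : 0 < A 0 0 := hA.2.1
    have b0 : 0 < B 0 0 := hB.2.1
    simp only [GF.mdot, bas, GF.eta, o, Fin.sum_univ_four] at h00 ht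
    simp at h00 ht
    show 0 < ∑ k, A 0 k * B k 0
    rw [Fin.sum_univ_four]
    have hcs : (A 0 1 * B 1 0 + A 0 2 * B 2 0 + A 0 3 * B 3 0) ^ 2 ≤
        (A 0 1 ^ 2 + A 0 2 ^ 2 + A 0 3 ^ 2) * (B 1 0 ^ 2 + B 2 0 ^ 2 + B 3 0 ^ 2) := by
      nlinarith [sq_nonneg (A 0 1 * B 2 0 - A 0 2 * B 1 0),
        sq_nonneg (A 0 1 * B 3 0 - A 0 3 * B 1 0), sq_nonneg (A 0 2 * B 3 0 - A 0 3 * B 2 0)]
    have h1 : A 0 1 ^ 2 + A 0 2 ^ 2 + A 0 3 ^ 2 = A 0 0 ^ 2 - 1 := by linarith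
    have h2 : B 1 0 ^ 2 + B 2 0 ^ 2 + B 3 0 ^ 2 = B 0 0 ^ 2 - 1 := by linarith
    rw [h1, h2] at hcs
    have h3 : |A 0 1 * B 1 0 + A 0 2 * B 2 0 + A 0 3 * B 3 0| < A 0 0 * B 0 0 := by
      apply abs_lt_of_sq_lt_sq _ (by positivity)
      have hA1 : 1 ≤ A 0 0 ^ 2 := by
        have : 0 ≤ A 0 1 ^ 2 + A 0 2 ^ 2 + A 0 3 ^ 2 := by positivity
        linarith
      have hB1 : 1 ≤ B 0 0 ^ 2 := by
        have : 0 ≤ B 1 0 ^ 2 + B 2 0 ^ 2 + B 3 0 ^ 2 := by positivity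
        linarith
      calc _ ≤ (A 0 0 ^ 2 - 1) * (B 0 0 ^ 2 - 1) := hcs
        _ < (A 0 0 * B 0 0) ^ 2 := by nlinarith
    have := neg_abs_le (A 0 1 * B 1 0 + A 0 2 * B 2 0 + A 0 3 * B 3 0)
    linarith
  · have h : Matrix.of (lmul A B) = Matrix.of A * Matrix.of B := by
      ext m n
      rw [Matrix.mul_apply]
      rfl
    show (Matrix.of (lmul A B)).det = 1
    have h1 : (Matrix.of A).det = 1 := hA.2.2
    have h2 : (Matrix.of B).det = 1 := hB.2.2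
    rw [h, Matrix.det_mul, h1, h2, one_mul]

section

variable {s : ℝ} (hs : 0 < s) {B : Ix → V} (hB : GF.IsLor B) (b : V)

include hs hB in
lemma sim_mem_wed {L : Ix → V} (hL : GF.IsLor L) {x c : V} {r : ℝ}
    (h : sim s B b x ∈ Wed L (sim s B b c) r) : x ∈ Wed (lmul L (linv B)) c r := by
  have e : ∀ m, GF.mdot (sim s B b x - sim s B b c) (L m) =
      s * GF.mdot (x - c) (lmul L (linv B) m) := by
    intro m
    have e1 : sim s B b x - sim s B b c = s • (lam B (WithLp.toLp 2 (x - c))).ofLp := by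
      funext n
      simp only [sim, Pi.sub_apply, Pi.smul_apply, smul_eq_mul, lam_apply, sub_mul,
        Finset.sum_sub_distrib]
      ring
    have e2 : (lam (linv B) (WithLp.toLp 2 (L m))).ofLp = lmul L (linv B) m := rfl
    have e3 := mdot_lam hB (WithLp.toLp 2 (x - c)) (lam (linv B) (WithLp.toLp 2 (L m)))
    rw [lam_linv hB, mdot_eq, mdot_eq, e2] at e3
    rw [e1, mdot_smul_l]
    congr 1
  rw [wed_iff (isLor_lmul hL (isLor_linv hB))]
  have h1 := (wed_iff hL).1 h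
  rw [e, e, abs_mul, abs_of_pos hs] at h1
  have h2 : s * |GF.mdot (x - c) (lmul L (linv B) 0)| <
      s * (r * -GF.mdot (x - c) (lmul L (linv B) 1)) := by
    calc _ < _ := h1
      _ = _ := by ring
  exact lt_of_mul_lt_mul_left h2 hs.le

lemma isTest_pull {L : Ix → V} (hL : GF.IsLor L) {c : Mink} {r : ℝ} {f : 𝓢(Mink, ℂ)}
    (hf : IsTest (MW (Wed L (WithLp.toLp 2 (sim s B b c.ofLp) : Mink).ofLp r)) f) :
    IsTest (MW (Wed (lmul L (linv B)) c.ofLp r)) (simS s hs hB b f) := by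
  refine ⟨(isTest_simS_univ hs hB b (isTest_univ hf)).1, fun x hx => ?_⟩
  rw [simS_eqH, tsupport_comp_eq_preimage] at hx
  have h1 := hf.2 hx
  rw [simH_apply] at h1
  exact sim_mem_wed hs hB b hL h1

end

/-! ### Independence of the centre -/

variable {D : Type*} [NormedAddCommGroup D] [InnerProductSpace ℂ D]
variable {Q : GF.Theory D}

/-- vectors on which all radial integrals converge -/
def GoodV (J : Ix → GF.Fld D) (w : D) : Prop := ∀ (L : Ix → V) (c : Mink) (f : 𝓢(Mink, ℂ)),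
  GF.IsLor L → IsTest (MW (Wed L c.ofLp 1)) f → Good J c f w

section

variable {J : Ix → GF.Fld D} (hJ : VFld Q J)
include hJ

lemma VFld.goodV {v : D} (hv : PW Q Set.univ v) : GoodV J v :=
  fun L c f hL hf => hJ.good hL hf hv

lemma VFld.goodV_U {s : ℝ} (hs : 0 < s) {B : Ix → V} (hB : GF.IsLor B) (b : V) {v : D}
    (hv : GoodV J v) : GoodV J (Q.U s B b v) := by
  intro L c f hL hf
  obtain ⟨c', rfl⟩ := (simH hs hB b).surjective c
  rw [simH_apply] at hf ⊢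
  exact hJ.good_U hs hB b (hv _ _ _ (isLor_lmul hL (isLor_linv hB)) (isTest_pull hs hB b hL hf))

variable (hc : Curl J Q.vac)
include hc

lemma VFld.La_vac (c : Mink) (f : 𝓢(Mink, ℂ)) : La J c f Q.vac = hJ.kp 0 f :=
  hJ.kp_indep hc c 0 f

/-- the matrix elements of the radial integral with wedge vectors -/
lemma VFld.La_elem {L : Ix → V} (hL : GF.IsLor L) {c : Mink} {f : 𝓢(Mink, ℂ)}
    (hf : IsTest (MW (Wed L c.ofLp 1)) f) {Y Y' : D → D} (hY : Al Q (Wed L c.ofLp (-1)) Y Y')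
    {w : D} (hw : GoodV J w) :
    inner ℂ ((Y Q.vac : D) : UniformSpace.Completion D) (La J c f w) =
      inner ℂ (hJ.kp 0 (conjS f)) ((Y' w : D) : UniformSpace.Completion D) := by
  have hf' := isTest_conj hf
  have hYv : PW Q Set.univ (Y Q.vac) := hY.pwu .vac
  have h1 := hJ.good hL hf' hYv
  have h2 := hJ.La_comm hL hf' hY (hJ.good_vac c (conjS f)) h1 w
  rw [hJ.La_herm (hw L c f hL hf) h1, ← inner_conj_symm, ← h2, hJ.La_vac hc, inner_conj_symm]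

lemma VFld.La_pair {L1 L2 : Ix → V} (hL1 : GF.IsLor L1) (hL2 : GF.IsLor L2) {c1 c2 : Mink}
    {f : 𝓢(Mink, ℂ)} (hf1 : IsTest (MW (Wed L1 c1.ofLp 1)) f)
    (hf2 : IsTest (MW (Wed L2 c2.ofLp 1)) f)
    (hb : Big (MW (Wed L1 c1.ofLp (-1) ∩ Wed L2 c2.ofLp (-1)))) {w : D} (hw : GoodV J w) :
    La J c1 f w = La J c2 f w := by
  apply ext_big (Q := Q) hb
  intro v hv
  obtain ⟨Y, Y', hY, rfl⟩ := exists_Al hv
  rw [hJ.La_elem hc hL1 hf1 (hY.mono Set.inter_subset_left) hw,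
    hJ.La_elem hc hL2 hf2 (hY.mono Set.inter_subset_right) hw]

lemma VFld.La_rt {θ φ θ' φ' : ℝ} {c1 c2 : Mink} {f : 𝓢(Mink, ℂ)}
    (hf1 : IsTest (MW (Wed (Rt θ φ) c1.ofLp 1)) f)
    (hf2 : IsTest (MW (Wed (Rt θ' φ') c2.ofLp 1)) f) (hn : -1 < nd θ φ (nv θ' φ')) {w : D}
    (hw : GoodV J w) : La J c1 f w = La J c2 f w := by
  refine hJ.La_pair hc (isLor_Rt θ φ) (isLor_Rt θ' φ') hf1 hf2
    (big_inter _ _ (d := (-1 : ℝ) • (nv θ φ + nv θ' φ')) ?_ ?_ ?_) hw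
  · simp [nv_zero]
  · rw [nd_smul, nd_add, nd_nv]; linarith
  · rw [nd_smul, nd_add, nd_nv, nd_nv_symm]; linarith

/-- independence of the rotated wedge -/
lemma VFld.La_rt0 {θ φ : ℝ} {c c0 : Mink} {f : 𝓢(Mink, ℂ)}
    (hf : IsTest (MW (Wed (Rt θ φ) c.ofLp 1)) f)
    (hf0 : IsTest (MW (Wed (Rt 0 0) c0.ofLp 1)) f) {w : D} (hw : GoodV J w) :
    La J c f w = La J c0 f w := by
  by_cases hcos : -1 < Real.cos θ
  · exact hJ.La_rt hc hf hf0 (by simpa [nd, nv] using hcos) hw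
  · obtain ⟨a2, ha2, _⟩ := exists_far_test (isTest_univ hf) (isTest_univ hf) (Real.pi / 2) 0
    have hc1 : Real.cos θ = -1 := le_antisymm (not_lt.1 hcos) (Real.neg_one_le_cos θ)
    have hs : Real.sin θ = 0 := by
      have := Real.sin_sq_add_cos_sq θ
      rw [hc1] at this
      nlinarith
    have h2 : IsTest (MW (Wed (Rt (Real.pi / 2) 0) (WithLp.toLp 2 a2 : Mink).ofLp 1)) f := ha2
    rw [hJ.La_rt hc hf h2 (by simp [nd, nv, hs]) hw, hJ.La_rt hc h2 hf0 (by simp [nd, nv]) hw]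

/-- independence of the wedge -/
theorem VFld.La_indep {L : Ix → V} (hL : GF.IsLor L) {c c0 : Mink} {f : 𝓢(Mink, ℂ)}
    (hf : IsTest (MW (Wed L c.ofLp 1)) f)
    (hf0 : IsTest (MW (Wed (Rt 0 0) c0.ofLp 1)) f) {w : D} (hw : GoodV J w) :
    La J c f w = La J c0 f w := by
  obtain ⟨θ, φ, hbig⟩ := exists_big hL c.ofLp
  obtain ⟨b, hfb, _⟩ := exists_far_test (isTest_univ hf) (isTest_univ hf) θ φ
  have h2 : IsTest (MW (Wed (Rt θ φ) (WithLp.toLp 2 b : Mink).ofLp 1)) f := hfb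
  rw [hJ.La_pair hc hL (isLor_Rt θ φ) hf h2 (hbig b) hw, hJ.La_rt0 hc h2 hf0 hw]

end

end Vale.Agent.P352.H246

end
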