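import Vale.Agent.P352.H246.Cov

set_option linter.all false

noncomputable section

open MeasureTheory SchwartzMap Complex Filter Topology
open scoped SchwartzMap ComplexConjugate ENNReal LineDeriv NNReal

namespace Vale.Agent.P352.H246

open GF (Ix V Fn Sch ev pd bar sim one bas o)

variable {D : Type*} [NormedAddCommGroup D] [InnerProductSpace ℂ D]
variable {Q : GF.Theory D}

lemma U_nrm {s : ℝ} (hs : 0 < s) {L : Ix → V} (hL : GF.IsLor L) (a : V) (v : D) :
    ‖Q.U s L a v‖ = ‖v‖ := by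
  have h := Q.U_inner s L a v v hs hL
  rw [inner_self_eq_norm_sq_to_K, inner_self_eq_norm_sq_to_K] at h
  have h2 : ‖Q.U s L a v‖ ^ 2 = ‖v‖ ^ 2 := by exact_mod_cast h
  exact (pow_left_inj₀ (norm_nonneg _) (norm_nonneg _) (by norm_num)).1 h2

lemma U_sub' {s : ℝ} (hs : 0 < s) {L : Ix → V} (hL : GF.IsLor L) (a : V) (x y : D) :
    Q.U s L a (x - y) = Q.U s L a x - Q.U s L a y := by
  have h1 : x - y = x + (-1 : ℂ) • y := by rw [neg_one_smul, sub_eq_add_neg]
  rw [h1, U_add hs hL, U_smul hs hL, neg_one_smul, ← sub_eq_add_neg]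

/-! ### Translations -/

lemma isTest_tau {W : Set V} {g : 𝓢(Mink, ℂ)} (hg : IsTest (MW W) g) (a : V) :
    IsTest (MW (sim 1 one a '' W)) (tauS (WithLp.toLp 2 a) g) := by
  apply hg.tauS
  intro x hx
  refine ⟨x.ofLp, hx, ?_⟩
  funext n
  simp only [sim, one, bas, Fin.sum_univ_four]
  fin_cases n <;> simp [add_comm]

lemma conjS_tau (a : Mink) (g : 𝓢(Mink, ℂ)) : conjS (tauS a g) = tauS a (conjS g) := by
  ext x; simp

lemma tran_one (a : V) : Tran Q 1 one a where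
  pw v hv := pw_U1 hv (WithLp.toLp 2 a)
  en k := ⟨1, zero_le_one, fun v hv => by rw [one_mul]; exact (en_U1 k (WithLp.toLp 2 a) hv).le⟩
  al W X X' hX := by
    have hU : ∀ {B : GF.Fld D} (hB : Q.fld B) (g : 𝓢(Mink, ℂ)) (v : D),
        Q.U 1 one a (B (fl g) v) = B (fl (tauS (WithLp.toLp 2 a) g)) (Q.U 1 one a v) :=
      fun hB g v => U_fld hB g (WithLp.toLp 2 a) v
    induction hX with
    | one => exact ⟨_, _, .one, fun v => rfl, fun v => rfl⟩
    | add X X' Z Z' _ _ ih1 ih2 =>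
      obtain ⟨Y1, Y1', h1, e1, e1'⟩ := ih1
      obtain ⟨Y2, Y2', h2, e2, e2'⟩ := ih2
      exact ⟨_, _, .add _ _ _ _ h1 h2, fun v => by rw [U_add one_pos isLor_one, e1, e2],
        fun v => by rw [U_add one_pos isLor_one, e1', e2']⟩
    | smul c X X' _ ih =>
      obtain ⟨Y1, Y1', h1, e1, e1'⟩ := ih
      exact ⟨_, _, .smul c _ _ h1, fun v => by rw [U_smul one_pos isLor_one, e1],
        fun v => by rw [U_smul one_pos isLor_one, e1']⟩
    | fld B B' g X X' hB hB' hadj hg _ ih =>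
      obtain ⟨Y1, Y1', h1, e1, e1'⟩ := ih
      obtain ⟨g, rfl, hg2⟩ := exists_In hg
      refine ⟨_, _, .fld B B' (fl (tauS (WithLp.toLp 2 a) g)) _ _ hB hB' hadj
        (In_fl.2 (isTest_tau hg2 a)) h1, fun v => by rw [hU hB, e1], fun v => ?_⟩
      rw [bar_fl, e1', hU hB', bar_fl, conjS_tau]

/-! ### General Lorentz wedges -/

lemma mem_Wed_of {L : Ix → V} (hL : GF.IsLor L) {a x : V}
    (h : |GF.mdot (x - a) (L 0)| < GF.mdot (x - a) (L 1)) : x ∈ Wed L a (-1) := by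
  refine ⟨fun m => GF.eta m * GF.mdot (x - a) (L m), ?_, ?_⟩
  · have e0 : GF.eta 0 = 1 := by simp [GF.eta, o]
    have e1 : GF.eta 1 = -1 := by simp [GF.eta, o]
    show |GF.eta 0 * GF.mdot (x - a) (L 0)| < -1 * (GF.eta 1 * GF.mdot (x - a) (L 1))
    rw [e0, e1, one_mul]
    linarith
  · funext n
    have h1 : ∀ k, ∑ m, GF.eta m * L m k * L m n = bas k (GF.eta k) n :=
      fun k => lor_transpose hL k n
    have e2 : ∑ m, (GF.eta m * GF.mdot (x - a) (L m)) * L m n = x n - a n := by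
      have : ∀ m, (GF.eta m * GF.mdot (x - a) (L m)) * L m n =
          ∑ k, (GF.eta k * (x k - a k)) * (GF.eta m * L m k * L m n) := by
        intro m
        unfold GF.mdot
        rw [Finset.mul_sum, Finset.sum_mul]
        refine Finset.sum_congr rfl fun k _ => ?_
        simp only [Pi.sub_apply]
        ring
      simp only [this]
      rw [Finset.sum_comm]
      simp only [← Finset.mul_sum, h1]
      simp only [bas, mul_ite, mul_zero, Finset.sum_ite_eq, Finset.mem_univ, if_true]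
      have := eta_sq n
      linear_combination (x n - a n) * this
    simp only [sim]
    rw [e2]
    ring

/-- a spatial vector in the left cone -/
def dvec (L : Ix → V) : V := (L 1 0 / L 0 0) • L 0 - L 1

lemma dvec_spec {L : Ix → V} (hL : GF.IsLor L) : dvec L 0 = 0 ∧
    GF.mdot (dvec L) (L 0) = L 1 0 / L 0 0 ∧ GF.mdot (dvec L) (L 1) = 1 ∧
    |L 1 0 / L 0 0| < 1 ∧ GF.mdot (-dvec L) (-dvec L) < 0 := by
  have h0 : 0 < L 0 0 := hL.2.1
  have h00 := hL.1 0 0
  have h01 := hL.1 0 1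
  have h10 := hL.1 1 0
  have h11 := hL.1 1 1
  have ht := lor_transpose hL 0 0
  simp only [GF.mdot, bas, GF.eta, o, Fin.sum_univ_four] at h00 h01 h10 h11 ht
  simp at h00 h01 h10 h11 ht
  have hlt : |L 1 0 / L 0 0| < 1 := by
    rw [abs_div, abs_of_pos h0, div_lt_one h0]
    apply abs_lt_of_sq_lt_sq _ h0.le
    nlinarith [sq_nonneg (L 2 0), sq_nonneg (L 3 0)]
  set ρ := L 1 0 / L 0 0 with hρ
  have e0 : dvec L 0 = 0 := by
    simp only [dvec, Pi.sub_apply, Pi.smul_apply, smul_eq_mul]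
    rw [← hρ, hρ]; field_simp; ring
  have e1 : GF.mdot (dvec L) (L 0) = ρ := by
    simp only [GF.mdot, dvec, GF.eta, o, Fin.sum_univ_four, Pi.sub_apply, Pi.smul_apply,
      smul_eq_mul]
    simp
    rw [← hρ]
    linear_combination ρ * h00 - h10
  have e2 : GF.mdot (dvec L) (L 1) = 1 := by
    simp only [GF.mdot, dvec, GF.eta, o, Fin.sum_univ_four, Pi.sub_apply, Pi.smul_apply,
      smul_eq_mul]
    simp
    rw [← hρ]
    linear_combination ρ * h01 - h11
  refine ⟨e0, e1, e2, hlt, ?_⟩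
  have e3 : GF.mdot (-dvec L) (-dvec L) = ρ * GF.mdot (dvec L) (L 0) - GF.mdot (dvec L) (L 1) := by
    have hd : dvec L = ρ • L 0 - L 1 := rfl
    simp only [GF.mdot, Fin.sum_univ_four, Pi.neg_apply]
    have hn : ∀ n, dvec L n = ρ * L 0 n - L 1 n := fun n => by
      rw [hd]; simp
    have hq : ∀ n, dvec L n * dvec L n = dvec L n * (ρ * L 0 n - L 1 n) := fun n => by
      rw [← hn]
    linear_combination GF.eta 0 * hq 0 + GF.eta 1 * hq 1 + GF.eta 2 * hq 2 + GF.eta 3 * hq 3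
  rw [e3, e1, e2]
  have := abs_lt.1 hlt
  nlinarith

lemma abs_mdot_le (x y : V) {r : ℝ} (h : ∀ i, |x i| ≤ r) :
    |GF.mdot x y| ≤ (∑ i, |y i|) * r := by
  unfold GF.mdot
  refine (Finset.abs_sum_le_sum_abs _ _).trans ?_
  rw [Finset.sum_mul]
  refine Finset.sum_le_sum fun i _ => ?_
  rw [abs_mul, abs_mul]
  have : |GF.eta i| = 1 := by
    unfold GF.eta; split_ifs <;> simp
  rw [this, one_mul, mul_comm]
  exact mul_le_mul_of_nonneg_left (h i) (abs_nonneg _)

lemma mdot_sub_l (x y z : V) : GF.mdot (x - y) z = GF.mdot x z - GF.mdot y z := by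
  simp only [GF.mdot, Pi.sub_apply]
  rw [← Finset.sum_sub_distrib]
  refine Finset.sum_congr rfl fun i _ => by ring

lemma mdot_smul_l (t : ℝ) (x z : V) : GF.mdot (t • x) z = t * GF.mdot x z := by
  simp only [GF.mdot, Pi.smul_apply, smul_eq_mul]
  rw [Finset.mul_sum]
  refine Finset.sum_congr rfl fun i _ => by ring

lemma far_lor {L : Ix → V} (hL : GF.IsLor L) (a : V) (r : ℝ) :
    ∃ t0 : ℝ, ∀ t ≥ t0, ∀ x : V, (∀ i, |x i - (t • dvec L) i| ≤ r) → x ∈ Wed L a (-1) := by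
  obtain ⟨_, h1, h2, h3, _⟩ := dvec_spec hL
  set ρ := L 1 0 / L 0 0 with hρ
  set B : ℝ := (∑ i, |L 0 i|) * |r| + |GF.mdot a (L 0)| + ((∑ i, |L 1 i|) * |r| +
    |GF.mdot a (L 1)|) with hB
  refine ⟨(B + 1) / (1 - |ρ|), fun t ht x hx => mem_Wed_of hL ?_⟩
  have hp : 0 < 1 - |ρ| := by linarith
  have h4 : B + 1 ≤ t * (1 - |ρ|) := (div_le_iff₀ hp).1 ht
  have hB0 : 0 ≤ B := by positivity
  have ht0 : 0 < t := by
    by_contra h
    have : t * (1 - |ρ|) ≤ 0 := mul_nonpos_of_nonpos_of_nonneg (not_lt.1 h) hp.le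
    linarith
  have hx' : ∀ i, |(x - t • dvec L) i| ≤ |r| := fun i => (hx i).trans (le_abs_self r)
  have b0 := abs_mdot_le (x - t • dvec L) (L 0) hx'
  have b1 := abs_mdot_le (x - t • dvec L) (L 1) hx'
  have e0 : GF.mdot (x - a) (L 0) = t * ρ + GF.mdot (x - t • dvec L) (L 0) -
      GF.mdot a (L 0) := by
    rw [mdot_sub_l, mdot_sub_l, mdot_smul_l, h1]; ring
  have e1 : GF.mdot (x - a) (L 1) = t + GF.mdot (x - t • dvec L) (L 1) -
      GF.mdot a (L 1) := by
    rw [mdot_sub_l, mdot_sub_l, mdot_smul_l, h2]; ring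
  rw [e0, e1]
  have c0 : |t * ρ + GF.mdot (x - t • dvec L) (L 0) - GF.mdot a (L 0)| ≤
      t * |ρ| + (∑ i, |L 0 i|) * |r| + |GF.mdot a (L 0)| := by
    refine (abs_sub _ _).trans ?_
    gcongr
    refine (abs_add_le _ _).trans ?_
    rw [abs_mul, abs_of_pos ht0]
    gcongr
  have c1 := neg_abs_le (GF.mdot (x - t • dvec L) (L 1))
  have c2 := le_abs_self (GF.mdot a (L 1))
  have : t * (1 - |ρ|) = t - t * |ρ| := by ring
  linarith

lemma exists_big {L : Ix → V} (hL : GF.IsLor L) (a : V) :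
    ∃ θ φ, ∀ b, Big (MW (Wed L a (-1) ∩ Wed (Rt θ φ) b (-1))) := by
  obtain ⟨h0, _, _, _, h4⟩ := dvec_spec hL
  obtain ⟨θ, φ, hd⟩ := exists_dir h4
  refine ⟨θ, φ, fun b r => ?_⟩
  have hd' : nd θ φ (dvec L) < 0 := by
    have e : nd θ φ (-dvec L) = -nd θ φ (dvec L) := by
      have := nd_smul θ φ (-1) (dvec L)
      rwa [neg_one_smul, neg_one_mul] at this
    rw [e] at hd
    have := abs_nonneg ((-dvec L) 0)
    linarith
  obtain ⟨t1, h1⟩ := far_lor hL a r
  obtain ⟨t2, h2⟩ := far_half θ φ b h0 hd' r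
  refine ⟨WithLp.toLp 2 (max t1 t2 • dvec L), fun x hx => ⟨?_, ?_⟩⟩
  · exact h1 _ (le_max_left _ _) _ hx
  · exact h2 _ (le_max_right _ _) _ hx

lemma Big.mono {S S' : Set Mink} (h : Big S) (hS : S ⊆ S') : Big S' := fun r => by
  obtain ⟨b, hb⟩ := h r
  exact ⟨b, fun x hx => hS (hb x hx)⟩

variable {lam : 𝓢(Mink, ℂ) → UniformSpace.Completion D}
variable {k : ℕ} {M M' : ℝ} {f g : 𝓢(Mink, ℂ)} {v w : D}
  {x y : UniformSpace.Completion D} {Mf : 𝓢(Mink, ℂ) → ℝ}

/-- the hypothesis for all Lorentz wedges -/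
def HG (lam : 𝓢(Mink, ℂ) → UniformSpace.Completion D) (Q : GF.Theory D) (k : ℕ) (M : ℝ)
    (f : 𝓢(Mink, ℂ)) : Prop := ∀ L a, GF.IsLor L → IsTest (MW (Wed L a 1)) f →
  HB lam Q (Wed L a (-1)) k M f

lemma HG.hw (h : HG lam Q k M f) : HW lam Q k M f := fun θ φ a => h _ a (isLor_Rt θ φ)

lemma LL_spec_gen (hM : ∀ f, 0 ≤ Mf f) (hb : ∀ f, HG lam Q k (Mf f) f)
    (hv : PW Q Set.univ v) {L : Ix → V} (hL : GF.IsLor L) (a : V)
    (h : IsTest (MW (Wed L a 1)) f) :
    Val lam Q (Wed L a (-1)) k (Mf f) f v (LL lam Q k Mf f v) := by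
  have hf := isTest_univ h
  obtain ⟨θ, φ, hbig⟩ := exists_big hL a
  obtain ⟨b, hfb, _⟩ := exists_far_test hf hf θ φ
  obtain ⟨x, hx⟩ := Val.exists (hb f L a hL h) (hM f)
    ((hbig b).mono Set.inter_subset_left) hv
  have s1 := LL_spec hM (fun f => (hb f).hw) hf hv θ φ b hfb
  have : x = LL lam Q k Mf f v :=
    hx.unique s1 Set.inter_subset_left Set.inter_subset_right (hbig b) hv
  rwa [this] at hx

/-- covariance of the extended operators -/
theorem LL_cov (hM : ∀ f, 0 ≤ Mf f) (hb : ∀ f, HG lam Q k (Mf f) f)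
    {s : ℝ} (hs : 0 < s) {L : Ix → V} (hL : GF.IsLor L) {a : V} (hT : Tran Q s L a)
    (hcov : ∀ f v, inner ℂ ((Q.U s L a v : D) : UniformSpace.Completion D) (lam f) =
      ((s ^ 2 : ℝ) : ℂ) * inner ℂ (v : UniformSpace.Completion D) (lam (simS s hs hL a f)))
    (hf : IsTest Set.univ f) (hv : PW Q Set.univ v) (z : D) :
    inner ℂ ((Q.U s L a z : D) : UniformSpace.Completion D)
        (LL lam Q k Mf f (Q.U s L a v)) = ((s ^ 2 : ℝ) : ℂ) *
      inner ℂ (z : UniformSpace.Completion D) (LL lam Q k Mf (simS s hs hL a f) v) := by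
  have hf' := isTest_simS_univ hs hL a hf
  obtain ⟨b, hfb, _⟩ := exists_far_test hf' hf' 0 0
  have s1 := LL_spec hM (fun f => (hb f).hw) hf' hv 0 0 b hfb
  have hfL : IsTest (MW (Wed L (sim s L a b) 1)) f := by
    rw [Rt_zero] at hfb
    have h1 := isTest_simS' hs hL a hfb
    exact ⟨h1.1, h1.2.trans fun x hx => sim_wed hs a b 1 hx⟩
  have s2 := LL_spec_gen hM hb (hT.pw v hv) hL _ hfL
  set x := LL lam Q k Mf (simS s hs hL a f) v
  set y := LL lam Q k Mf f (Q.U s L a v)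
  obtain ⟨C, hC, hen⟩ := hT.en k
  apply eq_of_small (K := Mf f * ‖z‖ * C + s ^ 2 * (Mf (simS s hs hL a f) * ‖z‖))
  intro ε hε _
  obtain ⟨v', hv', h1⟩ := dense_en (big_wed 0 0 b) k hv hε
  obtain ⟨X, X', hX, rfl⟩ := exists_Al hv'
  obtain ⟨Y, Y', hY, e1, e2⟩ := hT.al _ _ _ hX
  rw [Rt_zero] at hY
  have hY2 := hY.mono (sim_wed hs a b (-1))
  have b1 := s2 Y Y' hY2 (Q.U s L a z)
  have b2 := s1 X X' hX z
  have e3 : Y Q.vac = Q.U s L a (X Q.vac) := by
    rw [e1, Q.U_vac _ _ _ hs hL]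
  have hXp : PW Q Set.univ (X Q.vac) := hX.pwu .vac
  rw [e3, ← U_sub' hs hL, ← e2, hcov, U_nrm hs hL] at b1
  have hen2 := hen _ (pw_sub hv hXp)
  have e4 : inner ℂ ((Q.U s L a z : D) : UniformSpace.Completion D) y -
      ((s ^ 2 : ℝ) : ℂ) * inner ℂ (z : UniformSpace.Completion D) x =
      (inner ℂ ((Q.U s L a z : D) : UniformSpace.Completion D) y -
        ((s ^ 2 : ℝ) : ℂ) * inner ℂ ((X' z : D) : UniformSpace.Completion D)
          (lam (simS s hs hL a f))) -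
      ((s ^ 2 : ℝ) : ℂ) * (inner ℂ (z : UniformSpace.Completion D) x -
        inner ℂ ((X' z : D) : UniformSpace.Completion D) (lam (simS s hs hL a f))) := by ring
  rw [e4]
  have hM1 := hM f
  have hM2 := hM (simS s hs hL a f)
  calc _ ≤ _ := norm_sub_le _ _
    _ ≤ Mf f * ‖z‖ * (C * ε) + s ^ 2 * (Mf (simS s hs hL a f) * ‖z‖ * ε) := by
        refine add_le_add (b1.trans ?_) ?_
        · gcongr
          exact hen2.trans (by gcongr)
        · rw [norm_mul, norm_real, Real.norm_of_nonneg (by positivity)]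
          gcongr
          exact b2.trans (by gcongr)
    _ = _ := by ring

end Vale.Agent.P352.H246

end
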