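import Vale.Agent.P352.H246.Fldl
import Vale.Agent.P352.H246.Cov2
import Vale.Agent.P352.H246.Dens

set_option linter.all false

noncomputable section

open MeasureTheory SchwartzMap Complex Filter Topology
open scoped SchwartzMap ComplexConjugate ENNReal LineDeriv NNReal

namespace Vale.Agent.P352.H246

open GF (Ix V Fn Sch ev pd bar sim one bas o)

variable {D : Type*} [NormedAddCommGroup D] [InnerProductSpace ℂ D]
variable {Q : GF.Theory D} {T : Ix → Ix → GF.Fld D}

lemma continuous_simS (s : ℝ) (hs : 0 < s) {M : Ix → V} (hM : GF.IsLor M) (a : V) :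
    Continuous (simS s hs hM a) := by
  show Continuous fun f : 𝓢(Mink, ℂ) => SchwartzMap.compCLMOfContinuousLinearEquiv ℂ (lamE hM)
    (SchwartzMap.compCLMOfContinuousLinearEquiv ℂ
      (LinearEquiv.smulOfNeZero ℝ Mink s hs.ne').toContinuousLinearEquiv
      (SchwartzMap.compSubConstCLM ℂ (-WithLp.toLp 2 a) f))
  exact (ContinuousLinearMap.continuous _).comp ((ContinuousLinearMap.continuous _).comp
    (ContinuousLinearMap.continuous _))

section

variable {s : ℝ} (hs : 0 < s) {M : Ix → V} (hM : GF.IsLor M) {a : V} (hC : Cov Q s M a)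
include hs hM hC

/-- covariance of a local field whose action on the vacuum is the potential, compactly supported
test functions -/
lemma scal_cpt {l : Fn → UniformSpace.Completion D} (hl : IsPot Q T l) {L : GF.Fld D}
    (hL : Q.bose L)
    (h : ∀ f, GF.IsTest f → ((L f Q.vac : D) : UniformSpace.Completion D) = l f)
    {f : 𝓢(Mink, ℂ)} (hf : IsTest Set.univ f) (v : D) :
    L (fl f) (Q.U s M a v) = ((s ^ 2 : ℝ) : ℂ) • Q.U s M a (L (fl (simS s hs hM a f)) v) := by
  have hLf := Q.bose_fld _ hL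
  obtain ⟨L', hL', hadj⟩ := Q.adj L hLf
  -- pairing with the vectors `U w`
  have key : ∀ v w : D, inner ℂ (Q.U s M a w) (L (fl f) (Q.U s M a v)) =
      inner ℂ (Q.U s M a w) (((s ^ 2 : ℝ) : ℂ) • Q.U s M a (L (fl (simS s hs hM a f)) v)) := by
    intro v w
    have hcu : Continuous fun v : D => Q.U s M a v := by
      have : (fun v : D => Q.U s M a v) =
          (LinearMap.mkContinuous (LinearMap.mk ⟨Q.U s M a, U_add hs hM a⟩ (U_smul hs hM a) :
            D →ₗ[ℂ] D) 1 (fun v => by
              show ‖Q.U s M a v‖ ≤ 1 * ‖v‖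
              rw [one_mul, U_nrm hs hM]) : D → D) := rfl
      rw [this]
      exact ContinuousLinearMap.continuous _
    have e1 : ∀ v : D, inner ℂ (Q.U s M a w) (L (fl f) (Q.U s M a v)) =
        conj (inner ℂ (Q.U s M a v) (L' (fl (conjS f)) (Q.U s M a w)) : ℂ) := by
      intro v
      rw [← bar_fl, ← hadj _ _ _ (isTest_fl f), inner_conj_symm]
    have e2 : ∀ v : D, inner ℂ (Q.U s M a w) (((s ^ 2 : ℝ) : ℂ) •
        Q.U s M a (L (fl (simS s hs hM a f)) v)) = ((s ^ 2 : ℝ) : ℂ) *
        conj (inner ℂ v (L' (fl (conjS (simS s hs hM a f))) w) : ℂ) := by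
      intro v
      rw [inner_smul_right, Q.U_inner _ _ _ _ _ hs hM, ← bar_fl, ← hadj _ _ _ (isTest_fl _),
        inner_conj_symm]
    -- dense set of vectors
    have hfS := isTest_simS_univ hs hM a hf
    obtain ⟨b, hb, -⟩ := exists_far_test hfS hfS 0 0
    have hd : ∀ v, PW Q (MW (Wed (Rt 0 0) b (-1))) v →
        inner ℂ (Q.U s M a w) (L (fl f) (Q.U s M a v)) = inner ℂ (Q.U s M a w)
          (((s ^ 2 : ℝ) : ℂ) • Q.U s M a (L (fl (simS s hs hM a f)) v)) := by
      intro v hv
      obtain ⟨X, X', hX, rfl⟩ := exists_Al hv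
      obtain ⟨Y, Y', hY, h1, h2⟩ := cov_al hs hM hC hX
      have hsep1 : ∀ v, L (fl f) (Y v) = Y (L (fl f) v) := by
        refine bose_comm hL (fun G hG => ?_) hY
        have hf1 : IsTest (MW (sim s M a '' Wed (Rt 0 0) b 1)) f := isTest_simS' hs hM a hb
        rw [Rt_zero] at hf1 hG
        refine wed_sep hM (sim s M a b) ?_ ?_
        · exact ⟨hf1.1, hf1.2.trans (by
            intro x hx
            exact sim_wed (s := s) (L := M) (a := a) hs b 1 hx)⟩
        · exact ⟨hG.1, hG.2.trans (by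
            intro x hx
            exact sim_wed (s := s) (L := M) (a := a) hs b (-1) hx)⟩
      have hsep2 : ∀ v, L (fl (simS s hs hM a f)) (X v) = X (L (fl (simS s hs hM a f)) v) :=
        bose_comm hL (fun G hG => wed_sep (isLor_Rt 0 0) b hb hG) hX
      rw [h1, Q.U_vac _ _ _ hs hM, hsep1, ← hY.adj', ← h2, hsep2, inner_smul_right,
        Q.U_inner _ _ _ _ _ hs hM, ← hX.adj']
      have k1 := hl.cov s M a (fl f) (X' w) hs hM (isTest_fl _)
      rw [fl_sim s hs hM a, ← h _ (isTest_fl _), ← h _ (isTest_fl _),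
        UniformSpace.Completion.inner_coe, UniformSpace.Completion.inner_coe] at k1
      rw [k1]
    -- density
    have hc1 : Continuous fun v : D => (inner ℂ (Q.U s M a w) (L (fl f) (Q.U s M a v)) : ℂ) := by
      simp only [e1]
      exact Complex.continuous_conj.comp (hcu.inner continuous_const)
    have hc2 : Continuous fun v : D => (inner ℂ (Q.U s M a w) (((s ^ 2 : ℝ) : ℂ) •
        Q.U s M a (L (fl (simS s hs hM a f)) v)) : ℂ) := by
      simp only [e2]
      exact continuous_const.mul (Complex.continuous_conj.comp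
        (continuous_id.inner continuous_const))
    exact congrFun (hc1.ext_on (dense_big (Q := Q) (big_wed 0 0 b)) hc2 hd) v
  have h2 := hC.1.equalizer (g := fun y => (inner ℂ (L (fl f) (Q.U s M a v)) y : ℂ))
    (h := fun y => inner ℂ (((s ^ 2 : ℝ) : ℂ) • Q.U s M a (L (fl (simS s hs hM a f)) v)) y)
    (by fun_prop) (by fun_prop) (by
      funext w
      simp only [Function.comp_apply]
      rw [← inner_conj_symm, key v w, inner_conj_symm])
  exact ext_inner_right ℂ fun y => congrFun h2 y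

/-- covariance of a local field whose action on the vacuum is the potential -/
lemma scal_cov {l : Fn → UniformSpace.Completion D} (hl : IsPot Q T l) {L : GF.Fld D}
    (hL : Q.bose L)
    (h : ∀ f, GF.IsTest f → ((L f Q.vac : D) : UniformSpace.Completion D) = l f)
    (f : 𝓢(Mink, ℂ)) (v : D) :
    L (fl f) (Q.U s M a v) = ((s ^ 2 : ℝ) : ℂ) • Q.U s M a (L (fl (simS s hs hM a f)) v) := by
  have hLf := Q.bose_fld _ hL
  obtain ⟨g, hg, hlim⟩ := exists_compact_seq f
  have hcu : Continuous fun v : D => Q.U s M a v := by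
    have : (fun v : D => Q.U s M a v) =
        (LinearMap.mkContinuous (LinearMap.mk ⟨Q.U s M a, U_add hs hM a⟩ (U_smul hs hM a) :
          D →ₗ[ℂ] D) 1 (fun v => by
            show ‖Q.U s M a v‖ ≤ 1 * ‖v‖
            rw [one_mul, U_nrm hs hM]) : D → D) := rfl
    rw [this]
    exact ContinuousLinearMap.continuous _
  have h1 := ((fld_cont hLf (Q.U s M a v)).tendsto f).comp hlim
  have hc2 : Continuous fun f : 𝓢(Mink, ℂ) => ((s ^ 2 : ℝ) : ℂ) •
      Q.U s M a (L (fl (simS s hs hM a f)) v) :=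
    (hcu.comp ((fld_cont hLf v).comp (continuous_simS s hs hM a))).const_smul ((s ^ 2 : ℝ) : ℂ)
  have h2 := (hc2.tendsto f).comp hlim
  refine tendsto_nhds_unique h1 (h2.congr fun n => ?_)
  exact (scal_cpt hs hM hC hl hL h ⟨hg n, Set.subset_univ _⟩ v).symm

end

/-- A LOCAL FIELD WHOSE ACTION ON THE VACUUM IS THE POTENTIAL IMPROVES THE STRESS TENSOR -/
theorem scalar_of_vac (hT : Q.IsStress T) {l : Fn → UniformSpace.Completion D}
    (hl : IsPot Q T l)
    (hrel : ∀ L a f X X', GF.IsLor L → In (Wed L a 1) f → Al Q (Wed L a (-1)) X X' →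
      inner ℂ ((X' Q.vac : D) : UniformSpace.Completion D) (l f) =
        inner ℂ (l (bar f)) ((X Q.vac : D) : UniformSpace.Completion D))
    (hC : ∀ s M a, 0 < s → GF.IsLor M → Cov Q s M a) {L : GF.Fld D} (hL : Q.bose L)
    (h : ∀ f, GF.IsTest f → ((L f Q.vac : D) : UniformSpace.Completion D) = l f) :
    Q.IsScalar L 2 ∧ ∀ f v, GF.IsTest f → GF.tr (GF.improve T L) f v = 0 := by
  obtain ⟨h1, h2⟩ := field_of_vac hT hl hrel hL h
  refine ⟨⟨hL, h1, fun s M a f v hs hM hf => ?_⟩, h2⟩
  obtain ⟨F, rfl⟩ := exists_fl hf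
  have e : (s ^ ((4 : ℝ) - 2) : ℝ) = s ^ 2 := by
    rw [show ((4 : ℝ) - 2) = ((2 : ℕ) : ℝ) by norm_num, Real.rpow_natCast]
  rw [scal_cov hs hM (hC s M a hs hM) hl hL h, fl_sim s hs hM a, e]

end Vale.Agent.P352.H246

end

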