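import Vale.Agent.P352.H246.CopLoc
import Vale.Agent.P352.H746.Nec2
import Vale.Agent.P352.H846.TvDefs
import Vale.Agent.P352.H846.TvSd

/-!
# Locality of the second differences of the deviation
-/

set_option linter.all false

noncomputable section

open MeasureTheory SchwartzMap Filter Topology Set
open scoped SchwartzMap ContDiff ComplexConjugate

namespace Vale.Agent.P352.H246

open GF (Ix V Fn Fld bas eta o bar)
open H755 H496 H15
open H746 (kv kh kh_kv kh_conj kh_cont TG tg_lim local_affine)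
open H846 (Sd inner_Sd Sd_symm)

variable {D : Type*} [NormedAddCommGroup D] [InnerProductSpace ℂ D]
variable {Q : GF.Theory D} {T : Ix → Ix → GF.Fld D} {J : Ix → GF.Fld D}
  {A : (V → V) → D → D} {K : V → D → D}

lemma kh_vac (hT : Q.IsStress T) (h : NullCharges Q T J A K) {a : V} (ha : IsNull a) (b : V)
    (w : D) (u : ℝ) : kh Q A K a b Q.vac w u = 0 := by
  rw [kh_kv]
  unfold kv
  have e1 : Q.U 1 GF.one (-(u • b)) Q.vac = Q.vac := Q.U_vac _ _ _ one_pos isLor_one
  have e2 : Q.U 1 GF.one (u • b) 0 = 0 := by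
    have := U_smul (Q := Q) one_pos isLor_one (u • b) 0 0
    simpa using this
  rw [e1, K_vac hT h ha, H746.A_vac h.toRep (H755.Xw_sim a b),
    H746.A_vac h.toRep (H755.const_sim b), e2]
  simp

/-- the trace of `T` smeared with a real function -/
def tt (T : Ix → Ix → GF.Fld D) (p : V → ℝ) (v : D) : D := GF.tr T (fun x => (p x : ℂ)) v

lemma tt_add (hT : Q.IsStress T) {p q : V → ℝ} (hp : Tst p) (hq : Tst q) (v : D) :
    tt T (fun x => p x + q x) v = tt T p v + tt T q v := by
  unfold tt GF.tr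
  rw [← Finset.sum_add_distrib]
  refine Finset.sum_congr rfl fun m _ => ?_
  rw [← smul_add]
  have h3 := Q.lin (T m m) (fun x => (p x : ℂ)) (fun x => (q x : ℂ)) 1 v
    (Q.bose_fld _ (hT.bose m m)) hp.isTest hq.isTest
  rw [one_smul] at h3
  rw [← h3]
  refine congrArg (fun f => (eta m : ℂ) • T m m f v) (funext fun x => ?_)
  push_cast
  ring

lemma tsup_r {p : V → ℝ} : tsupport (fun x => (p x : ℂ)) ⊆ tsupport p := by
  refine closure_mono fun x hx => ?_
  simp only [Function.mem_support] at hx ⊢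
  intro h
  exact hx (by rw [h]; simp)

lemma tt_al (hT : Q.IsStress T) {p : V → ℝ} (hp : Tst p) {W : Set V}
    (hW : ∀ x ∈ tsupport p, ∀ y ∈ W, GF.mdot (x - y) (x - y) < 0) {X X' : D → D}
    (hX : Al Q W X X') (v : D) : tt T p (X v) = X (tt T p v) := by
  unfold tt GF.tr
  simp only [Fin.sum_univ_four]
  rw [hX.map_add, hX.map_add, hX.map_add, hX.map_smul, hX.map_smul, hX.map_smul, hX.map_smul]
  have h : ∀ m, T m m (fun x => (p x : ℂ)) (X v) = X (T m m (fun x => (p x : ℂ)) v) := fun m =>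
    bose_al (hT.bose m m) hp.isTest (fun x hx => hW x (tsup_r hx)) hX v
  rw [h, h, h, h]

lemma tt_fld (hT : Q.IsStress T) {p : V → ℝ} (hp : Tst p) {φ : GF.Fld D}
    (hφ : Q.fld φ) {f : Fn} (hf : GF.IsTest f)
    (hW : ∀ x ∈ tsupport p, ∀ y ∈ tsupport f, GF.mdot (x - y) (x - y) < 0) (v : D) :
    tt T p (φ f v) = φ f (tt T p v) := by
  obtain ⟨F, rfl⟩ := exists_fl hf
  unfold tt GF.tr
  simp only [Fin.sum_univ_four]
  rw [fld_add hφ, fld_add hφ, fld_add hφ, Vale.Agent.P352.fld_smul hφ,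
    Vale.Agent.P352.fld_smul hφ, Vale.Agent.P352.fld_smul hφ, Vale.Agent.P352.fld_smul hφ]
  have h : ∀ m, T m m (fun x => (p x : ℂ)) (φ (fl F) v) =
      φ (fl F) (T m m (fun x => (p x : ℂ)) v) := fun m =>
    Q.loc (T m m) φ _ (fl F) v (hT.bose m m) hφ hp.isTest hf
      fun x hx y hy => hW x (tsup_r hx) y hy
  rw [h, h, h, h]

/-- commutation at finite `R` -/
lemma tcomm_R (hT : Q.IsStress T) {p p1 p2 : V → ℝ} (hp1 : Tst p1) (hp2 : Tst p2)
    (hp : p = fun x => p1 x + p2 x) {φ : GF.Fld D} (hφ : Q.bose φ) {f : Fn} (hf : GF.IsTest f)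
    {W : Set V}
    (h1 : ∀ x ∈ tsupport p1, ∀ y ∈ tsupport f, GF.mdot (x - y) (x - y) < 0)
    (h2 : ∀ x ∈ tsupport p2, ∀ y ∈ W, GF.mdot (x - y) (x - y) < 0)
    (h3 : ∀ x ∈ tsupport f, ∀ y ∈ W, GF.mdot (x - y) (x - y) < 0)
    {X X' : D → D} (hX : Al Q W X X') (v : D) :
    tt T p (φ f (X v)) - φ f (tt T p (X v)) = X (tt T p (φ f v) - φ f (tt T p v)) := by
  have hφ' := Q.bose_fld _ hφ
  have hadd : ∀ u w, φ f (u + w) = φ f u + φ f w := by
    obtain ⟨F, rfl⟩ := exists_fl hf
    exact fun u w => fld_add hφ' _ _ _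
  have key : ∀ v, tt T p (φ f v) - φ f (tt T p v) = tt T p2 (φ f v) - φ f (tt T p2 v) := by
    intro v
    rw [hp, tt_add hT hp1 hp2, tt_add hT hp1 hp2, hadd, tt_fld hT hp1 hφ' hf h1]
    abel
  have hsub : ∀ u w, X (u - w) = X u - X w := by
    intro u w
    have := hX.map_add (u - w) w
    rw [sub_add_cancel] at this
    rw [this, add_sub_cancel_right]
  rw [key, key, bose_al hφ hf h3 hX, tt_al hT hp2 h2 hX, tt_al hT hp2 h2 hX,
    bose_al hφ hf h3 hX, hsub]

/-- affine functions on an interval with centre `c` -/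
lemma local_affine' {g : ℝ → ℂ} (hg : Continuous g) {M c : ℝ}
    (H : ∀ ψ : ℝ → ℝ, Tst ψ → (∀ s, M < |s - c| → ψ s = 0) →
      ∫ u, ((deriv (deriv ψ) u : ℝ) : ℂ) * g u = 0) {t : ℝ} (ht : |t| < M) :
    g (c + t) + g (c - t) = 2 * g c := by
  have h1 := local_affine (g := fun s => g (s + c)) (by fun_prop) (M := M) (fun ψ hψ hM => by
    have h2 := H (fun s => ψ (s - c)) ⟨hψ.1.comp (contDiff_id.sub contDiff_const),
      hψ.2.comp_homeomorph (Homeomorph.subRight c)⟩ (fun s hs => hM _ hs)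
    have e1 : ∀ s, deriv (deriv fun s => ψ (s - c)) s = deriv (deriv ψ) (s - c) := by
      intro s
      have e2 : (deriv fun s => ψ (s - c)) = fun s => deriv ψ (s - c) := by
        funext s
        exact deriv_comp_sub_const ψ c s
      rw [e2]
      exact deriv_comp_sub_const (deriv ψ) c s
    simp only [e1] at h2
    have h3 := integral_sub_right_eq_self (μ := (volume : Measure ℝ))
      (fun s => ((deriv (deriv ψ) s : ℝ) : ℂ) * g (s + c)) c
    simp only [sub_add_cancel] at h3
    rw [← h3]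
    exact h2) (u := 0) (t := t) (by simpa using ht)
  simp only [zero_add, zero_sub] at h1
  rw [add_comm c t, sub_eq_neg_add]
  exact h1

section

variable {a b : V} (ha : IsNull a) (hb : IsNull b) (hab : GF.mdot a b = 1)
include ha hb hab

/-- the commutator of the second difference with a bosonic field below the planes commutes with
the algebra of a wedge -/
lemma sd_comm (hT : Q.IsStress T) (hJ : IsVirial Q T J) (h : NullCharges Q T J A K)
    {φ φ' : GF.Fld D} (hφ : Q.bose φ) (hφ' : Q.fld φ')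
    (hadj : ∀ f v w, GF.IsTest f → inner ℂ (φ f v) w = inner ℂ v (φ' (bar f) w))
    {f : Fn} (hf : GF.IsTest f) (hc : HasCompactSupport f) {u t : ℝ}
    (hs : ∀ y ∈ tsupport f, GF.mdot a y < u - |t|)
    (h0 : ∀ κ ψ w, Adm a b κ ψ → (∀ s, ψ s ≠ 0 → ∀ y ∈ tsupport f, GF.mdot a y < s) →
      Tendsto (fun R => inner ℂ w (GF.tr T (fun x => (ctf a b κ 0 ψ R x : ℂ)) (φ f Q.vac)))
        atTop (𝓝 0)) : ∃ M M' : ℝ, ∀ X X',
      Al Q {y | M < GF.mdot a y ∧ GF.mdot b y < M'} X X' →
      Sd Q A K a b u t (φ f (X Q.vac)) = φ f (Sd Q A K a b u t (X Q.vac)) := by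
  have hca := (H846.contDiff_mdot a).continuous
  have hcb := (H846.contDiff_mdot b).continuous
  -- bounds on the support
  obtain ⟨A0, hA0, hA1⟩ : ∃ A0, (∀ z ∈ tsupport f, GF.mdot a z ≤ A0) ∧ A0 < u - |t| := by
    by_cases hne : (tsupport f).Nonempty
    · obtain ⟨z, hz, hmax⟩ := IsCompact.exists_isMaxOn (s := tsupport f) hc hne
        (f := fun z : V => GF.mdot a z) hca.continuousOn
      exact ⟨GF.mdot a z, fun y hy => hmax hy, hs z hz⟩
    · refine ⟨u - |t| - 1, fun z hz => (hne ⟨z, hz⟩).elim, by linarith⟩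
  obtain ⟨B0, hB0⟩ : ∃ B0, ∀ z ∈ tsupport f, -B0 ≤ GF.mdot b z := by
    have h1 : IsCompact ((fun z : V => GF.mdot b z) '' tsupport f) := IsCompact.image hc hcb
    obtain ⟨c, hc⟩ := h1.bddBelow
    exact ⟨-c, fun z hz => by rw [neg_neg]; exact hc ⟨z, hz, rfl⟩⟩
  obtain ⟨M, hM1, hM2⟩ : ∃ M, |t| < M ∧ A0 < u - M :=
    ⟨(u - A0 + |t|) / 2, by linarith, by linarith⟩
  refine ⟨u + M, -B0 - 4, fun X X' hX => ?_⟩
  obtain ⟨κ, hκ, hκ1⟩ := exists_kp
  have e : ∀ w z, inner ℂ w (φ f z) = inner ℂ (φ' (bar f) w) z := by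
    intro w z
    rw [← inner_conj_symm, hadj f z w hf, inner_conj_symm]
  -- the identity for the test functions with support in the interval
  have key : ∀ w, ∀ ψ : ℝ → ℝ, Tst ψ → (∀ s, M < |s - u| → ψ s = 0) →
      ∫ s, ((deriv (deriv ψ) s : ℝ) : ℂ) * (kh Q A K a b (φ f (X Q.vac)) w s -
        kh Q A K a b (X Q.vac) (φ' (bar f) w) s) = 0 := by
    intro w G hG hGs
    have hAd : Adm a b κ G := ⟨ha, hb, hab, hκ, hκ1, hG⟩
    have hGs' : ∀ s, G s ≠ 0 → u - M ≤ s ∧ s ≤ u + M := by
      intro s hs'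
      have h1 : |s - u| ≤ M := by
        by_contra hlt
        push Not at hlt
        exact hs' (hGs s hlt)
      have h2 := abs_le.1 h1
      exact ⟨by linarith [h2.1], by linarith [h2.2]⟩
    set p : ℝ → V → ℝ := fun R => ctf a b κ 0 G R with hp
    have hpt : ∀ R, 1 ≤ R → Tst (p R) := fun R hR => H755.ctf_tst hAd 0 hR
    have hps : ∀ R x, p R x ≠ 0 → u - M ≤ GF.mdot a x ∧ GF.mdot a x ≤ u + M := by
      intro R x hx
      exact hGs' _ fun h => hx (by simp only [hp, ctf, h, mul_zero])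
    set p1 : ℝ → V → ℝ := fun R x => H746.chi (GF.mdot b x + B0 + 2) * p R x with hp1
    set p2 : ℝ → V → ℝ := fun R x => (1 - H746.chi (GF.mdot b x + B0 + 2)) * p R x with hp2
    have hchi : ContDiff ℝ ∞ fun x : V => H746.chi (GF.mdot b x + B0 + 2) :=
      H746.chi_smooth.comp (((H846.contDiff_mdot b).add contDiff_const).add contDiff_const)
    have hp1t : ∀ R, 1 ≤ R → Tst (p1 R) := fun R hR => H755.tst_smul hchi (hpt R hR)
    have hp2t : ∀ R, 1 ≤ R → Tst (p2 R) := fun R hR =>
      H755.tst_smul (contDiff_const.sub hchi) (hpt R hR)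
    have hsum : ∀ R, p R = fun x => p1 R x + p2 R x := by
      intro R
      funext x
      simp only [hp1, hp2]
      ring
    have s1 : ∀ R, ∀ x ∈ tsupport (p1 R), u - M ≤ GF.mdot a x ∧ GF.mdot b x ≤ -B0 - 1 := by
      intro R x hx
      have hcl : IsClosed {x : V | u - M ≤ GF.mdot a x ∧ GF.mdot b x ≤ -B0 - 1} :=
        (isClosed_le continuous_const hca).inter (isClosed_le hcb continuous_const)
      refine closure_minimal (fun z hz => ?_) hcl hx
      have hz' : p1 R z ≠ 0 := hz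
      have h1 : p R z ≠ 0 := fun h => hz' (by simp only [hp1, h, mul_zero])
      have h2 : H746.chi (GF.mdot b z + B0 + 2) ≠ 0 :=
        fun h => hz' (by simp only [hp1, h, zero_mul])
      refine ⟨(hps R z h1).1, ?_⟩
      by_contra hle
      push Not at hle
      exact h2 (H746.chi_ge (by linarith))
    have s2 : ∀ R, ∀ x ∈ tsupport (p2 R), GF.mdot a x ≤ u + M ∧ -B0 - 3 ≤ GF.mdot b x := by
      intro R x hx
      have hcl : IsClosed {x : V | GF.mdot a x ≤ u + M ∧ -B0 - 3 ≤ GF.mdot b x} :=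
        (isClosed_le hca continuous_const).inter (isClosed_le continuous_const hcb)
      refine closure_minimal (fun z hz => ?_) hcl hx
      have hz' : p2 R z ≠ 0 := hz
      have h1 : p R z ≠ 0 := fun h => hz' (by simp only [hp2, h, mul_zero])
      have h2 : 1 - H746.chi (GF.mdot b z + B0 + 2) ≠ 0 :=
        fun h => hz' (by simp only [hp2, h, zero_mul])
      refine ⟨(hps R z h1).2, ?_⟩
      by_contra hle
      push Not at hle
      exact h2 (by rw [H746.chi_le (by linarith), sub_self])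
    have hR : ∀ R, 1 ≤ R → inner ℂ w (tt T (p R) (φ f (X Q.vac))) -
        inner ℂ (φ' (bar f) w) (tt T (p R) (X Q.vac)) =
        inner ℂ (X' w) (tt T (p R) (φ f Q.vac)) -
          inner ℂ (φ' (bar f) (X' w)) (tt T (p R) Q.vac) := by
      intro R hR
      have k := tcomm_R hT (hp1t R hR) (hp2t R hR) (hsum R) hφ hf
        (W := {y | u + M < GF.mdot a y ∧ GF.mdot b y < -B0 - 4})
        (fun x hx y hy => sep_pm ha hb hab (by linarith [(s1 R x hx).1, hA0 y hy])
          (by linarith [(s1 R x hx).2, hB0 y hy]))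
        (fun x hx y hy => sep_mp ha hb hab (by linarith [(s2 R x hx).1, hy.1])
          (by linarith [(s2 R x hx).2, hy.2]))
        (fun x hx y hy => sep_mp ha hb hab (by
          have := abs_nonneg t
          linarith [hA0 x hx, hy.1])
          (by linarith [hB0 x hx, hy.2])) hX Q.vac
      have k2 := congrArg (fun z => inner ℂ w z) k
      simp only [inner_sub_right] at k2
      rw [← hX.adj', inner_sub_right] at k2
      rw [e, e (X' w)] at k2
      exact k2
    have l1 := tg_lim hT hJ h hAd (φ f (X Q.vac)) w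
    have l2 := tg_lim hT hJ h hAd (X Q.vac) (φ' (bar f) w)
    have l3 := h0 κ G (X' w) hAd fun s hs' y hy => by
      have h1 := (hGs' s hs').1
      linarith [hA0 y hy]
    have l4 := tg_lim hT hJ h hAd Q.vac (φ' (bar f) (X' w))
    have e4 : ∫ s, ((deriv (deriv G) s : ℝ) : ℂ) *
        kh Q A K a b Q.vac (φ' (bar f) (X' w)) s = 0 := by
      simp only [kh_vac hT h ha, mul_zero, integral_zero]
    rw [e4, mul_zero, neg_zero] at l4
    have l5 := l3.sub l4
    rw [sub_zero] at l5
    have l6 := (l1.sub l2).congr' (f₂ := fun R => inner ℂ (X' w) (tt T (p R) (φ f Q.vac)) -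
        inner ℂ (φ' (bar f) (X' w)) (tt T (p R) Q.vac)) (by
      filter_upwards [eventually_ge_atTop (1:ℝ)] with R hR1
      exact hR R hR1)
    have l7 := tendsto_nhds_unique l6 l5
    have i1 := H746.tst_intg (H746.tder (H746.tder hG)) (kh_cont h ha hb (φ f (X Q.vac)) w)
    have i2 := H746.tst_intg (H746.tder (H746.tder hG))
      (kh_cont h ha hb (X Q.vac) (φ' (bar f) w))
    have e5 : (fun s => ((deriv (deriv G) s : ℝ) : ℂ) * (kh Q A K a b (φ f (X Q.vac)) w s -
        kh Q A K a b (X Q.vac) (φ' (bar f) w) s)) = fun s =>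
        ((deriv (deriv G) s : ℝ) : ℂ) * kh Q A K a b (φ f (X Q.vac)) w s -
          ((deriv (deriv G) s : ℝ) : ℂ) * kh Q A K a b (X Q.vac) (φ' (bar f) w) s := by
      funext s
      ring
    rw [e5, integral_sub i1 i2]
    linear_combination (-2 : ℂ) * l7
  refine ext_inner_left ℂ fun w => ?_
  have h1 := local_affine' (g := fun s => kh Q A K a b (φ f (X Q.vac)) w s -
    kh Q A K a b (X Q.vac) (φ' (bar f) w) s)
    ((kh_cont h ha hb _ _).sub (kh_cont h ha hb _ _)) (key w) (t := t) hM1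
  rw [e, inner_Sd, inner_Sd]
  linear_combination h1

/-- second differences commute with the bosonic fields below the planes, if their adjoints create
vectors on which the integrals of the trace over null hyperplanes above them vanish -/
theorem sd_fld (hT : Q.IsStress T) (hJ : IsVirial Q T J) (h : NullCharges Q T J A K)
    {φ φ' : GF.Fld D} (hφ : Q.fld φ) (hφ' : Q.bose φ')
    (hadj : ∀ f v w, GF.IsTest f → inner ℂ (φ f v) w = inner ℂ v (φ' (bar f) w))
    {f : Fn} (hf : GF.IsTest f) (hc : HasCompactSupport f) {u t : ℝ}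
    (hs : ∀ y ∈ tsupport f, GF.mdot a y < u - |t|)
    (h0 : ∀ κ ψ w, Adm a b κ ψ → (∀ s, ψ s ≠ 0 → ∀ y ∈ tsupport f, GF.mdot a y < s) →
      Tendsto (fun R => inner ℂ w (GF.tr T (fun x => (ctf a b κ 0 ψ R x : ℂ))
        (φ' (bar f) Q.vac))) atTop (𝓝 0)) (v : D) :
    Sd Q A K a b u t (φ f v) = φ f (Sd Q A K a b u t v) := by
  have hts : tsupport (bar f) = tsupport f := tsupport_bar f
  have hcb : HasCompactSupport (bar f) := by
    rw [HasCompactSupport, tsupport_bar]; exact hc
  obtain ⟨M, M', hM⟩ := sd_comm ha hb hab hT hJ h hφ' hφ (adj_symm hadj) (isTest_bar hf) hcb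
    (u := u) (t := t) (by rw [hts]; exact hs) (by rw [hts]; exact h0)
  have hba : GF.mdot b a = 1 := by rw [md_comm]; exact hab
  have hW : Big (MW {y : V | M < GF.mdot a y ∧ GF.mdot b y < M'}) := by
    refine big_two (c := b - a) one_pos one_pos ?_ ?_
    · rw [md_sub, hab, ha.1, sub_zero]
    · rw [md_sub, hba, hb.1, zero_sub]
  rw [← sub_eq_zero]
  refine dens_eq (Q := Q) ha hb hab hW fun X X' hX => ?_
  have e : ∀ u z, inner ℂ u (φ f z) = inner ℂ (φ' (bar f) u) z := by
    intro u z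
    rw [← inner_conj_symm, hadj f z u hf, inner_conj_symm]
  have hsym := Sd_symm hT h (b := b) ha u t
  rw [inner_sub_right, ← hsym, e, ← hM X X' hX, hsym, ← e, sub_self]

/-- second differences commute with the stress tensor below the planes -/
theorem sd_T (hT : Q.IsStress T) (hJ : IsVirial Q T J) (h : NullCharges Q T J A K)
    (hv : H846.TrVac Q T) {m n : Ix} {f : Fn} (hf : GF.IsTest f) (hc : HasCompactSupport f)
    {u t : ℝ} (hs : ∀ y ∈ tsupport f, GF.mdot a y < u - |t|) (v : D) :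
    Sd Q A K a b u t (T m n f v) = T m n f (Sd Q A K a b u t v) :=
  sd_fld ha hb hab hT hJ h (Q.bose_fld _ (hT.bose m n)) (hT.bose m n) (hT.herm m n) hf hc hs
    (fun κ ψ w hA hp => hv a b κ ψ m n (bar f) w hA (isTest_bar hf)
      (by rw [HasCompactSupport, tsupport_bar]; exact hc)
      (by rw [tsupport_bar]; exact hp)) v

end

end Vale.Agent.P352.H246

end
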