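import Vale.Agent.P352.H246.Wdg

set_option linter.all false

noncomputable section

open MeasureTheory SchwartzMap Complex Filter Topology
open scoped SchwartzMap ComplexConjugate ENNReal LineDeriv

namespace Vale.Agent.P352.H246

open GF (Ix V Fn Sch ev pd bar sim one bas o)

variable {D : Type*} [NormedAddCommGroup D] [InnerProductSpace ℂ D]
variable {Q : GF.Theory D}
variable {μ : Measure Mink}

lemma bar_bar (f : Fn) : bar (bar f) = f := by funext x; simp [bar]

lemma isTest_bar {f : Fn} (hf : GF.IsTest f) : GF.IsTest (bar f) := by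
  obtain ⟨F, rfl⟩ := exists_fl hf
  rw [bar_fl]
  exact isTest_fl _

lemma tsupport_bar (f : Fn) : tsupport (bar f) = tsupport f := by
  have : Function.support (bar f) = Function.support f := by
    ext x; simp [bar, Function.mem_support]
  rw [tsupport, tsupport, this]

lemma In.bar {W : Set V} {f : Fn} (hf : In W f) : In W (bar f) := by
  refine ⟨isTest_bar hf.1, ?_, ?_⟩
  · rw [HasCompactSupport, tsupport_bar]; exact hf.2.1
  · rw [tsupport_bar]; exact hf.2.2

lemma hasCompactSupport_of_fl {F : 𝓢(Mink, ℂ)} (h : HasCompactSupport (fl F)) :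
    HasCompactSupport F := by
  have h1 : (F : Mink → ℂ) = fl F ∘ (EuclideanSpace.equiv (Fin 4) ℝ).toHomeomorph := by
    funext x; rfl
  rw [h1]
  exact h.comp_homeomorph _

lemma In_fl {W : Set V} {F : 𝓢(Mink, ℂ)} : In W (fl F) ↔ IsTest (MW W) F := by
  constructor
  · intro h
    refine ⟨hasCompactSupport_of_fl h.2.1, fun x hx => ?_⟩
    have h1 := h.2.2
    rw [tsupport_fl] at h1
    exact h1 (show x.ofLp ∈ WithLp.toLp 2 ⁻¹' tsupport F from hx)
  · intro h
    refine ⟨isTest_fl F, hasCompactSupport_fl h.1, ?_⟩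
    rw [tsupport_fl]
    intro x hx
    exact h.2 hx

lemma exists_In {W : Set V} {f : Fn} (h : In W f) : ∃ F, fl F = f ∧ IsTest (MW W) F := by
  obtain ⟨F, rfl⟩ := exists_fl h.1
  exact ⟨F, rfl, In_fl.1 h⟩

section algebra

variable {W W' : Set V} {X X' Y Y' : D → D}

lemma Al.adj (h : Al Q W X X') : ∀ v w, inner ℂ (X v) w = inner ℂ v (X' w) := by
  induction h with
  | one => intro v w; rfl
  | add X X' Y Y' _ _ ih1 ih2 =>
    intro v w
    rw [inner_add_left, inner_add_right, ih1, ih2]
  | smul c X X' _ ih =>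
    intro v w
    rw [inner_smul_left, inner_smul_right, ih]
    rfl
  | fld A B g X X' hA hB h hg _ ih =>
    intro v w
    rw [h g _ _ hg.1, ih]

lemma Al.adj' (h : Al Q W X X') : ∀ v w, inner ℂ (X' v) w = inner ℂ v (X w) := by
  intro v w
  rw [← inner_conj_symm, ← h.adj, inner_conj_symm]

lemma Al.map_add (h : Al Q W X X') (v w : D) : X (v + w) = X v + X w := by
  refine ext_inner_right ℂ fun u => ?_
  rw [h.adj, inner_add_left, inner_add_left, h.adj, h.adj]

lemma Al.map_smul (h : Al Q W X X') (c : ℂ) (v : D) : X (c • v) = c • X v := by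
  refine ext_inner_right ℂ fun u => ?_
  rw [h.adj, inner_smul_left, inner_smul_left, h.adj]

lemma Al.map_add' (h : Al Q W X X') (v w : D) : X' (v + w) = X' v + X' w := by
  refine ext_inner_right ℂ fun u => ?_
  rw [h.adj', inner_add_left, inner_add_left, h.adj', h.adj']

lemma Al.map_smul' (h : Al Q W X X') (c : ℂ) (v : D) : X' (c • v) = c • X' v := by
  refine ext_inner_right ℂ fun u => ?_
  rw [h.adj', inner_smul_left, inner_smul_left, h.adj']

lemma Al.mul (h : Al Q W X X') (hY : Al Q W Y Y') :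
    Al Q W (fun v => X (Y v)) (fun v => Y' (X' v)) := by
  induction h with
  | one => exact hY
  | add X X' Z Z' _ _ ih1 ih2 =>
    have h := Al.add _ _ _ _ ih1 ih2
    have e : (fun v => Y' (X' v + Z' v)) = fun v => Y' (X' v) + Y' (Z' v) := by
      funext v; exact hY.map_add' _ _
    rw [e]; exact h
  | smul c X X' _ ih =>
    have h := Al.smul c _ _ ih
    have e : (fun v => Y' (star c • X' v)) = fun v => star c • Y' (X' v) := by
      funext v; exact hY.map_smul' _ _
    rw [e]; exact h
  | fld A B g X X' hA hB h hg _ ih => exact Al.fld A B g _ _ hA hB h hg ih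

lemma adj_symm {A B : GF.Fld D}
    (h : ∀ f v w, GF.IsTest f → inner ℂ (A f v) w = inner ℂ v (B (bar f) w)) :
    ∀ f v w, GF.IsTest f → inner ℂ (B f v) w = inner ℂ v (A (bar f) w) := by
  intro f v w hf
  have h1 := h (GF.bar f) w v (isTest_bar hf)
  rw [bar_bar] at h1
  rw [← inner_conj_symm, ← h1, inner_conj_symm]

lemma Al.star (h : Al Q W X X') : Al Q W X' X := by
  induction h with
  | one => exact Al.one
  | add X X' Y Y' _ _ ih1 ih2 => exact Al.add _ _ _ _ ih1 ih2
  | smul c X X' _ ih =>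
    have := Al.smul (Star.star c) _ _ ih
    rwa [star_star] at this
  | fld A B g X X' hA hB h hg _ ih =>
    have h1 := Al.fld B A (GF.bar g) _ _ hB hA (adj_symm h) hg.bar (Al.one (Q := Q) (W := W))
    rw [bar_bar] at h1
    exact ih.mul h1

lemma Al.mono (hW : W ⊆ W') (h : Al Q W X X') : Al Q W' X X' := by
  induction h with
  | one => exact Al.one
  | add X X' Y Y' _ _ ih1 ih2 => exact Al.add _ _ _ _ ih1 ih2
  | smul c X X' _ ih => exact Al.smul c _ _ ih
  | fld A B g X X' hA hB h hg _ ih =>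
    exact Al.fld A B g _ _ hA hB h ⟨hg.1, hg.2.1, hg.2.2.trans hW⟩ ih

lemma Al.comm {T : Ix → Ix → GF.Fld D} {A : GF.Fld D} {d : ℝ} (hA : PField Q T A d)
    {f : 𝓢(Mink, ℂ)} (hsep : ∀ G, IsTest (MW W) G → SpSep f G) (h : Al Q W X X') :
    ∀ v, A (fl f) (X v) = X (A (fl f) v) := by
  induction h with
  | one => intro v; rfl
  | add X X' Y Y' _ _ ih1 ih2 => intro v; rw [hA.addv, ih1, ih2]
  | smul c X X' _ ih => intro v; rw [hA.smulv, ih]
  | fld B B' g X X' hB hB' h hg _ ih =>
    intro v
    obtain ⟨G, rfl, hG⟩ := exists_In hg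
    rw [hA.loc B f G _ hB (hsep G hG), ih]

end algebra

/-- opposite wedges are spacelike separated -/
lemma wed_sep {L : Ix → V} (hL : GF.IsLor L) (a : V) {f G : 𝓢(Mink, ℂ)}
    (hf : IsTest (MW (Wed L a 1)) f) (hG : IsTest (MW (Wed L a (-1))) G) : SpSep f G := by
  intro x hx y hy
  obtain ⟨x0, rfl⟩ := (poi hL a).surjective x
  obtain ⟨y0, rfl⟩ := (poi hL a).surjective y
  have h1 := (mem_MW_Wed hL a 1 x0).1 (hf.2 hx)
  have h2 := (mem_MW_Wed hL a (-1) y0).1 (hG.2 hy)
  have e : poi hL a x0 - poi hL a y0 = lam L (x0 - y0) := by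
    rw [← lamE_apply hL, map_sub]
    simp [poi]
  rw [e, mdot_lam hL]
  simp only [mdot, PiLp.sub_apply]
  rw [one_mul] at h1
  have h3 : |x0 0 - y0 0| < x0 1 - y0 1 := by
    calc |x0 0 - y0 0| ≤ |x0 0| + |y0 0| := abs_sub _ _
      _ < x0 1 - y0 1 := by linarith
  have h4 := abs_lt.1 h3
  nlinarith [sq_nonneg (x0 2 - y0 2), sq_nonneg (x0 3 - y0 3)]

section

variable {T : Ix → Ix → GF.Fld D} {A : GF.Fld D}
variable (S : SymMeasure μ 4) (hA : PField Q T A 4) (two : Two Q A μ)

include two in
/-- the fundamental wedge relation -/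
theorem wedge_rel {L : Ix → V} (hL : GF.IsLor L) (a : V) {f : 𝓢(Mink, ℂ)}
    (hf : IsTest (MW (Wed L a 1)) f) {X X' : D → D} (hX : Al Q (Wed L a (-1)) X X') :
    inner ℂ ((X' Q.vac : D) : UniformSpace.Completion D) (lamV S hA f) =
      inner ℂ (lamV S hA (conjS f)) ((X Q.vac : D) : UniformSpace.Completion D) := by
  set Jd := ContinuousLinearMap.adjoint (J S hA) with hJd
  set x := Jd ((X' Q.vac : D) : UniformSpace.Completion D) with hx
  set y := Jd ((X Q.vac : D) : UniformSpace.Completion D) with hy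
  have ex : ∀ φ, inner ℂ ((X' Q.vac : D) : UniformSpace.Completion D) (J S hA φ) =
      inner ℂ x φ := fun φ => (ContinuousLinearMap.adjoint_inner_left _ _ _).symm
  have ey : ∀ φ, inner ℂ (J S hA φ) ((X Q.vac : D) : UniformSpace.Completion D) =
      inner ℂ φ y := fun φ => (ContinuousLinearMap.adjoint_inner_right _ _ _).symm
  have hxm : MemLp (fun p => conj (x p)) 2 μ := (Lp.memLp x).star
  have e1 : ∀ f, inner ℂ x (toL S.good.temp f) = ∫ p, mft f p * conj (x p) ∂μ := by
    intro f
    rw [L2.inner_def]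
    apply integral_congr_ae
    filter_upwards [coeFn_toL S.good.temp f] with p hp
    rw [hp]
    simp
  have e2 : ∀ f, inner ℂ x (toI S f) = ∫ p, mft f p * ((im p : ℂ) * conj (x p)) ∂μ := by
    intro f
    rw [L2.inner_def]
    apply integral_congr_ae
    filter_upwards [coeFn_toI S f] with p hp
    rw [hp]
    simp only [RCLike.inner_apply]
    ring
  have key := wed_im S hL a hxm (Lp.memLp y) (fun g hg => by
    rw [← e1, ← inner_toL S.good.temp, ← ex, ← ey, J_toL S hA two, J_toL S hA two, hA.kap_apply,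
      hA.kap_apply, UniformSpace.Completion.inner_coe, UniformSpace.Completion.inner_coe,
      hX.adj', ← hX.comm hA (fun G hG => wed_sep hL a hg hG), hA.herm, conjS_conjS]) f hf
  rw [← e2, ← inner_toI S] at key
  rw [lamV_apply, lamV_apply, inner_smul_right, inner_smul_left, ex, ey, key]
  simp only [map_neg, map_div₀, map_one, map_ofNat]

end

end Vale.Agent.P352.H246

end
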