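import Vale.Agent.P352.H246.Rc9
import Vale.Agent.P352.H746.Vjm

set_option linter.all false

noncomputable section

open MeasureTheory SchwartzMap Complex Filter Topology
open scoped SchwartzMap ComplexConjugate ENNReal LineDeriv ContDiff FourierTransform

namespace Vale.Agent.P352.H246R

open GF (Ix V Fn Sch ev pd bar sim bas o)
open H246 H496 H755 H746
open UniformSpace (Completion)

variable {D : Type*} [NormedAddCommGroup D] [InnerProductSpace ℂ D]
variable {Q : GF.Theory D}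
variable {H : D → D} {alg : Set V → Set (D → D)} {S : V → ℝ → D → D}

/-- `b0` in terms of the action of the similitudes -/
theorem b0_act {T : 𝓢(Mink, ℂ) →L[ℂ] ℂ}
    (hcov : ∀ s (hs : 0 < s) L (hL : GF.IsLor L) r, 0 < r →
      sim 1 L 0 (nu (-1)) = r • nu (-1) →
      ∀ F, T F = (((s * r ^ 3)⁻¹ : ℝ) : ℂ) * T (act s hs hL F))
    (hcone : ∀ F, (∀ p ∈ fwdCone, F p = 0) → T F = 0) {F : 𝓢(Mink, ℂ)} (hF : PC F) : T F = 0 := by
  have C : Cvr T Set.univ (-3) (-3 - 2) := by
    refine ⟨?_, ?_, ?_, ?_⟩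
    · intro b G hG
      rw [psi_null hG.1 b (TF_shi adm_univ hG (Or.inl rfl) b).1,
        hcov 1 one_pos _ (isLor_null b) 1 one_pos (null_nu b) (psi G)]
      simp
    · intro b G hG
      rw [psi_null' hG.1 b (TF_shi adm_univ hG (Or.inr rfl) b).1,
        hcov 1 one_pos _ (isLor_null' b) 1 one_pos (null_nu' b) (psi G)]
      simp
    · intro t G hG
      have h1 := hcov 1 one_pos _ (isLor_boost t) _ (Real.exp_pos (-t)) (boost_nu t) (psi G)
      have e1 : (((1 * Real.exp (-t) ^ 3)⁻¹ : ℝ) : ℂ) = exp (3 * t) := by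
        rw [one_mul, ← Real.exp_nat_mul, ← Real.exp_neg]
        push_cast
        congr 1
        ring
      rw [e1] at h1
      rw [psi_boost hG.1 t (TF_bst adm_univ hG t).1, h1, ← mul_assoc, ← Complex.exp_add]
      have : (-3 : ℂ) * t + 3 * t = 0 := by ring
      rw [this, Complex.exp_zero, one_mul]
    · intro t G hG
      have h1 := hcov (Real.exp (-t)) (Real.exp_pos _) _ isLor_one 1 one_pos sim_one_nu (psi G)
      rw [psi_dil hG.1 t (TF_dlt adm_univ hG t).1, map_smul, smul_eq_mul] at h1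
      have e1 : (((Real.exp (-t) * 1 ^ 3)⁻¹ : ℝ) : ℂ) = exp t := by
        rw [one_pow, mul_one, ← Real.exp_neg, neg_neg]
        push_cast
        rfl
      rw [e1, ← mul_assoc, ← Complex.exp_add] at h1
      rw [h1, ← mul_assoc, ← Complex.exp_add]
      have : (-3 - 2 : ℂ) * t + (t + 4 * t) = 0 := by ring
      rw [this, Complex.exp_zero, one_mul]
  obtain ⟨G, hG, rfl⟩ := hF.exists
  refine b0 C ?_ hG
  intro G hG
  refine hcone _ fun p hp => ?_
  by_cases h1 : p ∈ Hs
  · rw [psi_apply_of_mem hG.1 h1]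
    apply image_eq_zero_of_notMem_tsupport
    intro h2
    have h3 : crd p 3 < 0 := hG.2 h2
    rw [crd_3] at h3
    have h4 : 0 ≤ mass2 p := hp.2
    linarith
  · exact psi_apply_of_notMem hG.1 h1

/-- contraction with the null vector -/
lemma contr {L : Ix → V} (hL : GF.IsLor L) {a : V} {r : ℝ} (hab : sim 1 L 0 a = r • a) (k : Ix) :
    r * ∑ m, GF.eta m * a m * L k m = GF.eta k * a k := by
  have h1 : GF.mdot (sim 1 L 0 a) (L k) = GF.eta k * a k := by
    have h2 : GF.mdot (sim 1 L 0 a) (L k) = ∑ m, a m * GF.mdot (L m) (L k) := by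
      simp only [GF.mdot, sim, Finset.mul_sum, Pi.zero_apply, zero_add, one_mul, Finset.sum_mul]
      rw [Finset.sum_comm]
      refine Finset.sum_congr rfl fun m _ => Finset.sum_congr rfl fun n _ => by ring
    rw [h2, Finset.sum_eq_single k]
    · rw [hL.1 k k]
      simp [bas]
      ring
    · intro m _ hm
      rw [hL.1 m k]
      simp [bas, Ne.symm hm]
    · intro h
      exact absurd (Finset.mem_univ k) h
  rw [← h1, hab, GF.mdot, Finset.mul_sum]
  refine Finset.sum_congr rfl fun m _ => ?_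
  simp only [Pi.smul_apply, smul_eq_mul]
  ring

section

variable (N : CNet Q H alg S) {G : V → D → D}
variable (hG : ∀ a v, IsNull a → HasDerivAt (fun s : ℝ => S a s v) (I • G a v) 0)
variable (hmem : ∀ a, IsNull a → G a ∈ alg Set.univ)
variable {T : Ix → Ix → GF.Fld D} {J : Ix → GF.Fld D} (hV : IsVirial Q T J)

/-- the component of the virial current along the null vector, applied to the vacuum -/
def aJ (Q : GF.Theory D) (J : Ix → GF.Fld D) (g : 𝓢(Mink, ℂ)) : D :=
  ∑ m, ((GF.eta m * nu (-1) m : ℝ) : ℂ) • J m (fl g) Q.vac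

include hV in
lemma aJ_cov {σ r : ℝ} (hσ : 0 < σ) (hr : 0 < r) {L : Ix → V} (hL : GF.IsLor L)
    (hab : sim 1 L 0 (nu (-1)) = r • nu (-1)) (g : 𝓢(Mink, ℂ)) :
    aJ Q J g = ((σ / r : ℝ) : ℂ) • Q.U σ L 0 (aJ Q J (simS σ hσ hL 0 g)) := by
  have h1 : ∀ m, J m (fl g) Q.vac = ∑ k, ((σ * L k m : ℝ) : ℂ) •
      Q.U σ L 0 (J k (fl (simS σ hσ hL 0 g)) Q.vac) := by
    intro m
    have h := hV.vfld.cov m σ hσ L hL 0 g Q.vac
    rw [Q.U_vac σ L 0 hσ hL] at h
    exact h
  unfold aJ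
  simp only [h1, U_sum hσ hL, Finset.smul_sum, smul_smul]
  rw [Finset.sum_comm]
  refine Finset.sum_congr rfl fun k _ => ?_
  rw [← Finset.sum_smul, U_smul hσ hL, smul_smul]
  congr 1
  have h2 := contr hL hab k
  have hr' : (r : ℂ) ≠ 0 := by exact_mod_cast hr.ne'
  rw [← h2]
  push_cast
  rw [Finset.mul_sum, Finset.mul_sum]
  refine Finset.sum_congr rfl fun m _ => ?_
  field_simp

include N hV in
lemma wJ_cov {σ r : ℝ} (hσ : 0 < σ) (hr : 0 < r) {L : Ix → V} (hL : GF.IsLor L)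
    (hab : sim 1 L 0 (nu (-1)) = r • nu (-1)) (v : D) :
    ∑ m, ((GF.eta m * nu (-1) m : ℝ) : ℂ) * vj Q J m (Q.U σ L 0 v) =
      (((σ ^ 3 * r)⁻¹ : ℝ) : ℂ) * ∑ m, ((GF.eta m * nu (-1) m : ℝ) : ℂ) * vj Q J m v := by
  simp only [vj_cov N hV hσ hL, Finset.mul_sum]
  rw [Finset.sum_comm]
  refine Finset.sum_congr rfl fun k _ => ?_
  have h2 := contr hL hab k
  have hr' : (r : ℂ) ≠ 0 := by exact_mod_cast hr.ne'
  have hσ' : (σ : ℂ) ≠ 0 := by exact_mod_cast hσ.ne'
  rw [← h2]
  push_cast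
  rw [Finset.mul_sum, Finset.sum_mul, Finset.mul_sum]
  refine Finset.sum_congr rfl fun m _ => ?_
  field_simp

include N hG hmem hV in
/-- the component of the virial current along the null vector does not respond to the null
deformation, first step -/
theorem aJ_zero (g : 𝓢(Mink, ℂ)) (hg : PC (mftS g)) :
    ∑ m, ((GF.eta m * nu (-1) m : ℝ) : ℂ) * vj Q J m (G (nu (-1)) (aJ Q J g)) = 0 := by
  have ha : IsNull (nu (-1)) := isNull_nu (Or.inr rfl)
  have hf : ∀ m, Q.fld (J m) := fun m => Q.bose_fld _ (hV.bose m)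
  obtain ⟨μ, K, w, n, hrep⟩ := exists_kc N.toNet hf (fun m => GF.eta m * nu (-1) m)
  have hB := pw1_mem N.toNet n
  have hw := fun v => sum_vj N.toNet hf hB hrep v
  have hX : (fun v => pw1 H n (G (nu (-1)) v)) ∈ alg Set.univ := N.mul _ _ hB _ (hmem _ ha)
  choose T0 hT0 using fun m => exists_fun N (K.J w) (hf m) hX
  have key : ∀ f, ∑ m, ((GF.eta m * nu (-1) m : ℝ) : ℂ) * T0 m f =
      pt (K.J w) (pw1 H n) (G (nu (-1)) (aJ Q J f)) := by
    intro f
    unfold aJ
    rw [pt_G_sum N hmem hB ha]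
    refine Finset.sum_congr rfl fun m _ => ?_
    rw [hT0]
    rfl
  set T1 : 𝓢(Mink, ℂ) →L[ℂ] ℂ :=
    (∑ m, ((GF.eta m * nu (-1) m : ℝ) : ℂ) • T0 m).comp imf with hT1
  have hT1a : ∀ F, T1 F = pt (K.J w) (pw1 H n) (G (nu (-1)) (aJ Q J (imf F))) := by
    intro F
    rw [← key, hT1, ContinuousLinearMap.comp_apply, ContinuousLinearMap.sum_apply]
    rfl
  have h := b0_act (T := T1) ?_ ?_ hg
  · rw [hT1a, imf_mftS] at h
    rw [hw]
    exact h
  · intro s hs L hL r hr hab F
    rw [hT1a, hT1a, imf_act, aJ_cov hV hs hr hL hab (imf F), G_smul N hmem ha,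
      pt_smul' N hB]
    have h1 := G_cov N hG hs hr hL ha ha hab (aJ Q J (simS s hs hL 0 (imf F)))
    have h2 := wJ_cov N hV hs hr hL hab (G (nu (-1)) (aJ Q J (simS s hs hL 0 (imf F))))
    rw [hw, hw, h1, pt_smul' N hB] at h2
    have hr' : (r : ℂ) ≠ 0 := by exact_mod_cast hr.ne'
    have hs' : (s : ℂ) ≠ 0 := by exact_mod_cast hs.ne'
    push_cast at h2 ⊢
    field_simp at h2 ⊢
    linear_combination h2
  · intro F hF
    rw [hT1a]
    have h1 : ∀ m, J m (fl (imf F)) Q.vac = 0 := fun m => by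
      refine vac_zero (hf m) fun p hp => ?_
      rw [← mftS_apply, mftS_imf]
      exact hF p hp
    have h2 : aJ Q J (imf F) = 0 := by
      unfold aJ
      apply Finset.sum_eq_zero
      intro m _
      rw [h1, smul_zero]
    have h3 : G (nu (-1)) 0 = 0 := by
      have := G_smul N hmem ha 0 (0 : D)
      simpa using this
    have h4 := pt_smul' N hB (K.J w) 0 (0 : D)
    rw [zero_smul, zero_mul] at h4
    rw [h2, h3, h4]

end

end Vale.Agent.P352.H246R

end
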