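import Vale.Agent.P352.H755.Lfg
import Vale.Agent.P352.H993.Sch
import Vale.Agent.P352.H496.CoreJ4

/-!
# The on-shell limit of the light front amplitude in closed form
-/

set_option linter.all false

noncomputable section

open MeasureTheory SchwartzMap Complex Filter Topology
open scoped SchwartzMap ComplexConjugate ENNReal LineDeriv ContDiff FourierTransform

namespace Vale.Agent.P352.H246R

open GF (Ix V Fn Sch ev pd bar sim bas o)
open H246 H496 H755 H746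
open UniformSpace (Completion)

/-! ### Functions of quadratic growth -/

/-- continuous functions of at most quadratic growth -/
def Pg (h : V → ℝ) : Prop := Continuous h ∧ ∃ M, ∀ y, |h y| ≤ M * (1 + ‖y‖ ^ 2)

lemma Pg.add {h k : V → ℝ} (hh : Pg h) (hk : Pg k) : Pg fun y => h y + k y := by
  obtain ⟨M, hM⟩ := hh.2
  obtain ⟨M', hM'⟩ := hk.2
  refine ⟨hh.1.add hk.1, M + M', fun y => (abs_add_le _ _).trans ?_⟩
  have := hM y
  have := hM' y
  linarith

lemma Pg.sum {h : Ix → V → ℝ} (hh : ∀ i, Pg (h i)) : Pg fun y => ∑ i, h i y := by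
  simp only [Fin.sum_univ_four]
  exact ((hh 0).add (hh 1)).add (hh 2) |>.add (hh 3)

lemma Pg.cmul {h : V → ℝ} (hh : Pg h) (c : ℝ) : Pg fun y => c * h y := by
  obtain ⟨M, hM⟩ := hh.2
  refine ⟨continuous_const.mul hh.1, |c| * M, fun y => ?_⟩
  rw [abs_mul, mul_assoc]
  exact mul_le_mul_of_nonneg_left (hM y) (abs_nonneg c)

lemma Pg.bd {h : V → ℝ} (hh : Pg h) {θ : ℝ → ℝ} (hθ : Bd θ) (a : V) :
    Pg fun y => θ (GF.mdot a y) * h y := by
  obtain ⟨M, hM⟩ := hh.2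
  obtain ⟨C, hC⟩ := hθ.2
  have hC0 : 0 ≤ C := (abs_nonneg _).trans (hC 0)
  refine ⟨(hθ.1.comp (continuous_gm a)).mul hh.1, C * M, fun y => ?_⟩
  rw [abs_mul, mul_assoc]
  exact mul_le_mul (hC _) (hM y) (abs_nonneg _) hC0

lemma Pg.lin (f : V →L[ℝ] ℝ) : Pg fun y => f y := by
  refine ⟨f.continuous, ‖f‖, fun y => ?_⟩
  have h1 := f.le_opNorm y
  rw [Real.norm_eq_abs] at h1
  have h2 : ‖y‖ ≤ 1 + ‖y‖ ^ 2 := by nlinarith [sq_nonneg (‖y‖ - 1)]
  exact h1.trans (mul_le_mul_of_nonneg_left h2 (norm_nonneg f))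

lemma Pg.one : Pg fun _ => (1 : ℝ) := by
  refine ⟨continuous_const, 1, fun y => ?_⟩
  rw [abs_one]
  nlinarith [sq_nonneg ‖y‖]

lemma Pg.wq (a b : V) : Pg fun y => Wq a b y := by
  refine ⟨continuous_Wq a b, 32 * ‖a‖ * ‖b‖ + 4, fun y => (abs_Wq_le a b y).trans ?_⟩
  have : 0 ≤ 32 * ‖a‖ * ‖b‖ + 4 := by positivity
  nlinarith

lemma Pg.gm (a : V) : Pg fun y => GF.mdot a y := by
  have := Pg.lin (ml a)
  simpa only [ml_apply] using this

lemma Pg.coe (m : Ix) : Pg fun y : V => y m :=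
  Pg.lin (ContinuousLinearMap.proj (R := ℝ) (φ := fun _ : Ix => ℝ) m)

lemma Pg.int {h : V → ℝ} (hh : Pg h) (F : 𝓢(V, ℂ)) : Integrable fun y => (h y : ℂ) * F y := by
  obtain ⟨M, hM⟩ := hh.2
  refine int_pol F (M := M) (continuous_ofReal.comp hh.1) fun y => ?_
  rw [norm_real, Real.norm_eq_abs]
  exact hM y

/-- integration by parts against a function of quadratic growth -/
lemma byp {h h' : V → ℝ} {v : V} (hh : Pg h) (hh' : Pg h')
    (hd : ∀ y, HasDerivAt (fun t : ℝ => h (y + t • v)) (h' y) 0) (F : 𝓢(V, ℂ)) :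
    ∫ y : V, (h y : ℂ) * (∂_{v} F : 𝓢(V, ℂ)) y = -∫ y : V, (h' y : ℂ) * F y := by
  refine integral_bilinear_hasLineDerivAt_right_eq_neg_left_of_integrable
    (μ := (volume : Measure V)) (B := ContinuousLinearMap.mul ℝ ℂ) (v := v)
    (f := fun y : V => (h y : ℂ)) (f' := fun y : V => (h' y : ℂ))
    (g := fun y => F y) (g' := fun y => (∂_{v} F : 𝓢(V, ℂ)) y)
    (hh'.int F) (hh.int _) (hh.int F) (fun y _ => ?_) (fun y _ => ?_)
  · exact (hd y).ofReal_comp
  · have h1 : HasFDerivAt (fun y => F y) (fderiv ℝ F y) y :=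
      ((F.smooth 1).differentiable (by norm_num) y).hasFDerivAt
    exact h1.hasLineDerivAt v

/-! ### The profiles -/

/-- the derivative of the transverse square -/
def Wv (a b v y : V) : ℝ := 2 * GF.mdot a v * GF.mdot b y + 2 * GF.mdot a y * GF.mdot b v -
  2 * GF.mdot v y

lemma hd_gm (a y v : V) : HasDerivAt (fun t : ℝ => GF.mdot a (y + t • v)) (GF.mdot a v) 0 := by
  have e : (fun t : ℝ => GF.mdot a (y + t • v)) = fun t : ℝ => GF.mdot a y + t * GF.mdot a v := by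
    funext t; rw [gm_add, gm_smul]
  rw [e]
  have h := ((hasDerivAt_id (0 : ℝ)).mul_const (GF.mdot a v)).const_add (GF.mdot a y)
  rw [one_mul] at h
  exact h

lemma hd_wq (a b y v : V) : HasDerivAt (fun t : ℝ => Wq a b (y + t • v)) (Wv a b v y) 0 := by
  have e : (fun t : ℝ => Wq a b (y + t • v)) =
      fun t : ℝ => Wq a b y + t * Wv a b v y + t ^ 2 * Wq a b v := by
    funext t
    have e5 : ∀ z, GF.mdot (y + t • v) z = GF.mdot y z + t * GF.mdot v z := by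
      intro z
      rw [gm_comm, gm_add, gm_smul, gm_comm z y, gm_comm z v]
    unfold Wq Wv
    rw [e5, gm_add, gm_add, gm_smul, gm_smul, gm_add, gm_smul, gm_add, gm_smul, gm_comm y v]
    ring
  rw [e]
  have h1 := ((hasDerivAt_id (0 : ℝ)).mul_const (Wv a b v y)).const_add (Wq a b y)
  have h2 := ((hasDerivAt_id (0 : ℝ)).pow 2).mul_const (Wq a b v)
  refine (h1.add h2).congr_deriv ?_
  simp

lemma hd_tst {f : ℝ → ℝ} (hf : Tst f) (a y v : V) :
    HasDerivAt (fun t : ℝ => f (GF.mdot a (y + t • v))) (deriv f (GF.mdot a y) * GF.mdot a v) 0 := by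
  have h1 := tst_has hf (GF.mdot a y)
  have h2 := hd_gm a y v
  have h3 : HasDerivAt f (deriv f (GF.mdot a y)) (GF.mdot a (y + (0 : ℝ) • v)) := by
    rw [zero_smul, add_zero]; exact h1
  exact h3.comp (0 : ℝ) h2

/-- first integration by parts -/
lemma byp1 (a b v : V) {f g : ℝ → ℝ} (hf : Tst f) (hg : Tst g) (F : 𝓢(V, ℂ)) :
    ∫ y : V, ((f (GF.mdot a y) * (g (GF.mdot b y) * Wq a b y) : ℝ) : ℂ) *
        (∂_{v} F : 𝓢(V, ℂ)) y =
      -∫ y : V, ((GF.mdot a v * (deriv f (GF.mdot a y) * (g (GF.mdot b y) * Wq a b y)) +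
        GF.mdot b v * (f (GF.mdot a y) * (deriv g (GF.mdot b y) * Wq a b y)) +
        f (GF.mdot a y) * (g (GF.mdot b y) * Wv a b v y) : ℝ) : ℂ) * F y := by
  have hWv : Pg fun y => Wv a b v y := by
    have h := (((Pg.gm b).cmul (2 * GF.mdot a v)).add ((Pg.gm a).cmul (2 * GF.mdot b v))).add
      ((Pg.gm v).cmul (-2))
    refine ⟨by unfold Wv; have := continuous_gm a; have := continuous_gm b; have := continuous_gm v; fun_prop, ?_⟩
    obtain ⟨M, hM⟩ := h.2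
    refine ⟨M, fun y => ?_⟩
    have e : Wv a b v y = 2 * GF.mdot a v * GF.mdot b y + 2 * GF.mdot b v * GF.mdot a y +
        -2 * GF.mdot v y := by unfold Wv; ring
    show |Wv a b v y| ≤ _
    rw [e]
    exact hM y
  have bf := tst_bd hf
  have bg := tst_bd hg
  have bf' := tst_bd (tst_deriv hf)
  have bg' := tst_bd (tst_deriv hg)
  refine byp (((Pg.wq a b).bd bg b).bd bf a)
    ((((((Pg.wq a b).bd bg b).bd bf' a).cmul _).add ((((Pg.wq a b).bd bg' b).bd bf a).cmul _)).add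
      ((hWv.bd bg b).bd bf a)) (fun y => ?_) F
  refine ((hd_tst hf a y v).mul ((hd_tst hg b y v).mul (hd_wq a b y v))).congr_deriv ?_
  simp only [Pi.mul_apply, zero_smul, add_zero]
  ring

lemma sum_comm_int {ι : Type*} (t : Finset ι) {F : ι → V → ℂ} (hF : ∀ i, Integrable (F i)) :
    ∑ i ∈ t, ∫ y, F i y = ∫ y, ∑ i ∈ t, F i y :=
  (integral_finset_sum t fun i _ => hF i).symm

lemma gm_bas (a : V) (m : Ix) : GF.mdot a (bas m 1) = GF.eta m * a m := by
  unfold GF.mdot bas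
  simp

lemma bas_gm (m : Ix) (y : V) : GF.mdot (bas m 1) y = GF.eta m * y m := by
  rw [gm_comm, gm_bas]

/-- the divergence identity -/
lemma div_id (a b : V) {f g : ℝ → ℝ} (hf : Tst f) (hg : Tst g) (A : Ix → 𝓢(V, ℂ)) :
    ∫ y : V, ((f (GF.mdot a y) * g (GF.mdot b y) * Wq a b y : ℝ) : ℂ) *
        ∑ m, (∂_{(bas m 1 : V)} (A m) : 𝓢(V, ℂ)) y =
      -((∫ y : V, ((deriv f (GF.mdot a y) * g (GF.mdot b y) * Wq a b y : ℝ) : ℂ) *
          (∑ m, ((GF.eta m * a m : ℝ) : ℂ) • A m : 𝓢(V, ℂ)) y) +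
        (∫ y : V, ((f (GF.mdot a y) * deriv g (GF.mdot b y) * Wq a b y : ℝ) : ℂ) *
          (∑ m, ((GF.eta m * b m : ℝ) : ℂ) • A m : 𝓢(V, ℂ)) y) -
        2 * ∫ y : V, ((f (GF.mdot a y) * g (GF.mdot b y) : ℝ) : ℂ) *
          ∑ m, ((GF.eta m * prp a b y m : ℝ) : ℂ) * A m y) := by
  have bf := tst_bd hf
  have bg := tst_bd hg
  have bf' := tst_bd (tst_deriv hf)
  have bg' := tst_bd (tst_deriv hg)
  have hP := (((Pg.wq a b).bd bg b).bd bf a)
  have e1 : ∫ y : V, ((f (GF.mdot a y) * g (GF.mdot b y) * Wq a b y : ℝ) : ℂ) *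
      ∑ m, (∂_{(bas m 1 : V)} (A m) : 𝓢(V, ℂ)) y =
      ∑ m, ∫ y : V, ((f (GF.mdot a y) * (g (GF.mdot b y) * Wq a b y) : ℝ) : ℂ) *
        (∂_{(bas m 1 : V)} (A m) : 𝓢(V, ℂ)) y := by
    rw [sum_comm_int _ fun m => hP.int _]
    refine integral_congr_ae (Eventually.of_forall fun y => ?_)
    simp only
    rw [Finset.mul_sum]
    refine Finset.sum_congr rfl fun m _ => ?_
    rw [mul_assoc (f _)]
  rw [e1]
  simp only [byp1 a b _ hf hg]
  rw [Finset.sum_neg_distrib]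
  congr 1
  have hpr : ∀ m : Ix, Pg fun y => prp a b y m := by
    intro m
    have h := ((Pg.coe m).add ((Pg.gm a).cmul (-b m))).add ((Pg.gm b).cmul (-a m))
    obtain ⟨M, hM⟩ := h.2
    have e : ∀ y, prp a b y m = y m + -b m * GF.mdot a y + -a m * GF.mdot b y := by
      intro y
      simp only [prp, Pi.sub_apply, Pi.smul_apply, smul_eq_mul]
      ring
    have e' : (fun y => prp a b y m) = fun y => y m + -b m * GF.mdot a y + -a m * GF.mdot b y :=
      funext e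
    rw [e']
    exact h
  have i1 : ∀ m, Integrable fun y : V => ((GF.mdot a (bas m 1) * (deriv f (GF.mdot a y) *
      (g (GF.mdot b y) * Wq a b y)) : ℝ) : ℂ) * A m y := fun m =>
    ((((Pg.wq a b).bd bg b).bd bf' a).cmul _).int _
  have i2 : ∀ m, Integrable fun y : V => ((GF.mdot b (bas m 1) * (f (GF.mdot a y) *
      (deriv g (GF.mdot b y) * Wq a b y)) : ℝ) : ℂ) * A m y := fun m =>
    ((((Pg.wq a b).bd bg' b).bd bf a).cmul _).int _
  have i3 : ∀ m, Integrable fun y : V => ((-2 * GF.eta m * (f (GF.mdot a y) *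
      (g (GF.mdot b y) * prp a b y m)) : ℝ) : ℂ) * A m y := fun m =>
    ((((hpr m).bd bg b).bd bf a).cmul _).int _
  have e2 : ∀ m, ∫ y : V, ((GF.mdot a (bas m 1) * (deriv f (GF.mdot a y) *
        (g (GF.mdot b y) * Wq a b y)) +
        GF.mdot b (bas m 1) * (f (GF.mdot a y) * (deriv g (GF.mdot b y) * Wq a b y)) +
        f (GF.mdot a y) * (g (GF.mdot b y) * Wv a b (bas m 1) y) : ℝ) : ℂ) * A m y =
      (∫ y : V, ((GF.mdot a (bas m 1) * (deriv f (GF.mdot a y) *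
      (g (GF.mdot b y) * Wq a b y)) : ℝ) : ℂ) * A m y) +
      (∫ y : V, ((GF.mdot b (bas m 1) * (f (GF.mdot a y) *
      (deriv g (GF.mdot b y) * Wq a b y)) : ℝ) : ℂ) * A m y) +
      ∫ y : V, ((-2 * GF.eta m * (f (GF.mdot a y) *
      (g (GF.mdot b y) * prp a b y m)) : ℝ) : ℂ) * A m y := by
    intro m
    have j12 : Integrable fun y : V => ((GF.mdot a (bas m 1) * (deriv f (GF.mdot a y) *
      (g (GF.mdot b y) * Wq a b y)) : ℝ) : ℂ) * A m y + ((GF.mdot b (bas m 1) *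
      (f (GF.mdot a y) * (deriv g (GF.mdot b y) * Wq a b y)) : ℝ) : ℂ) * A m y :=
      (i1 m).add (i2 m)
    rw [← integral_add (i1 m) (i2 m), ← integral_add j12 (i3 m)]
    refine integral_congr_ae (Eventually.of_forall fun y => ?_)
    simp only
    have e3 : Wv a b (bas m 1) y = -2 * GF.eta m * prp a b y m := by
      unfold Wv
      rw [gm_bas, gm_bas, bas_gm]
      simp only [prp, Pi.sub_apply, Pi.smul_apply, smul_eq_mul]
      ring
    rw [e3]
    push_cast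
    ring
  simp only [e2]
  rw [Finset.sum_add_distrib, Finset.sum_add_distrib, sum_comm_int _ i1, sum_comm_int _ i2,
    sum_comm_int _ i3, sub_eq_add_neg, ← neg_mul]
  congr 1
  · congr 1
    · refine integral_congr_ae (Eventually.of_forall fun y => ?_)
      simp only [SchwartzMap.sum_apply, SchwartzMap.smul_apply, smul_eq_mul, Finset.mul_sum]
      refine Finset.sum_congr rfl fun m _ => ?_
      rw [gm_bas]
      push_cast
      ring
    · refine integral_congr_ae (Eventually.of_forall fun y => ?_)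
      simp only [SchwartzMap.sum_apply, SchwartzMap.smul_apply, smul_eq_mul, Finset.mul_sum]
      refine Finset.sum_congr rfl fun m _ => ?_
      rw [gm_bas]
      push_cast
      ring
  · rw [← integral_const_mul]
    refine integral_congr_ae (Eventually.of_forall fun y => ?_)
    simp only [Finset.mul_sum]
    refine Finset.sum_congr rfl fun m _ => ?_
    push_cast
    ring

/-- the transverse divergence -/
lemma div_prp {a b : V} (ha : GF.mdot a a = 0) (hb : GF.mdot b b = 0) (hab : GF.mdot a b = 1)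
    {f g : ℝ → ℝ} (hf : Tst f) (hg : Tst g) (L : 𝓢(V, ℂ)) :
    ∫ y : V, ((f (GF.mdot a y) * g (GF.mdot b y) : ℝ) : ℂ) *
        ∑ m, (prp a b y m : ℂ) * (∂_{(bas m 1 : V)} L : 𝓢(V, ℂ)) y =
      -(2 * ∫ y : V, ((f (GF.mdot a y) * g (GF.mdot b y) : ℝ) : ℂ) * L y) := by
  have hba : GF.mdot b a = 1 := by rw [gm_comm, hab]
  have bf := tst_bd hf
  have bg := tst_bd hg
  have bf' := tst_bd (tst_deriv hf)
  have bg' := tst_bd (tst_deriv hg)
  have e' : ∀ m : Ix, (fun y => prp a b y m) =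
      fun y => y m + -b m * GF.mdot a y + -a m * GF.mdot b y := by
    intro m
    funext y
    simp only [prp, Pi.sub_apply, Pi.smul_apply, smul_eq_mul]
    ring
  have hpr : ∀ m : Ix, Pg fun y => prp a b y m := by
    intro m
    rw [e']
    exact ((Pg.coe m).add ((Pg.gm a).cmul (-b m))).add ((Pg.gm b).cmul (-a m))
  have h1 : ∀ m : Ix, ∫ y : V, ((f (GF.mdot a y) * (g (GF.mdot b y) * prp a b y m) : ℝ) : ℂ) *
      (∂_{(bas m 1 : V)} L : 𝓢(V, ℂ)) y = -∫ y : V, ((GF.mdot a (bas m 1) *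
        (deriv f (GF.mdot a y) * (g (GF.mdot b y) * prp a b y m)) +
        GF.mdot b (bas m 1) * (f (GF.mdot a y) * (deriv g (GF.mdot b y) * prp a b y m)) +
        (1 - b m * GF.mdot a (bas m 1) - a m * GF.mdot b (bas m 1)) *
          (f (GF.mdot a y) * (g (GF.mdot b y) * 1)) : ℝ) : ℂ) * L y := by
    intro m
    refine byp (((hpr m).bd bg b).bd bf a)
      ((((((hpr m).bd bg b).bd bf' a).cmul _).add ((((hpr m).bd bg' b).bd bf a).cmul _)).add
      (((Pg.one.bd bg b).bd bf a).cmul _)) (fun y => ?_) L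
    have h2 : HasDerivAt (fun t : ℝ => prp a b (y + t • (bas m 1 : V)) m)
        (1 - b m * GF.mdot a (bas m 1) - a m * GF.mdot b (bas m 1)) 0 := by
      have h3 := hd_gm a y (bas m 1)
      have h4 := hd_gm b y (bas m 1)
      have h5 : HasDerivAt (fun t : ℝ => (y + t • (bas m 1 : V)) m) 1 0 := by
        have : (fun t : ℝ => (y + t • (bas m 1 : V)) m) = fun t : ℝ => y m + t := by
          funext t
          simp [bas]
        rw [this]
        exact (hasDerivAt_id (0 : ℝ)).const_add (y m)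
      have h6 := (h5.sub (h3.mul_const (b m))).sub (h4.mul_const (a m))
      have e6 : (fun t : ℝ => prp a b (y + t • (bas m 1 : V)) m) =
          ((fun t : ℝ => (y + t • (bas m 1 : V)) m) -
            fun t => GF.mdot a (y + t • (bas m 1 : V)) * b m) -
            fun t => GF.mdot b (y + t • (bas m 1 : V)) * a m := by
        funext t
        simp only [prp, Pi.sub_apply, Pi.smul_apply, smul_eq_mul]
      rw [e6]
      refine h6.congr_deriv ?_
      ring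
    refine ((hd_tst hf a y (bas m 1)).mul ((hd_tst hg b y (bas m 1)).mul h2)).congr_deriv ?_
    simp only [Pi.mul_apply, zero_smul, add_zero]
    ring
  have e1 : ∫ y : V, ((f (GF.mdot a y) * g (GF.mdot b y) : ℝ) : ℂ) *
      ∑ m, (prp a b y m : ℂ) * (∂_{(bas m 1 : V)} L : 𝓢(V, ℂ)) y =
      ∑ m, ∫ y : V, ((f (GF.mdot a y) * (g (GF.mdot b y) * prp a b y m) : ℝ) : ℂ) *
        (∂_{(bas m 1 : V)} L : 𝓢(V, ℂ)) y := by
    rw [sum_comm_int _ fun m => (((hpr m).bd bg b).bd bf a).int _]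
    refine integral_congr_ae (Eventually.of_forall fun y => ?_)
    simp only
    rw [Finset.mul_sum]
    refine Finset.sum_congr rfl fun m _ => ?_
    push_cast
    ring
  rw [e1]
  simp only [h1]
  have ii : ∀ m : Ix, Integrable fun y : V => ((GF.mdot a (bas m 1) *
        (deriv f (GF.mdot a y) * (g (GF.mdot b y) * prp a b y m)) +
        GF.mdot b (bas m 1) * (f (GF.mdot a y) * (deriv g (GF.mdot b y) * prp a b y m)) +
        (1 - b m * GF.mdot a (bas m 1) - a m * GF.mdot b (bas m 1)) *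
          (f (GF.mdot a y) * (g (GF.mdot b y) * 1)) : ℝ) : ℂ) * L y := fun m =>
    ((((((hpr m).bd bg b).bd bf' a).cmul _).add ((((hpr m).bd bg' b).bd bf a).cmul _)).add
      (((Pg.one.bd bg b).bd bf a).cmul _)).int L
  rw [Finset.sum_neg_distrib, sum_comm_int _ ii, ← integral_const_mul]
  congr 1
  refine integral_congr_ae (Eventually.of_forall fun y => ?_)
  simp only [gm_bas]
  rw [← Finset.sum_mul]
  have k1 : ∑ m, GF.eta m * a m * prp a b y m = 0 := by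
    have : ∑ m, GF.eta m * a m * prp a b y m = GF.mdot a (prp a b y) := rfl
    rw [this, prp, gm_sub, gm_sub, gm_smul, gm_smul, hab, ha]
    ring
  have k2 : ∑ m, GF.eta m * b m * prp a b y m = 0 := by
    have : ∑ m, GF.eta m * b m * prp a b y m = GF.mdot b (prp a b y) := rfl
    rw [this, prp, gm_sub, gm_sub, gm_smul, gm_smul, hba, hb]
    ring
  have k3 : ∑ m : Ix, (1 - b m * (GF.eta m * a m) - a m * (GF.eta m * b m)) = 2 := by
    have h2 : ∑ m : Ix, (GF.eta m * a m * b m) = 1 := hab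
    have h3 : ∑ m : Ix, (1 - b m * (GF.eta m * a m) - a m * (GF.eta m * b m)) =
        ∑ m : Ix, ((1 : ℝ) - 2 * (GF.eta m * a m * b m)) :=
      Finset.sum_congr rfl fun m _ => by ring
    rw [h3, Finset.sum_sub_distrib, ← Finset.mul_sum, h2]
    simp
    norm_num
  have k4 : ∑ m, (GF.eta m * a m * (deriv f (GF.mdot a y) * (g (GF.mdot b y) * prp a b y m)) +
        GF.eta m * b m * (f (GF.mdot a y) * (deriv g (GF.mdot b y) * prp a b y m)) +
        (1 - b m * (GF.eta m * a m) - a m * (GF.eta m * b m)) *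
          (f (GF.mdot a y) * (g (GF.mdot b y) * 1))) =
      deriv f (GF.mdot a y) * g (GF.mdot b y) * (∑ m, GF.eta m * a m * prp a b y m) +
      f (GF.mdot a y) * deriv g (GF.mdot b y) * (∑ m, GF.eta m * b m * prp a b y m) +
      f (GF.mdot a y) * g (GF.mdot b y) *
        ∑ m : Ix, (1 - b m * (GF.eta m * a m) - a m * (GF.eta m * b m)) := by
    rw [Finset.mul_sum, Finset.mul_sum, Finset.mul_sum, ← Finset.sum_add_distrib,
      ← Finset.sum_add_distrib]
    exact Finset.sum_congr rfl fun m _ => by ring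
  have k5 : ∑ m, (((GF.eta m * a m * (deriv f (GF.mdot a y) * (g (GF.mdot b y) * prp a b y m)) +
        GF.eta m * b m * (f (GF.mdot a y) * (deriv g (GF.mdot b y) * prp a b y m)) +
        (1 - b m * (GF.eta m * a m) - a m * (GF.eta m * b m)) *
          (f (GF.mdot a y) * (g (GF.mdot b y) * 1)) : ℝ)) : ℂ) =
      ((f (GF.mdot a y) * g (GF.mdot b y) * 2 : ℝ) : ℂ) := by
    rw [← ofReal_sum, k4, k1, k2, k3]
    congr 1
    ring
  rw [k5]
  push_cast
  ring

lemma line_sum (a : V) (L : 𝓢(V, ℂ)) (y : V) : (∂_{a} L : 𝓢(V, ℂ)) y =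
    ∑ m, (a m : ℂ) * (∂_{(bas m 1 : V)} L : 𝓢(V, ℂ)) y := by
  have h : ∀ v : V, (∂_{v} L : 𝓢(V, ℂ)) y = fderiv ℝ L y v := fun v => rfl
  simp only [h]
  have ha : a = ∑ i, a i • (bas i 1 : V) := by
    funext n
    simp [bas, Finset.sum_apply]
  conv_lhs => rw [ha, map_sum]
  simp only [map_smul, real_smul]

/-- THE SYMMETRIC PART IS THE CONTACT TERM -/
theorem Sm_eq {a b : V} (ha : GF.mdot a a = 0) (hb : GF.mdot b b = 0) (hab : GF.mdot a b = 1)
    {φ σ : ℝ → ℝ} (hφ : Tst φ) (hσ : Tst σ) (A : Ix → 𝓢(V, ℂ)) (L : 𝓢(V, ℂ))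
    (hr : ∀ y, ∑ m, (∂_{(bas m 1 : V)} (A m) : 𝓢(V, ℂ)) y = 3 * ∑ m, (GF.eta m : ℂ) *
      (∂_{(bas m 1 : V)} (∂_{(bas m 1 : V)} L : 𝓢(V, ℂ)) : 𝓢(V, ℂ)) y) :
    Sm a b φ σ (∑ m, ((GF.eta m * a m : ℝ) : ℂ) • A m : 𝓢(V, ℂ))
      (∑ m, ((GF.eta m * b m : ℝ) : ℂ) • A m : 𝓢(V, ℂ))
      (fun y => ∑ m, ((GF.eta m * prp a b y m : ℝ) : ℂ) * A m y) L =
    -6 * I * ∫ y : V, ((deriv φ (GF.mdot a y) * deriv σ (GF.mdot b y) : ℝ) : ℂ) * L y := by
  have hba : GF.mdot b a = 1 := by rw [gm_comm, hab]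
  have hf := tst_deriv hφ
  have hg := tst_deriv hσ
  have d1 := div_id a b hf hg A
  have d2 := div_id a b hf hg (fun m => (GF.eta m : ℂ) • (∂_{(bas m 1 : V)} L : 𝓢(V, ℂ)))
  have d3 := div_prp ha hb hab hf hg L
  have p1 := byparts ha hab (tst_bd (tst_deriv hf)) hg L
  have p2 := byparts hb hba (tst_bd (tst_deriv hg)) hf L
  have es : ∀ m : Ix, ((GF.eta m * GF.eta m : ℝ) : ℂ) = 1 := by
    intro m
    unfold GF.eta
    split_ifs <;> simp
  have ea : ∀ c y : V, (∑ m, ((GF.eta m * c m : ℝ) : ℂ) • ((GF.eta m : ℂ) •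
      (∂_{(bas m 1 : V)} L : 𝓢(V, ℂ))) : 𝓢(V, ℂ)) y = (∂_{c} L : 𝓢(V, ℂ)) y := by
    intro c y
    rw [line_sum]
    simp only [SchwartzMap.sum_apply, SchwartzMap.smul_apply, smul_eq_mul]
    refine Finset.sum_congr rfl fun m _ => ?_
    have := es m
    push_cast at this ⊢
    linear_combination ((c m : ℂ) * (∂_{(bas m 1 : V)} L : 𝓢(V, ℂ)) y) * this
  have ec : ∀ y : V, ∑ m, ((GF.eta m * prp a b y m : ℝ) : ℂ) * ((GF.eta m : ℂ) •
      (∂_{(bas m 1 : V)} L : 𝓢(V, ℂ)) : 𝓢(V, ℂ)) y =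
      ∑ m, (prp a b y m : ℂ) * (∂_{(bas m 1 : V)} L : 𝓢(V, ℂ)) y := by
    intro y
    refine Finset.sum_congr rfl fun m _ => ?_
    rw [SchwartzMap.smul_apply, smul_eq_mul]
    have := es m
    push_cast at this ⊢
    linear_combination ((prp a b y m : ℂ) * (∂_{(bas m 1 : V)} L : 𝓢(V, ℂ)) y) * this
  have ed : ∀ y : V, ∑ m, (∂_{(bas m 1 : V)} ((GF.eta m : ℂ) •
      (∂_{(bas m 1 : V)} L : 𝓢(V, ℂ))) : 𝓢(V, ℂ)) y = ∑ m, (GF.eta m : ℂ) *
      (∂_{(bas m 1 : V)} (∂_{(bas m 1 : V)} L : 𝓢(V, ℂ)) : 𝓢(V, ℂ)) y := by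
    intro y
    refine Finset.sum_congr rfl fun m _ => ?_
    rw [LineDeriv.lineDerivOp_smul, SchwartzMap.smul_apply, smul_eq_mul]
  simp only [ea, ec, ed] at d2
  simp only [hr] at d1
  have d4 : ∫ y : V, ((deriv φ (GF.mdot a y) * deriv σ (GF.mdot b y) * Wq a b y : ℝ) : ℂ) *
      (3 * ∑ m, (GF.eta m : ℂ) *
        (∂_{(bas m 1 : V)} (∂_{(bas m 1 : V)} L : 𝓢(V, ℂ)) : 𝓢(V, ℂ)) y) =
      3 * ∫ y : V, ((deriv φ (GF.mdot a y) * deriv σ (GF.mdot b y) * Wq a b y : ℝ) : ℂ) *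
      ∑ m, (GF.eta m : ℂ) *
        (∂_{(bas m 1 : V)} (∂_{(bas m 1 : V)} L : 𝓢(V, ℂ)) : 𝓢(V, ℂ)) y := by
    rw [← integral_const_mul]
    congr 1
    funext y
    ring
  rw [d4, d2] at d1
  have p2' : ∫ y : V, ((deriv φ (GF.mdot a y) * deriv (deriv σ) (GF.mdot b y) * Wq a b y : ℝ) : ℂ) *
      (∂_{b} L : 𝓢(V, ℂ)) y = -∫ y : V, ((deriv (deriv φ) (GF.mdot a y) *
        deriv (deriv σ) (GF.mdot b y) * Wq a b y : ℝ) : ℂ) * L y := by
    have q1 : ∀ y : V, deriv φ (GF.mdot a y) * deriv (deriv σ) (GF.mdot b y) * Wq a b y =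
        deriv (deriv σ) (GF.mdot b y) * deriv φ (GF.mdot a y) * Wq b a y := by
      intro y; rw [Wq_symm a b]; ring
    have q2 : ∀ y : V, deriv (deriv φ) (GF.mdot a y) * deriv (deriv σ) (GF.mdot b y) *
        Wq a b y = deriv (deriv σ) (GF.mdot b y) * deriv (deriv φ) (GF.mdot a y) * Wq b a y := by
      intro y; rw [Wq_symm a b]; ring
    simp only [q1, q2]
    exact p2
  rw [p1, p2', d3] at d1
  unfold Sm
  set K1 := ∫ y : V, ((deriv (deriv φ) (GF.mdot a y) * deriv σ (GF.mdot b y) *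
      Wq a b y : ℝ) : ℂ) * (∑ m, ((GF.eta m * a m : ℝ) : ℂ) • A m : 𝓢(V, ℂ)) y
  set K2 := ∫ y : V, ((deriv φ (GF.mdot a y) * deriv (deriv σ) (GF.mdot b y) *
      Wq a b y : ℝ) : ℂ) * (∑ m, ((GF.eta m * b m : ℝ) : ℂ) • A m : 𝓢(V, ℂ)) y
  set K3 := ∫ y : V, ((deriv (deriv φ) (GF.mdot a y) * deriv (deriv σ) (GF.mdot b y) *
      Wq a b y : ℝ) : ℂ) * L y
  set K4 := ∫ y : V, ((deriv φ (GF.mdot a y) * deriv σ (GF.mdot b y) : ℝ) : ℂ) *
      ∑ m, ((GF.eta m * prp a b y m : ℝ) : ℂ) * A m y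
  set K5 := ∫ y : V, ((deriv φ (GF.mdot a y) * deriv σ (GF.mdot b y) : ℝ) : ℂ) * L y
  linear_combination (-I / 2) * d1

/-! ### The amplitude -/

lemma ld_sch (F : 𝓢(V, ℂ)) (c : V) : LD c (fun y => F y) (fun y => (∂_{c} F : 𝓢(V, ℂ)) y) := by
  refine ⟨F.continuous, SchwartzMap.continuous _, fun y => ?_⟩
  have h1 : HasFDerivAt (fun y => F y) (fderiv ℝ F y) y :=
    ((F.smooth 1).differentiable (by norm_num) y).hasFDerivAt
  exact h1.hasLineDerivAt c

variable {D : Type*} [NormedAddCommGroup D] [InnerProductSpace ℂ D]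
variable {Q : GF.Theory D}
variable {H : D → D} {alg : Set V → Set (D → D)} {S : V → ℝ → D → D} {G : V → D → D}

/-- the divergence of `J` in terms of the potential, for Schwartz functions -/
lemma sch_rel (N : CNet Q H alg S) {T : Ix → Ix → GF.Fld D} {J : Ix → GF.Fld D}
    (hJ : IsVirial Q T J) {l : Fn → Completion D} (hl : IsPot Q T l) {X : D}
    (Am : Ix → 𝓢(V, ℂ)) (hAm : ∀ m y, vj Q J m (Q.U 1 GF.one (-y) X) = Am m y)
    (Lm : 𝓢(V, ℂ)) (hLm : ∀ y, vl l (Q.U 1 GF.one (-y) X) = Lm y) (y : V) :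
    ∑ m, (∂_{(bas m 1 : V)} (Am m) : 𝓢(V, ℂ)) y = 3 * ∑ m, (GF.eta m : ℂ) *
      (∂_{(bas m 1 : V)} (∂_{(bas m 1 : V)} Lm : 𝓢(V, ℂ)) : 𝓢(V, ℂ)) y := by
  refine hrel N.toNet hJ hl X (F' := fun i c y => (∂_{c} (Am i) : 𝓢(V, ℂ)) y)
    (L' := fun c y => (∂_{c} Lm : 𝓢(V, ℂ)) y)
    (L'' := fun i c y => (∂_{c} (∂_{(bas i 1 : V)} Lm : 𝓢(V, ℂ)) : 𝓢(V, ℂ)) y)
    (fun i c => ?_) (fun c => ?_) (fun i c => ld_sch _ _) y
  · have e : (fun y => vj Q J i (Q.U 1 GF.one (-y) X)) = fun y => Am i y := funext (hAm i)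
    rw [e]
    exact ld_sch _ _
  · have e : (fun y => vk l (Q.U 1 GF.one (-y) X)) = fun y => Lm y := funext hLm
    rw [e]
    exact ld_sch _ _

/-- THE ON-SHELL AMPLITUDE: the limit of the light front form of the time ordered product of the
trace, smeared with two plane waves, is the contact term plus the response of the potential. -/
theorem amp_lim (N : CNet Q H alg S) (Gg : Gnr Q alg S G) {T : Ix → Ix → GF.Fld D}
    {J : Ix → GF.Fld D} (hJ : IsVirial Q T J) {l : Fn → Completion D} (hl : IsPot Q T l)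
    {a b : V} (ha : IsNull a) (hb : IsNull b) (hab : GF.mdot a b = 1)
    (hpa : ∀ s w, GF.mdot a w = 0 → Ptr Q S a s w)
    {κ : V → ℝ} (hκ : Tst κ) (hκ1 : ∀ᶠ x in 𝓝 (0 : V), κ x = 1)
    {Φ σ : ℝ → ℝ} (hΦ : Tst Φ) (hσ : Tst σ) {X : D}
    (n0a : ∀ y, vc Q J a (G a (Q.U 1 GF.one (-y) X)) = 0)
    (Am : Ix → 𝓢(V, ℂ)) (hAm : ∀ m y, vj Q J m (Q.U 1 GF.one (-y) X) = Am m y)
    (Lm : 𝓢(V, ℂ)) (hLm : ∀ y, vl l (Q.U 1 GF.one (-y) X) = Lm y)
    (Z : 𝓢(V, ℂ)) (hZ : ∀ y, vl l (G a (Q.U 1 GF.one (-y) X)) = Z y) :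
    Tendsto (fun R => Inn Q J G a b Φ X fun i => dr i fun x => cut b a κ R x * σ (GF.mdot b x))
      atTop (𝓝 (-6 * I * (∫ y : V, ((deriv (deriv Φ) (GF.mdot a y) *
        deriv σ (GF.mdot b y) : ℝ) : ℂ) * vl l (Q.U 1 GF.one (-y) X)) +
        3 * ∫ y : V, ((deriv (deriv (deriv Φ)) (GF.mdot a y) * deriv σ (GF.mdot b y) : ℝ) : ℂ) *
          vl l (G a (Q.U 1 GF.one (-y) X)))) := by
  set Ac : V → 𝓢(V, ℂ) := fun c => ∑ m, ((GF.eta m * c m : ℝ) : ℂ) • Am m with hAc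
  have hAc' : ∀ c y, vc Q J c (Q.U 1 GF.one (-y) X) = Ac c y := by
    intro c y
    simp only [vc, hAm, hAc, SchwartzMap.sum_apply, SchwartzMap.smul_apply, smul_eq_mul]
  have hi : ∀ c, Integrable fun y : V => (1 + ‖y‖) ^ 2 * ‖vj Q J c (Q.U 1 GF.one (-y) X)‖ := by
    intro c
    simp only [hAm]
    have h1 : Integrable fun y : V => (((1 + ‖y‖) ^ 2 : ℝ) : ℂ) * Am c y := by
      refine int_pol (Am c) (M := 2) (by fun_prop) fun y => ?_
      rw [norm_real, Real.norm_eq_abs, abs_of_nonneg (by positivity)]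
      nlinarith [sq_nonneg (1 - ‖y‖)]
    refine h1.norm.congr (Eventually.of_forall fun y => ?_)
    simp only
    rw [norm_mul, norm_real, Real.norm_eq_abs, abs_of_nonneg (by positivity)]
  have hP := tst_deriv hΦ
  have hP2 := tst_deriv hP
  have hP3 := tst_deriv hP2
  have hσ1 := tst_deriv hσ
  have v1 := fun y => plane_vc N Gg hJ ha hb hab hpa (Ac a) (hAc' a) y
  have v2 := fun y => plane_vl N Gg hl ha hb hab hpa Lm hLm y
  have k1 : Integrable fun y : V => ((deriv (deriv (deriv Φ)) (GF.mdot a y) *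
      σ (GF.mdot b y) : ℝ) : ℂ) * vc Q J a (pl Q G a b X y) := by
    refine ((int_profW (tst_bd hP3) (tst_bd hσ) a b (∂_{a} (Ac a) : 𝓢(V, ℂ))).const_mul I).congr
      (Eventually.of_forall fun y => ?_)
    simp only
    rw [v1, n0a]
    push_cast
    ring
  have k2 : Integrable fun y : V => ((deriv (deriv (deriv Φ)) (GF.mdot a y) *
      deriv σ (GF.mdot b y) : ℝ) : ℂ) * vl l (pl Q G a b X y) := by
    refine ((int_prof (tst_bd hP3) (tst_bd hσ1) a b Z).add ((int_profW (tst_bd hP3) (tst_bd hσ1)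
      a b (∂_{a} Lm : 𝓢(V, ℂ))).const_mul I)).congr (Eventually.of_forall fun y => ?_)
    simp only [Pi.add_apply]
    rw [v2, hZ]
    push_cast
    ring
  have h := lim_inn N Gg hJ hl ha hb hab hκ hκ1 hΦ hσ X k1 k2 hi
  have eB : (fun y => vc Q J b (Q.U 1 GF.one (-y) X)) = Ac b := funext fun y => hAc' b y
  have eC : (fun y => vc Q J (prp a b y) (Q.U 1 GF.one (-y) X)) =
      fun y => ∑ m, ((GF.eta m * prp a b y m : ℝ) : ℂ) * Am m y := by
    funext y
    simp only [vc, hAm]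
  rw [eB, eC, side_eq ha.1 hab hP hσ (Ac a) (Ac b) Lm Z
    (int_perp (tst_bd hP2) (tst_bd hσ1) Am)
    (fun y => by rw [v1, n0a, zero_add]) (fun y => by rw [v2, hZ]),
    Sm_eq ha.1 hb.1 hab hP hσ Am Lm (sch_rel N hJ hl Am hAm Lm hLm)] at h
  have e1 : ∀ y : V, vl l (Q.U 1 GF.one (-y) X) = Lm y := hLm
  have e2 : ∀ y : V, vl l (G a (Q.U 1 GF.one (-y) X)) = Z y := hZ
  simp only [e1, e2]
  exact h

end Vale.Agent.P352.H246R

end
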