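import Vale.Agent.P352.H246.Rc10
import Vale.Agent.P352.H746.Glue
import Vale.Agent.P352.H496.Gen10

set_option linter.all false

noncomputable section

open MeasureTheory SchwartzMap Complex Filter Topology
open scoped SchwartzMap ComplexConjugate ENNReal LineDeriv ContDiff FourierTransform

namespace Vale.Agent.P352.H246R

open GF (Ix V Fn Sch ev pd bar sim bas o)
open H246 H496 H755 H746
open UniformSpace (Completion)

variable {D : Type*} [NormedAddCommGroup D] [InnerProductSpace ℂ D]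
variable {Q : GF.Theory D}
variable {H : D → D} {alg : Set V → Set (D → D)} {S : V → ℝ → D → D} {G : V → D → D}

/-- the values of the potential as a point like functional -/
theorem exists_vl {T : Ix → Ix → GF.Fld D} (hT : Q.IsStress T) (N : CNet Q H alg S)
    {l : Fn → Completion D} (hl : IsPot Q T l) :
    ∃ (φ : Completion D) (n : ℕ), (∀ v c, Val l v c ↔ c = pt φ (pw1 H n) v) ∧
      (∀ v, vl l v = pt φ (pw1 H n) v) ∧
      ∀ σ L v, 0 < σ → GF.IsLor L →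
        pt φ (pw1 H n) (Q.U σ L 0 v) = ((σ ^ 2)⁻¹ : ℝ) * pt φ (pw1 H n) v := by
  obtain ⟨μ, Sy, two⟩ := (PField.tr hT).exists_sym
  obtain ⟨φ, n, hrep, hval⟩ := exists_point_val hT Sy two N.toNet
  have hp := isPot_lamF Sy (PField.tr hT) two
  have hll : ∀ f, GF.IsTest f → l f = lamF Sy (PField.tr hT) f := fun f hf => hp.unique hl f hf
  have hv := fun v c => val_iff hT Sy N.toNet hrep hll v c
  refine ⟨φ, n, hv, fun v => ?_, pt_cov hT Sy two N hrep⟩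
  exact (hv _ _).1 (Classical.epsilon_spec (p := Val l v) ⟨_, (hv _ _).2 rfl⟩)

lemma tr_U {T : Ix → Ix → GF.Fld D} (hT : Q.IsStress T) {L : Ix → V} (hL : GF.IsLor L)
    (F : 𝓢(Mink, ℂ)) : GF.tr T (fl F) Q.vac =
      Q.U 1 L 0 (GF.tr T (fl (simS 1 one_pos hL 0 F)) Q.vac) := by
  have h := (PField.tr hT).cov 1 one_pos L hL 0 F Q.vac
  rw [Q.U_vac 1 L 0 one_pos hL] at h
  rw [h]
  simp

lemma Gnr.hG (Gg : Gnr Q alg S G) : ∀ a v, IsNull a →
    HasDerivAt (fun s : ℝ => S a s v) (I • G a v) 0 := Gg.der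

/-- one null vector suffices -/
theorem kappa_nu {T : Ix → Ix → GF.Fld D} (hT : Q.IsStress T) (N : CNet Q H alg S)
    (Gg : Gnr Q alg S G) {l : Fn → Completion D} (hl : IsPot Q T l)
    (h : ∃ a, IsNull a ∧ ∀ f c, GF.IsTest f → Val l (G a (GF.tr T f Q.vac)) c → c = 0)
    (f : Fn) (c : ℂ) (hf : GF.IsTest f) (hc : Val l (G (nu (-1)) (GF.tr T f Q.vac)) c) :
    c = 0 := by
  obtain ⟨a, ha, hk⟩ := h
  obtain ⟨φ, n, hv, hvl, hq⟩ := exists_vl hT N hl
  have hB := pw1_mem N.toNet n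
  obtain ⟨θ, ψ, hrot⟩ := exists_rot ha
  have hL := isLor_Rt θ ψ
  have hr : 0 < (a 0)⁻¹ := inv_pos.2 ha.2
  have ha0 : IsNull (nu (-1)) := isNull_nu (Or.inr rfl)
  obtain ⟨F, rfl⟩ := exists_fl hf
  have hL' := isLor_linv hL
  have h1 := ze_U N Gg.der hB hq one_pos hr hL ha0 ha hrot (GF.tr T (fl F) Q.vac)
  have h2 : Q.U 1 (Rt θ ψ) 0 (GF.tr T (fl F) Q.vac) =
      GF.tr T (fl (simS 1 one_pos hL' 0 F)) Q.vac := by
    have h3 := tr_U hT hL' F
    have h4 : Q.U 1 (Rt θ ψ) 0 (GF.tr T (fl F) Q.vac) = Q.U 1 (Rt θ ψ) 0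
        (Q.U 1 (linv (Rt θ ψ)) 0 (GF.tr T (fl (simS 1 one_pos hL' 0 F)) Q.vac)) := by
      rw [← h3]
    rw [h4, U_linv N hL]
  rw [h2] at h1
  have h5 := hk (fl (simS 1 one_pos hL' 0 F)) _ (isTest_fl _) ((hv _ _).2 rfl)
  rw [h5] at h1
  have h6 : (((((a 0)⁻¹ * 1)⁻¹ : ℝ)) : ℂ) ≠ 0 := by
    have : ((a 0)⁻¹ * 1)⁻¹ ≠ 0 := by
      rw [mul_one]
      exact inv_ne_zero hr.ne'
    exact_mod_cast this
  rw [(hv _ _).1 hc]
  exact (mul_eq_zero.1 h1.symm).resolve_left h6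

/-- Clause (1): one real number decides -/
theorem form_of_kappa {T : Ix → Ix → GF.Fld D} (hT : Q.IsStress T) (N : CNet Q H alg S)
    (Gg : Gnr Q alg S G) {l : Fn → Completion D} (hl : IsPot Q T l)
    (h : ∃ a, IsNull a ∧ ∀ f c, GF.IsTest f → Val l (G a (GF.tr T f Q.vac)) c → c = 0) :
    ∃ Λ, IsForm Q T l Λ :=
  (criterion2 hT N.toNet hl).2.1 (inv_of_kappa hT N Gg hl
    fun f c hf hc => kappa_nu hT N Gg hl h f c hf hc)

/-! ### From the symmetry of the joint limits to the reciprocity -/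

lemma mdot_nu (y : V) : GF.mdot (nu (-1)) y = y 0 + y 1 := by
  rw [gf_mdot]
  simp [nu]

lemma mdot_nu' (y : V) : GF.mdot ((1 / 2 : ℝ) • nu 1) y = (y 0 - y 1) / 2 := by
  rw [gf_mdot]
  simp [nu]
  ring

lemma isNull_half : IsNull ((1 / 2 : ℝ) • nu 1) := by
  have hb : IsNull (nu 1) := isNull_nu (Or.inl rfl)
  refine ⟨?_, ?_⟩
  · have h1 : GF.mdot ((1 / 2 : ℝ) • nu 1) ((1 / 2 : ℝ) • nu 1) =
        (1 / 2) ^ 2 * GF.mdot (nu 1) (nu 1) := by
      simp only [gf_mdot, Pi.smul_apply, smul_eq_mul]; ring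
    rw [h1, hb.1, mul_zero]
  · show 0 < (1 / 2 : ℝ) * nu 1 o
    exact mul_pos (by norm_num) hb.2

lemma nu_half : GF.mdot (nu (-1)) ((1 / 2 : ℝ) • nu 1) = 1 := by
  rw [mdot_nu]
  simp [nu]
  norm_num

lemma contr2 {L : Ix → V} (hL : GF.IsLor L) {a b : V} {r : ℝ} (hab : sim 1 L 0 a = r • b)
    (k : Ix) : r * ∑ m, GF.eta m * b m * L k m = GF.eta k * a k := by
  have h1 : GF.mdot (sim 1 L 0 a) (L k) = GF.eta k * a k := by
    have h2 : GF.mdot (sim 1 L 0 a) (L k) = ∑ m, a m * GF.mdot (L m) (L k) := by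
      simp only [GF.mdot, sim, Finset.mul_sum, Pi.zero_apply, zero_add, one_mul, Finset.sum_mul]
      rw [Finset.sum_comm]
      refine Finset.sum_congr rfl fun m _ => Finset.sum_congr rfl fun n _ => by ring
    rw [h2, Finset.sum_eq_single k]
    · rw [hL.1 k k]
      simp [bas]
      ring
    · intro m _ hm
      rw [hL.1 m k]
      simp [bas, Ne.symm hm]
    · intro h
      exact absurd (Finset.mem_univ k) h
  rw [← h1, hab, GF.mdot, Finset.mul_sum]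
  refine Finset.sum_congr rfl fun m _ => ?_
  simp only [Pi.smul_apply, smul_eq_mul]
  ring

/-- transport of the vanishing of the response of the longitudinal component -/
lemma n0_cov (N : CNet Q H alg S) (Gg : Gnr Q alg S G) {T : Ix → Ix → GF.Fld D}
    {J : Ix → GF.Fld D} (hJ : IsVirial Q T J)
    (n0 : ∀ v, vc Q J (nu (-1)) (G (nu (-1)) v) = 0) (v : D) :
    vc Q J ((1 / 2 : ℝ) • nu 1) (G ((1 / 2 : ℝ) • nu 1) v) = 0 := by
  have ha : IsNull (nu (-1)) := isNull_nu (Or.inr rfl)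
  have hL : GF.IsLor mRot12 := isLor_rot12
  have hab : sim 1 mRot12 0 (nu (-1)) = (2 : ℝ) • ((1 / 2 : ℝ) • nu 1) := by
    rw [rot12_nu, smul_smul]
    norm_num
  set w := Q.U 1 (linv mRot12) 0 v with hw
  have hvw : Q.U 1 mRot12 0 w = v := U_linv N hL v
  have h1 := G_cov N Gg.der one_pos two_pos hL ha isNull_half hab w
  rw [hvw] at h1
  have h2 : vc Q J ((1 / 2 : ℝ) • nu 1) (Q.U 1 mRot12 0 (G (nu (-1)) w)) = 0 := by
    have h3 : vc Q J ((1 / 2 : ℝ) • nu 1) (Q.U 1 mRot12 0 (G (nu (-1)) w)) =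
        (1 / 2 : ℂ) * vc Q J (nu (-1)) (G (nu (-1)) w) := by
      unfold vc
      simp only [vj_cov N hJ one_pos hL, one_pow, inv_one, ofReal_one, one_mul, Finset.mul_sum]
      rw [Finset.sum_comm]
      refine Finset.sum_congr rfl fun k _ => ?_
      have h4 := contr2 hL hab k
      have h5 : ∑ m, ((GF.eta m * ((1 / 2 : ℝ) • nu 1) m : ℝ) : ℂ) * ((mRot12 k m : ℂ) *
          vj Q J k (G (nu (-1)) w)) = ((∑ m, GF.eta m * ((1 / 2 : ℝ) • nu 1) m * mRot12 k m : ℝ) : ℂ)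
          * vj Q J k (G (nu (-1)) w) := by
        push_cast
        rw [Finset.sum_mul]
        exact Finset.sum_congr rfl fun m _ => by ring
      rw [h5]
      have h6 : ∑ m, GF.eta m * ((1 / 2 : ℝ) • nu 1) m * mRot12 k m =
          1 / 2 * (GF.eta k * nu (-1) k) := by
        linarith
      rw [h6]
      push_cast
      ring
    rw [h3, n0, mul_zero]
  have h6 : vc Q J ((1 / 2 : ℝ) • nu 1) (((2 / 1 : ℝ) : ℂ) • G ((1 / 2 : ℝ) • nu 1) v) = 0 := by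
    rw [← h1]; exact h2
  have h7 : ∀ (c : ℂ) (x : D), vc Q J ((1 / 2 : ℝ) • nu 1) (c • x) =
      c * vc Q J ((1 / 2 : ℝ) • nu 1) x := by
    intro c x
    have hf : ∀ m, Q.fld (J m) := fun m => Q.bose_fld _ (hJ.bose m)
    obtain ⟨μ, K, w, n, hrep⟩ := exists_kc N.toNet hf fun m => GF.eta m * ((1 / 2 : ℝ) • nu 1) m
    have h8 := fun v => sum_vj N.toNet hf (pw1_mem N.toNet n) hrep v
    unfold vc
    rw [h8, h8, pt_smul' N (pw1_mem N.toNet n)]
  rw [h7] at h6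
  refine (mul_eq_zero.1 h6).resolve_left ?_
  norm_num

section

variable {T : Ix → Ix → GF.Fld D} {J : Ix → GF.Fld D} {l : Fn → Completion D}

/-- the symmetry of the joint limits, Schwartz property and the vanishing of the longitudinal
response imply that the potential does not respond on the trace -/
theorem hk_main (hT : Q.IsStress T) (N : CNet Q H alg S) (Gg : Gnr Q alg S G)
    (hJ : IsVirial Q T J) (hl : IsPot Q T l)
    (hp : ∀ a, IsNull a → ∀ s w, GF.mdot a w = 0 → Ptr Q S a s w)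
    (n0 : ∀ v, vc Q J (nu (-1)) (G (nu (-1)) v) = 0)
    (hsch : ∀ (m : Ix) (g : 𝓢(Mink, ℂ)), PC (mftS g) → ∃ (Am : Ix → 𝓢(V, ℂ)) (Lm : 𝓢(V, ℂ)),
      (∀ k y, vj Q J k (Q.U 1 GF.one (-y) (J m (fl g) Q.vac)) = Am k y) ∧
      ∀ y, vl l (Q.U 1 GF.one (-y) (J m (fl g) Q.vac)) = Lm y)
    (hlim : ∀ (a b : V) (Phi Sig : ℝ → ℝ) (m : Ix) (g : 𝓢(Mink, ℂ)) (X : D), IsNull a →
      IsNull b → GF.mdot a b = 1 → (∀ s w, GF.mdot a w = 0 → Ptr Q S a s w) →
      (∀ s w, GF.mdot b w = 0 → Ptr Q S b s w) → Tst Phi → Tst Sig → PC (mftS g) →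
      X = J m (fl g) Q.vac → (∀ y, vc Q J a (G a (Q.U 1 GF.one (-y) X)) = 0) →
      (∀ y, vc Q J b (G b (Q.U 1 GF.one (-y) X)) = 0) → ∀ (Am : Ix → 𝓢(V, ℂ)),
      (∀ m y, vj Q J m (Q.U 1 GF.one (-y) X) = Am m y) → ∀ (Lm : 𝓢(V, ℂ)),
      (∀ y, vl l (Q.U 1 GF.one (-y) X) = Lm y) → ∀ (Z Z' : 𝓢(V, ℂ)),
      (∀ y, vl l (G a (Q.U 1 GF.one (-y) X)) = Z y) →
      (∀ y, vl l (G b (Q.U 1 GF.one (-y) X)) = Z' y) →
      Sid a b (deriv Phi) (deriv Sig) (fun y => vc Q J a (pl Q G a b X y))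
        (fun y => vl l (pl Q G a b X y)) (fun y => vc Q J b (Q.U 1 GF.one (-y) X))
        (fun y => vc Q J (prp a b y) (Q.U 1 GF.one (-y) X)) =
      Sid b a (deriv Sig) (deriv Phi) (fun y => vc Q J b (pl Q G b a X y))
        (fun y => vl l (pl Q G b a X y)) (fun y => vc Q J a (Q.U 1 GF.one (-y) X))
        (fun y => vc Q J (prp b a y) (Q.U 1 GF.one (-y) X)))
    (f : 𝓢(Mink, ℂ)) (hf : PC (mftS f)) :
    vl l (G (nu (-1)) (GF.tr T (fl f) Q.vac)) = 0 := by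
  obtain ⟨φ, n, hv, hvl, hq⟩ := exists_vl hT N hl
  have hB := pw1_mem N.toNet n
  have ha : IsNull (nu (-1)) := isNull_nu (Or.inr rfl)
  obtain ⟨κ, hκ⟩ := exists_kap3 N Gg.der Gg.mem hB hq hJ.vfld
  rw [hvl]
  refine hk_of_rec N Gg.der Gg.mem hB hq ?_ hJ f hf
  intro Phi Sig hP hPc hS hSc m g hg
  obtain ⟨Am, Lm, hAm, hLm⟩ := hsch m g hg
  -- the responses as Schwartz functions
  set cm : Ix → ℂ := ![κ, -κ, 0, 0] with hcm
  set cm' : Ix → ℂ := ![κ, κ, 0, 0] with hcm'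
  have hk := fun y => hκ g hg y
  have hz : ∀ y : Mink, pt φ (pw1 H n) (G (nu (-1)) (U1 Q (-y) (J m (fl g) Q.vac))) =
      cm m * g y := by
    intro y
    obtain ⟨⟨a0, a1, a2, a3⟩, -⟩ := hk y
    fin_cases m
    · exact a0
    · exact a1.trans (neg_mul _ _).symm
    · exact a2.trans (zero_mul _).symm
    · exact a3.trans (zero_mul _).symm
  have hz' : ∀ y : Mink, pt φ (pw1 H n) (G ((1 / 2 : ℝ) • nu 1) (U1 Q (-y) (J m (fl g) Q.vac))) =
      (1 / 2 * cm' m) * g y := by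
    intro y
    rw [pt_half N Gg.der hB, mul_assoc]
    congr 1
    obtain ⟨-, a0, a1, a2, a3⟩ := hk y
    fin_cases m
    · exact a0
    · exact a1
    · exact a2.trans (zero_mul _).symm
    · exact a3.trans (zero_mul _).symm
  have hZ : ∀ y, vl l (G (nu (-1)) (Q.U 1 GF.one (-y) (J m (fl g) Q.vac))) =
      (cm m • toSchL g) y := by
    intro y
    rw [hvl]
    exact hz (WithLp.toLp 2 y)
  have hZ' : ∀ y, vl l (G ((1 / 2 : ℝ) • nu 1) (Q.U 1 GF.one (-y) (J m (fl g) Q.vac))) =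
      ((1 / 2 * cm' m) • toSchL g) y := by
    intro y
    rw [hvl]
    exact hz' (WithLp.toLp 2 y)
  have n0a : ∀ y, vc Q J (nu (-1)) (G (nu (-1)) (Q.U 1 GF.one (-y) (J m (fl g) Q.vac))) = 0 :=
    fun y => n0 _
  have n0b : ∀ y, vc Q J ((1 / 2 : ℝ) • nu 1)
      (G ((1 / 2 : ℝ) • nu 1) (Q.U 1 GF.one (-y) (J m (fl g) Q.vac))) = 0 :=
    fun y => n0_cov N Gg hJ n0 _
  have h := recip_main N Gg hJ hl ha isNull_half nu_half (hp _ ha) (hp _ isNull_half)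
    (φ := deriv Phi) (σ := deriv Sig) (tst_deriv ⟨hP, hPc⟩) (tst_deriv ⟨hS, hSc⟩)
    n0a n0b Am hAm Lm hLm _ _ hZ hZ'
    (hlim _ _ Phi Sig m g _ ha isNull_half nu_half (hp _ ha) (hp _ isNull_half) ⟨hP, hPc⟩
      ⟨hS, hSc⟩ hg rfl n0a n0b Am hAm Lm hLm _ _ hZ hZ')
  rw [integral_V, integral_V] at h
  have e1 : ∀ y : Mink, GF.mdot (nu (-1)) y.ofLp = y 0 + y 1 := fun y => mdot_nu _
  have e2 : ∀ y : Mink, GF.mdot ((1 / 2 : ℝ) • nu 1) y.ofLp = (y 0 - y 1) / 2 :=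
    fun y => mdot_nu' _
  have e3 : ∀ y : Mink, (cm m • toSchL g) y.ofLp = cm m * g y := fun y => rfl
  have e4 : ∀ y : Mink, ((1 / 2 * cm' m) • toSchL g) y.ofLp = (1 / 2 * cm' m) * g y :=
    fun y => rfl
  simp only [e1, e2, e3, e4] at h
  simp only [hz, hz']
  calc _ = ∫ y : Mink, ((deriv (deriv (deriv Phi)) (y 0 + y 1) *
        deriv (deriv Sig) ((y 0 - y 1) / 2) : ℝ) : ℂ) * (cm m * g y) := by
        congr 1; funext y; push_cast; ring
    _ = _ := h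
    _ = _ := by congr 1; funext y; push_cast; ring

end

end Vale.Agent.P352.H246R

end
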