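import Vale.Agent.P352.H246.Asm
import Vale.Agent.P352.H496.CoreJ4

set_option linter.all false

noncomputable section

open MeasureTheory SchwartzMap Complex Filter Topology
open scoped SchwartzMap ComplexConjugate ENNReal LineDeriv ContDiff FourierTransform

namespace Vale.Agent.P352.H246R

open GF (Ix V Fn Sch ev pd bar sim bas o)
open H246 H496 H755 H746
open UniformSpace (Completion)

variable {D : Type*} [NormedAddCommGroup D] [InnerProductSpace ℂ D]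
variable {Q : GF.Theory D}
variable {H : D → D} {alg : Set V → Set (D → D)} {S : V → ℝ → D → D} {G : V → D → D}

/-- The null crossing theorem: the symmetry of the joint limits implies the local extension -/
theorem crossing {T : Ix → Ix → GF.Fld D} {J : Ix → GF.Fld D} {l : Fn → Completion D}
    (hT : Q.IsStress T) (N : CNet Q H alg S) (Gg : Gnr Q alg S G)
    (hJ : IsVirial Q T J) (hl : IsPot Q T l)
    (hp : ∀ a, IsNull a → ∀ s w, GF.mdot a w = 0 → Ptr Q S a s w)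
    (hsch : ∀ (m : Ix) (g : 𝓢(Mink, ℂ)), PC (mftS g) → ∃ (Am : Ix → 𝓢(V, ℂ)) (Lm : 𝓢(V, ℂ)),
      (∀ k y, vj Q J k (Q.U 1 GF.one (-y) (J m (fl g) Q.vac)) = Am k y) ∧
      ∀ y, vl l (Q.U 1 GF.one (-y) (J m (fl g) Q.vac)) = Lm y)
    (hlim : ∀ (a b : V) (Phi Sig : ℝ → ℝ) (m : Ix) (g : 𝓢(Mink, ℂ)) (X : D), IsNull a →
      IsNull b → GF.mdot a b = 1 → (∀ s w, GF.mdot a w = 0 → Ptr Q S a s w) →
      (∀ s w, GF.mdot b w = 0 → Ptr Q S b s w) → Tst Phi → Tst Sig → PC (mftS g) →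
      X = J m (fl g) Q.vac → (∀ y, vc Q J a (G a (Q.U 1 GF.one (-y) X)) = 0) →
      (∀ y, vc Q J b (G b (Q.U 1 GF.one (-y) X)) = 0) → ∀ (Am : Ix → 𝓢(V, ℂ)),
      (∀ m y, vj Q J m (Q.U 1 GF.one (-y) X) = Am m y) → ∀ (Lm : 𝓢(V, ℂ)),
      (∀ y, vl l (Q.U 1 GF.one (-y) X) = Lm y) → ∀ (Z Z' : 𝓢(V, ℂ)),
      (∀ y, vl l (G a (Q.U 1 GF.one (-y) X)) = Z y) →
      (∀ y, vl l (G b (Q.U 1 GF.one (-y) X)) = Z' y) →
      Sid a b (deriv Phi) (deriv Sig) (fun y => vc Q J a (pl Q G a b X y))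
        (fun y => vl l (pl Q G a b X y)) (fun y => vc Q J b (Q.U 1 GF.one (-y) X))
        (fun y => vc Q J (prp a b y) (Q.U 1 GF.one (-y) X)) =
      Sid b a (deriv Sig) (deriv Phi) (fun y => vc Q J b (pl Q G b a X y))
        (fun y => vl l (pl Q G b a X y)) (fun y => vc Q J a (Q.U 1 GF.one (-y) X))
        (fun y => vc Q J (prp b a y) (Q.U 1 GF.one (-y) X))) :
    ∃ Λ, IsForm Q T l Λ :=
  (criterion2 hT N.toNet hl).2.1 (inv_of_kappaPC hT N Gg hl
    fun f hf => hk_main hT N Gg hJ hl hp (fun v => n0 N Gg hJ v) hsch hlim f hf)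

end Vale.Agent.P352.H246R

end
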