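import Vale.Agent.P352.GFDefs

namespace Vale.Agent.P352.H246

open GF

noncomputable section

variable {D : Type*} [NormedAddCommGroup D] [InnerProductSpace ℂ D]

/-- The tensor `T^{mn} + (∂^n J^m - η^{mn} ∂·J) / 3`. -/
def improveJ (T : Ix → Ix → Fld D) (J : Ix → Fld D) : Ix → Ix → Fld D := fun m n f v =>
  T m n f v - (eta n / 3 : ℂ) • J m (pd n f) v +
    (bas m (eta m) n / 3 : ℂ) • ∑ k, J k (pd k f) v

end

end Vale.Agent.P352.H246
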