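import Vale.Agent.P352.H246.LJ
import Vale.Agent.P352.H246.SubDefs

set_option linter.all false

noncomputable section

open MeasureTheory SchwartzMap Complex Filter Topology
open scoped SchwartzMap ComplexConjugate ENNReal LineDeriv NNReal Uniformity

namespace Vale.Agent.P352.H246

open GF (Ix V Fn Sch ev pd bar sim one bas o)

variable {D : Type*} [NormedAddCommGroup D] [InnerProductSpace ℂ D]
variable {Q : GF.Theory D} {T : Ix → Ix → GF.Fld D}

lemma IsVirial.vfld {J : Ix → GF.Fld D} (h : IsVirial Q T J) : VFld Q J where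
  bose := h.bose
  herm m f v w := by rw [h.herm m _ _ _ (isTest_fl f), bar_fl]
  cov m s hs L hL b f v := by
    rw [h.cov m s L b (fl f) v hs hL (isTest_fl f), fl_sim s hs hL b]
    refine Finset.sum_congr rfl fun k _ => ?_
    push_cast
    rfl

lemma curl_of {J : Ix → GF.Fld D} {v : D} (h : ∀ m n f, GF.IsTest f →
    (GF.eta n : ℂ) • J n (pd m f) v = (GF.eta m : ℂ) • J m (pd n f) v) : Curl J v := by
  intro m n f
  have := h m n (fl f) (isTest_fl f)
  rwa [pd_fl, pd_fl] at this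

lemma eta_mul_c (m : Ix) : (GF.eta m : ℂ) * (GF.eta m : ℂ) = 1 := by
  have := eta_sq m
  exact_mod_cast this

/-- the divergence -/
lemma IsVirial.div' {J : Ix → GF.Fld D} (h : IsVirial Q T J) (f : 𝓢(Mink, ℂ)) (v : D) :
    GF.tr T (fl f) v = -∑ m, J m (fl (∂_{eb m} f)) v := by
  rw [h.div _ v (isTest_fl f)]
  simp only [pd_fl]

section

variable {J : Ix → GF.Fld D} (hV : IsVirial Q T J) (hc : Curl J Q.vac)
include hV hc

/-- the vacuum values are the canonical potential -/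
theorem IsVirial.kp_eq {l : Fn → UniformSpace.Completion D} (hl : IsPot Q T l)
    (f : 𝓢(Mink, ℂ)) : hV.vfld.kp 0 f = l (fl f) := by
  obtain ⟨κ, hκ⟩ := hl.exists_clm
  set δ : 𝓢(Mink, ℂ) →L[ℂ] UniformSpace.Completion D := hV.vfld.kp 0 - κ with hδ
  have hcov : VCov Q δ 2 := by
    intro s hs L hL a f v
    have h1 := hl.cov s L a (fl f) v hs hL (isTest_fl _)
    have h2 := hV.vfld.kp_cov hc s hs L hL a f v
    rw [fl_sim s hs hL a] at h1
    have e : (s ^ ((4 : ℝ) - 2) : ℝ) = s ^ 2 := by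
      rw [show ((4 : ℝ) - 2) = ((2 : ℕ) : ℝ) by norm_num, Real.rpow_natCast]
    rw [hδ, ContinuousLinearMap.sub_apply, ContinuousLinearMap.sub_apply, inner_sub_right,
      inner_sub_right, h2, hκ, hκ, h1, e]
    ring
  have h0 := hcov.unique (fun f => by
    have h1 := hl.trace (fl f) (isTest_fl _)
    rw [box_fl, ← hκ, hV.div', UniformSpace.Completion.coe_neg] at h1
    have h2 : (3 : ℂ) • hV.vfld.kp 0 (boxS f) =
        -((∑ m, J m (fl (∂_{eb m} f)) Q.vac : D) : UniformSpace.Completion D) := by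
      unfold boxS
      rw [map_sum, Finset.smul_sum]
      have h3 := map_sum (UniformSpace.Completion.toComplL (𝕜 := ℂ) (E := D))
        (fun m => J m (fl (∂_{eb m} f)) Q.vac) Finset.univ
      have h4 : ((∑ m, J m (fl (∂_{eb m} f)) Q.vac : D) : UniformSpace.Completion D) =
        ∑ m, ((J m (fl (∂_{eb m} f)) Q.vac : D) : UniformSpace.Completion D) := h3
      rw [h4, ← Finset.sum_neg_distrib]
      refine Finset.sum_congr rfl fun m _ => ?_
      rw [map_smul, smul_comm, hV.vfld.kp_pd hc, smul_neg, smul_smul, eta_mul_c, one_smul]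
    have h3 : (3 : ℂ) • δ (boxS f) = 0 := by
      rw [hδ, ContinuousLinearMap.sub_apply, smul_sub, h2, h1, sub_self]
    exact (smul_eq_zero.1 h3).resolve_left (by norm_num)) f
  rw [hδ, ContinuousLinearMap.sub_apply, hκ] at h0
  exact sub_eq_zero.1 h0

/-- the trace identity -/
theorem IsVirial.LJ_box {f : 𝓢(Mink, ℂ)} (hf : IsTest Set.univ f) {v : D}
    (hv : PW Q Set.univ v) : (3 : ℂ) • LJ J (boxS f) v =
      ((GF.tr T (fl f) v : D) : UniformSpace.Completion D) := by
  have hJ := hV.vfld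
  have hg := hJ.goodV hv
  have hsum : ∀ (t : Finset Ix) (g : Ix → 𝓢(Mink, ℂ)), (∀ k, IsTest Set.univ (g k)) →
      IsTest Set.univ (∑ k ∈ t, (GF.eta k : ℂ) • g k) ∧
      LJ J (∑ k ∈ t, (GF.eta k : ℂ) • g k) v = ∑ k ∈ t, (GF.eta k : ℂ) • LJ J (g k) v := by
    intro t g hgt
    classical
    induction t using Finset.induction_on with
    | empty =>
      simp only [Finset.sum_empty]
      refine ⟨isTest_zero _, ?_⟩
      have := hJ.LJ_smulf hc (isTest_zero Set.univ) 0 hg
      rwa [zero_smul, zero_smul] at this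
    | insert i t hi ih =>
      rw [Finset.sum_insert hi, Finset.sum_insert hi]
      refine ⟨((hgt i).smul _).add ih.1, ?_⟩
      rw [hJ.LJ_addf hc ((hgt i).smul _) ih.1 hg, hJ.LJ_smulf hc (hgt i) _ hg, ih.2]
  have hd : ∀ k : Ix, IsTest Set.univ (∂_{eb k} (∂_{eb k} f : 𝓢(Mink, ℂ)) : 𝓢(Mink, ℂ)) :=
    fun k => isTest_lineDeriv (isTest_lineDeriv hf _) _
  rw [boxS, (hsum Finset.univ _ hd).2, Finset.smul_sum, hV.div']
  have h3 := map_sum (UniformSpace.Completion.toComplL (𝕜 := ℂ) (E := D))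
    (fun m => J m (fl (∂_{eb m} f)) v) Finset.univ
  have h4 : ((∑ m, J m (fl (∂_{eb m} f)) v : D) : UniformSpace.Completion D) =
    ∑ m, ((J m (fl (∂_{eb m} f)) v : D) : UniformSpace.Completion D) := h3
  rw [UniformSpace.Completion.coe_neg, h4, ← Finset.sum_neg_distrib]
  refine Finset.sum_congr rfl fun m _ => ?_
  rw [smul_comm, hJ.LJ_pd hc m (isTest_lineDeriv hf _) hv, smul_neg, smul_smul, eta_mul_c,
    one_smul]

open Classical in
/-- the theorem on curl-free virial currents -/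
theorem IsVirial.exists_imp {l : Fn → UniformSpace.Completion D} (hl : IsPot Q T l) :
    ∃ Λ, IsImp Q T l Λ ∧ ∀ m f v, In Set.univ f → Gen Q Set.univ v →
      (3 : ℂ) • Λ (pd m f) v =
        -((GF.eta m : ℂ) • ((J m f v : D) : UniformSpace.Completion D)) := by
  have hJ := hV.vfld
  set Λ : Fn → D → UniformSpace.Completion D := fun f v =>
    if h : GF.IsTest f then LJ J (exists_fl h).choose v else 0 with hΛ
  have hΛf : ∀ f v, Λ (fl f) v = LJ J f v := by
    intro f v
    rw [hΛ]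
    simp only
    rw [dif_pos (isTest_fl f), fl_inj (exists_fl (isTest_fl f)).choose_spec]
  have hcova : ∀ s L a f v z, 0 < s → GF.IsLor L → In Set.univ f → Gen Q Set.univ v →
      inner ℂ ((Q.U s L a z : D) : UniformSpace.Completion D) (Λ f (Q.U s L a v)) =
        (s ^ 2 : ℝ) * inner ℂ (z : UniformSpace.Completion D)
          (Λ (fun x => f (sim s L a x)) v) := by
    intro s L a f v z hs hL hf hv
    obtain ⟨F, rfl⟩ := exists_fl hf.1
    rw [fl_sim s hs hL a, hΛf, hΛf]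
    exact hJ.LJ_cov hc hs hL a (in_univ.1 hf) (gen_iff.1 hv) z
  refine ⟨Λ, ⟨⟨?_, ?_, ?_, ?_, ?_, ?_, ?_⟩, ?_, hcova⟩, ?_⟩
  · intro f hf
    obtain ⟨F, rfl⟩ := exists_fl hf.1
    rw [hΛf, hJ.LJ_vac hc, hV.kp_eq hc hl]
  · intro f g c v hf hg hv
    obtain ⟨F, rfl⟩ := exists_fl hf.1
    obtain ⟨G, rfl⟩ := exists_fl hg.1
    have hgv := hJ.goodV (gen_iff.1 hv)
    rw [fl_add_smul, hΛf, hΛf, hΛf, hJ.LJ_addf hc (in_univ.1 hf) ((in_univ.1 hg).smul c) hgv,
      hJ.LJ_smulf hc (in_univ.1 hg) c hgv]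
  · intro f c v w hf hv hw
    obtain ⟨F, rfl⟩ := exists_fl hf.1
    rw [hΛf, hΛf, hΛf, hJ.LJ_addv (in_univ.1 hf) (hJ.goodV (gen_iff.1 hv))
      (hJ.goodV (.smul c (gen_iff.1 hw))), hJ.LJ_smulv]
  · intro f v w hf hv hw
    obtain ⟨F, rfl⟩ := exists_fl hf.1
    rw [bar_fl, hΛf, hΛf]
    exact hJ.LJ_herm hc (in_univ.1 hf) (hJ.goodV (gen_iff.1 hv)) (hJ.goodV (gen_iff.1 hw))
  · intro A B f g v z hA' hB' hadj hf hg hs hv
    obtain ⟨F, rfl⟩ := exists_fl hf.1
    obtain ⟨G, rfl⟩ := exists_fl hg.1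
    rw [bar_fl, hΛf, hΛf]
    refine hJ.LJ_local hc hA' hB' hadj (in_univ.1 hf) (in_univ.1 hg) ?_ (gen_iff.1 hv) z
    intro x hx y hy
    have hx' : x.ofLp ∈ tsupport (fl F) := by
      rw [tsupport_fl]
      exact hx
    have hy' : y.ofLp ∈ tsupport (fl G) := by
      rw [tsupport_fl]
      exact hy
    have := hs _ hx' _ hy'
    rw [mdot_eq]
    exact this
  · intro s L a f v z hs hL _ hf hv
    exact hcova s L a f v z hs hL hf hv
  · intro f v hf hv
    obtain ⟨F, rfl⟩ := exists_fl hf.1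
    rw [box_fl, hΛf]
    exact hV.LJ_box hc (in_univ.1 hf) (gen_iff.1 hv)
  · intro K v hK hv
    set K' : Set Mink := (fun x : V => (WithLp.toLp 2 x : Mink)) '' K with hK'
    have hK'c : IsCompact K' := hK.image (PiLp.continuous_toLp 2 _)
    have h1 := hJ.LJ_cont hc hK'c (gen_iff.1 hv)
    rw [continuousOn_iff_continuous_restrict]
    have hmem : ∀ g : {g : Sch | tsupport (ev g) ⊆ K}, ofSch (g : Sch) ∈ DK K' := by
      intro g x hx
      have h2 : ev (g : Sch) = fl (ofSch (g : Sch)) := ev_fl _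
      by_contra h
      apply hx
      refine ⟨x.ofLp, g.2 (subset_tsupport _ ?_), rfl⟩
      rw [h2]
      exact h
    have h2 : Continuous fun g : {g : Sch | tsupport (ev g) ⊆ K} =>
        (⟨ofSch (g : Sch), hmem g⟩ : DK K') :=
      (ofSch.continuous.comp continuous_subtype_val).subtype_mk hmem
    have h3 := h1.comp h2
    refine h3.congr fun g => ?_
    show LJ J (ofSch (g : Sch)) v = Λ (ev (g : Sch)) v
    rw [ev_fl, hΛf]
  · intro m f v hf hv
    obtain ⟨F, rfl⟩ := exists_fl hf.1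
    rw [pd_fl, hΛf]
    exact hJ.LJ_pd hc m (in_univ.1 hf) (gen_iff.1 hv)

end

end Vale.Agent.P352.H246

end
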