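import Vale.Agent.P352.H496.Imp
import Vale.Agent.P352.H246.Vir
import Vale.Agent.P352.H246.ImpJDefs

set_option linter.all false

noncomputable section

open MeasureTheory SchwartzMap Complex Filter Topology
open scoped SchwartzMap ComplexConjugate ENNReal LineDeriv

namespace Vale.Agent.P352.H246D

open GF (Ix V Fn Sch ev pd bar sim bas o)
open H246 H496

/-- for large radii the spatial derivatives of the cutoffs are spacelike to compact sets -/
lemma sep_cut' {F : ℝ → Fn} (hF : GF.IsCutoff F) {f : 𝓢(Mink, ℂ)} (hf : HasCompactSupport f) :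
    ∀ᶠ R in atTop, ∃ G : 𝓢(Mink, ℂ), fl G = F R ∧ ∀ k : Ix, k ≠ 0 →
      SpSep (∂_{eb k} G : 𝓢(Mink, ℂ)) f := by
  obtain ⟨a, c, ha, hc, -, hc1, hF⟩ := hF
  obtain ⟨ε, hε, hcε⟩ := Metric.eventually_nhds_iff_ball.1 hc1
  obtain ⟨τ, hτ⟩ := ha.isCompact.isBounded.exists_norm_le
  obtain ⟨ρ, hρ0, hρ⟩ := exists_ball f hf
  filter_upwards [eventually_gt_atTop 0, eventually_gt_atTop ((|τ| + 2 * ρ) / ε)] with R hR hR2
  obtain ⟨hRt, hFx⟩ := hF R hR
  obtain ⟨G, hG⟩ := exists_fl hRt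
  refine ⟨G, hG, ?_⟩
  have hGx : ∀ x : Mink, G x = a (x 0) * c (fun n => if n = o then 0 else x n / R) := by
    intro x
    have h1 := hFx x.ofLp
    rw [← hG] at h1
    exact h1
  set U : Set Mink := {x | ∀ i : Ix, i ≠ 0 → |x i| < ε * R} with hU
  have hUo : IsOpen U := by
    have : U = ⋂ i : Ix, {x : Mink | i ≠ 0 → |x i| < ε * R} := by
      ext x
      simp [hU]
    rw [this]
    refine isOpen_iInter_of_finite fun i => ?_
    by_cases hi : i = 0
    · simp [hi]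
    · have : {x : Mink | i ≠ 0 → |x i| < ε * R} = {x : Mink | |x i| < ε * R} := by
        ext x
        simp [hi]
      rw [this]
      exact isOpen_lt (by fun_prop) continuous_const
  have hGU : ∀ y ∈ U, G y = a (y 0) := by
    intro y hy
    rw [hGx, hcε, ofReal_one, mul_one]
    rw [mem_ball_zero_iff, pi_norm_lt_iff hε]
    intro n
    split_ifs with hn
    · simpa using hε
    · rw [norm_div, Real.norm_eq_abs, Real.norm_eq_abs, abs_of_pos hR, div_lt_iff₀ hR]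
      exact hy n hn
  have hGd : ∀ y ∈ U, ∀ k : Ix, k ≠ 0 → (∂_{eb k} G : 𝓢(Mink, ℂ)) y = 0 := by
    intro y hy k hk
    apply lineDeriv_eq_of_hasDerivAt
    have hcont : Continuous fun t : ℝ => y + t • (eb k : Mink) := by fun_prop
    have h1 : ∀ᶠ t : ℝ in 𝓝 0, y + t • (eb k : Mink) ∈ U := by
      have h2 : U ∈ 𝓝 (y + (0:ℝ) • (eb k : Mink)) := by
        rw [zero_smul, add_zero]
        exact hUo.mem_nhds hy
      exact hcont.continuousAt.eventually h2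
    refine (hasDerivAt_const (0:ℝ) (a (y 0) : ℂ)).congr_of_eventuallyEq ?_
    filter_upwards [h1] with t ht
    rw [hGU _ ht]
    congr 2
    simp [eb, Ne.symm hk]
  have hsupp : ∀ x ∈ tsupport G, |x 0| ≤ |τ| := by
    intro x hx
    have hcl : IsClosed {x : Mink | |x 0| ≤ |τ|} := isClosed_le (by fun_prop) continuous_const
    refine closure_minimal ?_ hcl hx
    intro y hy
    have h1 : a (y 0) ≠ 0 := by
      intro h
      apply hy
      rw [hGx, h, ofReal_zero, zero_mul]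
    have h2 := hτ (y 0) (subset_tsupport _ h1)
    exact (Real.norm_eq_abs (y 0) ▸ h2).trans (le_abs_self _)
  have key : ∀ E : 𝓢(Mink, ℂ), tsupport E ⊆ tsupport G → (∀ x ∈ U, E x = 0) → SpSep E f := by
    intro E hE hEU x hx y hy
    have hx0 := hsupp x (hE hx)
    have hxU : x ∉ U := by
      have hcl : IsClosed Uᶜ := hUo.isClosed_compl
      have : x ∈ Uᶜ := by
        refine closure_minimal ?_ hcl hx
        intro z hz hzU
        exact hz (hEU z hzU)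
      exact this
    simp only [hU, Set.mem_setOf_eq, not_forall, not_lt] at hxU
    obtain ⟨i, hi, hiR⟩ := hxU
    have hyρ := hρ y hy
    have h1 : |τ| + 2 * ρ < ε * R := by
      rw [div_lt_iff₀ hε] at hR2
      linarith
    have h2 : |x 0 - y 0| ≤ |τ| + ρ := by
      have := hyρ 0
      exact (abs_sub _ _).trans (add_le_add hx0 this)
    have h3 : |τ| + ρ < |x i - y i| := by
      have h4 := abs_sub_abs_le_abs_sub (x i) (y i)
      have h5 := hyρ i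
      linarith
    have h6 : (x 0 - y 0) ^ 2 < (x i - y i) ^ 2 := sq_lt_sq.2 (h2.trans_lt h3)
    have e : mdot (x - y) (x - y) = (x 0 - y 0) ^ 2 - (x 1 - y 1) ^ 2 - (x 2 - y 2) ^ 2 -
        (x 3 - y 3) ^ 2 := by
      simp [mdot]
      ring
    rw [e]
    have s1 := sq_nonneg (x 1 - y 1)
    have s2 := sq_nonneg (x 2 - y 2)
    have s3 := sq_nonneg (x 3 - y 3)
    fin_cases i
    · exact absurd rfl hi
    · have h7 : (x 0 - y 0) ^ 2 < (x 1 - y 1) ^ 2 := h6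
      linarith
    · have h7 : (x 0 - y 0) ^ 2 < (x 2 - y 2) ^ 2 := h6
      linarith
    · have h7 : (x 0 - y 0) ^ 2 < (x 3 - y 3) ^ 2 := h6
      linarith
  intro k hk
  exact key _ (tsupport_ldS k G) fun x hx => hGd x hx k hk

variable {D : Type*} [NormedAddCommGroup D] [InnerProductSpace ℂ D]
variable {Q : GF.Theory D} {T : Ix → Ix → GF.Fld D} {J : Ix → GF.Fld D}

lemma improveJ_fl (m n : Ix) (F : 𝓢(Mink, ℂ)) (v : D) :
    improveJ T J m n (fl F) v = T m n (fl F) v -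
      ((GF.eta n / 3 : ℝ) : ℂ) • J m (fl (∂_{eb n} F : 𝓢(Mink, ℂ))) v +
      ((bas m (GF.eta m) n / 3 : ℝ) : ℂ) • ∑ k, J k (fl (∂_{eb k} F : 𝓢(Mink, ℂ))) v := by
  unfold improveJ
  simp only [pd_fl]
  push_cast
  rfl

/-- the values of an abstract current on cutoffs -/
structure Cur (c : Ix → 𝓢(Mink, ℂ) → D) (f : 𝓢(Mink, ℂ)) : Prop where
  add : ∀ k E E', c k (E + E') = c k E + c k E'
  smul : ∀ k (z : ℂ) E, c k (z • E) = z • c k E
  sep : ∀ k E, SpSep E f → c k E = 0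
  curl : ∀ (m n : Ix) (E : 𝓢(Mink, ℂ)), (GF.eta n : ℂ) • c n (∂_{eb m} E : 𝓢(Mink, ℂ)) =
    (GF.eta m : ℂ) • c m (∂_{eb n} E : 𝓢(Mink, ℂ))

lemma eta_ne {k : Ix} (hk : k ≠ 0) : (GF.eta k : ℂ) = -1 := by
  unfold GF.eta o
  rw [if_neg hk]
  norm_num

lemma eta_z : (GF.eta 0 : ℂ) = 1 := by
  simp [GF.eta, o]

lemma ld_Xm (j l : Ix) (G : 𝓢(Mink, ℂ)) : (∂_{eb j} (Xm l G) : 𝓢(Mink, ℂ)) =
    (if j = l then (1 : ℂ) else 0) • G + Xm l (∂_{eb j} G : 𝓢(Mink, ℂ)) := by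
  ext x
  rw [ld_xm, SchwartzMap.add_apply, SchwartzMap.smul_apply, Xm_apply]
  split_ifs <;> simp

lemma tsupport_Xm (m : Ix) (G : 𝓢(Mink, ℂ)) : tsupport (Xm m G) ⊆ tsupport G := by
  refine closure_minimal ?_ (isClosed_tsupport G)
  intro x hx
  by_contra hcon
  apply hx
  show Xm m G x = 0
  rw [Xm_apply, image_eq_zero_of_notMem_tsupport hcon, mul_zero]

section

variable {c : Ix → 𝓢(Mink, ℂ) → D} {f G : 𝓢(Mink, ℂ)} (hc : Cur c f)
variable (hG : ∀ k : Ix, k ≠ 0 → SpSep (∂_{eb k} G : 𝓢(Mink, ℂ)) f)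
include hc hG

lemma Cur.far (j : Ix) {k : Ix} (hk : k ≠ 0) : c j (∂_{eb k} G : 𝓢(Mink, ℂ)) = 0 :=
  hc.sep _ _ (hG k hk)

lemma Cur.farX (j l : Ix) {k : Ix} (hk : k ≠ 0) :
    c j (Xm l (∂_{eb k} G : 𝓢(Mink, ℂ))) = 0 :=
  hc.sep _ _ (spSep_mono (hG k hk) (tsupport_Xm l _) le_rfl)

lemma Cur.dX (j l : Ix) {k : Ix} (hk : k ≠ 0) :
    c j (∂_{eb k} (Xm l G) : 𝓢(Mink, ℂ)) = (if k = l then (1 : ℂ) else 0) • c j G := by
  rw [ld_Xm, hc.add, hc.smul, hc.farX hG j l hk, add_zero]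

/-- the charges of the spatial components of a curl free current vanish -/
lemma Cur.zero {l : Ix} (hl : l ≠ 0) : c l G = 0 := by
  obtain ⟨j, hj, hjl⟩ : ∃ j : Ix, j ≠ 0 ∧ j ≠ l := by
    by_cases h : l = 1
    · exact ⟨2, by decide, by rw [h]; decide⟩
    · exact ⟨1, by decide, fun h' => h h'.symm⟩
  have h1 := hc.dX hG l j hj
  rw [if_pos rfl, one_smul] at h1
  have h2 := hc.curl j l (Xm j G)
  rw [eta_ne hj, eta_ne hl, neg_one_smul, neg_one_smul, neg_inj, h1, hc.dX hG j j hl,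
    if_neg (Ne.symm hjl), zero_smul] at h2
  exact h2

/-- the improvement term -/
lemma Cur.imp (n : Ix) : -(((GF.eta n / 3 : ℝ) : ℂ) • c o (∂_{eb n} G : 𝓢(Mink, ℂ))) +
    ((bas o (GF.eta o) n / 3 : ℝ) : ℂ) • ∑ k, c k (∂_{eb k} G : 𝓢(Mink, ℂ)) = 0 := by
  have ho : o = (0 : Ix) := rfl
  have e1 : GF.eta 0 = 1 := by simp [GF.eta, o]
  by_cases hn : n = 0
  · subst hn
    rw [Fin.sum_univ_four, hc.far hG 1 (by decide), hc.far hG 2 (by decide),
      hc.far hG 3 (by decide), ho]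
    simp only [bas, e1, if_true, add_zero]
    exact neg_add_cancel _
  · rw [hc.far hG _ hn]
    simp [bas, ho, hn]

/-- the first moments of the improvement term -/
lemma Cur.impX (n l : Ix) :
    (-(((GF.eta n / 3 : ℝ) : ℂ) • c o (∂_{eb n} (Xm l G) : 𝓢(Mink, ℂ))) +
      ((bas o (GF.eta o) n / 3 : ℝ) : ℂ) • ∑ k, c k (∂_{eb k} (Xm l G) : 𝓢(Mink, ℂ))) -
    (-(((GF.eta l / 3 : ℝ) : ℂ) • c o (∂_{eb l} (Xm n G) : 𝓢(Mink, ℂ))) +
      ((bas o (GF.eta o) l / 3 : ℝ) : ℂ) • ∑ k, c k (∂_{eb k} (Xm n G) : 𝓢(Mink, ℂ))) = 0 := by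
  have ho : o = (0 : Ix) := rfl
  have e1 : GF.eta 0 = 1 := by simp [GF.eta, o]
  have key : ∀ {l : Ix}, l ≠ 0 →
      (-(((GF.eta 0 / 3 : ℝ) : ℂ) • c 0 (∂_{eb 0} (Xm l G) : 𝓢(Mink, ℂ))) +
        ((bas 0 (GF.eta 0) 0 / 3 : ℝ) : ℂ) • ∑ k, c k (∂_{eb k} (Xm l G) : 𝓢(Mink, ℂ))) = 0 ∧
      (-(((GF.eta l / 3 : ℝ) : ℂ) • c 0 (∂_{eb l} (Xm 0 G) : 𝓢(Mink, ℂ))) +
        ((bas 0 (GF.eta 0) l / 3 : ℝ) : ℂ) • ∑ k, c k (∂_{eb k} (Xm 0 G) : 𝓢(Mink, ℂ))) = 0 := by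
    intro l hl
    constructor
    · have h3 : ∀ k : Ix, k ≠ 0 → c k (∂_{eb k} (Xm l G) : 𝓢(Mink, ℂ)) = 0 := by
        intro k hk
        rw [hc.dX hG k l hk]
        by_cases hkl : k = l
        · rw [hc.zero hG hk, smul_zero]
        · rw [if_neg hkl, zero_smul]
      rw [Fin.sum_univ_four, h3 1 (by decide), h3 2 (by decide), h3 3 (by decide)]
      simp only [bas, e1, if_true, add_zero]
      exact neg_add_cancel _
    · rw [hc.dX hG 0 0 hl, if_neg hl, zero_smul, smul_zero, neg_zero, zero_add]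
      simp [bas, hl]
  rw [ho]
  by_cases hn : n = 0
  · by_cases hl : l = 0
    · subst hn hl
      rw [sub_self]
    · subst hn
      obtain ⟨h1, h2⟩ := key hl
      rw [h1, h2, sub_zero]
  · by_cases hl : l = 0
    · subst hl
      obtain ⟨h1, h2⟩ := key hn
      rw [h1, h2, sub_zero]
    · rw [hc.dX hG 0 l hn, hc.dX hG 0 n hl]
      by_cases hnl : n = l
      · subst hnl
        rw [sub_self]
      · rw [if_neg hnl, if_neg (fun h => hnl h.symm)]
        simp [bas, hn, hl]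

end

end Vale.Agent.P352.H246D

end
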