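import Vale.Agent.P352.H246.CfImpr

set_option linter.all false

noncomputable section

open MeasureTheory SchwartzMap Complex Filter Topology
open scoped SchwartzMap ComplexConjugate ENNReal LineDeriv

namespace Vale.Agent.P352.H246D

open GF (Ix V Fn Sch ev pd bar sim bas o)
open H246 H496

variable {D : Type*} [NormedAddCommGroup D] [InnerProductSpace ℂ D]
variable {Q : GF.Theory D} {T : Ix → Ix → GF.Fld D} {J : Ix → GF.Fld D}

/-- the improvement term -/
def iJ (J : Ix → GF.Fld D) (m n : Ix) (F : 𝓢(Mink, ℂ)) (v : D) : D :=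
  -(((GF.eta n / 3 : ℝ) : ℂ) • J m (fl (∂_{eb n} F : 𝓢(Mink, ℂ))) v) +
    ((bas m (GF.eta m) n / 3 : ℝ) : ℂ) • ∑ k, J k (fl (∂_{eb k} F : 𝓢(Mink, ℂ))) v

lemma improveJ_fl' (m n : Ix) (F : 𝓢(Mink, ℂ)) (v : D) :
    improveJ T J m n (fl F) v = T m n (fl F) v + iJ J m n F v := by
  rw [improveJ_fl]
  unfold iJ
  abel

section

variable (hJ : ∀ m, Q.fld (J m))
include hJ

lemma iJ_add (m n : Ix) (F G : 𝓢(Mink, ℂ)) (v : D) :
    iJ J m n (F + G) v = iJ J m n F v + iJ J m n G v := by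
  unfold iJ
  simp only [ldS_add, fld_addf (hJ _), Finset.sum_add_distrib, smul_add]
  abel

lemma iJ_smul (m n : Ix) (c : ℂ) (F : 𝓢(Mink, ℂ)) (v : D) :
    iJ J m n (c • F) v = c • iJ J m n F v := by
  unfold iJ
  simp only [ldS_smul, fld_smulf (hJ _), ← Finset.smul_sum, smul_add, smul_neg]
  rw [smul_comm _ c, smul_comm _ c]

lemma iJ_addv (m n : Ix) (F : 𝓢(Mink, ℂ)) (v w : D) :
    iJ J m n F (v + w) = iJ J m n F v + iJ J m n F w := by
  unfold iJ
  simp only [fld_add (hJ _), Finset.sum_add_distrib, smul_add]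
  abel

lemma iJ_smulv (m n : Ix) (c : ℂ) (F : 𝓢(Mink, ℂ)) (v : D) :
    iJ J m n F (c • v) = c • iJ J m n F v := by
  unfold iJ
  simp only [fld_smul (hJ _), ← Finset.smul_sum, smul_add, smul_neg]
  rw [smul_comm _ c, smul_comm _ c]

lemma iJ_cont (m n : Ix) (v : D) : Continuous fun F : 𝓢(Mink, ℂ) => iJ J m n F v := by
  have h1 : ∀ k l : Ix, Continuous fun F : 𝓢(Mink, ℂ) => J k (fl (∂_{eb l} F : 𝓢(Mink, ℂ))) v :=
    fun k l => (fld_cont (hJ k) v).comp (LineDeriv.continuous_lineDerivOp (eb l))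
  unfold iJ
  exact (((h1 m n).const_smul ((GF.eta n / 3 : ℝ) : ℂ)).neg).add
    ((continuous_finset_sum _ fun k _ => h1 k k).const_smul _)

end

lemma eta2 (m : Ix) : GF.eta m * GF.eta m = 1 := by
  unfold GF.eta
  split_ifs <;> norm_num

lemma bas_eta (m n : Ix) : bas m (GF.eta m) n = if n = m then GF.eta n else 0 := by
  unfold bas
  split_ifs with h
  · rw [h]
  · rfl

section

variable (hJ : IsVirial Q T J) (hc : ∀ v : D, Curl J v)

/-- hermiticity of the improvement term -/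
lemma iJ_herm (hJ : IsVirial Q T J) (m n : Ix) (F : 𝓢(Mink, ℂ)) (v w : D) :
    inner ℂ (iJ J m n F v) w = inner ℂ v (iJ J m n (conjS F) w) := by
  have h1 : ∀ k l : Ix, inner ℂ (J k (fl (∂_{eb l} F : 𝓢(Mink, ℂ))) v) w =
      inner ℂ v (J k (fl (∂_{eb l} (conjS F) : 𝓢(Mink, ℂ))) w) := by
    intro k l
    rw [hJ.vfld.herm, conjS_lineDeriv]
  unfold iJ
  simp only [inner_add_left, inner_add_right, inner_neg_left, inner_neg_right, inner_smul_left,
    inner_smul_right, conj_ofReal, sum_inner, inner_sum, h1]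

/-- symmetry of the improvement term -/
lemma iJ_symm (hc : ∀ v : D, Curl J v) (m n : Ix) (F : 𝓢(Mink, ℂ)) (v : D) :
    iJ J m n F v = iJ J n m F v := by
  unfold iJ
  rw [bas_symm m n]
  congr 2
  have h1 := hc v m n F
  have h2 : ∀ k : Ix, ((GF.eta k / 3 : ℝ) : ℂ) = (1 / 3 : ℂ) * (GF.eta k : ℂ) := by
    intro k
    push_cast
    ring
  rw [h2, h2, mul_smul, mul_smul]
  congr 1
  have h3 : (GF.eta n : ℂ) • ((GF.eta m : ℂ) • ((GF.eta n : ℂ) •
      J n (fl (∂_{eb m} F : 𝓢(Mink, ℂ))) v)) = (GF.eta n : ℂ) • ((GF.eta m : ℂ) •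
      ((GF.eta m : ℂ) • J m (fl (∂_{eb n} F : 𝓢(Mink, ℂ))) v)) := by rw [h1]
  have e : ∀ k : Ix, ((GF.eta k : ℂ) * (GF.eta k : ℂ)) = 1 := eta_mul_c
  have h4 : (GF.eta n : ℂ) • ((GF.eta m : ℂ) • ((GF.eta n : ℂ) •
      J n (fl (∂_{eb m} F : 𝓢(Mink, ℂ))) v)) =
      (GF.eta m : ℂ) • J n (fl (∂_{eb m} F : 𝓢(Mink, ℂ))) v := by
    rw [smul_smul, smul_smul]
    congr 1
    linear_combination (GF.eta m : ℂ) * e n
  have h5 : (GF.eta n : ℂ) • ((GF.eta m : ℂ) •
      ((GF.eta m : ℂ) • J m (fl (∂_{eb n} F : 𝓢(Mink, ℂ))) v)) =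
      (GF.eta n : ℂ) • J m (fl (∂_{eb n} F : 𝓢(Mink, ℂ))) v := by
    rw [smul_smul, smul_smul]
    congr 1
    linear_combination (GF.eta n : ℂ) * e m
  rw [← h5, ← h3, h4]

/-- conservation of the improvement term -/
lemma iJ_cons (n : Ix) (F : 𝓢(Mink, ℂ)) (v : D) :
    ∑ m, iJ J m n (∂_{eb m} F : 𝓢(Mink, ℂ)) v = 0 := by
  unfold iJ
  rw [Finset.sum_add_distrib, Finset.sum_neg_distrib, ← Finset.smul_sum]
  have h1 : ∑ m, ((bas m (GF.eta m) n / 3 : ℝ) : ℂ) • ∑ k,
      J k (fl (∂_{eb k} (∂_{eb m} F : 𝓢(Mink, ℂ)) : 𝓢(Mink, ℂ))) v =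
      ((GF.eta n / 3 : ℝ) : ℂ) • ∑ k,
      J k (fl (∂_{eb n} (∂_{eb k} F : 𝓢(Mink, ℂ)) : 𝓢(Mink, ℂ))) v := by
    rw [Finset.sum_eq_single n]
    · have : bas n (GF.eta n) n = GF.eta n := by simp [bas]
      rw [this]
      congr 1
      refine Finset.sum_congr rfl fun k _ => ?_
      rw [lineDeriv_comm' k n F]
    · intro m _ hm
      have : bas m (GF.eta m) n = 0 := by simp [bas, Ne.symm hm]
      rw [this]
      simp
    · simp
  rw [h1]
  exact neg_add_cancel _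

/-- the trace of the improvement term -/
lemma iJ_trace (F : 𝓢(Mink, ℂ)) (v : D) :
    ∑ m, (GF.eta m : ℂ) • iJ J m m F v = ∑ k, J k (fl (∂_{eb k} F : 𝓢(Mink, ℂ))) v := by
  unfold iJ
  have h1 : ∀ m : Ix, (GF.eta m : ℂ) • (-(((GF.eta m / 3 : ℝ) : ℂ) •
      J m (fl (∂_{eb m} F : 𝓢(Mink, ℂ))) v) + ((bas m (GF.eta m) m / 3 : ℝ) : ℂ) •
        ∑ k, J k (fl (∂_{eb k} F : 𝓢(Mink, ℂ))) v) =
      -((1 / 3 : ℂ) • J m (fl (∂_{eb m} F : 𝓢(Mink, ℂ))) v) +
        (1 / 3 : ℂ) • ∑ k, J k (fl (∂_{eb k} F : 𝓢(Mink, ℂ))) v := by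
    intro m
    have e := eta_mul_c m
    have e2 : (GF.eta m : ℂ) * ((GF.eta m / 3 : ℝ) : ℂ) = 1 / 3 := by
      push_cast
      linear_combination (1 / 3 : ℂ) * e
    have e3 : bas m (GF.eta m) m = GF.eta m := by simp [bas]
    rw [smul_add, smul_neg, smul_smul, smul_smul, e3, e2]
  simp only [h1, Finset.sum_add_distrib, Finset.sum_neg_distrib, ← Finset.smul_sum,
    Finset.sum_const, Finset.card_univ, Fintype.card_fin]
  set X := ∑ k, J k (fl (∂_{eb k} F : 𝓢(Mink, ℂ))) v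
  have h2 : (1 / 3 : ℂ) • ((4 : ℕ) • X) = (4 / 3 : ℂ) • X := by
    rw [← Nat.cast_smul_eq_nsmul ℂ, smul_smul]
    congr 1
    norm_num
  have h3 : -((1 / 3 : ℂ) • X) + (4 / 3 : ℂ) • X = X := by
    rw [← neg_smul, ← add_smul]
    norm_num
  rw [h2]
  exact h3

end

/-- covariance of the improvement term -/
lemma iJ_cov (hJ : IsVirial Q T J) (m n : Ix) {s : ℝ} (hs : 0 < s) {M : Ix → V}
    (hM : GF.IsLor M) (a : V) (F : 𝓢(Mink, ℂ)) (v : D) : iJ J m n F (Q.U s M a v) =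
      ∑ k, ∑ l, (M k m * M l n : ℂ) • Q.U s M a (iJ J k l (simS s hs hM a F) v) := by
  have hf : ∀ m, Q.fld (J m) := fun m => Q.bose_fld _ (hJ.bose m)
  set X : Ix → Ix → D := fun k i =>
    Q.U s M a (J k (fl (simS s hs hM a (∂_{eb i} F : 𝓢(Mink, ℂ)))) v) with hX
  have h1 : ∀ m i : Ix, J m (fl (∂_{eb i} F : 𝓢(Mink, ℂ))) (Q.U s M a v) =
      ∑ k, ((s : ℂ) * (M k m : ℂ)) • X k i := by
    intro m i
    rw [hJ.cov m s M a _ v hs hM (isTest_fl _), fl_sim s hs hM a]
  have h2 : ∀ k l : Ix, Q.U s M a (J k (fl (∂_{eb l} (simS s hs hM a F) : 𝓢(Mink, ℂ))) v) =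
      ∑ i, ((s : ℂ) * (M l i : ℂ)) • X k i := by
    intro k l
    rw [lineDeriv_simS, fld_smulf (hf k), fld_sumf (hf k), U_smul hs hM]
    simp only [Fin.sum_univ_four, U_add hs hM, U_smul hs hM, smul_add, smul_smul]
    rfl
  have hU : ∀ k l : Ix, Q.U s M a (iJ J k l (simS s hs hM a F) v) =
      (-(((GF.eta l / 3 : ℝ) : ℂ) • ∑ i, ((s : ℂ) * (M l i : ℂ)) • X k i)) +
        ((bas k (GF.eta k) l / 3 : ℝ) : ℂ) • ∑ j, ∑ i, ((s : ℂ) * (M j i : ℂ)) • X j i := by
    intro k l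
    rw [← h2]
    simp only [← h2]
    unfold iJ
    rw [U_add hs hM, U_smul hs hM, ← neg_one_smul ℂ, U_smul hs hM, U_smul hs hM, neg_one_smul]
    congr 2
    simp only [Fin.sum_univ_four, U_add hs hM]
  simp only [hU]
  have t1 : ∀ k : Ix, ∑ l, ((M k m : ℂ) * (M l n : ℂ)) •
      (-(((GF.eta l / 3 : ℝ) : ℂ) • ∑ i, ((s : ℂ) * (M l i : ℂ)) • X k i)) =
      -(((GF.eta n / 3 : ℝ) : ℂ) • (((s : ℂ) * (M k m : ℂ)) • X k n)) := by
    intro k
    have e1 : ∀ l : Ix, ((M k m : ℂ) * (M l n : ℂ)) •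
        (-(((GF.eta l / 3 : ℝ) : ℂ) • ∑ i, ((s : ℂ) * (M l i : ℂ)) • X k i)) =
        ∑ i, (((M k m : ℂ) * (M l n : ℂ)) * (-((GF.eta l / 3 : ℝ) : ℂ)) *
          ((s : ℂ) * (M l i : ℂ))) • X k i := by
      intro l
      rw [← neg_smul, smul_smul, Finset.smul_sum]
      refine Finset.sum_congr rfl fun i _ => ?_
      rw [smul_smul]
    simp only [e1]
    rw [Finset.sum_comm]
    simp only [← Finset.sum_smul]
    have e2 : ∀ i : Ix, ∑ l, (((M k m : ℂ) * (M l n : ℂ)) * (-((GF.eta l / 3 : ℝ) : ℂ)) *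
        ((s : ℂ) * (M l i : ℂ))) = -(((bas n (GF.eta n) i / 3 : ℝ) : ℂ) *
          ((s : ℂ) * (M k m : ℂ))) := by
      intro i
      rw [← lor_transpose hM n i]
      simp only [Fin.sum_univ_four]
      push_cast
      ring
    simp only [e2]
    rw [Finset.sum_eq_single n]
    · have : bas n (GF.eta n) n = GF.eta n := by simp [bas]
      rw [this, neg_smul, mul_smul]
    · intro i _ hi
      have : bas n (GF.eta n) i = 0 := by simp [bas, hi]
      rw [this]
      simp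
    · simp
  have t2 : ∑ k, ∑ l, ((M k m : ℂ) * (M l n : ℂ)) * ((bas k (GF.eta k) l / 3 : ℝ) : ℂ) =
      ((bas m (GF.eta m) n / 3 : ℝ) : ℂ) := by
    rw [← lor_transpose hM m n]
    have e3 : ∀ k : Ix, ∑ l, ((M k m : ℂ) * (M l n : ℂ)) * ((bas k (GF.eta k) l / 3 : ℝ) : ℂ) =
        ((M k m : ℂ) * (M k n : ℂ)) * ((GF.eta k / 3 : ℝ) : ℂ) := by
      intro k
      rw [Finset.sum_eq_single k]
      · have : bas k (GF.eta k) k = GF.eta k := by simp [bas]
        rw [this]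
      · intro l _ hl
        have : bas k (GF.eta k) l = 0 := by simp [bas, hl]
        rw [this]
        simp
      · simp
    simp only [e3, Fin.sum_univ_four]
    push_cast
    ring
  simp only [smul_add, Finset.sum_add_distrib, t1, smul_smul, ← Finset.sum_smul, t2]
  unfold iJ
  simp only [h1]
  rw [Finset.sum_comm, Finset.smul_sum, Finset.sum_neg_distrib]
  simp only [smul_smul]

/-- THE IMPROVED TENSOR OF A CURL FREE VIRIAL CURRENT -/
theorem impr_of_curl (hT : Q.IsStress T) (hJ : IsVirial Q T J) (hc0 : Curl J Q.vac) :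
    IsImpr Q T (improveJ T J) := by
  have hc : ∀ v : D, Curl J v := fun v => hJ.vfld.curl hc0 v
  have hb : ∀ m n, Q.bose (T m n) := hT.bose
  have hf : ∀ m n, Q.fld (T m n) := fun m n => Q.bose_fld _ (hb m n)
  have hJf : ∀ m, Q.fld (J m) := fun m => Q.bose_fld _ (hJ.bose m)
  have hiz : ∀ (m n : Ix) (G : 𝓢(Mink, ℂ)) {B : GF.Fld D} (hB : Q.fld B) (f : 𝓢(Mink, ℂ))
      (v : D), SpSep G f → iJ J m n G (B (fl f) v) = B (fl f) (iJ J m n G v) := by
    intro m n G B hB f v hs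
    have h1 : ∀ k l : Ix, J k (fl (∂_{eb l} G : 𝓢(Mink, ℂ))) (B (fl f) v) =
        B (fl f) (J k (fl (∂_{eb l} G : 𝓢(Mink, ℂ))) v) := fun k l =>
      Q.loc (J k) B _ _ v (hJ.bose k) hB (isTest_fl _) (isTest_fl _)
        (sep_fl (spSep_mono hs (tsupport_ldS l G) le_rfl))
    unfold iJ
    simp only [h1, Fin.sum_univ_four, fld_add hB, fld_smul hB, smul_add]
    rw [← neg_one_smul ℂ, ← neg_one_smul ℂ (_ • J m _ v), fld_smul hB, fld_smul hB]
  have hTz : ∀ (m n : Ix) (G : 𝓢(Mink, ℂ)) {B : GF.Fld D} (hB : Q.fld B) (f : 𝓢(Mink, ℂ))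
      (v : D), SpSep G f → T m n (fl G) (B (fl f) v) = B (fl f) (T m n (fl G) v) := by
    intro m n G B hB f v hs
    exact Q.loc (T m n) B (fl G) (fl f) v (hb m n) hB (isTest_fl _) (isTest_fl _) (sep_fl hs)
  have hloc : ∀ (m n : Ix) (G : 𝓢(Mink, ℂ)) {B : GF.Fld D} (hB : Q.fld B) (f : 𝓢(Mink, ℂ))
      (v : D), SpSep G f → improveJ T J m n (fl G) (B (fl f) v) =
        B (fl f) (improveJ T J m n (fl G) v) := by
    intro m n G B hB f v hs
    rw [improveJ_fl', improveJ_fl', hTz m n G hB f v hs, hiz m n G hB f v hs, fld_add hB]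
  have hadd : ∀ m n G (v w : D), improveJ T J m n (fl G) (v + w) =
      improveJ T J m n (fl G) v + improveJ T J m n (fl G) w := by
    intro m n G v w
    rw [improveJ_fl', improveJ_fl', improveJ_fl', fld_add (hf m n), iJ_addv hJf]
    abel
  have hsmul : ∀ m n G (c : ℂ) (v : D), improveJ T J m n (fl G) (c • v) =
      c • improveJ T J m n (fl G) v := by
    intro m n G c v
    rw [improveJ_fl', improveJ_fl', fld_smul (hf m n), iJ_smulv hJf, smul_add]
  refine
    { lin := ?_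
      cont := ?_
      symm := ?_
      herm := ?_
      cov := ?_
      conserved := ?_
      traceless := ?_
      loc := ?_
      self := ?_
      charge := ?_ }
  · intro m n f g c v hft hgt
    obtain ⟨F, rfl⟩ := exists_fl hft
    obtain ⟨G, rfl⟩ := exists_fl hgt
    rw [fl_add_smul, improveJ_fl', improveJ_fl', improveJ_fl', iJ_add hJf, iJ_smul hJf,
      fld_lin (hf m n), smul_add]
    abel
  · intro m n v
    have h1 : (fun g : Sch => improveJ T J m n (ev g) v) =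
        fun g : Sch => T m n (ev g) v + iJ J m n (ofSch g) v := by
      funext g
      have e : ev g = fl (ofSch g) := rfl
      rw [e, improveJ_fl']
    rw [h1]
    exact (Q.cont (T m n) v (hf m n)).add ((iJ_cont hJf m n v).comp ofSch.continuous)
  · intro m n f v hft
    obtain ⟨F, rfl⟩ := exists_fl hft
    rw [improveJ_fl', improveJ_fl', hT.symm m n _ v hft, iJ_symm hc m n F v]
  · intro m n f v w hft
    obtain ⟨F, rfl⟩ := exists_fl hft
    rw [bar_fl, improveJ_fl', improveJ_fl', inner_add_left, inner_add_right,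
      hT.herm m n _ v w hft, bar_fl, iJ_herm hJ]
  · intro m n s M a f v hs hM hft
    obtain ⟨F, rfl⟩ := exists_fl hft
    rw [improveJ_fl', hT.cov m n s M a _ v hs hM hft, fl_sim s hs hM a, iJ_cov hJ m n hs hM a F v]
    simp only [improveJ_fl', U_add hs hM, smul_add, Finset.sum_add_distrib]
  · intro n f v hft
    obtain ⟨F, rfl⟩ := exists_fl hft
    have h1 := hT.conserved n (fl F) v hft
    simp only [pd_fl] at h1 ⊢
    simp only [improveJ_fl', Finset.sum_add_distrib, h1, zero_add]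
    exact iJ_cons n F v
  · intro f v hft
    obtain ⟨F, rfl⟩ := exists_fl hft
    have h1 := hJ.div' F v
    unfold GF.tr at h1 ⊢
    simp only [improveJ_fl', smul_add, Finset.sum_add_distrib, iJ_trace]
    rw [h1]
    exact neg_add_cancel _
  · intro m n B f g v hB hft hgt hs
    obtain ⟨F, rfl⟩ := exists_fl hft
    obtain ⟨G, rfl⟩ := exists_fl hgt
    unfold cm
    rw [hloc m n F hB G v (spSep_of' hs), sub_self]
  · intro m n k l f g v hft hgt hs
    obtain ⟨F, rfl⟩ := exists_fl hft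
    obtain ⟨G, rfl⟩ := exists_fl hgt
    have hs' := spSep_of' hs
    have h1 : ∀ k l : Ix, improveJ T J m n (fl F) (J k (fl (∂_{eb l} G : 𝓢(Mink, ℂ))) v) =
        J k (fl (∂_{eb l} G : 𝓢(Mink, ℂ))) (improveJ T J m n (fl F) v) := fun k l =>
      hloc m n F (hJf k) _ v (spSep_mono hs' le_rfl (tsupport_ldS l G))
    unfold cm
    rw [improveJ_fl' k l G v, hadd, hloc m n F (hf k l) G v hs',
      improveJ_fl' k l G (improveJ T J m n (fl F) v)]
    have h2 : improveJ T J m n (fl F) (iJ J k l G v) =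
        iJ J k l G (improveJ T J m n (fl F) v) := by
      unfold iJ
      simp only [Fin.sum_univ_four, hadd, hsmul, h1, smul_add]
      rw [← neg_one_smul ℂ, hsmul, hsmul, h1, neg_one_smul]
    rw [h2, sub_self]
  · intro F B f hF hB hft hfc
    obtain ⟨f, rfl⟩ := exists_fl hft
    filter_upwards [sep_cut' hF (hasCompactSupport_of_fl hfc)] with R hR
    obtain ⟨G, hG, hs⟩ := hR
    intro l n v
    have hC : Cur (fun k E => cm (J k) (fl E) B (fl f) v) f :=
      { add := fun k E E' => by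
          unfold cm
          rw [fld_addf (hJf k), fld_addf (hJf k), fld_add hB]
          abel
        smul := fun k z E => by
          unfold cm
          rw [fld_smulf (hJf k), fld_smulf (hJf k), fld_smul hB, smul_sub]
        sep := fun k E hE => by
          unfold cm
          rw [Q.loc (J k) B _ _ v (hJ.bose k) hB (isTest_fl _) (isTest_fl _) (sep_fl hE),
            sub_self]
        curl := fun m n E => by
          unfold cm
          rw [smul_sub, smul_sub, hc (B (fl f) v) m n E, ← fld_smul hB, ← fld_smul hB,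
            hc v m n E] }
    have hcm : ∀ (n : Ix) (E : 𝓢(Mink, ℂ)), cm (improveJ T J o n) (fl E) B (fl f) v =
        cm (T o n) (fl E) B (fl f) v +
        (-(((GF.eta n / 3 : ℝ) : ℂ) • cm (J o) (fl (∂_{eb n} E : 𝓢(Mink, ℂ))) B (fl f) v) +
        ((bas o (GF.eta o) n / 3 : ℝ) : ℂ) •
          ∑ k, cm (J k) (fl (∂_{eb k} E : 𝓢(Mink, ℂ))) B (fl f) v) := by
      intro n E
      unfold cm
      rw [improveJ_fl', improveJ_fl', fld_add hB]
      unfold iJ
      simp only [Fin.sum_univ_four, fld_add hB, fld_smul hB, smul_add, smul_sub]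
      rw [← neg_one_smul ℂ (_ • J o _ v), fld_smul hB, fld_smul hB, neg_one_smul]
      abel
    rw [← hG]
    constructor
    · rw [hcm n G, hC.imp hs n, add_zero]
    · rw [xg_fl, xg_fl, hcm n, hcm l]
      have h1 := hC.impX hs n l
      rw [← sub_eq_zero] 
      rw [← h1]
      abel

end Vale.Agent.P352.H246D

end

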