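import Vale.Agent.P352.H246.Alg

set_option linter.all false

noncomputable section

open MeasureTheory SchwartzMap Complex Filter Topology
open scoped SchwartzMap ComplexConjugate ENNReal LineDeriv

namespace Vale.Agent.P352.H246

open GF (Ix V Fn Sch ev pd bar sim one bas o)

variable {D : Type*} [NormedAddCommGroup D] [InnerProductSpace ℂ D]
variable {Q : GF.Theory D}
variable {μ μ' : Measure Mink}

/-- the weight `9 (p²)²` -/
def wgt (p : Mink) : ℝ≥0∞ := ENNReal.ofReal (9 * mass2 p ^ 2)

lemma measurable_wgt : Measurable wgt :=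
  ENNReal.measurable_ofReal.comp ((measurable_mass2.pow_const 2).const_mul 9)

lemma finite_dens (hμ : μ.HasTemperateGrowth) (g : 𝓢(Mink, ℂ)) :
    IsFiniteMeasure (μ.withDensity (dens g)) := by
  refine isFiniteMeasure_withDensity ?_
  have h := (mft_memLp hμ g).2
  have h2 := lintegral_rpow_enorm_lt_top_of_eLpNorm_lt_top (p := 2) (by norm_num) (by norm_num) h
  refine ne_of_lt (lt_of_le_of_lt (le_of_eq ?_) h2)
  apply lintegral_congr
  intro p
  simp [dens]

lemma int_dens (g : 𝓢(Mink, ℂ)) (a : Mink) :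
    ∫ p, chr a p ∂(μ.withDensity (dens g)) = ∫ p, conj (mft g p) * mft (tauS a g) p ∂μ := by
  rw [integral_withDensity_eq_integral_toReal_smul (measurable_dens g)
    (Eventually.of_forall fun p => (dens_ne_top g p).lt_top)]
  congr 1
  ext p
  rw [mft_tauS, dens, real_smul]
  have : ((‖mft g p‖ₑ ^ 2).toReal : ℂ) = conj (mft g p) * mft g p := by
    rw [ENNReal.toReal_pow, toReal_enorm, ofReal_pow, ← conj_mul']
  rw [this]
  ring

lemma tauS_boxS (a : Mink) (g : 𝓢(Mink, ℂ)) : mft (boxS (tauS a g)) = mft (tauS a (boxS g)) := by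
  ext p
  rw [mft_boxS, mft_tauS, mft_tauS, mft_boxS]
  ring

lemma two_measure {A L : GF.Fld D} (hμ : μ.HasTemperateGrowth) (hμ' : μ'.HasTemperateGrowth)
    (two : Two Q A μ) (two' : Two Q L μ')
    (rel : ∀ f, A (fl f) Q.vac = (3 : ℂ) • L (fl (boxS f)) Q.vac) :
    μ = μ'.withDensity wgt := by
  apply measure_unique
  intro g
  have e : (μ'.withDensity wgt).withDensity (dens g) = (9 : ℝ≥0∞) • μ'.withDensity (dens (boxS g)) := by
    rw [← withDensity_mul _ measurable_wgt (measurable_dens g), ← withDensity_smul _ (measurable_dens _)]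
    congr 1
    ext p
    simp only [Pi.mul_apply, Pi.smul_apply, smul_eq_mul, dens, mft_boxS, wgt]
    rw [enorm_mul, mul_pow, ← mul_assoc]
    congr 1
    rw [← ofReal_norm, norm_neg, norm_real, ← ENNReal.ofReal_pow (norm_nonneg _),
      Real.norm_eq_abs, sq_abs, ENNReal.ofReal_mul (by norm_num)]
    norm_num
  rw [e]
  have := finite_dens hμ g
  have := finite_dens hμ' (boxS g)
  have : IsFiniteMeasure ((9 : ℝ≥0∞) • μ'.withDensity (dens (boxS g))) :=
    Measure.smul_finite _ (by norm_num)
  apply measure_ext_chr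
  intro a
  rw [int_dens, integral_smul_measure, int_dens, ← two, rel, rel, inner_smul_left,
    inner_smul_right, two', tauS_boxS]
  simp only [map_ofNat, ENNReal.toReal_ofNat, real_smul]
  push_cast
  ring

variable {T : Ix → Ix → GF.Fld D} {A L : GF.Fld D}
variable (S : SymMeasure μ 4) (hA : PField Q T A 4) (two : Two Q A μ)
variable (S' : SymMeasure μ' 2) (hL : PField Q T L 2) (two' : Two Q L μ')

include two S' two' in
/-- the potential of a conformal improvement -/
theorem lam_eq (rel : ∀ f, A (fl f) Q.vac = (3 : ℂ) • L (fl (boxS f)) Q.vac) (f : 𝓢(Mink, ℂ)) :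
    lamV S hA f = hL.kap f := by
  have hm := two_measure S.temp S'.temp two two' rel
  -- approximate
  have key : ∀ g : 𝓢(Mink, ℂ), ‖toL S'.good.temp ((3 : ℂ) • boxS g - f)‖ =
      ‖toL S.good.temp g + (1 / 3 : ℂ) • toI S f‖ := by
    intro g
    set h : 𝓢(Mink, ℂ) := (3 : ℂ) • boxS g - f with hh
    have h1 : inner ℂ (toL S'.good.temp h) (toL S'.good.temp h) =
        inner ℂ (toL S.good.temp g + (1 / 3 : ℂ) • toI S f)
          (toL S.good.temp g + (1 / 3 : ℂ) • toI S f) := by
      rw [inner_toL_toL, L2.inner_def]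
      have e1 : ∫ p, inner ℂ ((toL S.good.temp g + (1 / 3 : ℂ) • toI S f : Lp ℂ 2 μ) p)
          ((toL S.good.temp g + (1 / 3 : ℂ) • toI S f : Lp ℂ 2 μ) p) ∂μ =
          ∫ p, conj (mft g p + (1 / 3) * ((im p : ℂ) * mft f p)) *
            (mft g p + (1 / 3) * ((im p : ℂ) * mft f p)) ∂μ := by
        apply integral_congr_ae
        filter_upwards [Lp.coeFn_add (toL S.good.temp g) ((1 / 3 : ℂ) • toI S f),
          Lp.coeFn_smul (1 / 3 : ℂ) (toI S f), coeFn_toL S.good.temp g, coeFn_toI S f]
          with p a1 a2 a3 a4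
        rw [a1, Pi.add_apply, a2, Pi.smul_apply, a3, a4]
        simp only [RCLike.inner_apply, smul_eq_mul]
        ring
      rw [e1]
      conv_rhs => rw [hm]
      rw [integral_withDensity_eq_integral_toReal_smul measurable_wgt
        (Eventually.of_forall fun p => ENNReal.ofReal_lt_top)]
      have hnull : ∀ᵐ p ∂μ', mass2 p ≠ 0 :=
        measure_eq_zero_iff_ae_notMem.1 (S'.null_zero (by norm_num))
      apply integral_congr_ae
      filter_upwards [hnull] with p hp
      have hp' : (mass2 p : ℂ) ≠ 0 := by exact_mod_cast hp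
      have e2 : mft h p = -(3 * (mass2 p : ℂ)) * (mft g p + (1 / 3) * ((im p : ℂ) * mft f p)) := by
        have : mft h p = 3 * mft (boxS g) p - mft f p := by
          rw [hh, sub_eq_add_neg, ← neg_one_smul ℂ f, mft_add, mft_smul, mft_smul]
          ring
        rw [this, mft_boxS]
        unfold im
        push_cast
        field_simp
        ring
      rw [e2, wgt, ENNReal.toReal_ofReal (by positivity), real_smul]
      simp only [map_mul, map_neg, map_ofNat, conj_ofReal]
      push_cast
      ring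
    rw [inner_self_eq_norm_sq_to_K, inner_self_eq_norm_sq_to_K] at h1
    have h2 : ‖toL S'.good.temp h‖ ^ 2 = ‖toL S.good.temp g + (1 / 3 : ℂ) • toI S f‖ ^ 2 := by
      exact_mod_cast h1
    exact (pow_left_inj₀ (norm_nonneg _) (norm_nonneg _) (by norm_num)).1 h2
  have hnorm : ∀ h : 𝓢(Mink, ℂ), ‖hL.kap h‖ = ‖toL S'.good.temp h‖ := by
    intro h
    have h1 : inner ℂ (hL.kap h) (hL.kap h) =
        inner ℂ (toL S'.good.temp h) (toL S'.good.temp h) := by
      rw [hL.inner_kap, two', inner_toL_toL]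
    rw [inner_self_eq_norm_sq_to_K, inner_self_eq_norm_sq_to_K] at h1
    have h2 : ‖hL.kap h‖ ^ 2 = ‖toL S'.good.temp h‖ ^ 2 := by exact_mod_cast h1
    exact (pow_left_inj₀ (norm_nonneg _) (norm_nonneg _) (by norm_num)).1 h2
  have hJn : ∀ u, ‖J S hA u‖ = ‖u‖ := by
    intro u
    have h1 := inner_J S hA two u u
    rw [inner_self_eq_norm_sq_to_K, inner_self_eq_norm_sq_to_K] at h1
    have h2 : ‖J S hA u‖ ^ 2 = ‖u‖ ^ 2 := by exact_mod_cast h1
    exact (pow_left_inj₀ (norm_nonneg _) (norm_nonneg _) (by norm_num)).1 h2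
  apply eq_of_forall_dist_le
  intro ε hε
  obtain ⟨g, hg⟩ := Metric.denseRange_iff.1 (denseRange_toL S.good) (-(1 / 3 : ℂ) • toI S f)
    (ε / 2) (by positivity)
  rw [dist_eq_norm] at hg
  have hg' : ‖toL S.good.temp g + (1 / 3 : ℂ) • toI S f‖ < ε / 2 := by
    have e : toL S.good.temp g + (1 / 3 : ℂ) • toI S f =
        -(-(1 / 3 : ℂ) • toI S f - toL S.good.temp g) := by
      rw [neg_sub, neg_smul, sub_neg_eq_add]
    rw [e, norm_neg]
    exact hg
  have h1 : dist (lamV S hA f) (hA.kap g) < ε / 2 := by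
    rw [dist_eq_norm, lamV_apply, ← J_toL S hA two, ← map_smul, ← map_sub, hJn]
    exact hg
  have h2 : dist (hA.kap g) (hL.kap f) < ε / 2 := by
    have e : hA.kap g = hL.kap ((3 : ℂ) • boxS g) := by
      rw [hA.kap_apply, rel, map_smul, hL.kap_apply, UniformSpace.Completion.coe_smul]
    rw [dist_eq_norm, e, ← map_sub, hnorm, key]
    exact hg'
  linarith [dist_triangle (lamV S hA f) (hA.kap g) (hL.kap f)]

end Vale.Agent.P352.H246

end
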