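import Vale.Agent.P352.H246.CopLoc
import Vale.Agent.P352.H148.Cop
import Vale.Agent.P352.H746.Iff2

/-!
# Special conformal generators from the on-shell dilaton constraint for the trace alone
-/

set_option linter.all false

noncomputable section

open MeasureTheory SchwartzMap Filter Topology Set
open scoped SchwartzMap ContDiff ComplexConjugate

namespace Vale.Agent.P352.H246

open GF (Ix V Fn Fld bas eta o bar)
open H755 H496 H15 H121

variable {D : Type*} [NormedAddCommGroup D] [InnerProductSpace ℂ D]
variable {Q : GF.Theory D} {T : Ix → Ix → GF.Fld D} {J : Ix → GF.Fld D}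
  {A : (V → V) → D → D} {K : V → D → D}

/-- if the charges of the virial current vanish, the second moments are special conformal
generators -/
theorem confGen_of_cop (hT : Q.IsStress T) (hJ : IsVirial Q T J) (h : NullCharges Q T J A K)
    (ht : TrNull T)
    (hC : ∀ a b v, IsNull a → IsNull b → GF.mdot a b = 1 → Cop Q A K a b v = 0) :
    ConfGen Q A K := by
  refine H755.confGen hT hJ h ⟨ht, fun a b κ y ψ v w hA => ?_⟩
  have ha := hA.1
  have hb := hA.2.1
  have hab := hA.2.2.1
  have hψ := hA.2.2.2.2.2
  have hA' : Adm a b κ (fun u => ψ (u + GF.mdot a y)) := adm_of hA (tst_sh hψ _)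
  have l := lim0 (J := J) hT hJ h ht hA' (Q.U 1 GF.one (-y) v) (Q.U 1 GF.one (-y) w)
  rw [hC a b _ ha hb hab, inner_zero_right, mul_zero] at l
  refine l.congr' ?_
  filter_upwards [eventually_ge_atTop (1:ℝ)] with R hR
  rw [Ja_shift hJ hA' y hR]
  simp only [sub_add_cancel]
  rfl

/-- if the trace constraint makes the charges of the virial current vanish, it is equivalent to the
existence of special conformal generators -/
theorem confGen_iff_tr (hT : Q.IsStress T) (hJ : IsVirial Q T J) (h : NullCharges Q T J A K)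
    (hC : TrNull T → ∀ a b v, IsNull a → IsNull b → GF.mdot a b = 1 → Cop Q A K a b v = 0) :
    ConfGen Q A K ↔ TrNull T :=
  ⟨fun hc => ((H746.confGen_iff hT hJ h).1 hc).tr, fun ht => confGen_of_cop hT hJ h ht (hC ht)⟩

/-- the same for theories generated by a set `P` of bosonic fields -/
theorem confGen_iff_gen (hT : Q.IsStress T) (hJ : IsVirial Q T J) (h : NullCharges Q T J A K)
    {P : GF.Fld D → Prop} (hP : ∀ φ, P φ → Q.bose φ ∧ ∃ φ', P φ' ∧
      ∀ f v w, GF.IsTest f → inner ℂ (φ f v) w = inner ℂ v (φ' (bar f) w))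
    (hd : ∀ S : Submodule ℂ D, Q.vac ∈ S → (∀ φ f v, P φ → GF.IsTest f → v ∈ S → φ f v ∈ S) →
      Dense (S : Set D))
    (h0 : TrNull T → ∀ a b, IsNull a → IsNull b → GF.mdot a b = 1 → ∀ φ, P φ → ∀ f,
      GF.IsTest f → HasCompactSupport f → Cop Q A K a b (φ f Q.vac) = 0) :
    ConfGen Q A K ↔ TrNull T :=
  confGen_iff_tr hT hJ h fun ht a b v ha hb hab =>
    cop_zero ha hb hab hT hJ h ht (H148.Cop_symm hT hJ h ht ha hb hab) hP hd
      (h0 ht a b ha hb hab) v

end Vale.Agent.P352.H246

end
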