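import Vale.Agent.P352.H246.Dil
import Vale.Agent.P352.H246.Fldl

set_option linter.all false

noncomputable section

open MeasureTheory SchwartzMap Complex Filter Topology
open scoped SchwartzMap ComplexConjugate ENNReal LineDeriv NNReal

namespace Vale.Agent.P352.H246

open GF (Ix V Fn Sch ev pd bar sim one bas o)

/-! ### Multiplication by the coordinates of `x - a` -/

/-- multiplication by a coordinate of `x - a` -/
def Xa (a : Mink) (m : Ix) : 𝓢(Mink, ℂ) →L[ℂ] 𝓢(Mink, ℂ) :=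
  Xm m - ((a m : ℝ) : ℂ) • ContinuousLinearMap.id ℂ _

@[simp] lemma Xa_apply (a : Mink) (m : Ix) (f : 𝓢(Mink, ℂ)) (x : Mink) :
    Xa a m f x = ((x m - a m : ℝ) : ℂ) * f x := by
  simp only [Xa, ContinuousLinearMap.sub_apply, ContinuousLinearMap.smul_apply,
    ContinuousLinearMap.id_apply, sub_apply, smul_apply, Xm_apply, smul_eq_mul]
  push_cast
  ring

lemma tsupport_Xa (a : Mink) (m : Ix) (f : 𝓢(Mink, ℂ)) : tsupport (Xa a m f) ⊆ tsupport f := by
  apply closure_mono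
  intro x hx hfx
  apply hx
  rw [Xa_apply, hfx, mul_zero]

lemma isTest_Xa {W : Set Mink} {f : 𝓢(Mink, ℂ)} (hf : IsTest W f) (a : Mink) (m : Ix) :
    IsTest W (Xa a m f) :=
  ⟨hf.1.of_isClosed_subset (isClosed_tsupport _) (tsupport_Xa a m f),
    (tsupport_Xa a m f).trans hf.2⟩

lemma conjS_Xa (a : Mink) (m : Ix) (f : 𝓢(Mink, ℂ)) : conjS (Xa a m f) = Xa a m (conjS f) := by
  ext x
  rw [conjS_apply, Xa_apply, Xa_apply, conjS_apply, map_mul, conj_ofReal]

lemma pd_Xa (a : Mink) (m n : Ix) (f : 𝓢(Mink, ℂ)) :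
    (∂_{eb n} (Xa a m f) : 𝓢(Mink, ℂ)) = Xa a m (∂_{eb n} f) +
      (if m = n then (1 : ℂ) else 0) • f := by
  ext x
  apply lineDeriv_eq_of_hasDerivAt
  have h1 := hasDerivAt_line f x (eb n)
  have h2 : HasDerivAt (fun t : ℝ => ((x m + t * (eb n : Mink) m - a m : ℝ) : ℂ))
      (((eb n : Mink) m : ℝ) : ℂ) 0 := by
    have h3 : HasDerivAt (fun t : ℝ => x m + t * (eb n : Mink) m - a m)
        ((eb n : Mink) m) 0 := by
      simpa using (((hasDerivAt_id (0 : ℝ)).mul_const ((eb n : Mink) m)).const_add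
        (x m)).sub_const (a m)
    exact h3.ofReal_comp
  have h3 := h2.mul h1
  have e1 : (fun t : ℝ => Xa a m f (x + t • eb n)) =
      (fun t : ℝ => ((x m + t * (eb n : Mink) m - a m : ℝ) : ℂ)) *
        fun t : ℝ => f (x + t • eb n) := by
    funext t
    rw [Xa_apply, Pi.mul_apply]
    simp
  rw [e1]
  refine h3.congr_deriv ?_
  rw [add_apply, Xa_apply, smul_apply, lineDerivOp_apply_eq_fderiv, smul_eq_mul]
  simp only [zero_smul, add_zero, zero_mul]
  have : (((eb n : Mink) m : ℝ) : ℂ) = if m = n then (1 : ℂ) else 0 := by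
    simp [eb]
    split_ifs <;> simp_all
  rw [this]
  ring

/-! ### Dilations about a point -/

/-- `e^{-4t} f(a + e^{-t} (x - a))` -/
def Bt (a : Mink) (t : ℝ) : 𝓢(Mink, ℂ) →L[ℂ] 𝓢(Mink, ℂ) :=
  ((Real.exp (-4 * t) : ℝ) : ℂ) • ((SchwartzMap.compSubConstCLM ℂ a).comp
    ((Dl (-t)).comp (SchwartzMap.compSubConstCLM ℂ (-a))))

@[simp] lemma Bt_apply (a : Mink) (t : ℝ) (f : 𝓢(Mink, ℂ)) (x : Mink) :
    Bt a t f x = ((Real.exp (-4 * t) : ℝ) : ℂ) * f (a + Real.exp (-t) • (x - a)) := by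
  show ((Real.exp (-4 * t) : ℝ) : ℂ) • f (Real.exp (-t) • (x - a) - -a) = _
  rw [sub_neg_eq_add, add_comm, smul_eq_mul]

lemma Bt_zero (a : Mink) (f : 𝓢(Mink, ℂ)) : Bt a 0 f = f := by
  ext x; simp

lemma conjS_Bt (a : Mink) (t : ℝ) (f : 𝓢(Mink, ℂ)) : conjS (Bt a t f) = Bt a t (conjS f) := by
  ext x
  rw [conjS_apply, Bt_apply, Bt_apply, conjS_apply, map_mul, conj_ofReal]

lemma pd_Bt (a : Mink) (t : ℝ) (f : 𝓢(Mink, ℂ)) (v : Mink) :
    (∂_{v} (Bt a t f) : 𝓢(Mink, ℂ)) = ((Real.exp (-t) : ℝ) : ℂ) • Bt a t (∂_{v} f) := by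
  ext x
  apply lineDeriv_eq_of_hasDerivAt
  have h1 := hasDerivAt_line f (a + Real.exp (-t) • (x - a)) (Real.exp (-t) • v)
  have e1 : (fun s : ℝ => Bt a t f (x + s • v)) = fun s : ℝ =>
      ((Real.exp (-4 * t) : ℝ) : ℂ) * f (a + Real.exp (-t) • (x - a) +
        s • (Real.exp (-t) • v)) := by
    funext s
    rw [Bt_apply]
    congr 2
    rw [add_sub_right_comm, smul_add, smul_comm s, add_assoc]
  rw [e1]
  refine (h1.const_mul _).congr_deriv ?_
  rw [smul_apply, Bt_apply, lineDerivOp_apply_eq_fderiv, map_smul, real_smul, smul_eq_mul]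
  ring

/-- the divergence of `(x - a) f` -/
def Dg (a : Mink) (f : 𝓢(Mink, ℂ)) : 𝓢(Mink, ℂ) := ∑ m, ∂_{eb m} (Xa a m f)

section

variable {F : Type*} [NormedAddCommGroup F] [NormedSpace ℂ F]

lemma hasDerivAt_Bt (κ : 𝓢(Mink, ℂ) →L[ℂ] F) (a : Mink) (f : 𝓢(Mink, ℂ)) (t : ℝ) :
    HasDerivAt (fun t : ℝ => κ (Bt a t f)) (-κ (Bt a t (Dg a f))) t := by
  set κ' : 𝓢(Mink, ℂ) →L[ℂ] F := κ.comp (SchwartzMap.compSubConstCLM ℂ a) with hκ'
  set g : 𝓢(Mink, ℂ) := SchwartzMap.compSubConstCLM ℂ (-a) f with hg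
  have hga : ∀ x, g x = f (x + a) := by
    intro x
    rw [hg, compSubConstCLM_apply, sub_neg_eq_add]
  have e1 : (fun t : ℝ => κ (Bt a t f)) = fun t : ℝ =>
      Real.exp (-4 * t) • κ' (Dl (-t) g) := by
    funext s
    rw [Bt, ContinuousLinearMap.smul_apply, map_smul]
    rfl
  have h1 : HasDerivAt (fun s : ℝ => κ' (Dl (-s) g)) (-κ' (Dl (-t) (Eu g))) t := by
    have h2 : HasDerivAt (fun s : ℝ => κ' (Dl (-s) g)) ((-1 : ℝ) • κ' (Dl (-t) (Eu g))) t :=
      (hasDerivAt_Dl κ' g (-t)).scomp t (hasDerivAt_neg t)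
    rwa [neg_one_smul] at h2
  have h3 : HasDerivAt (fun s : ℝ => Real.exp (-4 * s)) (Real.exp (-4 * t) * (-4)) t := by
    have := ((hasDerivAt_id t).const_mul (-4 : ℝ)).exp
    simpa using this
  rw [e1]
  refine (h3.smul h1).congr_deriv ?_
  have e2 : SchwartzMap.compSubConstCLM ℂ (-a) (Dg a f) = (4 : ℂ) • g + Eu g := by
    ext x
    rw [compSubConstCLM_apply, sub_neg_eq_add, Dg, SchwartzMap.sum_apply, add_apply, smul_apply,
      Eu, SchwartzMap.sum_apply, hga]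
    have e3 : ∀ m : Ix, (∂_{eb m} (Xa a m f) : 𝓢(Mink, ℂ)) (x + a) =
        f (x + a) + (Xm m (∂_{eb m} g)) x := by
      intro m
      rw [pd_Xa, if_pos rfl, one_smul, add_apply, Xa_apply, Xm_apply]
      have e4 : (∂_{eb m} g : 𝓢(Mink, ℂ)) x = (∂_{eb m} f : 𝓢(Mink, ℂ)) (x + a) := by
        apply lineDeriv_eq_of_hasDerivAt
        have h5 := hasDerivAt_line f (x + a) (eb m)
        have e5 : (fun s : ℝ => g (x + s • eb m)) = fun s : ℝ => f (x + a + s • eb m) := by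
          funext s
          rw [hga]
          congr 1
          abel
        rw [e5]
        refine h5.congr_deriv ?_
        rw [lineDerivOp_apply_eq_fderiv]
      rw [e4]
      simp
      ring
    simp only [e3, Finset.sum_add_distrib]
    simp
  have e3 : κ (Bt a t (Dg a f)) = Real.exp (-4 * t) • κ' (Dl (-t) ((4 : ℂ) • g + Eu g)) := by
    rw [← e2, Bt, ContinuousLinearMap.smul_apply, map_smul]
    rfl
  rw [e3, map_add, map_add, map_smul, map_smul]
  have e4 : (4 : ℂ) • κ' (Dl (-t) g) = (4 : ℝ) • κ' (Dl (-t) g) := by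
    have : (4 : ℂ) = ((4 : ℝ) : ℂ) := by norm_num
    rw [this]
    rfl
  rw [e4]
  module

lemma continuous_Bt (κ : 𝓢(Mink, ℂ) →L[ℂ] F) (a : Mink) (f : 𝓢(Mink, ℂ)) :
    Continuous fun t : ℝ => κ (Bt a t f) :=
  continuous_iff_continuousAt.2 fun t => (hasDerivAt_Bt κ a f t).continuousAt

end

/-! ### Supports -/

lemma tsupport_Bt (a : Mink) (t : ℝ) (f : 𝓢(Mink, ℂ)) {x : Mink} (hx : x ∈ tsupport (Bt a t f)) :
    a + Real.exp (-t) • (x - a) ∈ tsupport f := by
  have hc : Continuous fun x : Mink => a + Real.exp (-t) • (x - a) := by fun_prop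
  have h1 : tsupport (Bt a t f) ⊆ (fun x : Mink => a + Real.exp (-t) • (x - a)) ⁻¹' tsupport f := by
    apply closure_minimal _ ((isClosed_tsupport _).preimage hc)
    intro y hy
    apply subset_tsupport
    intro h
    apply hy
    rw [Bt_apply, h, mul_zero]
  exact h1 hx

lemma compact_Bt (a : Mink) (t : ℝ) {f : 𝓢(Mink, ℂ)} (hf : HasCompactSupport f) :
    HasCompactSupport (Bt a t f) := by
  have hc : Continuous fun x : Mink => a + Real.exp t • (x - a) := by fun_prop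
  refine (hf.isCompact.image hc).of_isClosed_subset (isClosed_tsupport _) fun x hx =>
    ⟨_, tsupport_Bt a t f hx, ?_⟩
  simp only [add_sub_cancel_left, smul_smul, ← Real.exp_add, add_neg_cancel, Real.exp_zero,
    one_smul]
  abel

/-! ### Covariance -/

/-- the dilations as substitutions -/
lemma Bt_eq_sim (a : Mink) (t : ℝ) (f : 𝓢(Mink, ℂ)) : Bt a t f =
    ((Real.exp (-4 * t) : ℝ) : ℂ) • simS (Real.exp (-t)) (Real.exp_pos _) isLor_one
      (a - Real.exp (-t) • a).ofLp f := by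
  ext x
  rw [Bt_apply, smul_apply, simS_apply, smul_eq_mul]
  congr 2
  ext n
  simp only [sim, one, bas, PiLp.add_apply, PiLp.smul_apply, PiLp.sub_apply, smul_eq_mul]
  simp
  ring

section

variable {s : ℝ} (hs : 0 < s) {L : Ix → V} (hL : GF.IsLor L) (b : V)

lemma simS_Bt (a : Mink) (t : ℝ) (f : 𝓢(Mink, ℂ)) :
    simS s hs hL b (Bt (WithLp.toLp 2 (sim s L b a.ofLp)) t f) = Bt a t (simS s hs hL b f) := by
  ext x
  rw [simS_apply, Bt_apply, Bt_apply, simS_apply]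
  congr 2
  ext n
  simp only [sim, PiLp.add_apply, PiLp.smul_apply, PiLp.sub_apply, smul_eq_mul, add_mul, sub_mul,
    Finset.sum_add_distrib, mul_assoc, Finset.sum_sub_distrib, ← Finset.mul_sum]
  ring

lemma simS_Xa (a : Mink) (m : Ix) (f : 𝓢(Mink, ℂ)) :
    simS s hs hL b (Xa (WithLp.toLp 2 (sim s L b a.ofLp)) m f) =
      ∑ n, ((s * L n m : ℝ) : ℂ) • Xa a n (simS s hs hL b f) := by
  ext x
  rw [simS_apply, Xa_apply, SchwartzMap.sum_apply]
  simp only [smul_apply, Xa_apply, simS_apply, smul_eq_mul, ← mul_assoc]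
  rw [← Finset.sum_mul]
  congr 1
  simp only [sim, ← ofReal_mul, ← ofReal_sum]
  congr 1
  simp only [mul_sub, Finset.sum_sub_distrib]
  rw [Finset.mul_sum, Finset.mul_sum]
  have e1 : ∀ y : Mink, ∑ i, s * (y i * L i m) = ∑ i, s * L i m * y i := fun y =>
    Finset.sum_congr rfl fun i _ => by ring
  rw [e1, e1]
  ring

end

lemma Xa_Bt (a : Mink) (m : Ix) (t : ℝ) (f : 𝓢(Mink, ℂ)) : Xa a m (Bt 0 t f) =
    ((Real.exp t : ℝ) : ℂ) • Bt 0 t (Xa 0 m f) - ((a m : ℝ) : ℂ) • Bt 0 t f := by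
  ext x
  rw [sub_apply, smul_apply, smul_apply, Xa_apply, Bt_apply, Bt_apply, Xa_apply, smul_eq_mul,
    smul_eq_mul]
  have h : Real.exp t * Real.exp (-t) = 1 := by
    rw [← Real.exp_add, add_neg_cancel, Real.exp_zero]
  have h' : ((Real.exp t : ℝ) : ℂ) * ((Real.exp (-t) : ℝ) : ℂ) = 1 := by exact_mod_cast h
  simp only [sub_zero, zero_add, PiLp.smul_apply, smul_eq_mul, PiLp.zero_apply]
  push_cast
  push_cast at h'
  linear_combination (-(cexp (-4 * t) * x m * f (Real.exp (-t) • x))) * h'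

end Vale.Agent.P352.H246

end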