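import Vale.Agent.P352.GFDefs

open MeasureTheory Filter Topology
open scoped SchwartzMap ComplexConjugate

namespace Vale.Agent.P352.H246

open GF

noncomputable section

/-- Test functions with compact support in the region `W`. -/
def In (W : Set V) (f : Fn) : Prop := IsTest f ∧ HasCompactSupport f ∧ tsupport f ⊆ W

/-- The wedge `L W + a`, where `W` is the right (`r = 1`) or the left (`r = -1`) wedge
`|y⁰| < r y¹`. -/
def Wed (L : Ix → V) (a : V) (r : ℝ) : Set V := {x | ∃ y : V, |y 0| < r * y 1 ∧ x = sim 1 L a y}

variable {D : Type*} [NormedAddCommGroup D] [InnerProductSpace ℂ D]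

/-- The polynomials in the fields smeared with test functions supported in `W`, each one
together with its formal adjoint. -/
inductive Al (Q : Theory D) (W : Set V) : (D → D) → (D → D) → Prop
  | one : Al Q W (fun v => v) (fun v => v)
  | add (X X' Y Y' : D → D) : Al Q W X X' → Al Q W Y Y' →
      Al Q W (fun v => X v + Y v) (fun v => X' v + Y' v)
  | smul (c : ℂ) (X X' : D → D) : Al Q W X X' → Al Q W (fun v => c • X v) (fun v => star c • X' v)
  | fld (A B : Fld D) (g : Fn) (X X' : D → D) : Q.fld A → Q.fld B →
      (∀ f v w, IsTest f → inner ℂ (A f v) w = inner ℂ v (B (bar f) w)) → In W g → Al Q W X X' →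
      Al Q W (fun v => A g (X v)) (fun v => X' (B (bar g) v))

/-- Vectors generated from the vacuum by the fields in the region `W`. -/
def Gen (Q : Theory D) (W : Set V) (v : D) : Prop := ∃ X X', Al Q W X X' ∧ v = X Q.vac

/-- The derivative at `0` of the translations in the direction `m`. -/
def Dv (Q : Theory D) (m : Ix) (v : D) : D := deriv (fun t : ℝ => Q.U 1 one (bas m t) v) 0

/-- Energy-momentum norms: the sum of the norms of all derivatives of order at most `k` of
`a ↦ U(a) v` at `a = 0`. -/
def en (Q : Theory D) : ℕ → D → ℝ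
  | 0, v => ‖v‖
  | k + 1, v => en Q k v + ∑ m, en Q k (Dv Q m v)

/-- The fields are covariant under the similitude `x ↦ s L x + a`: every field transforms into
a linear combination of fields. -/
def Cov (Q : Theory D) (s : ℝ) (L : Ix → V) (a : V) : Prop := DenseRange (Q.U s L a) ∧
  ∀ B, Q.fld B → ∃ (n : ℕ) (c : Fin n → ℂ) (A : Fin n → Fld D), (∀ i, Q.fld (A i)) ∧
    ∀ f v, IsTest f →
      Q.U s L a (B (fun x => f (sim s L a x)) v) = ∑ i, c i • A i f (Q.U s L a v)

/-- Sum of the `L¹` norms of the partial derivatives of order at most `k`. -/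
def nrm : ℕ → Fn → ℝ
  | 0, f => ∫ x, ‖f x‖
  | k + 1, f => nrm k f + ∑ m, nrm k (pd m f)

/-- The d'Alembertian. -/
def box (f : Fn) : Fn := fun x => ∑ m, (eta m : ℂ) * pd m (pd m f) x

open UniformSpace (Completion)

/-- `l` is a tempered distribution with values in the Hilbert space, it transforms like a scalar
field of dimension two applied to the vacuum, and `3 □ l` is the trace of `T` applied to the
vacuum. -/
structure IsPot (Q : Theory D) (T : Ix → Ix → Fld D) (l : Fn → Completion D) : Prop where
  lin : ∀ (f g : Fn) (c : ℂ), IsTest f → IsTest g → l (fun x => f x + c * g x) = l f + c • l g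
  cont : Continuous fun g => l (ev g)
  trace : ∀ f, IsTest f → (3 : ℂ) • l (box f) = ((tr T f Q.vac : D) : Completion D)
  cov : ∀ s L a f v, 0 < s → IsLor L → IsTest f →
    inner ℂ (Q.U s L a v : Completion D) (l f) =
      (s ^ 2 : ℝ) * inner ℂ (v : Completion D) (l fun x => f (sim s L a x))

/-- `Λ` extends the potential `l` to a hermitian scalar field of dimension two that is local
relative to the fields and makes `T + (∂∂ - η □) Λ` traceless. The operators `Λ f`, for test
functions `f` with compact support, map the vectors generated by the fields into the Hilbert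
space. -/
structure IsExt (Q : Theory D) (T : Ix → Ix → Fld D) (l : Fn → Completion D)
    (Λ : Fn → D → Completion D) : Prop where
  vac : ∀ f, In Set.univ f → Λ f Q.vac = l f
  linf : ∀ (f g : Fn) (c : ℂ) v, In Set.univ f → In Set.univ g → Gen Q Set.univ v →
    Λ (fun x => f x + c * g x) v = Λ f v + c • Λ g v
  linv : ∀ f (c : ℂ) v w, In Set.univ f → Gen Q Set.univ v → Gen Q Set.univ w →
    Λ f (v + c • w) = Λ f v + c • Λ f w
  herm : ∀ f v w, In Set.univ f → Gen Q Set.univ v → Gen Q Set.univ w →
    inner ℂ (v : Completion D) (Λ f w) = inner ℂ (Λ (bar f) v) (w : Completion D)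
  loc : ∀ (A B : Fld D) f g v z, Q.fld A → Q.fld B →
    (∀ f v w, IsTest f → inner ℂ (A f v) w = inner ℂ v (B (bar f) w)) →
    In Set.univ f → In Set.univ g → Sep f g → Gen Q Set.univ v →
    inner ℂ (B (bar g) z : Completion D) (Λ f v) = inner ℂ (z : Completion D) (Λ f (A g v))
  cov : ∀ s L a f v z, 0 < s → IsLor L → (Cov Q s L a ∨ s = 1 ∧ L = one) →
    In Set.univ f → Gen Q Set.univ v →
    inner ℂ (Q.U s L a z : Completion D) (Λ f (Q.U s L a v)) =
      (s ^ 2 : ℝ) * inner ℂ (z : Completion D) (Λ (fun x => f (sim s L a x)) v)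
  trace : ∀ f v, In Set.univ f → Gen Q Set.univ v →
    (3 : ℂ) • Λ (box f) v = ((tr T f v : D) : Completion D)

/-- `Λ` is bounded by powers of energy and momentum. -/
def Bdd (Q : Theory D) (Λ : Fn → D → Completion D) : Prop := ∃ (k m : ℕ) (C : ℝ), ∀ f v,
  In Set.univ f → Gen Q Set.univ v → ‖Λ f v‖ ≤ C * nrm m f * en Q k v

/-- The energy bound on the wedges: for `f` in a right wedge and `X` in the algebra of the
opposite left wedge, the vector `X l(f)` exists and its norm is at most a constant times
`nrm m f` times the energy norm of `X Ω`. -/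
def WedBdd (Q : Theory D) (l : Fn → Completion D) : Prop := ∃ (k m : ℕ) (C : ℝ),
  ∀ L a f X X' z, IsLor L → In (Wed L a 1) f → Al Q (Wed L a (-1)) X X' →
    ‖inner ℂ (X' z : Completion D) (l f)‖ ≤ C * nrm m f * ‖z‖ * en Q k (X Q.vac)

end

end Vale.Agent.P352.H246
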