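import Vale.Agent.P352.H246.Smooth

set_option linter.all false

noncomputable section

open MeasureTheory SchwartzMap Complex Filter Topology
open scoped SchwartzMap ComplexConjugate ENNReal LineDeriv NNReal

namespace Vale.Agent.P352.H246

open GF (Ix V Fn Sch ev pd bar sim one bas o)

variable {D : Type*} [NormedAddCommGroup D] [InnerProductSpace ℂ D]
variable {Q : GF.Theory D}

/-- line holomorphic with some order -/
def Hol (F : Mink → ℂ) : Prop := ∃ N, LineHol N F

lemma Hol.add {F F' : Mink → ℂ} (h : Hol F) (h' : Hol F') : Hol fun a => F a + F' a := by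
  obtain ⟨N, h⟩ := h
  obtain ⟨N', h'⟩ := h'
  refine ⟨N + N', (h.raise N').add ?_⟩
  have := h'.raise N
  rwa [add_comm N' N] at this

lemma hol_zero : Hol fun _ => 0 := by
  refine ⟨0, fun a v hv => ⟨fun _ => 0, continuousOn_const, differentiableOn_const _, ⟨0, by simp⟩,
    by simp⟩⟩

lemma Hol.sum {ι : Type*} (s : Finset ι) {F : ι → Mink → ℂ} (h : ∀ i ∈ s, Hol (F i)) :
    Hol fun a => ∑ i ∈ s, F i a := by
  classical
  induction s using Finset.induction_on with
  | empty => simpa using hol_zero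
  | insert i s hi ih =>
    simp only [Finset.sum_insert hi]
    exact (h i (Finset.mem_insert_self _ _)).add
      (ih fun j hj => h j (Finset.mem_insert_of_mem hj))

lemma Hol.unique {F : Mink → ℂ} (h : Hol F) {O : Set Mink} (hO : IsOpen O)
    (hne : O.Nonempty) (hz : ∀ a ∈ O, F a = 0) (a : Mink) : F a = 0 := by
  obtain ⟨N, h⟩ := h
  exact h.unique hO hne hz a

/-- approximation of vectors of the completion -/
lemma exists_coe (y : UniformSpace.Completion D) {ε : ℝ} (hε : 0 < ε) :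
    ∃ z : D, ‖y - (z : UniformSpace.Completion D)‖ < ε := by
  obtain ⟨z, hz⟩ := Metric.denseRange_iff.1
    (UniformSpace.Completion.denseRange_coe (α := D)) y ε hε
  exact ⟨z, by rwa [← dist_eq_norm]⟩

lemma lineHol_inner (z v : D) : LineHol 0 fun a => inner ℂ z (U1 Q a v) := by
  obtain ⟨μ, ψ, hμ, hψ, hrep⟩ := spec_rep Q z v
  have : (fun a => inner ℂ z (U1 Q a v)) = cint μ ψ := by
    funext a; exact hrep a
  rw [this]
  exact cint_hol hμ hψ

lemma hol_vec (y : UniformSpace.Completion D) (v : D) :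
    Hol fun a => inner ℂ y ((U1 Q a v : D) : UniformSpace.Completion D) := by
  refine ⟨0, LineHol.lim fun ε hε => ?_⟩
  obtain ⟨z, hz⟩ := exists_coe y (ε := ε / (‖v‖ + 1)) (by positivity)
  refine ⟨fun a => inner ℂ z (U1 Q a v), lineHol_inner z v, fun a => ?_⟩
  show ‖inner ℂ y ((U1 Q a v : D) : UniformSpace.Completion D) - inner ℂ z (U1 Q a v)‖ ≤ _
  rw [← UniformSpace.Completion.inner_coe z, ← inner_sub_left, pow_zero, mul_one]
  calc _ ≤ ‖y - (z : UniformSpace.Completion D)‖ *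
        ‖((U1 Q a v : D) : UniformSpace.Completion D)‖ := norm_inner_le_norm _ _
    _ ≤ ε / (‖v‖ + 1) * ‖v‖ := by
        rw [UniformSpace.Completion.norm_coe, U1_norm]
        gcongr
    _ ≤ ε / (‖v‖ + 1) * (‖v‖ + 1) := by gcongr; linarith
    _ = ε := by field_simp

/-- the field as a linear map in the test function -/
def fmap {A : GF.Fld D} (hA : Q.fld A) (v : D) : 𝓢(Mink, ℂ) →ₗ[ℂ] D where
  toFun g := A (fl g) v
  map_add' f g := fld_addf hA f g v
  map_smul' c g := fld_smulf hA c g v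

/-- polynomial growth -/
lemma exists_poly {A : GF.Fld D} (hA : Q.fld A) (g : 𝓢(Mink, ℂ)) (v : D) :
    ∃ (C : ℝ) (N : ℕ), 0 ≤ C ∧ ∀ a, ‖A (fl g) (U1 Q a v)‖ ≤ C * (1 + ‖a‖) ^ N := by
  have hq : Continuous ((normSeminorm ℂ D).comp (fmap hA v)) := by
    have : Continuous fun g : 𝓢(Mink, ℂ) => ‖A (fl g) v‖ := (fld_cont hA v).norm
    exact this
  obtain ⟨s, C, hC, hle⟩ := Seminorm.bound_of_continuous (schwartz_withSeminorms ℂ Mink ℂ) _ hq
  set N : ℕ := s.sup Prod.fst with hN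
  set B : ℝ := ∑ i ∈ s, 2 ^ i.1 * (SchwartzMap.seminorm ℂ i.1 i.2 g +
    SchwartzMap.seminorm ℂ 0 i.2 g) with hB
  have hB0 : 0 ≤ B := Finset.sum_nonneg fun i _ => by positivity
  refine ⟨C * B, N, by positivity, fun a => ?_⟩
  have e1 : A (fl g) (U1 Q a v) = U1 Q a (A (fl (tauS (-a) g)) v) := by
    have h1 := U_fld hA (tauS (-a) g) a v
    rw [tauS_tauS, neg_add_cancel, tauS_zero'] at h1
    exact h1.symm
  rw [e1, U1_norm]
  have h2 := hle (tauS (-a) g)
  have h3 : (s.sup fun m => SchwartzMap.seminorm ℂ m.1 m.2) (tauS (-a) g) ≤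
      B * (1 + ‖a‖) ^ N := by
    apply Seminorm.finset_sup_apply_le (by positivity)
    intro i hi
    have h4 := seminorm_shift_le g i.1 i.2 (-a)
    rw [norm_neg] at h4
    have h5 : ‖a‖ ^ i.1 ≤ (1 + ‖a‖) ^ N := by
      calc ‖a‖ ^ i.1 ≤ (1 + ‖a‖) ^ i.1 := by gcongr; linarith
        _ ≤ (1 + ‖a‖) ^ N := by
            apply pow_le_pow_right₀ (by linarith [norm_nonneg a])
            exact Finset.le_sup (f := Prod.fst) hi
    have h6 : (1 : ℝ) ≤ (1 + ‖a‖) ^ N := one_le_pow₀ (by linarith [norm_nonneg a])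
    calc _ ≤ 2 ^ i.1 * (SchwartzMap.seminorm ℂ i.1 i.2 g +
          ‖a‖ ^ i.1 * SchwartzMap.seminorm ℂ 0 i.2 g) := h4
      _ ≤ 2 ^ i.1 * (SchwartzMap.seminorm ℂ i.1 i.2 g * (1 + ‖a‖) ^ N +
          (1 + ‖a‖) ^ N * SchwartzMap.seminorm ℂ 0 i.2 g) := by
          gcongr
          exact le_mul_of_one_le_right (by positivity) h6
      _ = (2 ^ i.1 * (SchwartzMap.seminorm ℂ i.1 i.2 g +
          SchwartzMap.seminorm ℂ 0 i.2 g)) * (1 + ‖a‖) ^ N := by ring
      _ ≤ B * (1 + ‖a‖) ^ N := by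
          gcongr
          exact Finset.single_le_sum (f := fun i : ℕ × ℕ => 2 ^ i.1 *
            (SchwartzMap.seminorm ℂ i.1 i.2 g + SchwartzMap.seminorm ℂ 0 i.2 g))
            (fun i _ => by positivity) hi
  calc ‖A (fl (tauS (-a) g)) v‖ ≤ C * (s.sup fun m => SchwartzMap.seminorm ℂ m.1 m.2)
        (tauS (-a) g) := h2
    _ ≤ C * (B * (1 + ‖a‖) ^ N) := by gcongr
    _ = C * B * (1 + ‖a‖) ^ N := by ring

lemma hol_fld {A : GF.Fld D} (hA : Q.fld A) (g : 𝓢(Mink, ℂ)) (y : UniformSpace.Completion D)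
    (v : D) : Hol fun a => inner ℂ y ((A (fl g) (U1 Q a v) : D) : UniformSpace.Completion D) := by
  obtain ⟨C, N, hC, hle⟩ := exists_poly hA g v
  obtain ⟨B, hB, hadj⟩ := Q.adj A hA
  refine ⟨N, LineHol.lim fun ε hε => ?_⟩
  obtain ⟨z, hz⟩ := exists_coe y (ε := ε / (C + 1)) (by positivity)
  refine ⟨fun a => inner ℂ z (A (fl g) (U1 Q a v)), ?_, fun a => ?_⟩
  · have e : (fun a => inner ℂ z (A (fl g) (U1 Q a v))) =
        fun a => inner ℂ (B (fl (conjS g)) z) (U1 Q a v) := by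
      funext a
      rw [← inner_conj_symm, hadj _ _ _ (isTest_fl g), bar_fl, inner_conj_symm]
    rw [e]
    have := (lineHol_inner (Q := Q) (B (fl (conjS g)) z) v).raise N
    rwa [zero_add] at this
  · show ‖inner ℂ y ((A (fl g) (U1 Q a v) : D) : UniformSpace.Completion D) -
      inner ℂ z (A (fl g) (U1 Q a v))‖ ≤ _
    rw [← UniformSpace.Completion.inner_coe z, ← inner_sub_left]
    calc _ ≤ ‖y - (z : UniformSpace.Completion D)‖ *
          ‖((A (fl g) (U1 Q a v) : D) : UniformSpace.Completion D)‖ := norm_inner_le_norm _ _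
      _ ≤ ε / (C + 1) * (C * (1 + ‖a‖) ^ N) := by
          rw [UniformSpace.Completion.norm_coe]
          gcongr
          exact hle a
      _ ≤ ε / (C + 1) * ((C + 1) * (1 + ‖a‖) ^ N) := by gcongr; linarith
      _ = ε * (1 + ‖a‖) ^ N := by field_simp

/-- regions that contain arbitrarily large boxes -/
def Big (S : Set Mink) : Prop := ∀ r : ℝ, ∃ b : Mink, ∀ x : Mink, (∀ i, |x i - b i| ≤ r) → x ∈ S

/-- boxes -/
def Bx (r : ℝ) : Set Mink := {x | ∀ i, |x i| ≤ r}

lemma Bx_mono {r r' : ℝ} (h : r ≤ r') : Bx r ⊆ Bx r' := fun x hx i => (hx i).trans h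

lemma exists_Bx {v : D} (hv : PW Q Set.univ v) : ∃ r, PW Q (Bx r) v := by
  induction hv with
  | vac => exact ⟨0, .vac⟩
  | add _ _ h1 h2 =>
    obtain ⟨r1, h1⟩ := h1
    obtain ⟨r2, h2⟩ := h2
    exact ⟨max r1 r2, .add (pw_mono (Bx_mono (le_max_left _ _)) h1)
      (pw_mono (Bx_mono (le_max_right _ _)) h2)⟩
  | smul c _ h1 =>
    obtain ⟨r1, h1⟩ := h1
    exact ⟨r1, .smul c h1⟩
  | @fld B g v hB hg _ h1 =>
    obtain ⟨r1, h1⟩ := h1
    obtain ⟨r, hr0, hr⟩ := exists_ball g hg.1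
    exact ⟨max r1 r, .fld hB ⟨hg.1, fun x hx i => (hr x hx i).trans (le_max_right _ _)⟩
      (pw_mono (Bx_mono (le_max_left _ _)) h1)⟩

lemma Big.open_set {S : Set Mink} (hS : Big S) {v : D} (hv : PW Q Set.univ v) :
    ∃ O : Set Mink, IsOpen O ∧ O.Nonempty ∧ ∀ a ∈ O, PW Q S (U1 Q a v) := by
  obtain ⟨r, hr⟩ := exists_Bx hv
  obtain ⟨b, hb⟩ := hS (r + 1)
  refine ⟨{a | ∀ i, |a i - b i| < 1}, ?_, ⟨b, fun i => by simp⟩, fun a ha => ?_⟩
  · have : {a : Mink | ∀ i, |a i - b i| < 1} = ⋂ i, {a | |a i - b i| < 1} := by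
      ext a; simp
    rw [this]
    exact isOpen_iInter_of_finite fun i => isOpen_lt (by fun_prop) continuous_const
  · apply hr.transl a
    intro x hx
    apply hb
    intro i
    have h1 := hx i
    have h2 := (ha i).le
    have e : (x + a) i - b i = x i + (a i - b i) := by
      rw [PiLp.add_apply]; ring
    rw [e]
    exact (abs_add_le _ _).trans (add_le_add h1 h2)

/-- test operators for the density theorem -/
structure TOp (Q : GF.Theory D) (R : D → D) : Prop where
  add : ∀ v w, PW Q Set.univ v → PW Q Set.univ w → R (v + w) = R v + R w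
  smul : ∀ (c : ℂ) v, PW Q Set.univ v → R (c • v) = c • R v
  hol : ∀ (y : UniformSpace.Completion D) v, PW Q Set.univ v →
    Hol fun a => inner ℂ y ((R (U1 Q a v) : D) : UniformSpace.Completion D)

/-- Reeh-Schlieder density in graph norms -/
theorem dense_gen {ι : Type*} [Fintype ι] {R : ι → D → D} (hR : ∀ i, TOp Q (R i))
    {S : Set Mink} (hS : Big S) {v : D} (hv : PW Q Set.univ v) {ε : ℝ} (hε : 0 < ε) :
    ∃ v', PW Q S v' ∧ ∀ i, ‖R i v - R i v'‖ < ε := by
  classical
  set F := PiLp 2 (fun _ : ι => UniformSpace.Completion D) with hF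
  set Φ : D → F := fun u => WithLp.toLp 2 fun i => ((R i u : D) : UniformSpace.Completion D)
    with hΦ
  have huS : ∀ {u}, PW Q S u → PW Q Set.univ u := fun h => pw_mono (Set.subset_univ _) h
  set M : Submodule ℂ F :=
    { carrier := {x | ∃ u, PW Q S u ∧ Φ u = x}
      add_mem' := by
        rintro _ _ ⟨u, hu, rfl⟩ ⟨w, hw, rfl⟩
        refine ⟨u + w, .add hu hw, ?_⟩
        ext i
        simp only [hΦ, PiLp.add_apply]
        rw [(hR i).add u w (huS hu) (huS hw), UniformSpace.Completion.coe_add]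
        rfl
      zero_mem' := by
        refine ⟨0, pw_zero, ?_⟩
        ext i
        simp only [hΦ, PiLp.zero_apply]
        have := (hR i).smul 0 0 pw_zero
        rw [zero_smul, zero_smul] at this
        rw [this, UniformSpace.Completion.coe_zero]
      smul_mem' := by
        rintro c _ ⟨u, hu, rfl⟩
        refine ⟨c • u, .smul c hu, ?_⟩
        ext i
        simp only [hΦ, PiLp.smul_apply]
        rw [(hR i).smul c u (huS hu), UniformSpace.Completion.coe_smul]
        rfl } with hM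
  have hmem : Φ v ∈ M.topologicalClosure := by
    rw [← Submodule.orthogonal_orthogonal_eq_closure, Submodule.mem_orthogonal]
    intro y hy
    rw [Submodule.mem_orthogonal] at hy
    have hin : ∀ u, inner ℂ y (Φ u) =
        ∑ i, inner ℂ (y i) ((R i u : D) : UniformSpace.Completion D) := by
      intro u
      rw [PiLp.inner_apply]
    have hhol : Hol fun a => inner ℂ y (Φ (U1 Q a v)) := by
      simp only [hin]
      exact Hol.sum _ fun i _ => (hR i).hol (y i) v hv
    obtain ⟨O, hO, hne, hOS⟩ := hS.open_set hv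
    have := hhol.unique hO hne (fun a ha => by
      rw [← inner_conj_symm, hy _ ⟨_, hOS a ha, rfl⟩, map_zero]) 0
    rwa [U1_zero hv] at this
  have hcl : Φ v ∈ closure (M : Set F) := hmem
  obtain ⟨x, ⟨u, hu, rfl⟩, hx⟩ := Metric.mem_closure_iff.1 hcl ε hε
  refine ⟨u, hu, fun i => ?_⟩
  have h1 : ‖(Φ v - Φ u) i‖ ≤ ‖Φ v - Φ u‖ := PiLp.norm_apply_le _ _
  have h2 : (Φ v - Φ u) i = ((R i v - R i u : D) : UniformSpace.Completion D) := by
    rw [UniformSpace.Completion.coe_sub]; rfl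
  rw [h2, UniformSpace.Completion.norm_coe] at h1
  rw [dist_eq_norm] at hx
  exact h1.trans_lt hx

end Vale.Agent.P352.H246

end
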