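import Vale.Agent.P352.H496.Core

set_option linter.all false

noncomputable section

open MeasureTheory SchwartzMap Complex Filter Topology
open scoped SchwartzMap ComplexConjugate ENNReal LineDeriv ContDiff FourierTransform

namespace Vale.Agent.P352.H246D

open GF (Ix V Fn Sch ev pd bar sim bas o)
open H246 H496
open UniformSpace (Completion)

variable {D : Type*} [NormedAddCommGroup D] [InnerProductSpace ℂ D]
variable {Q : GF.Theory D}
variable {H : D → D} {alg : Set V → Set (D → D)} {S : V → ℝ → D → D} {G : V → D → D}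

/-- the null vector dual to the null direction -/
def e1 : Mink := WithLp.toLp 2 ![1 / 2, 1 / 2, 0, 0]

lemma mft_sim0 {s : ℝ} (hs : 0 < s) {L : Ix → V} (hL : GF.IsLor L) (F : 𝓢(Mink, ℂ)) (p : Mink) :
    mft (simS s hs hL 0 F) p = ((s ^ 4)⁻¹ : ℝ) * mft F (s⁻¹ • lam L p) := by
  rw [mft_simS]
  have h0 : (-WithLp.toLp 2 (0 : V) : Mink) = 0 := by ext n; simp
  have h1 : chr (0 : Mink) (s⁻¹ • lam L p) = 1 := by
    unfold chr
    simp [mdot]
  rw [h0, h1, one_mul]

/-- the boosts contract to the null direction -/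
lemma tendsto_boost (p : Mink) : Tendsto (fun t : ℝ => Real.exp (-t) • lam (mBoost t) p) atTop
    (𝓝 (pm p • e1)) := by
  have h1 : Tendsto (fun t : ℝ => Real.exp (-t)) atTop (𝓝 0) :=
    Real.tendsto_exp_neg_atTop_nhds_zero
  have e : ∀ t : ℝ, Real.exp (-t) • lam (mBoost t) p = pm p • e1 +
      (Real.exp (-t) * Real.exp (-t)) • (WithLp.toLp 2 ![(p 0 - p 1) / 2, -(p 0 - p 1) / 2, 0, 0] :
        Mink) + Real.exp (-t) • (WithLp.toLp 2 ![0, 0, p 2, p 3] : Mink) := by
    intro t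
    have h3 : Real.exp (-t) * Real.exp t = 1 := by rw [← Real.exp_add]; simp
    ext n
    fin_cases n <;> simp [lam_apply, mBoost, e1, pm, Fin.sum_univ_four, Real.cosh_eq,
      Real.sinh_eq]
    · linear_combination (p 0 + p 1) / 2 * h3
    · linear_combination (p 0 + p 1) / 2 * h3
  have h2 : Tendsto (fun t : ℝ => pm p • e1 +
      (Real.exp (-t) * Real.exp (-t)) • (WithLp.toLp 2 ![(p 0 - p 1) / 2, -(p 0 - p 1) / 2, 0, 0] :
        Mink) + Real.exp (-t) • (WithLp.toLp 2 ![0, 0, p 2, p 3] : Mink)) atTop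
      (𝓝 (pm p • e1 + ((0 : ℝ) * 0) • (WithLp.toLp 2
        ![(p 0 - p 1) / 2, -(p 0 - p 1) / 2, 0, 0] : Mink) +
        (0 : ℝ) • (WithLp.toLp 2 ![0, 0, p 2, p 3] : Mink))) :=
    (tendsto_const_nhds.add ((h1.mul h1).smul_const _)).add (h1.smul_const _)
  simp only [mul_zero, zero_smul, add_zero] at h2
  exact h2.congr fun t => (e t).symm

lemma pm_nr (c : ℝ × ℝ) (p : Mink) : pm (lam (nr c) p) = pm p := by
  simp [pm, lam_apply, nr, Fin.sum_univ_four]
  ring

lemma pm_boost (t : ℝ) (p : Mink) : pm (lam (mBoost t) p) = Real.exp t * pm p := by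
  have h := Real.cosh_add_sinh t
  simp [pm, lam_apply, mBoost, Fin.sum_univ_four]
  linear_combination (p 0 + p 1) * h

lemma boost_e1 (t x : ℝ) : lam (mBoost t) (x • e1) = (Real.exp t * x) • e1 := by
  have h := Real.cosh_add_sinh t
  ext n
  fin_cases n <;> simp [lam_apply, mBoost, e1, Fin.sum_univ_four]
  · linear_combination x / 2 * h
  · linear_combination x / 2 * h

lemma nr_e1 (c : ℝ × ℝ) (x : ℝ) : lam (nr c) (x • e1) =
    (WithLp.toLp 2 ![x / 2 * (1 + c.1 ^ 2 + c.2 ^ 2), x / 2 * (1 - c.1 ^ 2 - c.2 ^ 2), x * c.1,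
      x * c.2] : Mink) := by
  ext n
  fin_cases n <;> simp [lam_apply, nr, e1, Fin.sum_univ_four] <;> ring

/-- the smeared functional, in momentum space -/
def Pf (μ : Measure Mink) (h : D → Mink → ℂ) (F : 𝓢(Mink, ℂ)) (y : D) : ℂ :=
  ∫ p, conj (mft F p) * h y p ∂μ

/-- the functional restricted to the null direction -/
def Nf (μ : Measure Mink) (h : D → Mink → ℂ) (F : 𝓢(Mink, ℂ)) (y : D) : ℂ :=
  ∫ p, conj (mft F (pm p • e1)) * h y p ∂μ

/-- covariance of the functional -/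
def Cvf (Q : GF.Theory D) (μ : Measure Mink) (h : D → Mink → ℂ) : Prop :=
  ∀ (F : 𝓢(Mink, ℂ)) (s : ℝ) (hs : 0 < s) (L : Ix → V) (hL : GF.IsLor L) (y : D),
    Pf μ h F (Q.U s L 0 y) = (s ^ 2 : ℝ) * Pf μ h (simS s hs hL 0 F) y

section

variable {μ : Measure Mink} {h : D → Mink → ℂ}

lemma cont_mft (F : 𝓢(Mink, ℂ)) : Continuous (mft F) := by
  have : mft F = fun p => mftS F p := by
    funext p
    exact (mftS_apply F p).symm
  rw [this]
  exact (mftS F).continuous

lemma bdd_mft (F : 𝓢(Mink, ℂ)) : ∃ C : ℝ, 0 ≤ C ∧ ∀ p, ‖mft F p‖ ≤ C := by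
  obtain ⟨C, hC⟩ := (mftS F).decay 0 0
  refine ⟨max C 0, le_max_right _ _, fun p => ?_⟩
  have := hC.2 p
  rw [pow_zero, one_mul, norm_iteratedFDeriv_zero, mftS_apply] at this
  exact this.trans (le_max_left _ _)

lemma lim_boost (K : Cmp Q H μ h) (F : 𝓢(Mink, ℂ)) (y : D) {f : ℝ → Mink → Mink}
    {g : Mink → Mink} (hf : ∀ t, Continuous (f t))
    (hlim : ∀ p, Tendsto (fun t => f t p) atTop (𝓝 (g p))) :
    Tendsto (fun t : ℝ => ∫ p, conj (mft F (f t p)) * h y p ∂μ) atTop
      (𝓝 (∫ p, conj (mft F (g p)) * h y p ∂μ)) := by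
  obtain ⟨C, hC0, hC⟩ := bdd_mft F
  refine tendsto_integral_filter_of_dominated_convergence (fun p => C * ‖h y p‖)
    (Eventually.of_forall fun t => ?_) (Eventually.of_forall fun t =>
      Eventually.of_forall fun p => ?_) ((K.int y).norm.const_mul C)
    (Eventually.of_forall fun p => ?_)
  · exact ((Complex.continuous_conj.comp ((cont_mft F).comp (hf t))).aestronglyMeasurable).mul
      (K.int y).aestronglyMeasurable
  · rw [norm_mul, RCLike.norm_conj]
    exact mul_le_mul_of_nonneg_right (hC _) (norm_nonneg _)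
  · have h1 : Tendsto (fun t => conj (mft F (f t p))) atTop (𝓝 (conj (mft F (g p)))) :=
      ((Complex.continuous_conj.comp (cont_mft F)).tendsto _).comp (hlim p)
    exact h1.mul_const _

lemma Pf_Wd (hcv : Cvf Q μ h) (F : 𝓢(Mink, ℂ)) (t : ℝ) (y : D) :
    Pf μ h F (H496.Wd Q t y) = (((Real.exp t ^ 2)⁻¹ : ℝ) : ℂ) *
      ∫ p, conj (mft F (Real.exp (-t) • lam (mBoost t) p)) * h y p ∂μ := by
  have h1 := hcv F (Real.exp t) (Real.exp_pos t) (mBoost t) (isLor_boost t) y
  have h2 : Pf μ h F (H496.Wd Q t y) = Pf μ h F (Q.U (Real.exp t) (mBoost t) 0 y) := rfl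
  rw [h2, h1]
  unfold Pf
  have e : ∀ p, conj (mft (simS (Real.exp t) (Real.exp_pos t) (isLor_boost t) 0 F) p) * h y p =
      (((Real.exp t ^ 4)⁻¹ : ℝ) : ℂ) *
        (conj (mft F (Real.exp (-t) • lam (mBoost t) p)) * h y p) := by
    intro p
    rw [mft_sim0, map_mul, conj_ofReal, ← Real.exp_neg]
    ring
  simp only [e]
  rw [integral_const_mul, ← mul_assoc, ← ofReal_mul]
  congr 2
  have := (Real.exp_pos t).ne'
  field_simp

variable (K : Cmp Q H μ h) (hcv : Cvf Q μ h)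
include K hcv

lemma lim_Wd (F : 𝓢(Mink, ℂ)) (y : D) :
    Tendsto (fun t : ℝ => ((Real.exp t ^ 2 : ℝ) : ℂ) * Pf μ h F (H496.Wd Q t y)) atTop
      (𝓝 (Nf μ h F y)) := by
  have h1 := lim_boost K F y (f := fun t p => Real.exp (-t) • lam (mBoost t) p)
    (g := fun p => pm p • e1) (fun t => (continuous_lam (mBoost t)).const_smul (Real.exp (-t))) tendsto_boost
  refine h1.congr fun t => ?_
  rw [Pf_Wd hcv, ← mul_assoc, ← ofReal_mul]
  have : Real.exp t ^ 2 * (Real.exp t ^ 2)⁻¹ = 1 := by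
    have := (Real.exp_pos t).ne'
    field_simp
  rw [this, ofReal_one, one_mul]

lemma Nf_Rn (F : 𝓢(Mink, ℂ)) (c : ℝ × ℝ) (y : D) : Nf μ h F (Rn Q c y) = Nf μ h F y := by
  have h1 := lim_boost K F (Rn Q c y) (f := fun t p => Real.exp (-t) • lam (mBoost t) p)
    (g := fun p => pm p • e1) (fun t => (continuous_lam (mBoost t)).const_smul (Real.exp (-t))) tendsto_boost
  have h2 := lim_boost K F y (f := fun t p => Real.exp (-t) • lam (mBoost t) (lam (nr c) p))
    (g := fun p => pm p • e1)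
    (fun t => ((continuous_lam (mBoost t)).comp (continuous_lam (nr c))).const_smul
      (Real.exp (-t)))
    (fun p => by
      have := tendsto_boost (lam (nr c) p)
      rwa [pm_nr] at this)
  refine tendsto_nhds_unique h1 (h2.congr fun t => ?_)
  set F' := simS (Real.exp t) (Real.exp_pos t) (isLor_boost t) 0 F with hF'
  have e3 : ∀ (z : D) (q : Mink → Mink), ∫ p, conj (mft F (Real.exp (-t) • lam (mBoost t) (q p))) *
      h z p ∂μ = ((Real.exp t ^ 4 : ℝ) : ℂ) * ∫ p, conj (mft F' (q p)) * h z p ∂μ := by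
    intro z q
    rw [← integral_const_mul]
    congr 1
    ext p
    rw [hF', mft_sim0, map_mul, conj_ofReal, ← Real.exp_neg, ← mul_assoc, ← mul_assoc,
      ← ofReal_mul]
    have : Real.exp t ^ 4 * (Real.exp t ^ 4)⁻¹ = 1 := by
      have := (Real.exp_pos t).ne'
      field_simp
    rw [this, ofReal_one, one_mul]
  have e4 := e3 (Rn Q c y) (fun p => p)
  have e5 := e3 y (fun p => lam (nr c) p)
  rw [e4, e5]
  congr 1
  have h3 := hcv F' 1 one_pos (nr c) (isLor_nr c) y
  unfold Pf at h3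
  have e6 : (Q.U 1 (nr c) 0 y) = Rn Q c y := rfl
  rw [e6] at h3
  rw [h3, one_pow, ofReal_one, one_mul]
  congr 1
  ext p
  rw [mft_sim0 one_pos (isLor_nr c) F' p, one_pow, inv_one, ofReal_one, one_mul, one_smul]

end

end Vale.Agent.P352.H246D

end
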