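import Vale.Agent.P352.H496.Defs4

open MeasureTheory Filter Topology
open scoped ComplexConjugate

namespace Vale.Agent.P352.H246D

open GF H246 H496
open UniformSpace (Completion)

noncomputable section

variable {D : Type*} [NormedAddCommGroup D] [InnerProductSpace ℂ D]

/-- The moment `⟨l(f), G_a l(f)⟩` of the null energy is finite, that is, the vector `l(f)` is in
the form domain of the positive operator `G_a`, for one test function `f` whose Fourier transform
does not vanish at some null vector `p`. -/
def Mom (G : V → D → D) (l : Fn → Completion D) (a : V) : Prop :=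
  ∃ (f : Fn) (p : V) (C : ℝ), IsTest f ∧ IsNull p ∧
    ∫ x, Complex.exp (Complex.I * mdot p x) * f x ≠ 0 ∧
    ∀ v : D, ‖inner ℂ (l f) ((G a v : D) : Completion D)‖ ^ 2 ≤ C * (inner ℂ v (G a v)).re

end

end Vale.Agent.P352.H246D
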