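import Vale.Agent.P352.H246.Dom9
import Vale.Agent.P352.H246.DomDefs
import Vale.Agent.P352.H746.InvDefs

set_option linter.all false

noncomputable section

open MeasureTheory SchwartzMap Complex Filter Topology
open scoped SchwartzMap ComplexConjugate ENNReal LineDeriv ContDiff FourierTransform

namespace Vale.Agent.P352.H246D

open GF (Ix V Fn Sch ev pd bar sim bas o)
open H246 H496
open UniformSpace (Completion)

variable {D : Type*} [NormedAddCommGroup D] [InnerProductSpace ℂ D]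
variable {Q : GF.Theory D} {T : Ix → Ix → GF.Fld D}
variable {H : D → D} {alg : Set V → Set (D → D)} {S : V → ℝ → D → D} {G : V → D → D}

/-- null vectors near the null direction -/
lemma exists_q {q : Mink} (hq : mdot q q = 0) (h0 : 0 < q 0) (hpm : 0 ≤ pm q) {U : Set Mink}
    (hU : U ∈ 𝓝 q) : ∃ q' ∈ U, mdot q' q' = 0 ∧ 0 < pm q' := by
  rcases hpm.lt_or_eq with h | h
  · exact ⟨q, mem_of_mem_nhds hU, hq, h⟩
  · have h1 : q 0 + q 1 = 0 := h.symm
    have h2 : (q 0 - q 1) * (q 0 + q 1) = q 2 ^ 2 + q 3 ^ 2 := by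
      unfold mdot at hq
      linear_combination hq
    rw [h1, mul_zero] at h2
    have h3 : q 2 = 0 := by nlinarith [sq_nonneg (q 2), sq_nonneg (q 3)]
    have h4 : q 3 = 0 := by nlinarith [sq_nonneg (q 2), sq_nonneg (q 3)]
    obtain ⟨r, hs⟩ : ∃ r : ℝ, r ^ 2 = 2 * q 0 := ⟨Real.sqrt (2 * q 0), Real.sq_sqrt (by positivity)⟩
    set g : ℝ → Mink := fun ε => WithLp.toLp 2 ![(ε ^ 2 + 2 * q 0) / 2, (ε ^ 2 - 2 * q 0) / 2,
      ε * r, 0] with hg
    have hc : Continuous g := by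
      rw [hg]
      refine (PiLp.continuous_toLp 2 _).comp (continuous_pi fun n => ?_)
      fin_cases n <;> simp <;> fun_prop
    have hg0 : g 0 = q := by
      rw [hg]
      ext n
      fin_cases n
      · simp
      · simp; linarith
      · simp [h3]
      · simp [h4]
    have h5 : g ⁻¹' U ∈ 𝓝 (0 : ℝ) := by
      apply hc.continuousAt.preimage_mem_nhds
      rw [hg0]
      exact hU
    obtain ⟨δ, hδ, hb⟩ := Metric.mem_nhds_iff.1 h5
    have h6 : δ / 2 ∈ Metric.ball (0 : ℝ) δ := by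
      rw [Metric.mem_ball, dist_zero_right, Real.norm_of_nonneg (by positivity)]
      linarith
    refine ⟨g (δ / 2), hb h6, ?_, ?_⟩
    · simp only [hg, mdot]
      simp
      linear_combination (-((δ / 2) ^ 2)) * hs
    · simp only [hg, pm]
      simp
      have : 0 < (δ / 2) ^ 2 := by positivity
      linarith

lemma null_pm {q : Mink} (hq : mdot q q = 0) (h0 : 0 < q 0) : 0 ≤ pm q := by
  have h2 : (q 0 - q 1) * pm q = q 2 ^ 2 + q 3 ^ 2 := by
    unfold mdot at hq
    unfold pm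
    linear_combination hq
  by_contra h
  push Not at h
  have h3 : q 0 + q 1 < 0 := h
  have h4 : 0 < q 0 - q 1 := by linarith
  nlinarith [sq_nonneg (q 2), sq_nonneg (q 3)]

/-- a null vector that is not parallel to the null direction -/
lemma exists_p {a p : V} (ha : IsNull a) (hp : IsNull p) (F : 𝓢(Mink, ℂ))
    (hne : mft F (WithLp.toLp 2 p) ≠ 0) : ∃ p' : V, GF.mdot p' p' = 0 ∧ 0 < GF.mdot a p' ∧
      mft F (WithLp.toLp 2 p') ≠ 0 := by
  obtain ⟨θ, ψ, hrot⟩ := exists_rot ha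
  have hL := isLor_Rt θ ψ
  have hr : 0 < (a 0)⁻¹ := inv_pos.2 ha.2
  set P : Mink := WithLp.toLp 2 p with hP
  set q : Mink := lam (linv (Rt θ ψ)) P with hq
  have hqq : mdot q q = 0 := by
    rw [hq, mdot_lam (isLor_linv hL)]
    exact (mdot_eq P P).trans hp.1
  have hlq : lam (Rt θ ψ) q = P := by rw [hq, lam_linv hL]
  have e3 : lam (Rt θ ψ) a0 = (a 0)⁻¹ • (WithLp.toLp 2 a : Mink) := by
    have h1 := toLp_sim (Rt θ ψ) (nu (-1))
    rw [hrot] at h1
    exact h1.symm
  have hq0 : 0 < q 0 := by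
    have h4 : 0 < P 0 := hp.2
    have h5 : (lam (Rt θ ψ) q) 0 = q 0 := by
      simp [lam_apply, Rt, Fin.sum_univ_four]
    rw [hlq] at h5
    linarith
  have hU : {x : Mink | mft F (lam (Rt θ ψ) x) ≠ 0} ∈ 𝓝 q := by
    refine IsOpen.mem_nhds (isOpen_ne_fun ((cont_mft F).comp (continuous_lam _))
      continuous_const) ?_
    show mft F (lam (Rt θ ψ) q) ≠ 0
    rw [hlq]
    exact hne
  obtain ⟨q', hq'U, hq'q, hq'p⟩ := exists_q hqq hq0 (null_pm hqq hq0) hU
  have e4 : mdot (lam (Rt θ ψ) q') (lam (Rt θ ψ) q') = 0 := by rw [mdot_lam hL, hq'q]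
  have e5 : mdot (lam (Rt θ ψ) q') (lam (Rt θ ψ) a0) = pm q' := by
    rw [mdot_lam hL]
    have := mdot_a0 q' 1
    rw [one_smul, one_mul] at this
    exact this
  rw [e3, mdot_smul_right, mdot_comm] at e5
  have e6 : (a 0)⁻¹ * GF.mdot a (lam (Rt θ ψ) q').ofLp = pm q' := by
    rw [← e5]
    congr 1
    exact (mdot_eq (WithLp.toLp 2 a : Mink) (lam (Rt θ ψ) q')).symm
  refine ⟨(lam (Rt θ ψ) q').ofLp, ?_, ?_, hq'U⟩
  · exact (mdot_eq (lam (Rt θ ψ) q') (lam (Rt θ ψ) q')).symm.trans e4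
  · by_contra hcon
    push Not at hcon
    have := mul_nonpos_of_nonneg_of_nonpos hr.le hcon
    linarith

/-- the form domain criterion -/
theorem mom_inv (hT : Q.IsStress T) (N : CNet Q H alg S) (Gg : Gnr Q alg S G)
    {l : Fn → Completion D} (hl : IsPot Q T l) (h : ∃ a, IsNull a ∧ Mom G l a) :
    H746.Inv S l := by
  obtain ⟨a, ha, f, p, C, hf, hp, hne, hb⟩ := h
  obtain ⟨F, rfl⟩ := exists_fl hf
  rw [mft_V] at hne
  obtain ⟨p', h1, h2, h3⟩ := exists_p ha hp F hne
  rw [← mft_V] at h3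
  exact form_inv hT N Gg hl ha hf h1 h2 h3 hb

end Vale.Agent.P352.H246D

end
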