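import Vale.Agent.P352.H246.Dom1

set_option linter.all false

noncomputable section

open MeasureTheory SchwartzMap Complex Filter Topology
open scoped SchwartzMap ComplexConjugate ENNReal LineDeriv ContDiff FourierTransform

namespace Vale.Agent.P352.H246D

open GF (Ix V Fn Sch ev pd bar sim bas o)
open H246 H496
open UniformSpace (Completion)

variable {D : Type*} [NormedAddCommGroup D] [InnerProductSpace ℂ D]
variable {Q : GF.Theory D}
variable {H : D → D} {alg : Set V → Set (D → D)} {S : V → ℝ → D → D} {G : V → D → D}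

/-- a bounded functional with the same value on many almost orthogonal vectors vanishes -/
lemma erg (f : D → ℂ) (hadd : ∀ x y, f (x + y) = f x + f y) {C A : ℝ} {z : ℂ}
    (hb : ∀ x, ‖f x‖ ≤ C * ‖x‖) (hex : ∀ n : ℕ, ∃ x : ℕ → D, (∀ i, f (x i) = z) ∧
      (∀ i, ‖x i‖ ^ 2 ≤ A) ∧ ∀ i j, i ≠ j → (n : ℝ) * ‖inner ℂ (x i) (x j)‖ ≤ 1) : z = 0 := by
  have h0 : f 0 = 0 := by
    have := hadd 0 0
    rw [add_zero] at this
    linear_combination -this
  have hsum : ∀ (x : ℕ → D) n, f (∑ i ∈ Finset.range n, x i) = ∑ i ∈ Finset.range n, f (x i) := by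
    intro x n
    induction n with
    | zero => simp [h0]
    | succ n ih => rw [Finset.sum_range_succ, hadd, ih, Finset.sum_range_succ]
  have hC : 0 ≤ C ^ 2 := sq_nonneg C
  have key : ∀ n : ℕ, 0 < n → (n : ℝ) * ‖z‖ ^ 2 ≤ C ^ 2 * (A + 1) := by
    intro n hn
    obtain ⟨x, hx1, hx2, hx3⟩ := hex n
    set w := ∑ i ∈ Finset.range n, x i with hw
    have hn0 : (0 : ℝ) < n := by exact_mod_cast hn
    have h1 : f w = n * z := by
      rw [hw, hsum]
      simp [hx1]
    have h2 : ‖w‖ ^ 2 ≤ n * (A + 1) := by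
      have h3 : ‖w‖ ^ 2 = ‖inner ℂ w w‖ := by
        rw [inner_self_eq_norm_sq_to_K, norm_pow]
        simp
      rw [h3, hw, sum_inner]
      refine (norm_sum_le _ _).trans ?_
      have h4 : ∀ i ∈ Finset.range n, ‖inner ℂ (x i) (∑ j ∈ Finset.range n, x j)‖ ≤ A + 1 := by
        intro i hi
        rw [inner_sum]
        refine (norm_sum_le _ _).trans ?_
        rw [← Finset.add_sum_erase _ _ hi]
        refine add_le_add ?_ ?_
        · have : ‖inner ℂ (x i) (x i)‖ = ‖x i‖ ^ 2 := by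
            rw [inner_self_eq_norm_sq_to_K, norm_pow]
            simp
          rw [this]
          exact hx2 i
        · calc ∑ j ∈ (Finset.range n).erase i, ‖inner ℂ (x i) (x j)‖
              ≤ ∑ j ∈ (Finset.range n).erase i, 1 / (n : ℝ) := by
                refine Finset.sum_le_sum fun j hj => ?_
                rw [le_div_iff₀ hn0, mul_comm]
                exact hx3 i j (Finset.ne_of_mem_erase hj).symm
            _ = ((Finset.range n).erase i).card * (1 / (n : ℝ)) := by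
                rw [Finset.sum_const, nsmul_eq_mul]
            _ ≤ n * (1 / (n : ℝ)) := by
                have h5 : ((Finset.range n).erase i).card ≤ n := by
                  calc _ ≤ (Finset.range n).card := Finset.card_le_card (Finset.erase_subset _ _)
                    _ = n := Finset.card_range n
                have h6 : (((Finset.range n).erase i).card : ℝ) ≤ n := by exact_mod_cast h5
                have : 0 ≤ 1 / (n : ℝ) := by positivity
                gcongr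
            _ = 1 := by field_simp
      refine (Finset.sum_le_sum h4).trans ?_
      rw [Finset.sum_const, Finset.card_range, nsmul_eq_mul]
    have h3 := hb w
    rw [h1, norm_mul] at h3
    have h4 : ‖(n : ℂ)‖ = n := by simp
    rw [h4] at h3
    have h5 : ((n : ℝ) * ‖z‖) ^ 2 ≤ (C * ‖w‖) ^ 2 := by
      apply pow_le_pow_left₀ (by positivity) h3
    have h6 : (n : ℝ) * (n * ‖z‖ ^ 2) ≤ n * (C ^ 2 * (A + 1)) := by
      calc (n : ℝ) * (n * ‖z‖ ^ 2) = ((n : ℝ) * ‖z‖) ^ 2 := by ring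
        _ ≤ (C * ‖w‖) ^ 2 := h5
        _ = C ^ 2 * ‖w‖ ^ 2 := by ring
        _ ≤ C ^ 2 * (n * (A + 1)) := by gcongr
        _ = n * (C ^ 2 * (A + 1)) := by ring
    exact le_of_mul_le_mul_left h6 hn0
  by_contra hz
  have hz0 : 0 < ‖z‖ ^ 2 := by
    have := norm_pos_iff.2 hz
    positivity
  obtain ⟨n, hn⟩ := exists_nat_gt (C ^ 2 * (A + 1) / ‖z‖ ^ 2)
  rw [div_lt_iff₀ hz0] at hn
  have h1 := key (n + 1) (Nat.succ_pos n)
  push_cast at h1
  nlinarith

/-- the bound -/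
def Bd (G : V → D → D) (μ : Measure Mink) (h : D → Mink → ℂ) (F : 𝓢(Mink, ℂ)) : Prop :=
  ∃ C : ℝ, ∀ v, ‖Pf μ h F (G (nu (-1)) v)‖ ≤ C * ‖v‖

section

variable {μ : Measure Mink} {h : D → Mink → ℂ}

lemma int_mf (K : Cmp Q H μ h) (F : 𝓢(Mink, ℂ)) {f : Mink → Mink} (hf : Continuous f) (y : D) :
    Integrable (fun p => conj (mft F (f p)) * h y p) μ := by
  obtain ⟨C, hC0, hC⟩ := bdd_mft F
  refine ((K.int y).norm.const_mul C).mono' ?_ (Eventually.of_forall fun p => ?_)
  · exact ((Complex.continuous_conj.comp ((cont_mft F).comp hf)).aestronglyMeasurable).mul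
      (K.int y).aestronglyMeasurable
  · rw [norm_mul, RCLike.norm_conj]
    exact mul_le_mul_of_nonneg_right (hC _) (norm_nonneg _)

lemma cont_pe : Continuous fun p : Mink => pm p • e1 := continuous_pm.smul continuous_const

lemma Nf_add (K : Cmp Q H μ h) (F : 𝓢(Mink, ℂ)) (x y : D) :
    Nf μ h F (x + y) = Nf μ h F x + Nf μ h F y := by
  unfold Nf
  rw [← integral_add (int_mf K F cont_pe x) (int_mf K F cont_pe y)]
  apply integral_congr_ae
  filter_upwards [K.hadd x y] with p hp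
  rw [hp]
  ring

lemma Pf_smul (K : Cmp Q H μ h) (F : 𝓢(Mink, ℂ)) (c : ℂ) (y : D) :
    Pf μ h F (c • y) = c * Pf μ h F y := by
  unfold Pf
  rw [← integral_const_mul]
  apply integral_congr_ae
  filter_upwards [K.hsmul c y] with p hp
  rw [hp]
  ring

variable (K : Cmp Q H μ h) (hcv : Cvf Q μ h) (N : CNet Q H alg S) (Gg : Gnr Q alg S G)
include K hcv N Gg

lemma Nf_bdd {F : 𝓢(Mink, ℂ)} {C : ℝ} (hb : ∀ v, ‖Pf μ h F (G (nu (-1)) v)‖ ≤ C * ‖v‖) (v : D) :
    ‖Nf μ h F (G (nu (-1)) v)‖ ≤ C * ‖v‖ := by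
  refine le_of_tendsto (lim_Wd K hcv F (G (nu (-1)) v)).norm (Eventually.of_forall fun t => ?_)
  rw [← Pf_smul K, ← C_Wd N Gg]
  refine (hb _).trans (le_of_eq ?_)
  congr 1
  exact U_nrmL (Real.exp_pos t) (isLor_boost t) v

lemma Nf_dlp {F : 𝓢(Mink, ℂ)} (hb : Bd G μ h F) (u : ℝ) (y : D) :
    Nf μ h F (G (nu (-1)) (dlp Q (u • a0) 3 y)) = 0 := by
  obtain ⟨C, hC⟩ := hb
  set w := dlp Q (u • a0) 3 y with hw
  obtain ⟨C', hC'⟩ := decay N u w y
  refine erg (fun v => Nf μ h F (G (nu (-1)) v)) (fun x y => by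
    rw [G_add N Gg null_m, Nf_add K]) (C := C) (A := ‖w‖ ^ 2)
    (fun x => Nf_bdd K hcv N Gg hC x) (fun n => ?_)
  set M : ℝ := n * |C'| with hM
  have hM0 : 0 ≤ M := by positivity
  refine ⟨fun i => Rn Q ((i : ℝ) * M, 0) w, fun i => ?_, fun i => ?_, fun i j hij => ?_⟩
  · simp only
    rw [C_Rn N Gg, Nf_Rn K hcv]
  · rw [Rn_norm]
  · rw [Rn_move N, Rn_Rn N]
    have h1 := hC' (-((i : ℝ) * M, 0) + ((j : ℝ) * M, 0))
    have h2 : M ≤ ‖(-((i : ℝ) * M, (0 : ℝ)) + ((j : ℝ) * M, 0))‖ := by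
      have e : (-((i : ℝ) * M, (0 : ℝ)) + ((j : ℝ) * M, 0)) = ((((j : ℝ) - i) * M), (0 : ℝ)) := by
        ext
        · simp; ring
        · simp
      rw [e]
      refine le_trans ?_ (norm_fst_le _)
      rw [Real.norm_eq_abs, abs_mul, abs_of_nonneg hM0]
      have h3 : (1 : ℝ) ≤ |(j : ℝ) - i| := by
        have h4 : (1 : ℤ) ≤ |(j : ℤ) - i| := by
          apply Int.one_le_abs
          intro h5
          apply hij
          omega
        exact_mod_cast h4
      nlinarith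
    set c := (-((i : ℝ) * M, (0 : ℝ)) + ((j : ℝ) * M, 0)) with hc
    have h3 : (1 + ‖c‖) ^ (-(3 : ℝ)) ≤ (1 + M)⁻¹ := by
      have e : (1 + ‖c‖) ^ (-(3 : ℝ)) = ((1 + ‖c‖) ^ 3)⁻¹ := by
        rw [Real.rpow_neg (by positivity)]
        norm_cast
      rw [e]
      apply inv_anti₀ (by positivity)
      have h4 : 1 + M ≤ 1 + ‖c‖ := by linarith
      have h5 : 1 ≤ 1 + ‖c‖ := by linarith [norm_nonneg c]
      calc 1 + M ≤ (1 + ‖c‖) ^ 1 := by rw [pow_one]; exact h4
        _ ≤ (1 + ‖c‖) ^ 3 := pow_le_pow_right₀ h5 (by norm_num)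
    have h4 : ‖inner ℂ w (Rn Q c w)‖ ≤ |C'| * (1 + M)⁻¹ := by
      refine h1.trans ?_
      calc C' * (1 + ‖c‖) ^ (-(3 : ℝ)) ≤ |C'| * (1 + ‖c‖) ^ (-(3 : ℝ)) := by
            apply mul_le_mul_of_nonneg_right (le_abs_self _)
            positivity
        _ ≤ _ := by gcongr
    calc (n : ℝ) * ‖inner ℂ w (Rn Q c w)‖ ≤ n * (|C'| * (1 + M)⁻¹) := by gcongr
      _ = M * (1 + M)⁻¹ := by rw [hM]; ring
      _ ≤ 1 := by
        rw [← div_eq_mul_inv, div_le_one (by positivity)]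
        linarith

omit hcv in
/-- Fourier transformed with respect to the light cone momentum -/
lemma cut_zero {F : 𝓢(Mink, ℂ)} {u : ℝ}
    (hz : ∀ y, Nf μ h F (G (nu (-1)) (dlp Q (u • a0) 3 y)) = 0) (y : D) {ρ : ℝ → ℂ}
    (hρ : Cut ρ) :
    ∫ p, ρ (pm p) * (conj (mft F (pm p • e1)) *
      ((exp (I * ((u * pm p : ℝ) : ℂ)) - 1) ^ 3 * h (G (nu (-1)) y) p)) ∂μ = 0 := by
  have hloc := K.loc
  have hf : ∀ t : ℝ, ∀ p, chr (t • a0) p = exp (I * ((t * pm p : ℝ) : ℂ)) := by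
    intro t p
    unfold chr
    rw [mdot_a0]
  have e : ∀ z : D, (fun p => conj (mft F (pm p • e1)) *
      ((exp (I * ((u * pm p : ℝ) : ℂ)) - 1) ^ 3 * h z p)) =ᵐ[μ]
      fun p => conj (mft F (pm p • e1)) * h (dlp Q (u • a0) 3 z) p := by
    intro z
    filter_upwards [K.dlp (u • a0) 3 z] with p hp
    rw [hp, hf]
  refine four_zero (h := fun p => conj (mft F (pm p • e1)) *
      ((exp (I * ((u * pm p : ℝ) : ℂ)) - 1) ^ 3 * h (G (nu (-1)) y) p)) ?_ (fun t => ?_) hρ
  · exact (int_mf K F cont_pe _).congr (e _).symm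
  · have h1 := hz (U1 Q (t • a0) y)
    rw [C_dlp N Gg, C_U1 N Gg] at h1
    unfold Nf at h1
    rw [← h1]
    apply integral_congr_ae
    filter_upwards [e (U1 Q (t • a0) (G (nu (-1)) y)), K.hU (t • a0) (G (nu (-1)) y)] with p h2 h3
    rw [← h2, h3, hf]
    ring

end

end Vale.Agent.P352.H246D

end
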