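import Vale.Agent.P352.H246.Dom2

set_option linter.all false

noncomputable section

open MeasureTheory SchwartzMap Complex Filter Topology
open scoped SchwartzMap ComplexConjugate ENNReal LineDeriv ContDiff FourierTransform

namespace Vale.Agent.P352.H246D

open GF (Ix V Fn Sch ev pd bar sim bas o)
open H246 H496
open UniformSpace (Completion)

variable {D : Type*} [NormedAddCommGroup D] [InnerProductSpace ℂ D]
variable {Q : GF.Theory D}
variable {H : D → D} {alg : Set V → Set (D → D)} {S : V → ℝ → D → D} {G : V → D → D}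

lemma exp_ne1 {y : ℝ} (h0 : 0 < y) (h1 : y ≤ 1) : exp (I * ((y : ℝ) : ℂ)) - 1 ≠ 0 := by
  intro h
  have h3 : (exp (I * (y : ℂ)) - 1).im = Real.sin y := by
    rw [mul_comm, exp_mul_I, ← ofReal_cos, ← ofReal_sin, sub_im, add_im, ofReal_im,
      im_ofReal_mul, I_im, mul_one, one_im, zero_add, sub_zero]
  rw [h, zero_im] at h3
  have := Real.sin_pos_of_pos_of_lt_pi h0 (by linarith [Real.two_le_pi])
  linarith

lemma contDiff_mft (F : 𝓢(Mink, ℂ)) : ContDiff ℝ ∞ (mft F) := by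
  have : mft F = fun p => mftS F p := by
    funext p
    exact (mftS_apply F p).symm
  rw [this]
  exact (mftS F).smooth ⊤

/-- division by the profile -/
lemma cut_div (F : 𝓢(Mink, ℂ)) {α β : ℝ} (hα : 0 < α) (hβ : 0 < β)
    (hF : ∀ x ∈ Set.Icc α β, mft F (x • e1) ≠ 0) {r : ℝ → ℝ} (hr : ContDiff ℝ ∞ r)
    (hs : ∀ x, r x ≠ 0 → x ∈ Set.Icc α β) :
    Cut fun x => (r x : ℂ) / (conj (mft F (x • e1)) *
      (exp (I * ((β⁻¹ * x : ℝ) : ℂ)) - 1) ^ 3) := by
  have hne : ∀ x ∈ Set.Icc α β, conj (mft F (x • e1)) *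
      (exp (I * ((β⁻¹ * x : ℝ) : ℂ)) - 1) ^ 3 ≠ 0 := by
    intro x hx
    refine mul_ne_zero ?_ (pow_ne_zero 3 (exp_ne1 ?_ ?_))
    · rw [Ne, map_eq_zero]
      exact hF x hx
    · have := lt_of_lt_of_le hα hx.1
      positivity
    · rw [inv_mul_le_iff₀ hβ, mul_one]
      exact hx.2
  refine ⟨?_, α, β, hα, fun x hx => hs x fun h => hx ?_⟩
  · rw [contDiff_iff_contDiffAt]
    intro x
    by_cases hx : x ∈ Set.Icc α β
    · have h1 : ContDiffAt ℝ ∞ (fun x : ℝ => (r x : ℂ)) x :=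
        (Complex.ofRealCLM.contDiff.comp hr).contDiffAt
      have h2 : ContDiff ℝ ∞ (fun x : ℝ => conj (mft F (x • e1)) *
          (exp (I * ((β⁻¹ * x : ℝ) : ℂ)) - 1) ^ 3) := by
        have h3 : ContDiff ℝ ∞ (fun x : ℝ => I * ((β⁻¹ * x : ℝ) : ℂ)) := by
          have h4 : ContDiff ℝ ∞ (fun x : ℝ => β⁻¹ * x) := by fun_prop
          exact contDiff_const.mul (Complex.ofRealCLM.contDiff.comp h4)
        have h5 : ContDiff ℝ ∞ (fun x : ℝ => conj (mft F (x • e1))) := by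
          have h6 : ContDiff ℝ ∞ (fun x : ℝ => x • e1) := by fun_prop
          exact Complex.conjCLE.contDiff.comp ((contDiff_mft F).comp h6)
        exact h5.mul ((h3.cexp.sub contDiff_const).pow 3)
      have h3 := h1.mul (h2.contDiffAt.inv (hne x hx))
      exact h3
    · have h1 : (fun x => (r x : ℂ) / (conj (mft F (x • e1)) *
          (exp (I * ((β⁻¹ * x : ℝ) : ℂ)) - 1) ^ 3)) =ᶠ[𝓝 x] fun _ => 0 := by
        filter_upwards [isClosed_Icc.isOpen_compl.mem_nhds hx] with y hy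
        have : r y = 0 := by
          by_contra h
          exact hy (hs y h)
        rw [this]
        simp
      exact contDiffAt_const.congr_of_eventuallyEq h1
  · rw [h]
    simp

section

variable {μ : Measure Mink} {h : D → Mink → ℂ}

variable (K : Cmp Q H μ h) (hcv : Cvf Q μ h) (N : CNet Q H alg S) (Gg : Gnr Q alg S G)
include K hcv N Gg

omit hcv in
lemma bump_zero {F : 𝓢(Mink, ℂ)}
    (hz : ∀ (u : ℝ) y, Nf μ h F (G (nu (-1)) (dlp Q (u • a0) 3 y)) = 0) {α β : ℝ} (hα : 0 < α) (hβ : 0 < β)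
    (hF : ∀ x ∈ Set.Icc α β, mft F (x • e1) ≠ 0) {r : ℝ → ℝ} (hr : ContDiff ℝ ∞ r)
    (hs : ∀ x, r x ≠ 0 → x ∈ Set.Icc α β) (y : D) :
    ∫ p, (r (pm p) : ℂ) * h (G (nu (-1)) y) p ∂μ = 0 := by
  rw [← cut_zero K N Gg (hz β⁻¹) y (cut_div F hα hβ hF hr hs)]
  congr 1
  ext p
  by_cases hp : r (pm p) = 0
  · rw [hp]; simp
  · have hx := hs _ hp
    have h1 : conj (mft F (pm p • e1)) ≠ 0 := by
      rw [Ne, map_eq_zero]
      exact hF _ hx
    have h2 : (exp (I * ((β⁻¹ * pm p : ℝ) : ℂ)) - 1) ^ 3 ≠ 0 := by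
      refine pow_ne_zero 3 (exp_ne1 ?_ ?_)
      · have := lt_of_lt_of_le hα hx.1
        positivity
      · rw [inv_mul_le_iff₀ hβ, mul_one]
        exact hx.2
    set A := conj (mft F (pm p • e1))
    set B := (exp (I * ((β⁻¹ * pm p : ℝ) : ℂ)) - 1) ^ 3
    show (r (pm p) : ℂ) * h (G (nu (-1)) y) p =
      (r (pm p) : ℂ) / (A * B) * (A * (B * h (G (nu (-1)) y) p))
    field_simp

omit K in
lemma Bd_boost (K : Cmp Q H μ h) {F : 𝓢(Mink, ℂ)} (hb : Bd G μ h F) (t : ℝ) :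
    Bd G μ h (simS 1 one_pos (isLor_boost t) 0 F) := by
  obtain ⟨C, hC⟩ := hb
  refine ⟨Real.exp (-t) * C, fun v => ?_⟩
  have h1 := hcv F 1 one_pos (mBoost t) (isLor_boost t) (G (nu (-1)) v)
  rw [one_pow, ofReal_one, one_mul] at h1
  rw [← h1]
  have h2 := G_U N Gg null_m one_pos (Real.exp_pos (-t)) (isLor_boost t) (boost_nu t) v
  have h3 : Q.U 1 (mBoost t) 0 (G (nu (-1)) v) =
      ((Real.exp (-t) : ℝ) : ℂ) • G (nu (-1)) (Q.U 1 (mBoost t) 0 v) := by
    rw [h2, smul_smul, ← ofReal_mul]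
    have : Real.exp (-t) * (1 / Real.exp (-t)) = 1 := by
      have := (Real.exp_pos (-t)).ne'
      field_simp
    rw [this, ofReal_one, one_smul]
  rw [h3, Pf_smul K, norm_mul, norm_real, Real.norm_of_nonneg (Real.exp_pos _).le, mul_assoc]
  refine mul_le_mul_of_nonneg_left ?_ (Real.exp_pos _).le
  refine (hC _).trans (le_of_eq ?_)
  congr 1
  exact U_nrmL one_pos (isLor_boost t) v

omit hcv in
lemma bump_zero_t {F : 𝓢(Mink, ℂ)} (hz : ∀ (t u : ℝ) y,
      Nf μ h (simS 1 one_pos (isLor_boost t) 0 F) (G (nu (-1)) (dlp Q (u • a0) 3 y)) = 0) {α β : ℝ} (hα : 0 < α) (hβ : 0 < β)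
    (hF : ∀ x ∈ Set.Icc α β, mft F (x • e1) ≠ 0) {r : ℝ → ℝ} (hr : ContDiff ℝ ∞ r)
    (hs : ∀ x, r x ≠ 0 → x ∈ Set.Icc α β) (y : D) (t : ℝ) :
    ∫ p, (r (Real.exp t * pm p) : ℂ) * h (G (nu (-1)) y) p ∂μ = 0 := by
  have he := Real.exp_pos t
  have hsw : ∀ x, x ∈ Set.Icc (α / Real.exp t) (β / Real.exp t) ↔
      Real.exp t * x ∈ Set.Icc α β := by
    intro x
    rw [Set.mem_Icc, Set.mem_Icc, div_le_iff₀ he, le_div_iff₀ he, mul_comm x]
  refine bump_zero K N Gg (hz t) (α := α / Real.exp t)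
    (β := β / Real.exp t) (by positivity) (by positivity) (fun x hx => ?_)
    (r := fun x => r (Real.exp t * x)) (hr.comp (by fun_prop)) (fun x hx => ?_) y
  · rw [mft_sim0, one_pow, inv_one, ofReal_one, one_mul, one_smul, boost_e1]
    exact hF _ ((hsw x).1 hx)
  · exact (hsw x).2 (hs _ hx)

end

end Vale.Agent.P352.H246D

end
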