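import Vale.Agent.P352.H246.Dom3

set_option linter.all false

noncomputable section

open MeasureTheory SchwartzMap Complex Filter Topology
open scoped SchwartzMap ComplexConjugate ENNReal LineDeriv ContDiff FourierTransform

namespace Vale.Agent.P352.H246D

open GF (Ix V Fn Sch ev pd bar sim bas o)
open H246 H496
open UniformSpace (Completion)

variable {D : Type*} [NormedAddCommGroup D] [InnerProductSpace ℂ D]
variable {Q : GF.Theory D}
variable {H : D → D} {alg : Set V → Set (D → D)} {S : V → ℝ → D → D} {G : V → D → D}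

/-! ### Averages over the boosts -/

section

variable {r : ℝ → ℝ} {α β : ℝ} (hr : Continuous r) (hα : 0 < α) (hβ : 0 < β)
variable (h0 : ∀ x, 0 ≤ r x) (hs : ∀ x, r x ≠ 0 → x ∈ Set.Icc α β)
include hr hα hβ hs

lemma cs_exp : HasCompactSupport fun t : ℝ => r (Real.exp t) := by
  refine HasCompactSupport.intro (isCompact_Icc (a := Real.log α) (b := Real.log β)) fun t ht => ?_
  by_contra h
  apply ht
  obtain ⟨h1, h2⟩ := hs _ h
  exact ⟨(Real.log_le_iff_le_exp hα).2 h1, (Real.le_log_iff_exp_le hβ).2 h2⟩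

lemma int_exp : Integrable fun t : ℝ => r (Real.exp t) :=
  (hr.comp Real.continuous_exp).integrable_of_hasCompactSupport (cs_exp hr hα hβ hs)

omit hr hβ hα hs in
lemma exp_log {x : ℝ} (hx : 0 < x) (t : ℝ) : Real.exp t * x = Real.exp (t + Real.log x) := by
  rw [Real.exp_add, Real.exp_log hx]

lemma int_expx {x : ℝ} (hx : 0 < x) : Integrable fun t : ℝ => r (Real.exp t * x) := by
  simp only [exp_log hx]
  exact (int_exp hr hα hβ hs).comp_add_right (Real.log x)

omit hr hα hβ hs in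
lemma eq_expx {x : ℝ} (hx : 0 < x) : ∫ t : ℝ, r (Real.exp t * x) = ∫ t : ℝ, r (Real.exp t) := by
  simp only [exp_log hx]
  exact integral_add_right_eq_self (fun t => r (Real.exp t)) (Real.log x)

omit hr hβ in
lemma zero_expx {x : ℝ} (hx : x ≤ 0) (t : ℝ) : r (Real.exp t * x) = 0 := by
  by_contra h
  have h1 := (hs _ h).1
  have h2 := mul_nonpos_of_nonneg_of_nonpos (Real.exp_pos t).le hx
  linarith

end

lemma pm_nonneg {p : Mink} (hp : p ∈ fwdCone) : 0 ≤ pm p := by
  have := abs_le_of_mem_fwdCone hp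
  have := (abs_le.1 this).1
  unfold pm
  linarith

lemma pm_zero {p : Mink} (h : pm p = 0) : mass2 p ≤ 0 := by
  have h4 : mass2 p = (p 0 - p 1) * pm p - p 2 ^ 2 - p 3 ^ 2 := by
    unfold pm mass2 mdot; ring
  rw [h4, h]
  nlinarith [sq_nonneg (p 2), sq_nonneg (p 3)]

section

variable {μ : Measure Mink}

/-- averaging over the boosts -/
lemma avg_zero [SFinite μ] {f : Mink → ℂ} (hf : Integrable f μ) (hcone : ∀ᵐ p ∂μ, p ∈ fwdCone)
    (hz : ∀ᵐ p ∂μ, mass2 p ≤ 0 → f p = 0) {r : ℝ → ℝ} {α β : ℝ} (hr : Continuous r)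
    (hα : 0 < α) (hβ : 0 < β) (h0 : ∀ x, 0 ≤ r x) (hs : ∀ x, r x ≠ 0 → x ∈ Set.Icc α β)
    (hne : ∃ x, r x ≠ 0) (hzero : ∀ t : ℝ, ∫ p, (r (Real.exp t * pm p) : ℂ) * f p ∂μ = 0) :
    ∫ p, f p ∂μ = 0 := by
  set κ : ℝ := ∫ t : ℝ, r (Real.exp t) with hκ
  have hκ0 : 0 < κ := by
    obtain ⟨x, hx⟩ := hne
    have hx0 : 0 < x := lt_of_lt_of_le hα (hs x hx).1
    refine (hr.comp Real.continuous_exp).integral_pos_of_hasCompactSupport_nonneg_nonzero
      (cs_exp hr hα hβ hs) (fun t => h0 _) (x := Real.log x) ?_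
    show r (Real.exp (Real.log x)) ≠ 0
    rw [Real.exp_log hx0]
    exact hx
  have hpos : ∀ᵐ p ∂μ, 0 < pm p ∨ f p = 0 := by
    filter_upwards [hcone, hz] with p h1 h2
    rcases lt_or_eq_of_le (pm_nonneg h1) with h | h
    · exact Or.inl h
    · exact Or.inr (h2 (pm_zero h.symm))
  have hin : ∀ᵐ p ∂μ, ∫ t : ℝ, r (Real.exp t * pm p) * ‖f p‖ = κ * ‖f p‖ := by
    filter_upwards [hpos] with p hp
    rw [integral_mul_const]
    rcases hp with h | h
    · rw [eq_expx h]
    · rw [h]; simp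
  have hint : Integrable (fun q : Mink × ℝ => (r (Real.exp q.2 * pm q.1) : ℂ) * f q.1)
      (μ.prod volume) := by
    have c1 : Continuous fun q : Mink × ℝ => (r (Real.exp q.2 * pm q.1) : ℂ) := by
      have cp : Continuous fun q : Mink × ℝ => pm q.1 := continuous_pm.comp continuous_fst
      have ce : Continuous fun q : Mink × ℝ => Real.exp q.2 :=
        Real.continuous_exp.comp continuous_snd
      exact Complex.continuous_ofReal.comp (hr.comp (ce.mul cp))
    have hm : AEStronglyMeasurable (fun q : Mink × ℝ => (r (Real.exp q.2 * pm q.1) : ℂ) * f q.1)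
        (μ.prod volume) := c1.aestronglyMeasurable.mul hf.aestronglyMeasurable.comp_fst
    rw [integrable_prod_iff hm]
    have hnorm : ∀ p (t : ℝ), ‖(r (Real.exp t * pm p) : ℂ) * f p‖ =
        r (Real.exp t * pm p) * ‖f p‖ := by
      intro p t
      rw [norm_mul, norm_real, Real.norm_of_nonneg (h0 _)]
    refine ⟨?_, ?_⟩
    · filter_upwards [hpos] with p hp
      rcases hp with h | h
      · exact (int_expx hr hα hβ hs h).ofReal.mul_const _
      · simp [h]
    · simp only [hnorm]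
      exact (hf.norm.const_mul κ).congr (hin.mono fun p hp => hp.symm)
  have h1 : ∫ p, (∫ t : ℝ, (r (Real.exp t * pm p) : ℂ) * f p) ∂μ =
      ∫ t : ℝ, (∫ p, (r (Real.exp t * pm p) : ℂ) * f p ∂μ) := integral_integral_swap hint
  simp only [hzero, integral_zero] at h1
  have h2 : ∫ p, (∫ t : ℝ, (r (Real.exp t * pm p) : ℂ) * f p) ∂μ = (κ : ℂ) * ∫ p, f p ∂μ := by
    rw [← integral_const_mul]
    apply integral_congr_ae
    filter_upwards [hpos] with p hp
    rcases hp with h | h
    · show ∫ t : ℝ, (r (Real.exp t * pm p) : ℂ) * f p = (κ : ℂ) * f p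
      rw [integral_mul_const]
      congr 1
      rw [hκ, ← eq_expx h]
      exact integral_ofReal
    · simp [h]
  rw [h2] at h1
  have hκ1 : (κ : ℂ) ≠ 0 := by exact_mod_cast hκ0.ne'
  exact (mul_eq_zero.1 h1).resolve_left hκ1

variable {h : D → Mink → ℂ} (K : Cmp Q H μ h) (N : CNet Q H alg S)
variable (Gg : Gnr Q alg S G)
include K N Gg

/-- vanishing of the functional on the range of the generator -/
theorem dom_zero {F : 𝓢(Mink, ℂ)} (hz : ∀ (t u : ℝ) y,
      Nf μ h (simS 1 one_pos (isLor_boost t) 0 F) (G (nu (-1)) (dlp Q (u • a0) 3 y)) = 0) {s : ℝ} (hs : 0 < s)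
    (hF : mft F (s • e1) ≠ 0) (y : D) : ∫ p, h (G (nu (-1)) y) p ∂μ = 0 := by
  have hloc := K.loc
  have hc : Continuous fun x : ℝ => mft F (x • e1) := by
    have := cont_mft F
    exact this.comp (by fun_prop)
  have hU : {x : ℝ | mft F (x • e1) ≠ 0 ∧ 0 < x} ∈ 𝓝 s :=
    ((isOpen_ne_fun hc continuous_const).inter (isOpen_lt continuous_const continuous_id)).mem_nhds
      ⟨hF, hs⟩
  obtain ⟨ε, hε, hball⟩ := Metric.mem_nhds_iff.1 hU
  set b : ContDiffBump s := ⟨ε / 4, ε / 2, by positivity, by linarith⟩ with hb'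
  have hsub : ∀ x, b x ≠ 0 → x ∈ Set.Icc (s - ε / 2) (s + ε / 2) := by
    intro x hx
    have h1 : x ∈ Function.support b := hx
    rw [b.support_eq, Metric.mem_ball, Real.dist_eq, abs_lt] at h1
    have : b.rOut = ε / 2 := rfl
    rw [this] at h1
    exact ⟨by linarith [h1.1], by linarith [h1.2]⟩
  have hmem : ∀ x ∈ Set.Icc (s - ε / 2) (s + ε / 2), mft F (x • e1) ≠ 0 ∧ 0 < x := by
    intro x hx
    apply hball
    rw [Metric.mem_ball, Real.dist_eq, abs_lt]
    exact ⟨by linarith [hx.1], by linarith [hx.2]⟩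
  have hα : 0 < s - ε / 2 := (hmem _ ⟨le_rfl, by linarith⟩).2
  have hβ : 0 < s + ε / 2 := by linarith
  refine avg_zero (K.int _) K.cone (K.zero _) (r := fun x => b x) b.continuous hα hβ
    (fun x => b.nonneg) hsub ⟨s, ?_⟩ (fun t => ?_)
  · have : b s = 1 := b.one_of_mem_closedBall (Metric.mem_closedBall_self b.rIn_pos.le)
    rw [this]
    exact one_ne_zero
  · exact bump_zero_t K N Gg hz hα hβ (fun x hx => (hmem x hx).1) (r := fun x => b x)
      b.contDiff hsub y t

end

end Vale.Agent.P352.H246D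

end
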