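import Vale.Agent.P352.H246.Dom4
import Vale.Agent.P352.H496.CoreJ4

set_option linter.all false

noncomputable section

open MeasureTheory SchwartzMap Complex Filter Topology
open scoped SchwartzMap ComplexConjugate ENNReal LineDeriv ContDiff FourierTransform

namespace Vale.Agent.P352.H246D

open GF (Ix V Fn Sch ev pd bar sim bas o)
open H246 H496
open UniformSpace (Completion)

variable {D : Type*} [NormedAddCommGroup D] [InnerProductSpace ℂ D]
variable {Q : GF.Theory D} {T : Ix → Ix → GF.Fld D}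
variable {H : D → D} {alg : Set V → Set (D → D)} {S : V → ℝ → D → D} {G : V → D → D}

section

variable (N : CNet Q H alg S) (Gg : Gnr Q alg S G)
include N Gg

/-- covariance of the generators -/
lemma G_cov {a b : V} (ha : IsNull a) (hb : IsNull b) {σ r : ℝ} (hσ : 0 < σ) (hr : 0 < r)
    {L : Ix → V} (hL : GF.IsLor L) (hab : sim 1 L 0 a = r • b) (v : D) :
    G b (Q.U σ L 0 v) = ((σ / r : ℝ) : ℂ) • Q.U σ L 0 (G a v) := by
  have h1 := hasDerivAt_UL (Q := Q) hσ hL (Gg.der a v ha)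
  have e : (fun s : ℝ => Q.U σ L 0 (S a s v)) = fun s : ℝ => S b (r / σ * s) (Q.U σ L 0 v) := by
    funext s
    rw [N.S_cov σ L a s v hσ hL ha, hab, N.S_scale b r _ _ hb hr]
    congr 1
    ring
  rw [e] at h1
  have h2 := Gg.der b (Q.U σ L 0 v) hb
  have h3 : HasDerivAt (fun s : ℝ => r / σ * s) (r / σ) 0 := by
    simpa using (hasDerivAt_id (0 : ℝ)).const_mul (r / σ)
  have h4 : HasDerivAt (fun s : ℝ => S b (r / σ * s) (Q.U σ L 0 v))
      ((r / σ) • (I • G b (Q.U σ L 0 v))) 0 := by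
    have h5 : HasDerivAt (fun s : ℝ => S b s (Q.U σ L 0 v)) (I • G b (Q.U σ L 0 v))
        ((fun s : ℝ => r / σ * s) 0) := by
      simpa using h2
    exact h5.scomp (0 : ℝ) h3
  have h5 := h1.unique h4
  rw [U_smul hσ hL] at h5
  have h6 := congrArg (fun w => (-I * ((σ / r : ℝ) : ℂ)) • w) h5
  have e1 : (r / σ) • (I • G b (Q.U σ L 0 v)) = ((r / σ : ℝ) : ℂ) • (I • G b (Q.U σ L 0 v)) := rfl
  simp only [e1, smul_smul] at h6
  have hr' : (r : ℂ) ≠ 0 := by exact_mod_cast hr.ne'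
  have hσ' : (σ : ℂ) ≠ 0 := by exact_mod_cast hσ.ne'
  have e2 : -I * ((σ / r : ℝ) : ℂ) * I = ((σ / r : ℝ) : ℂ) := by
    linear_combination (-((σ / r : ℝ) : ℂ)) * I_mul_I
  have e3 : -I * ((σ / r : ℝ) : ℂ) * (((r / σ : ℝ) : ℂ) * I) = 1 := by
    push_cast
    field_simp
    rw [I_sq]
    ring
  rw [e2, e3, one_smul] at h6
  exact h6.symm

/-- transport of the bound -/
lemma bd_tr {μ : Measure Mink} {h : D → Mink → ℂ} (K : Cmp Q H μ h) (hcv : Cvf Q μ h)
    {a b : V} (ha : IsNull a) (hb : IsNull b) {r : ℝ} (hr : 0 < r) {L : Ix → V}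
    (hL : GF.IsLor L) (hab : sim 1 L 0 a = r • b) {F : 𝓢(Mink, ℂ)}
    (hF : ∃ C : ℝ, ∀ v, ‖Pf μ h F (G b v)‖ ≤ C * ‖v‖) :
    ∃ C : ℝ, ∀ v, ‖Pf μ h (simS 1 one_pos hL 0 F) (G a v)‖ ≤ C * ‖v‖ := by
  obtain ⟨C, hC⟩ := hF
  refine ⟨r * C, fun v => ?_⟩
  have h1 := hcv F 1 one_pos L hL (G a v)
  rw [one_pow, ofReal_one, one_mul] at h1
  rw [← h1]
  have h2 := G_cov N Gg ha hb one_pos hr hL hab v
  have h3 : Q.U 1 L 0 (G a v) = ((r : ℝ) : ℂ) • G b (Q.U 1 L 0 v) := by
    rw [h2, smul_smul, ← ofReal_mul]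
    have : r * (1 / r) = 1 := by field_simp
    rw [this, ofReal_one, one_smul]
  rw [h3, Pf_smul K, norm_mul, norm_real, Real.norm_of_nonneg hr.le, mul_assoc]
  refine mul_le_mul_of_nonneg_left ?_ hr.le
  refine (hC _).trans (le_of_eq ?_)
  congr 1
  exact U_nrmL one_pos hL v

end

lemma mft_sim1 {L : Ix → V} (hL : GF.IsLor L) (F : 𝓢(Mink, ℂ)) (p : Mink) :
    mft (simS 1 one_pos hL 0 F) p = mft F (lam L p) := by
  rw [mft_sim0, one_pow, inv_one, ofReal_one, one_mul, one_smul]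

/-- null vectors with positive light cone momentum -/
lemma exists_nr {q : Mink} (hq : mdot q q = 0) (h0 : 0 < pm q) :
    ∃ c : ℝ × ℝ, lam (nr c) (pm q • e1) = q := by
  refine ⟨(q 2 / pm q, q 3 / pm q), ?_⟩
  have h1 : pm q ≠ 0 := h0.ne'
  have h2 : (q 0 - q 1) * pm q = q 2 ^ 2 + q 3 ^ 2 := by
    unfold mdot at hq
    unfold pm
    linear_combination hq
  have h4 : pm q = q 0 + q 1 := rfl
  rw [nr_e1]
  ext n
  fin_cases n
  · simp
    field_simp
    linear_combination (-1 : ℝ) * h2 + pm q * h4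
  · simp
    field_simp
    linear_combination h2 + pm q * h4
  · simp
    field_simp
  · simp
    field_simp

/-- the potential in momentum space -/
theorem exists_cmp (hT : Q.IsStress T) (N : CNet Q H alg S) (Gg : Gnr Q alg S G)
    {l : Fn → Completion D} (hl : IsPot Q T l) : ∃ (μ : Measure Mink) (h : D → Mink → ℂ),
      Cmp Q H μ h ∧ Cvf Q μ h ∧ (∀ (F : 𝓢(Mink, ℂ)) (y : D),
        inner ℂ (l (fl F)) (y : Completion D) = (-(1 / 3 : ℂ)) * Pf μ h F y) ∧
      ((∀ y, ∫ p, h (G (nu (-1)) y) p ∂μ = 0) →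
        ∀ a s v c c', IsNull a → Val l v c → Val l (S a s v) c' → c' = c) := by
  obtain ⟨μ, Sy, two⟩ := (PField.tr hT).exists_sym
  obtain ⟨φ, n, hrep, hval⟩ := exists_point_val hT Sy two N.toNet
  have hpot := isPot_lamF Sy (PField.tr hT) two
  have hll : ∀ f, GF.IsTest f → l f = lamF Sy (PField.tr hT) f :=
    fun f hf => hpot.unique hl f hf
  have hv := fun v c => val_iff hT Sy N.toNet hrep hll v c
  have hB := pw1_mem N.toNet n
  have hq := pt_cov hT Sy two N hrep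
  have ha0 : IsNull (nu (-1)) := null_m
  set h : D → Mink → ℂ := fun y p => (H246.im p : ℂ) * jd Sy (PField.tr hT) y p with hh
  have K : Cmp Q H μ h :=
    { loc := locfin Sy
      cone := ae_cone Sy.good
      int := fun y => int_im hT Sy two N.toNet y
      zero := fun y => im_zero Sy _
      hU := fun a y => by
        filter_upwards [jd_U1 Sy (PField.tr hT) two a y] with p h
        simp only [hh]
        rw [h]
        ring
      hadd := fun x y => by
        simp only [hh]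
        rw [jd_add]
        filter_upwards [Lp.coeFn_add (jd Sy (PField.tr hT) x) (jd Sy (PField.tr hT) y)] with p h
        rw [h, Pi.add_apply]
        ring
      hsmul := fun c y => by
        simp only [hh]
        rw [jd_smul]
        filter_upwards [Lp.coeFn_smul c (jd Sy (PField.tr hT) y)] with p h
        rw [h, Pi.smul_apply, smul_eq_mul]
        ring
      hH := fun y => by
        simp only [hh]
        filter_upwards [jd_pw1 Sy (PField.tr hT) two N.toNet 1 y,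
          Lp.coeFn_add (jd Sy (PField.tr hT) y) (jd Sy (PField.tr hT) (H y))] with p h1 h2
        rw [pow_one] at h1
        have e : jd Sy (PField.tr hT) (y + H y) p =
            (1 + (p 0 : ℂ)) * jd Sy (PField.tr hT) y p := h1
        rw [jd_add, h2, Pi.add_apply] at e
        linear_combination (H246.im p : ℂ) * e }
  have hP : ∀ (F : 𝓢(Mink, ℂ)) (y : D), inner ℂ (lamV Sy (PField.tr hT) F) (y : Completion D) =
      (-(1 / 3 : ℂ)) * Pf μ h F y := by
    intro F y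
    rw [lamV_apply, inner_smul_left, inner_jd, inner_toI]
    congr 1
    rw [map_neg, map_div₀, map_one, map_ofNat]
  have h3 : (-(1 / 3 : ℂ)) ≠ 0 := by norm_num
  have hcv : Cvf Q μ h := by
    intro F s hs L hL y
    have h1 := lamV_cov Sy (PField.tr hT) two s hs hL 0 F y
    have h2 := congrArg (starRingEnd ℂ) h1
    rw [map_mul, conj_ofReal, inner_conj_symm, inner_conj_symm, hP, hP] at h2
    apply mul_left_cancel₀ h3
    rw [h2]
    ring
  refine ⟨μ, h, K, hcv, fun F y => ?_, fun hz => ?_⟩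
  · rw [hll _ (isTest_fl F), lamF_fl, hP]
  have hinv : ∀ s v, pt φ (pw1 H n) (S (nu (-1)) s v) = pt φ (pw1 H n) v := by
    intro s v
    refine inv_of_gen N Gg hB ha0 (fun v => ?_) s v
    have h1 : ∫ p, (H246.im p : ℂ) * jd Sy (PField.tr hT) (G (nu (-1)) v) p ∂μ = 0 := hz v
    rw [hval, h1, mul_zero]
  intro b s v c c' hb h1 h2
  rw [(hv _ _).1 h1, (hv _ _).1 h2]
  obtain ⟨θ', ψ', hrot'⟩ := exists_rot hb
  have hL' := isLor_Rt θ' ψ'
  have hr' : 0 < (b 0)⁻¹ := inv_pos.2 hb.2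
  set w := Q.U 1 (linv (Rt θ' ψ')) 0 v with hw
  have hvw : Q.U 1 (Rt θ' ψ') 0 w = v := U_linv N hL' v
  have h3 := N.S_cov 1 (Rt θ' ψ') (nu (-1)) (s / (b 0)⁻¹) w one_pos hL' ha0
  rw [hrot', N.S_scale b _ _ _ hb hr', hvw, div_one, mul_div_cancel₀ _ hr'.ne'] at h3
  rw [← h3, hq 1 _ _ one_pos hL', hinv, ← hq 1 _ _ one_pos hL', hvw]

/-- reduction to the standard null direction and the standard null momentum -/
lemma exists_red {a p : V} (ha : IsNull a) (hp : GF.mdot p p = 0) (hap : 0 < GF.mdot a p) :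
    ∃ (L : Ix → V) (r s : ℝ) (c : ℝ × ℝ), GF.IsLor L ∧ 0 < r ∧ 0 < s ∧
      sim 1 L 0 (nu (-1)) = r • a ∧ lam L (lam (nr c) (s • e1)) = WithLp.toLp 2 p := by
  obtain ⟨θ, ψ, hrot⟩ := exists_rot ha
  have hL := isLor_Rt θ ψ
  have hr : 0 < (a 0)⁻¹ := inv_pos.2 ha.2
  set p' : Mink := WithLp.toLp 2 p with hp'
  set q : Mink := lam (linv (Rt θ ψ)) p' with hq'
  have hqq : mdot q q = 0 := by
    rw [hq', mdot_lam (isLor_linv hL)]
    exact (mdot_eq p' p').trans hp
  have hpq : 0 < pm q := by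
    have e1 : pm q = mdot q a0 := by
      have := mdot_a0 q 1
      rw [one_smul, one_mul] at this
      exact this.symm
    have e2 : mdot q a0 = mdot p' (lam (Rt θ ψ) a0) := by
      rw [← mdot_lam hL q a0, hq', lam_linv hL]
    have e3 : lam (Rt θ ψ) a0 = (a 0)⁻¹ • (WithLp.toLp 2 a : Mink) := by
      have h1 := toLp_sim (Rt θ ψ) (nu (-1))
      rw [hrot] at h1
      exact h1.symm
    have e4 : mdot (WithLp.toLp 2 a : Mink) p' = GF.mdot a p :=
      mdot_eq (WithLp.toLp 2 a : Mink) p'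
    rw [e1, e2, e3, mdot_smul_right, mdot_comm, e4]
    positivity
  obtain ⟨c, hc⟩ := exists_nr hqq hpq
  exact ⟨Rt θ ψ, (a 0)⁻¹, pm q, c, hL, hr, hpq, hrot, by rw [hc, hq', lam_linv hL]⟩

/-- the domain criterion -/
theorem dom_inv (hT : Q.IsStress T) (N : CNet Q H alg S) (Gg : Gnr Q alg S G)
    {l : Fn → Completion D} (hl : IsPot Q T l) {a : V} {f : Fn} {p : V} {C : ℝ} (ha : IsNull a)
    (hf : GF.IsTest f) (hp : GF.mdot p p = 0) (hap : 0 < GF.mdot a p)
    (hne : ∫ x, Complex.exp (Complex.I * GF.mdot p x) * f x ≠ 0)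
    (hb : ∀ v : D, ‖inner ℂ (l f) ((G a v : D) : Completion D)‖ ≤ C * ‖v‖) :
    ∀ a s v c c', IsNull a → Val l v c → Val l (S a s v) c' → c' = c := by
  obtain ⟨F, rfl⟩ := exists_fl hf
  obtain ⟨μ, h, K, hcv, hP, hinv⟩ := exists_cmp hT N Gg hl
  have hbd : ∃ C : ℝ, ∀ v, ‖Pf μ h F (G a v)‖ ≤ C * ‖v‖ := by
    refine ⟨3 * C, fun v => ?_⟩
    have h1 := hb v
    rw [hP, norm_mul] at h1
    have h2 : ‖(-(1 / 3 : ℂ))‖ = 1 / 3 := by
      rw [norm_neg, norm_div, norm_one]
      norm_num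
    rw [h2] at h1
    linarith
  obtain ⟨L, r, s, c, hL, hr, hs, hab, hc⟩ := exists_red ha hp hap
  have hb1 := bd_tr N Gg K hcv null_m ha hr hL hab hbd
  have hb2 := bd_tr N Gg K hcv null_m null_m one_pos (isLor_nr c) (nr_nu c) hb1
  refine hinv (dom_zero K N Gg (fun t u y => Nf_dlp K hcv N Gg (Bd_boost hcv N Gg K hb2 t) u y)
    hs ?_)
  rw [mft_sim1, mft_sim1, hc, ← mft_V]
  exact hne

end Vale.Agent.P352.H246D

end
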