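import Vale.Agent.P352.H246.Dom4

set_option linter.all false

noncomputable section

open MeasureTheory SchwartzMap Complex Filter Topology
open scoped SchwartzMap ComplexConjugate ENNReal LineDeriv ContDiff FourierTransform

namespace Vale.Agent.P352.H246D

open GF (Ix V Fn Sch ev pd bar sim bas o)
open H246 H496
open UniformSpace (Completion)

variable {D : Type*} [NormedAddCommGroup D] [InnerProductSpace ℂ D]
variable {Q : GF.Theory D}
variable {H : D → D} {alg : Set V → Set (D → D)} {S : V → ℝ → D → D} {G : V → D → D}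

/-! ### Summation over grids -/

lemma sum_diff_le {α : ℤ → ℝ} (h0 : ∀ n, 0 ≤ α n) (hs : Summable α) (m : ℕ) (i : ℤ) :
    ∑ j ∈ Finset.range m, α (i - j) ≤ ∑' n, α n := by
  have hinj : Function.Injective fun j : ℕ => i - (j : ℤ) := by
    intro a b hab
    simp only at hab
    omega
  have h1 : ∑ j ∈ Finset.range m, α (i - j) =
      ∑ n ∈ (Finset.range m).map ⟨fun j : ℕ => i - (j : ℤ), hinj⟩, α n := by
    rw [Finset.sum_map]
    rfl
  rw [h1]
  exact hs.sum_le_tsum _ fun n _ => h0 n

/-- weights on the integers -/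
def al (n : ℤ) : ℝ := (1 + |(n : ℝ)|) ^ (-(3 / 2 : ℝ))

lemma al_nonneg (n : ℤ) : 0 ≤ al n := by
  unfold al
  positivity

lemma summable_al : Summable al := by
  have h1 : Summable fun n : ℕ => ((n : ℝ) + 1) ^ (-(3 / 2 : ℝ)) := by
    have h2 : Summable fun n : ℕ => (n : ℝ) ^ (-(3 / 2 : ℝ)) :=
      Real.summable_nat_rpow.2 (by norm_num)
    have h3 := (summable_nat_add_iff 1).2 h2
    refine h3.congr fun n => ?_
    push_cast
    rfl
  refine Summable.of_nat_of_neg (h1.congr fun n => ?_) (h1.congr fun n => ?_)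
  · unfold al
    rw [Int.cast_natCast, abs_of_nonneg (by positivity), add_comm]
  · unfold al
    rw [Int.cast_neg, Int.cast_natCast, abs_neg, abs_of_nonneg (by positivity), add_comm]

/-- geometric weights on the integers -/
def be (n : ℤ) : ℝ := (1 / 2) ^ n.natAbs

lemma be_nonneg (n : ℤ) : 0 ≤ be n := by
  unfold be
  positivity

lemma summable_be : Summable be := by
  have h1 : Summable fun n : ℕ => ((1 : ℝ) / 2) ^ n :=
    summable_geometric_of_lt_one (by norm_num) (by norm_num)
  refine Summable.of_nat_of_neg (h1.congr fun n => ?_) (h1.congr fun n => ?_)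
  · simp [be]
  · simp [be]

lemma pow_le_al (x y : ℤ) : (1 + ‖((x : ℝ), (y : ℝ))‖) ^ (-(3 : ℝ)) ≤ al x * al y := by
  have h1 : |(x : ℝ)| ≤ ‖((x : ℝ), (y : ℝ))‖ := norm_fst_le ((x : ℝ), (y : ℝ))
  have h2 : |(y : ℝ)| ≤ ‖((x : ℝ), (y : ℝ))‖ := norm_snd_le ((x : ℝ), (y : ℝ))
  set M := ‖((x : ℝ), (y : ℝ))‖ with hM
  have hM0 : 0 ≤ M := norm_nonneg _
  have e : (1 + M) ^ (-(3 : ℝ)) = (1 + M) ^ (-(3 / 2 : ℝ)) * (1 + M) ^ (-(3 / 2 : ℝ)) := by
    rw [← Real.rpow_add (by positivity)]
    norm_num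
  rw [e]
  unfold al
  have k1 : (1 + M) ^ (-(3 / 2 : ℝ)) ≤ (1 + |(x : ℝ)|) ^ (-(3 / 2 : ℝ)) :=
    Real.rpow_le_rpow_of_nonpos (by positivity) (by linarith) (by norm_num)
  have k2 : (1 + M) ^ (-(3 / 2 : ℝ)) ≤ (1 + |(y : ℝ)|) ^ (-(3 / 2 : ℝ)) :=
    Real.rpow_le_rpow_of_nonpos (by positivity) (by linarith) (by norm_num)
  exact mul_le_mul k1 k2 (by positivity) (by positivity)

/-- the ergodic argument for forms -/
lemma ferg (g : D → D) (hg : ∀ x y, g (x + y) = g x + g y) (f : D → ℂ)
    (hf : ∀ x y, f (x + y) = f x + f y) {C B δ : ℝ} {z : ℂ}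
    (hb : ∀ v, ‖f v‖ ^ 2 ≤ C * (inner ℂ v (g v)).re) {x : ℕ → D}
    (h1 : ∀ k, ‖f (x k) - z‖ ≤ δ)
    (h2 : ∀ k j : ℕ, ‖inner ℂ (x k) (g (x j))‖ ≤ B * be ((k : ℤ) - j)) : ‖z‖ ≤ δ := by
  set fH : D →+ ℂ := AddMonoidHom.mk' f hf with hfH
  set gH : D →+ D := AddMonoidHom.mk' g hg with hgH
  set Z := ∑' n, be n with hZ
  by_contra hcon
  push Not at hcon
  have hB : 0 ≤ B := by
    have := (norm_nonneg _).trans (h2 0 0)
    simpa [be] using this
  have hZ0 : 0 ≤ Z := tsum_nonneg be_nonneg
  have key : ∀ N : ℕ, 0 < N → (N : ℝ) * (‖z‖ - δ) ^ 2 ≤ |C| * (B * Z) := by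
    intro N hN
    have hN0 : (0 : ℝ) < N := by exact_mod_cast hN
    set v := ∑ k ∈ Finset.range N, x k with hv
    have e1 : f v = ∑ k ∈ Finset.range N, f (x k) := map_sum fH _ _
    have e2 : g v = ∑ k ∈ Finset.range N, g (x k) := map_sum gH _ _
    have h3 : (N : ℝ) * (‖z‖ - δ) ≤ ‖f v‖ := by
      have h4 : f v = (N : ℂ) * z + ∑ k ∈ Finset.range N, (f (x k) - z) := by
        rw [e1, Finset.sum_sub_distrib]
        simp
      have h5 : ‖∑ k ∈ Finset.range N, (f (x k) - z)‖ ≤ N * δ := by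
        refine (norm_sum_le _ _).trans ?_
        refine (Finset.sum_le_sum fun k _ => h1 k).trans ?_
        rw [Finset.sum_const, Finset.card_range, nsmul_eq_mul]
      have h6 : ‖(N : ℂ) * z‖ = N * ‖z‖ := by simp
      have h7 := norm_sub_le_norm_add ((N : ℂ) * z) (∑ k ∈ Finset.range N, (f (x k) - z))
      rw [← h4, h6] at h7
      linarith
    have h4 : (inner ℂ v (g v)).re ≤ N * (B * Z) := by
      refine (Complex.re_le_norm _).trans ?_
      rw [e2, hv, sum_inner]
      refine (norm_sum_le _ _).trans ?_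
      have h5 : ∀ k ∈ Finset.range N, ‖inner ℂ (x k) (∑ j ∈ Finset.range N, g (x j))‖ ≤ B * Z := by
        intro k _
        rw [inner_sum]
        refine (norm_sum_le _ _).trans ?_
        refine (Finset.sum_le_sum fun j _ => h2 k j).trans ?_
        rw [← Finset.mul_sum]
        exact mul_le_mul_of_nonneg_left (sum_diff_le be_nonneg summable_be N k) hB
      refine (Finset.sum_le_sum h5).trans ?_
      rw [Finset.sum_const, Finset.card_range, nsmul_eq_mul]
    have h5 : ((N : ℝ) * (‖z‖ - δ)) ^ 2 ≤ ‖f v‖ ^ 2 := by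
      have : 0 ≤ (N : ℝ) * (‖z‖ - δ) := by
        have := sub_nonneg.2 hcon.le
        positivity
      exact pow_le_pow_left₀ this h3 2
    have h6 : ‖f v‖ ^ 2 ≤ |C| * (N * (B * Z)) := by
      refine (hb v).trans ?_
      by_cases hE : 0 ≤ (inner ℂ v (g v)).re
      · calc C * (inner ℂ v (g v)).re ≤ |C| * (inner ℂ v (g v)).re := by
              gcongr
              exact le_abs_self C
          _ ≤ _ := by gcongr
      · push Not at hE
        have h7 := hb v
        by_cases hC : 0 ≤ C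
        · have : C * (inner ℂ v (g v)).re ≤ 0 := mul_nonpos_of_nonneg_of_nonpos hC hE.le
          have h8 : 0 ≤ |C| * (N * (B * Z)) := by positivity
          linarith
        · push Not at hC
          have h9 : -(inner ℂ v (g v)).re ≤ N * (B * Z) := by
            have h10 : -(inner ℂ v (g v)).re ≤ ‖inner ℂ v (g v)‖ := by
              have := Complex.abs_re_le_norm (inner ℂ v (g v))
              exact (neg_le_abs _).trans this
            refine h10.trans ?_
            rw [e2, hv, sum_inner]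
            refine (norm_sum_le _ _).trans ?_
            have h5 : ∀ k ∈ Finset.range N,
                ‖inner ℂ (x k) (∑ j ∈ Finset.range N, g (x j))‖ ≤ B * Z := by
              intro k _
              rw [inner_sum]
              refine (norm_sum_le _ _).trans ?_
              refine (Finset.sum_le_sum fun j _ => h2 k j).trans ?_
              rw [← Finset.mul_sum]
              exact mul_le_mul_of_nonneg_left (sum_diff_le be_nonneg summable_be N k) hB
            refine (Finset.sum_le_sum h5).trans ?_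
            rw [Finset.sum_const, Finset.card_range, nsmul_eq_mul]
          calc C * (inner ℂ v (g v)).re = |C| * -(inner ℂ v (g v)).re := by
                rw [abs_of_neg hC]; ring
            _ ≤ _ := by gcongr
    have h7 : (N : ℝ) * (N * (‖z‖ - δ) ^ 2) ≤ N * (|C| * (B * Z)) := by
      calc (N : ℝ) * (N * (‖z‖ - δ) ^ 2) = ((N : ℝ) * (‖z‖ - δ)) ^ 2 := by ring
        _ ≤ |C| * (N * (B * Z)) := h5.trans h6
        _ = _ := by ring
    exact le_of_mul_le_mul_left h7 hN0
  have hz0 : 0 < (‖z‖ - δ) ^ 2 := by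
    have := sub_pos.2 hcon
    positivity
  obtain ⟨n, hn⟩ := exists_nat_gt (|C| * (B * Z) / (‖z‖ - δ) ^ 2)
  rw [div_lt_iff₀ hz0] at hn
  have h1 := key (n + 1) (Nat.succ_pos n)
  push_cast at h1
  nlinarith

end Vale.Agent.P352.H246D

end
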