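import Vale.Agent.P352.H246.Dom6

set_option linter.all false

noncomputable section

open MeasureTheory SchwartzMap Complex Filter Topology
open scoped SchwartzMap ComplexConjugate ENNReal LineDeriv ContDiff FourierTransform

namespace Vale.Agent.P352.H246D

open GF (Ix V Fn Sch ev pd bar sim bas o)
open H246 H496
open UniformSpace (Completion)

variable {D : Type*} [NormedAddCommGroup D] [InnerProductSpace ℂ D]
variable {Q : GF.Theory D}
variable {H : D → D} {alg : Set V → Set (D → D)} {S : V → ℝ → D → D} {G : V → D → D}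

/-- the boosted and null rotated momentum -/
def th (q : ℝ × ℝ × ℝ) (p : Mink) : Mink :=
  WithLp.toLp 2 ![
    (pm p + (q.1 ^ 2 * (p 0 - p 1) + 2 * q.1 * (q.2.1 * p 2 + q.2.2 * p 3) +
      (q.2.1 ^ 2 + q.2.2 ^ 2) * pm p)) / 2,
    (pm p - (q.1 ^ 2 * (p 0 - p 1) + 2 * q.1 * (q.2.1 * p 2 + q.2.2 * p 3) +
      (q.2.1 ^ 2 + q.2.2 ^ 2) * pm p)) / 2,
    q.1 * p 2 + q.2.1 * pm p, q.1 * p 3 + q.2.2 * pm p]

lemma th_eq (t : ℝ) (c : ℝ × ℝ) (p : Mink) : Real.exp (-t) • lam (mBoost t) (lam (nr c) p) =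
    th (Real.exp (-t), Real.exp (-t) * c.1, Real.exp (-t) * c.2) p := by
  have h3 : Real.exp (-t) * Real.exp t = 1 := by rw [← Real.exp_add]; simp
  ext n
  fin_cases n <;> simp [lam_apply, mBoost, nr, th, pm, Fin.sum_univ_four, Real.cosh_eq,
      Real.sinh_eq]
  · linear_combination (p 0 + p 1) / 2 * h3
  · linear_combination (p 0 + p 1) / 2 * h3
  · ring
  · ring

lemma th_zero (p : Mink) : th 0 p = pm p • e1 := by
  ext n
  fin_cases n <;> simp [th, e1]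
  · ring
  · ring

lemma cont_th_p (q : ℝ × ℝ × ℝ) : Continuous (th q) := by
  have h := continuous_pm
  unfold th
  refine (PiLp.continuous_toLp 2 _).comp (continuous_pi fun n => ?_)
  fin_cases n <;> simp <;> fun_prop

lemma cont_th_q (p : Mink) : Continuous fun q => th q p := by
  unfold th
  refine (PiLp.continuous_toLp 2 _).comp (continuous_pi fun n => ?_)
  fin_cases n <;> simp <;> fun_prop

section

variable {μ : Measure Mink} {h : D → Mink → ℂ}

lemma lim_th (K : Cmp Q H μ h) (F : 𝓢(Mink, ℂ)) (y : D) :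
    Tendsto (fun q : ℝ × ℝ × ℝ => ∫ p, conj (mft F (th q p)) * h y p ∂μ) (𝓝 0)
      (𝓝 (Nf μ h F y)) := by
  obtain ⟨C, hC0, hC⟩ := bdd_mft F
  refine tendsto_integral_filter_of_dominated_convergence (fun p => C * ‖h y p‖)
    (Eventually.of_forall fun t => ?_) (Eventually.of_forall fun t =>
      Eventually.of_forall fun p => ?_) ((K.int y).norm.const_mul C)
    (Eventually.of_forall fun p => ?_)
  · exact ((Complex.continuous_conj.comp ((cont_mft F).comp (cont_th_p t))).aestronglyMeasurable).mul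
      (K.int y).aestronglyMeasurable
  · rw [norm_mul, RCLike.norm_conj]
    exact mul_le_mul_of_nonneg_right (hC _) (norm_nonneg _)
  · have h1 : Tendsto (fun q => conj (mft F (th q p))) (𝓝 0) (𝓝 (conj (mft F (pm p • e1)))) := by
      have h2 := ((Complex.continuous_conj.comp (cont_mft F)).comp (cont_th_q p)).tendsto 0
      simp only [Function.comp_apply, th_zero] at h2
      exact h2
    exact h1.mul_const _

/-- uniform approximation -/
lemma near_th (K : Cmp Q H μ h) (F : 𝓢(Mink, ℂ)) (y : D) {δ : ℝ} (hδ : 0 < δ) :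
    ∃ ε > 0, ∀ q : ℝ × ℝ × ℝ, ‖q‖ ≤ ε →
      ‖(∫ p, conj (mft F (th q p)) * h y p ∂μ) - Nf μ h F y‖ ≤ δ := by
  have h1 := (lim_th K F y).eventually (Metric.ball_mem_nhds _ hδ)
  obtain ⟨ε, hε, hb⟩ := Metric.mem_nhds_iff.1 h1
  refine ⟨ε / 2, by positivity, fun q hq => ?_⟩
  have h2 : q ∈ Metric.ball (0 : ℝ × ℝ × ℝ) ε := by
    rw [Metric.mem_ball, dist_zero_right]
    linarith
  have h3 := hb h2
  have h4 : dist (∫ p, conj (mft F (th q p)) * h y p ∂μ) (Nf μ h F y) < δ := h3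
  rw [dist_eq_norm] at h4
  exact h4.le

variable (K : Cmp Q H μ h) (hcv : Cvf Q μ h)

include hcv in
lemma int_Rn (F : 𝓢(Mink, ℂ)) (t : ℝ) (c : ℝ × ℝ) (y : D) :
    ∫ p, conj (mft F (Real.exp (-t) • lam (mBoost t) p)) * h (Rn Q c y) p ∂μ =
      ∫ p, conj (mft F (Real.exp (-t) • lam (mBoost t) (lam (nr c) p))) * h y p ∂μ := by
  set F' := simS (Real.exp t) (Real.exp_pos t) (isLor_boost t) 0 F with hF'
  have e3 : ∀ (z : D) (q : Mink → Mink), ∫ p, conj (mft F (Real.exp (-t) • lam (mBoost t) (q p))) *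
      h z p ∂μ = ((Real.exp t ^ 4 : ℝ) : ℂ) * ∫ p, conj (mft F' (q p)) * h z p ∂μ := by
    intro z q
    rw [← integral_const_mul]
    congr 1
    ext p
    rw [hF', mft_sim0, map_mul, conj_ofReal, ← Real.exp_neg, ← mul_assoc, ← mul_assoc,
      ← ofReal_mul]
    have : Real.exp t ^ 4 * (Real.exp t ^ 4)⁻¹ = 1 := by
      have := (Real.exp_pos t).ne'
      field_simp
    rw [this, ofReal_one, one_mul]
  have e4 := e3 (Rn Q c y) (fun p => p)
  have e5 := e3 y (fun p => lam (nr c) p)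
  rw [e4, e5]
  congr 1
  have h3 := hcv F' 1 one_pos (nr c) (isLor_nr c) y
  unfold Pf at h3
  have e6 : (Q.U 1 (nr c) 0 y) = Rn Q c y := rfl
  rw [e6] at h3
  rw [h3, one_pow, ofReal_one, one_mul]
  congr 1
  ext p
  rw [mft_sim0 one_pos (isLor_nr c) F' p, one_pow, inv_one, ofReal_one, one_mul, one_smul]

variable (N : CNet Q H alg S) (Gg : Gnr Q alg S G)
include K N Gg

include hcv in
lemma Pf_WR (F : 𝓢(Mink, ℂ)) (t : ℝ) (c : ℝ × ℝ) (w : D) :
    Pf μ h F (G (nu (-1)) (H496.Wd Q t (Rn Q c w))) =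
      ∫ p, conj (mft F (th (Real.exp (-t), Real.exp (-t) * c.1, Real.exp (-t) * c.2) p)) *
        h (G (nu (-1)) w) p ∂μ := by
  rw [C_Wd N Gg, Pf_smul K, Pf_Wd hcv, C_Rn N Gg, int_Rn hcv, ← mul_assoc, ← ofReal_mul]
  have : Real.exp t ^ 2 * (Real.exp t ^ 2)⁻¹ = 1 := by
    have := (Real.exp_pos t).ne'
    field_simp
  rw [this, ofReal_one, one_mul]
  simp only [th_eq]

omit K Gg in
/-- sums over grids -/
lemma block (u : ℝ) (y : D) : ∃ B : ℝ, 0 ≤ B ∧ ∀ m : ℕ,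
    ‖∑ q ∈ Finset.range m ×ˢ Finset.range m,
      Rn Q ((q.1 : ℝ), (q.2 : ℝ)) (dlp Q (u • a0) 3 y)‖ ≤ B * m := by
  set w := dlp Q (u • a0) 3 y with hw
  obtain ⟨C, hC⟩ := decay N u w y
  rw [← hw] at hC
  set Z := ∑' n, al n with hZ
  have hZ0 : 0 ≤ Z := tsum_nonneg al_nonneg
  have hC0 : 0 ≤ C := by
    have := (norm_nonneg _).trans (hC 0)
    simpa using this
  refine ⟨Real.sqrt (C * Z * Z), Real.sqrt_nonneg _, fun m => ?_⟩
  set A := Finset.range m ×ˢ Finset.range m with hA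
  have h1 : ∀ q ∈ A, ∀ q' ∈ A, ‖inner ℂ (Rn Q ((q.1 : ℝ), (q.2 : ℝ)) w)
      (Rn Q ((q'.1 : ℝ), (q'.2 : ℝ)) w)‖ ≤
      C * (al ((q.1 : ℤ) - q'.1) * al ((q.2 : ℤ) - q'.2)) := by
    intro q _ q' _
    rw [Rn_move N, Rn_Rn N, norm_inner_symm, Rn_move N, norm_inner_symm]
    have h2 := hC (-(-((q.1 : ℝ), (q.2 : ℝ)) + ((q'.1 : ℝ), (q'.2 : ℝ))))
    have e : -(-((q.1 : ℝ), (q.2 : ℝ)) + ((q'.1 : ℝ), (q'.2 : ℝ))) =
        ((((q.1 : ℤ) - q'.1 : ℤ) : ℝ), (((q.2 : ℤ) - q'.2 : ℤ) : ℝ)) := by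
      ext
      · simp; ring
      · simp; ring
    rw [e] at h2 ⊢
    rw [norm_inner_symm] at h2
    rw [norm_inner_symm]
    refine (le_trans (le_of_eq (norm_inner_symm _ _)) h2).trans ?_
    exact mul_le_mul_of_nonneg_left (pow_le_al _ _) hC0
  have h2 : ‖∑ q ∈ A, Rn Q ((q.1 : ℝ), (q.2 : ℝ)) w‖ ^ 2 ≤ C * Z * Z * (m : ℝ) ^ 2 := by
    have h3 : ‖∑ q ∈ A, Rn Q ((q.1 : ℝ), (q.2 : ℝ)) w‖ ^ 2 =
        ‖inner ℂ (∑ q ∈ A, Rn Q ((q.1 : ℝ), (q.2 : ℝ)) w)
          (∑ q ∈ A, Rn Q ((q.1 : ℝ), (q.2 : ℝ)) w)‖ := by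
      rw [inner_self_eq_norm_sq_to_K, norm_pow]
      simp
    rw [h3, sum_inner]
    refine (norm_sum_le _ _).trans ?_
    have h4 : ∀ q ∈ A, ‖inner ℂ (Rn Q ((q.1 : ℝ), (q.2 : ℝ)) w)
        (∑ q' ∈ A, Rn Q ((q'.1 : ℝ), (q'.2 : ℝ)) w)‖ ≤ C * Z * Z := by
      intro q hq
      rw [inner_sum]
      refine (norm_sum_le _ _).trans ?_
      refine (Finset.sum_le_sum (h1 q hq)).trans ?_
      rw [← Finset.mul_sum, hA, Finset.sum_product]
      simp only [← Finset.mul_sum]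
      rw [← Finset.sum_mul, mul_assoc]
      refine mul_le_mul_of_nonneg_left ?_ hC0
      refine mul_le_mul (sum_diff_le al_nonneg summable_al m _)
        (sum_diff_le al_nonneg summable_al m _) (Finset.sum_nonneg fun _ _ => al_nonneg _) hZ0
    refine (Finset.sum_le_sum h4).trans ?_
    rw [Finset.sum_const, hA, Finset.card_product, Finset.card_range, nsmul_eq_mul]
    push_cast
    apply le_of_eq
    ring
  apply le_of_sq_le_sq _ (by positivity)
  rw [mul_pow, Real.sq_sqrt (by positivity)]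
  exact h2

end

end Vale.Agent.P352.H246D

end
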