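import Vale.Agent.P352.H246.Dom7

set_option linter.all false

noncomputable section

open MeasureTheory SchwartzMap Complex Filter Topology
open scoped SchwartzMap ComplexConjugate ENNReal LineDeriv ContDiff FourierTransform

namespace Vale.Agent.P352.H246D

open GF (Ix V Fn Sch ev pd bar sim bas o)
open H246 H496
open UniformSpace (Completion)

variable {D : Type*} [NormedAddCommGroup D] [InnerProductSpace ℂ D]
variable {Q : GF.Theory D}
variable {H : D → D} {alg : Set V → Set (D → D)} {S : V → ℝ → D → D} {G : V → D → D}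

/-- the form bound -/
def Fb (G : V → D → D) (a : V) (μ : Measure Mink) (h : D → Mink → ℂ) (F : 𝓢(Mink, ℂ)) : Prop :=
  ∃ C : ℝ, ∀ v, ‖Pf μ h F (G a v)‖ ^ 2 ≤ C * (inner ℂ v (G a v)).re

section

variable {μ : Measure Mink} {h : D → Mink → ℂ}

lemma Pf_add (K : Cmp Q H μ h) (F : 𝓢(Mink, ℂ)) (x y : D) :
    Pf μ h F (x + y) = Pf μ h F x + Pf μ h F y := by
  unfold Pf
  have i1 : Integrable (fun p => conj (mft F p) * h x p) μ := int_mf K F continuous_id x
  have i2 : Integrable (fun p => conj (mft F p) * h y p) μ := int_mf K F continuous_id y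
  rw [← integral_add i1 i2]
  apply integral_congr_ae
  filter_upwards [K.hadd x y] with p hp
  rw [hp]
  ring

variable (K : Cmp Q H μ h) (hcv : Cvf Q μ h) (N : CNet Q H alg S) (Gg : Gnr Q alg S G)
include K hcv N Gg

lemma Nf_form {F : 𝓢(Mink, ℂ)} (hb : Fb G (nu (-1)) μ h F) (u : ℝ) (y : D) :
    Nf μ h F (G (nu (-1)) (dlp Q (u • a0) 3 y)) = 0 := by
  obtain ⟨C, hC⟩ := hb
  set w := dlp Q (u • a0) 3 y with hw
  rw [← norm_le_zero_iff]
  refine le_of_forall_pos_le_add fun δ hδ => ?_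
  rw [zero_add]
  obtain ⟨ε, hε, hnear⟩ := near_th K F (G (nu (-1)) w) hδ
  obtain ⟨B1, hB1, hblk1⟩ := block N u y
  obtain ⟨B2, hB2, hblk2⟩ := block N u (G (nu (-1)) y)
  rw [← hw] at hblk1
  -- the blocks
  set A : ℕ → Finset (ℕ × ℕ) := fun m => Finset.range m ×ˢ Finset.range m with hA
  set b : ℕ → D := fun m => ∑ q ∈ A m, Rn Q ((q.1 : ℝ), (q.2 : ℝ)) w with hbd
  set Gm : D →ₗ[ℂ] D := ⟨⟨G (nu (-1)), G_add N Gg null_m⟩, G_smul N Gg null_m⟩ with hGm
  have hGb : ∀ m, ‖G (nu (-1)) (b m)‖ ≤ B2 * m := by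
    intro m
    have e : G (nu (-1)) (b m) = ∑ q ∈ A m, Rn Q ((q.1 : ℝ), (q.2 : ℝ))
        (dlp Q (u • a0) 3 (G (nu (-1)) y)) := by
      have h1 : G (nu (-1)) (b m) = Gm (b m) := rfl
      rw [h1, hbd]
      simp only
      rw [map_sum]
      refine Finset.sum_congr rfl fun q _ => ?_
      show G (nu (-1)) (Rn Q ((q.1 : ℝ), (q.2 : ℝ)) w) = _
      rw [C_Rn N Gg, hw, C_dlp N Gg]
    rw [e]
    exact hblk2 m
  set tt : ℕ → ℝ := fun m => Real.log (m / ε) with htt
  have het : ∀ m : ℕ, 0 < m → Real.exp (tt m) = m / ε := by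
    intro m hm
    have : (0 : ℝ) < m := by exact_mod_cast hm
    rw [htt]
    exact Real.exp_log (by positivity)
  set x : ℕ → D := fun m => ((((m : ℝ) ^ 2)⁻¹ : ℝ) : ℂ) • H496.Wd Q (tt m) (b m) with hx
  -- norms
  have hnx : ∀ m : ℕ, 0 < m → ‖x m‖ ≤ B1 / m := by
    intro m hm
    have hm0 : (0 : ℝ) < m := by exact_mod_cast hm
    rw [hx]
    simp only
    rw [norm_smul, norm_real, Real.norm_of_nonneg (by positivity)]
    have e : ‖H496.Wd Q (tt m) (b m)‖ = ‖b m‖ := U_nrmL (Real.exp_pos _) (isLor_boost _) _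
    rw [e]
    calc ((m : ℝ) ^ 2)⁻¹ * ‖b m‖ ≤ ((m : ℝ) ^ 2)⁻¹ * (B1 * m) := by
          gcongr
          exact hblk1 m
      _ = B1 / m := by field_simp
  have hnG : ∀ m : ℕ, 0 < m → ‖G (nu (-1)) (x m)‖ ≤ B2 * m / ε ^ 2 := by
    intro m hm
    have hm0 : (0 : ℝ) < m := by exact_mod_cast hm
    rw [hx]
    simp only
    rw [G_smul N Gg null_m, C_Wd N Gg, norm_smul, norm_smul, norm_real, norm_real,
      Real.norm_of_nonneg (by positivity), Real.norm_of_nonneg (by positivity), het m hm]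
    have e : ‖H496.Wd Q (tt m) (G (nu (-1)) (b m))‖ = ‖G (nu (-1)) (b m)‖ :=
      U_nrmL (Real.exp_pos _) (isLor_boost _) _
    rw [e]
    calc ((m : ℝ) ^ 2)⁻¹ * ((m / ε) ^ 2 * ‖G (nu (-1)) (b m)‖)
        ≤ ((m : ℝ) ^ 2)⁻¹ * ((m / ε) ^ 2 * (B2 * m)) := by
          gcongr
          exact hGb m
      _ = B2 * m / ε ^ 2 := by field_simp
  -- the values
  have hval : ∀ m : ℕ, 0 < m →
      ‖Pf μ h F (G (nu (-1)) (x m)) - Nf μ h F (G (nu (-1)) w)‖ ≤ δ := by
    intro m hm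
    have hm0 : (0 : ℝ) < m := by exact_mod_cast hm
    set PL : D →ₗ[ℂ] ℂ := ⟨⟨fun v => Pf μ h F (G (nu (-1)) (H496.Wd Q (tt m) v)), fun v v' => by
        rw [H496.Wd_add, G_add N Gg null_m, Pf_add K]⟩, fun c v => by
        simp only [RingHom.id_apply, smul_eq_mul]
        rw [H496.Wd_smul, G_smul N Gg null_m, Pf_smul K]⟩ with hPL
    set z := Nf μ h F (G (nu (-1)) w) with hz
    have e1 : Pf μ h F (G (nu (-1)) (x m)) = ((((m : ℝ) ^ 2)⁻¹ : ℝ) : ℂ) *
        ∑ q ∈ A m, Pf μ h F (G (nu (-1)) (H496.Wd Q (tt m)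
          (Rn Q ((q.1 : ℝ), (q.2 : ℝ)) w))) := by
      have h1 : Pf μ h F (G (nu (-1)) (x m)) = ((((m : ℝ) ^ 2)⁻¹ : ℝ) : ℂ) * PL (b m) := by
        rw [hx]
        simp only
        rw [G_smul N Gg null_m, Pf_smul K]
        rfl
      rw [h1]
      congr 1
      rw [hbd]
      simp only
      rw [map_sum]
      rfl
    have hcard : (A m).card = m * m := by
      rw [hA]
      simp only
      rw [Finset.card_product, Finset.card_range]
    have e2 : z = ((((m : ℝ) ^ 2)⁻¹ : ℝ) : ℂ) * ∑ q ∈ A m, z := by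
      rw [Finset.sum_const, hcard, nsmul_eq_mul]
      push_cast
      have : (m : ℂ) ≠ 0 := by exact_mod_cast hm.ne'
      field_simp
    rw [e1, e2, ← mul_sub, ← Finset.sum_sub_distrib, norm_mul, norm_real,
      Real.norm_of_nonneg (by positivity)]
    have h3 : ‖∑ q ∈ A m, (Pf μ h F (G (nu (-1)) (H496.Wd Q (tt m)
          (Rn Q ((q.1 : ℝ), (q.2 : ℝ)) w))) - z)‖ ≤ (m * m : ℕ) * δ := by
      refine (norm_sum_le _ _).trans ?_
      have h4 : ∀ q ∈ A m, ‖Pf μ h F (G (nu (-1)) (H496.Wd Q (tt m)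
          (Rn Q ((q.1 : ℝ), (q.2 : ℝ)) w))) - z‖ ≤ δ := by
        intro q hq
        rw [Pf_WR K hcv N Gg]
        refine hnear _ ?_
        have hq1 : (q.1 : ℝ) ≤ m := by
          have := (Finset.mem_product.1 hq).1
          exact_mod_cast (Finset.mem_range.1 this).le
        have hq2 : (q.2 : ℝ) ≤ m := by
          have := (Finset.mem_product.1 hq).2
          exact_mod_cast (Finset.mem_range.1 this).le
        have hm1 : (1 : ℝ) ≤ m := by exact_mod_cast hm
        have he : Real.exp (-(tt m)) = ε / m := by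
          rw [Real.exp_neg, het m hm, inv_div]
        simp only [he]
        have hb1 : ∀ r : ℝ, 0 ≤ r → r ≤ m → |ε / m * r| ≤ ε := by
          intro r hr0 hr
          rw [abs_of_nonneg (by positivity), div_mul_eq_mul_div, div_le_iff₀ hm0]
          gcongr
        rw [Prod.norm_def, Prod.norm_def]
        simp only [Real.norm_eq_abs]
        refine max_le ?_ (max_le (hb1 _ (by positivity) hq1) (hb1 _ (by positivity) hq2))
        have := hb1 1 zero_le_one hm1
        rwa [mul_one] at this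
      refine (Finset.sum_le_sum h4).trans ?_
      rw [Finset.sum_const, hcard, nsmul_eq_mul]
    calc ((m : ℝ) ^ 2)⁻¹ * _ ≤ ((m : ℝ) ^ 2)⁻¹ * ((m * m : ℕ) * δ) := by gcongr
      _ = δ := by
        push_cast
        field_simp
  -- assembly
  have h2pos : ∀ k : ℕ, 0 < 2 ^ k := fun k => by positivity
  refine ferg (G (nu (-1))) (G_add N Gg null_m) (fun v => Pf μ h F (G (nu (-1)) v))
    (fun v v' => by rw [G_add N Gg null_m, Pf_add K]) (C := C) (B := B1 * B2 / ε ^ 2) hC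
    (x := fun k => x (2 ^ k)) (fun k => hval _ (h2pos k)) (fun k j => ?_)
  have hk1 := hnx _ (h2pos k)
  have hk2 := hnG _ (h2pos k)
  have hj1 := hnx _ (h2pos j)
  have hj2 := hnG _ (h2pos j)
  rcases le_total j k with hjk | hjk
  · have e : be ((k : ℤ) - j) = (2 : ℝ) ^ j / 2 ^ k := by
      unfold be
      have : ((k : ℤ) - j).natAbs = k - j := by omega
      rw [this, one_div, inv_pow, eq_div_iff (by positivity), inv_mul_eq_iff_eq_mul₀ (by positivity),
        ← pow_add]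
      congr 1
      omega
    rw [e]
    calc ‖inner ℂ (x (2 ^ k)) (G (nu (-1)) (x (2 ^ j)))‖
        ≤ ‖x (2 ^ k)‖ * ‖G (nu (-1)) (x (2 ^ j))‖ := norm_inner_le_norm _ _
      _ ≤ (B1 / ((2 ^ k : ℕ) : ℝ)) * (B2 * ((2 ^ j : ℕ) : ℝ) / ε ^ 2) := by gcongr
      _ = B1 * B2 / ε ^ 2 * ((2 : ℝ) ^ j / 2 ^ k) := by
        push_cast
        field_simp
  · have e : be ((k : ℤ) - j) = (2 : ℝ) ^ k / 2 ^ j := by
      unfold be
      have : ((k : ℤ) - j).natAbs = j - k := by omega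
      rw [this, one_div, inv_pow, eq_div_iff (by positivity), inv_mul_eq_iff_eq_mul₀ (by positivity),
        ← pow_add]
      congr 1
      omega
    rw [e, ← (G_adj N Gg null_m) (x (2 ^ k)) (x (2 ^ j))]
    calc ‖inner ℂ (G (nu (-1)) (x (2 ^ k))) (x (2 ^ j))‖
        ≤ ‖G (nu (-1)) (x (2 ^ k))‖ * ‖x (2 ^ j)‖ := norm_inner_le_norm _ _
      _ ≤ (B2 * ((2 ^ k : ℕ) : ℝ) / ε ^ 2) * (B1 / ((2 ^ j : ℕ) : ℝ)) := by gcongr
      _ = B1 * B2 / ε ^ 2 * ((2 : ℝ) ^ k / 2 ^ j) := by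
        push_cast
        field_simp

end

end Vale.Agent.P352.H246D

end
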