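import Vale.Agent.P352.H246.Dom8
import Vale.Agent.P352.H246.Dom5

set_option linter.all false

noncomputable section

open MeasureTheory SchwartzMap Complex Filter Topology
open scoped SchwartzMap ComplexConjugate ENNReal LineDeriv ContDiff FourierTransform

namespace Vale.Agent.P352.H246D

open GF (Ix V Fn Sch ev pd bar sim bas o)
open H246 H496
open UniformSpace (Completion)

variable {D : Type*} [NormedAddCommGroup D] [InnerProductSpace ℂ D]
variable {Q : GF.Theory D} {T : Ix → Ix → GF.Fld D}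
variable {H : D → D} {alg : Set V → Set (D → D)} {S : V → ℝ → D → D} {G : V → D → D}

section

variable (N : CNet Q H alg S) (Gg : Gnr Q alg S G)
include N Gg

/-- transport of the form bound -/
lemma fb_tr {μ : Measure Mink} {h : D → Mink → ℂ} (K : Cmp Q H μ h) (hcv : Cvf Q μ h)
    {a b : V} (ha : IsNull a) (hb : IsNull b) {r : ℝ} (hr : 0 < r) {L : Ix → V}
    (hL : GF.IsLor L) (hab : sim 1 L 0 a = r • b) {F : 𝓢(Mink, ℂ)} (hF : Fb G b μ h F) :
    Fb G a μ h (simS 1 one_pos hL 0 F) := by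
  obtain ⟨C, hC⟩ := hF
  refine ⟨r * C, fun v => ?_⟩
  have h1 := hcv F 1 one_pos L hL (G a v)
  rw [one_pow, ofReal_one, one_mul] at h1
  rw [← h1]
  have h2 := G_cov N Gg ha hb one_pos hr hL hab v
  have h3 : Q.U 1 L 0 (G a v) = ((r : ℝ) : ℂ) • G b (Q.U 1 L 0 v) := by
    rw [h2, smul_smul, ← ofReal_mul]
    have : r * (1 / r) = 1 := by field_simp
    rw [this, ofReal_one, one_smul]
  have h4 : (inner ℂ (Q.U 1 L 0 v) (G b (Q.U 1 L 0 v))).re = r⁻¹ * (inner ℂ v (G a v)).re := by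
    rw [h2, inner_smul_right, Q.U_inner _ _ _ _ _ one_pos hL, one_div, re_ofReal_mul]
  rw [h3, Pf_smul K, norm_mul, norm_real, Real.norm_of_nonneg hr.le, mul_pow]
  have h5 := hC (Q.U 1 L 0 v)
  rw [h4] at h5
  calc r ^ 2 * ‖Pf μ h F (G b (Q.U 1 L 0 v))‖ ^ 2
      ≤ r ^ 2 * (C * (r⁻¹ * (inner ℂ v (G a v)).re)) := by gcongr
    _ = r * C * (inner ℂ v (G a v)).re := by field_simp

end

/-- the form domain criterion -/
theorem form_inv (hT : Q.IsStress T) (N : CNet Q H alg S) (Gg : Gnr Q alg S G)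
    {l : Fn → Completion D} (hl : IsPot Q T l) {a : V} {f : Fn} {p : V} {C : ℝ} (ha : IsNull a)
    (hf : GF.IsTest f) (hp : GF.mdot p p = 0) (hap : 0 < GF.mdot a p)
    (hne : ∫ x, Complex.exp (Complex.I * GF.mdot p x) * f x ≠ 0)
    (hb : ∀ v : D, ‖inner ℂ (l f) ((G a v : D) : Completion D)‖ ^ 2 ≤
      C * (inner ℂ v (G a v)).re) :
    ∀ a s v c c', IsNull a → Val l v c → Val l (S a s v) c' → c' = c := by
  obtain ⟨F, rfl⟩ := exists_fl hf
  obtain ⟨μ, h, K, hcv, hP, hinv⟩ := exists_cmp hT N Gg hl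
  have hbd : Fb G a μ h F := by
    refine ⟨9 * C, fun v => ?_⟩
    have h1 := hb v
    rw [hP, norm_mul] at h1
    have h2 : ‖(-(1 / 3 : ℂ))‖ = 1 / 3 := by
      rw [norm_neg, norm_div, norm_one]
      norm_num
    rw [h2] at h1
    nlinarith
  obtain ⟨L, r, s, c, hL, hr, hs, hab, hc⟩ := exists_red ha hp hap
  have hb1 := fb_tr N Gg K hcv null_m ha hr hL hab hbd
  have hb2 := fb_tr N Gg K hcv null_m null_m one_pos (isLor_nr c) (nr_nu c) hb1
  refine hinv (dom_zero K N Gg (fun t u y => Nf_form K hcv N Gg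
    (fb_tr N Gg K hcv null_m null_m (Real.exp_pos (-t)) (isLor_boost t) (boost_nu t) hb2) u y)
    hs ?_)
  rw [mft_sim1, mft_sim1, hc, ← mft_V]
  exact hne

end Vale.Agent.P352.H246D

end
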