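import Vale.Agent.P352.H246.Asm2
import Vale.Agent.P352.H755.Lfg
import Vale.Agent.P352.H993.Sch

set_option linter.all false

noncomputable section

open MeasureTheory SchwartzMap Complex Filter Topology
open scoped SchwartzMap ComplexConjugate ENNReal LineDeriv ContDiff FourierTransform

namespace Vale.Agent.P352.H246R

open GF (Ix V Fn Sch ev pd bar sim bas o)
open H246 H496 H755 H746
open UniformSpace (Completion)

variable {D : Type*} [NormedAddCommGroup D] [InnerProductSpace ℂ D]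
variable {Q : GF.Theory D}
variable {H : D → D} {alg : Set V → Set (D → D)} {S : V → ℝ → D → D} {G : V → D → D}

/-- The null crossing theorem -/
theorem null_crossing {T : Ix → Ix → GF.Fld D} {l : Fn → Completion D}
    (hT : Q.IsStress T) (N : CNet Q H alg S) (Gg : Gnr Q alg S G) (hl : IsPot Q T l)
    (hp : ∀ a, IsNull a → ∀ s w, GF.mdot a w = 0 → Ptr Q S a s w) :
    ((∃ a, IsNull a ∧ ∀ f c, GF.IsTest f → Val l (G a (GF.tr T f Q.vac)) c → c = 0) →
      ∃ Λ, IsForm Q T l Λ) ∧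
    ∀ (J : Ix → GF.Fld D) (κ : V → ℝ) t s, IsVirial Q T J → Tst κ →
      (∀ᶠ x in 𝓝 (0 : V), κ x = 1) → TProd Q J G κ t s → ∃ Λ, IsForm Q T l Λ := by
  refine ⟨form_of_kappa hT N Gg hl, fun J κ t s hJ hκ hκ1 hTP => ?_⟩
  refine crossing hT N Gg hJ hl hp (fun m g hg => H993.hsch N hT hJ hl m g hg) ?_
  intro a b Phi Sig m g X ha hb hab hpa hpb hP hS hg hX n0a n0b Am hAm Lm hLm Z Z' hZ hZ'
  exact sid_symm N Gg hJ hl hTP hκ hκ1 ha hb hab hpa hpb hP hS m (isTest_fl g) hX n0a n0b Am hAm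
    Lm hLm Z Z' hZ hZ'

end Vale.Agent.P352.H246R

end
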