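import Vale.Agent.P352.H246.Ext

set_option linter.all false

noncomputable section

open MeasureTheory SchwartzMap Complex Filter Topology
open scoped SchwartzMap ComplexConjugate ENNReal LineDeriv NNReal

namespace Vale.Agent.P352.H246

open GF (Ix V Fn Sch ev pd bar sim one bas o)

/-! ### Rotations -/

/-- the rotation that takes the first axis to the direction with polar angles `θ`, `φ` -/
def Rt (θ φ : ℝ) : Ix → V :=
  ![![1, 0, 0, 0], ![0, Real.cos θ, Real.sin θ * Real.cos φ, Real.sin θ * Real.sin φ],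
    ![0, -Real.sin θ, Real.cos θ * Real.cos φ, Real.cos θ * Real.sin φ],
    ![0, 0, -Real.sin φ, Real.cos φ]]

/-- the linear functional of the direction -/
def nd (θ φ : ℝ) (x : V) : ℝ :=
  Real.cos θ * x 1 + Real.sin θ * Real.cos φ * x 2 + Real.sin θ * Real.sin φ * x 3

lemma isLor_Rt (θ φ : ℝ) : GF.IsLor (Rt θ φ) := by
  have h1 := Real.sin_sq_add_cos_sq θ
  have h2 := Real.sin_sq_add_cos_sq φ
  refine ⟨?_, ?_, ?_⟩
  · intro m n
    fin_cases m <;> fin_cases n <;>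
      simp [GF.mdot, Rt, GF.eta, bas, o, Fin.sum_univ_four] <;>
      first
      | linear_combination (-(Real.cos θ * Real.sin θ)) * h2
      | linear_combination (Real.cos θ * Real.sin θ) * h2
      | linear_combination -h1 - Real.sin θ ^ 2 * h2
      | linear_combination -h1 - Real.cos θ ^ 2 * h2
      | linear_combination h1 + Real.sin θ ^ 2 * h2
      | linear_combination h1 + Real.cos θ ^ 2 * h2
      | linear_combination -h2
      | linear_combination h2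
      | nlinarith
  · simp [Rt, o]
  · change Matrix.det (Matrix.of (Rt θ φ)) = 1
    rw [Matrix.det_succ_row_zero]
    simp [Fin.sum_univ_four, Rt, Matrix.det_fin_three, Fin.succAbove]
    linear_combination h1 + (Real.sin θ ^ 2 + Real.cos θ ^ 2) * h2

lemma mem_Wed_Rt (θ φ : ℝ) (a : V) (r : ℝ) (x : V) :
    x ∈ Wed (Rt θ φ) a r ↔ |x 0 - a 0| < r * nd θ φ (x - a) := by
  have h1 := Real.sin_sq_add_cos_sq θ
  have h2 := Real.sin_sq_add_cos_sq φ
  constructor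
  · rintro ⟨y, hy, rfl⟩
    have e0 : sim 1 (Rt θ φ) a y 0 - a 0 = y 0 := by
      simp [sim, Rt, Fin.sum_univ_four]
    have e1 : nd θ φ (sim 1 (Rt θ φ) a y - a) = y 1 := by
      simp [nd, sim, Rt, Fin.sum_univ_four]
      linear_combination y 1 * h1 + (y 1 * Real.sin θ ^ 2 +
        y 2 * Real.sin θ * Real.cos θ) * h2
    rw [e0, e1]
    exact hy
  · intro h
    refine ⟨![x 0 - a 0, nd θ φ (x - a),
      -Real.sin θ * (x 1 - a 1) + Real.cos θ * Real.cos φ * (x 2 - a 2) +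
        Real.cos θ * Real.sin φ * (x 3 - a 3),
      -Real.sin φ * (x 2 - a 2) + Real.cos φ * (x 3 - a 3)], h, ?_⟩
    funext n
    fin_cases n
    · simp [sim, Rt, Fin.sum_univ_four]
    · simp [sim, Rt, Fin.sum_univ_four, nd]
      linear_combination (-(x 1 - a 1)) * h1
    · simp [sim, Rt, Fin.sum_univ_four, nd]
      linear_combination (-(Real.cos φ * (Real.cos φ * (x 2 - a 2) +
        Real.sin φ * (x 3 - a 3)))) * h1 - (x 2 - a 2) * h2
    · simp [sim, Rt, Fin.sum_univ_four, nd]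
      linear_combination (-(Real.sin φ * (Real.cos φ * (x 2 - a 2) +
        Real.sin φ * (x 3 - a 3)))) * h1 - (x 3 - a 3) * h2

lemma nd_add (θ φ : ℝ) (x y : V) : nd θ φ (x + y) = nd θ φ x + nd θ φ y := by
  simp only [nd, Pi.add_apply]; ring

lemma nd_sub (θ φ : ℝ) (x y : V) : nd θ φ (x - y) = nd θ φ x - nd θ φ y := by
  simp only [nd, Pi.sub_apply]; ring

lemma nd_smul (θ φ t : ℝ) (x : V) : nd θ φ (t • x) = t * nd θ φ x := by
  simp only [nd, Pi.smul_apply, smul_eq_mul]; ring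

lemma abs_nd_le (θ φ : ℝ) (x : V) {r : ℝ} (h : ∀ i, |x i| ≤ r) : |nd θ φ x| ≤ 3 * r := by
  have hr : 0 ≤ r := (abs_nonneg _).trans (h 0)
  unfold nd
  have b1 : |Real.cos θ * x 1| ≤ r := by
    rw [abs_mul]
    calc _ ≤ 1 * r := mul_le_mul (Real.abs_cos_le_one _) (h 1) (abs_nonneg _) zero_le_one
      _ = r := one_mul _
  have b2 : |Real.sin θ * Real.cos φ * x 2| ≤ r := by
    rw [abs_mul, abs_mul]
    calc _ ≤ 1 * 1 * r := by
          gcongr
          · exact Real.abs_sin_le_one _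
          · exact Real.abs_cos_le_one _
          · exact h 2
      _ = r := by ring
  have b3 : |Real.sin θ * Real.sin φ * x 3| ≤ r := by
    rw [abs_mul, abs_mul]
    calc _ ≤ 1 * 1 * r := by
          gcongr
          · exact Real.abs_sin_le_one _
          · exact Real.abs_sin_le_one _
          · exact h 3
      _ = r := by ring
  calc _ ≤ |Real.cos θ * x 1 + Real.sin θ * Real.cos φ * x 2| + |Real.sin θ * Real.sin φ * x 3| :=
        abs_add_le _ _
    _ ≤ |Real.cos θ * x 1| + |Real.sin θ * Real.cos φ * x 2| + |Real.sin θ * Real.sin φ * x 3| := by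
        gcongr
        exact abs_add_le _ _
    _ ≤ 3 * r := by linarith

/-- the unit vector of the direction -/
def nv (θ φ : ℝ) : V := ![0, Real.cos θ, Real.sin θ * Real.cos φ, Real.sin θ * Real.sin φ]

lemma nd_nv (θ φ : ℝ) : nd θ φ (nv θ φ) = 1 := by
  have h1 := Real.sin_sq_add_cos_sq θ
  have h2 := Real.sin_sq_add_cos_sq φ
  simp [nd, nv]
  linear_combination h1 + Real.sin θ ^ 2 * h2

lemma nv_zero (θ φ : ℝ) : nv θ φ 0 = 0 := rfl

lemma nd_nv_symm (θ φ θ' φ' : ℝ) : nd θ φ (nv θ' φ') = nd θ' φ' (nv θ φ) := by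
  simp [nd, nv]
  ring

/-- left half of the far region -/
lemma far_half (θ φ : ℝ) (a : V) {d : V} (hd0 : d 0 = 0) (hd : nd θ φ d < 0) (r : ℝ) :
    ∃ t0 : ℝ, ∀ t ≥ t0, ∀ x : V, (∀ i, |x i - (t • d) i| ≤ r) → x ∈ Wed (Rt θ φ) a (-1) := by
  set A : ℝ := ∑ i, |a i| with hA
  have ha : ∀ i, |a i| ≤ A := fun i =>
    Finset.single_le_sum (f := fun i => |a i|) (fun i _ => abs_nonneg _) (Finset.mem_univ i)
  refine ⟨(4 * |r| + 4 * A + 1) / (-nd θ φ d), fun t ht x hx => ?_⟩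
  rw [mem_Wed_Rt]
  have h1 : 4 * |r| + 4 * A + 1 ≤ t * (-nd θ φ d) := (div_le_iff₀ (by linarith)).1 ht
  have h2 : |nd θ φ (x - t • d)| ≤ 3 * r := abs_nd_le _ _ _ hx
  have h3 : |nd θ φ a| ≤ 3 * A := abs_nd_le _ _ _ ha
  have h4 : nd θ φ (x - a) = nd θ φ (x - t • d) + t * nd θ φ d - nd θ φ a := by
    rw [nd_sub, nd_sub, nd_smul]; ring
  have h5 : |x 0| ≤ r := by
    have := hx 0
    rwa [Pi.smul_apply, hd0, smul_zero, sub_zero] at this
  have h6 := abs_sub (x 0) (a 0)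
  have h7 := ha 0
  have h8 := neg_abs_le (nd θ φ (x - t • d))
  have h9 := le_abs_self (nd θ φ (x - t • d))
  have h10 := neg_abs_le (nd θ φ a)
  have h11 := le_abs_self r
  rw [h4]
  linarith

lemma big_inter {θ φ θ' φ' : ℝ} (a a' : V) {d : V} (hd0 : d 0 = 0) (hd : nd θ φ d < 0)
    (hd' : nd θ' φ' d < 0) : Big (MW (Wed (Rt θ φ) a (-1) ∩ Wed (Rt θ' φ') a' (-1))) := by
  intro r
  obtain ⟨t1, h1⟩ := far_half θ φ a hd0 hd r
  obtain ⟨t2, h2⟩ := far_half θ' φ' a' hd0 hd' r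
  refine ⟨WithLp.toLp 2 (max t1 t2 • d), fun x hx => ⟨?_, ?_⟩⟩
  · exact h1 _ (le_max_left _ _) _ hx
  · exact h2 _ (le_max_right _ _) _ hx

lemma big_wed (θ φ : ℝ) (a : V) : Big (MW (Wed (Rt θ φ) a (-1))) := by
  have h : nd θ φ (-nv θ φ) < 0 := by
    have : nd θ φ (-nv θ φ) = -nd θ φ (nv θ φ) := by
      have := nd_smul θ φ (-1) (nv θ φ)
      rwa [neg_one_smul, neg_one_mul] at this
    rw [this, nd_nv]; norm_num
  have := big_inter a a (d := -nv θ φ) (by simp [nv_zero]) h h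
  rwa [Set.inter_self] at this

/-- far away right wedges contain a given box -/
lemma exists_far (θ φ r : ℝ) : ∃ a : V, ∀ x : V, (∀ i, |x i| ≤ r) → x ∈ Wed (Rt θ φ) a 1 := by
  refine ⟨(-(4 * |r| + 1)) • nv θ φ, fun x hx => ?_⟩
  rw [mem_Wed_Rt, nd_sub, nd_smul, nd_nv]
  have h2 : |nd θ φ x| ≤ 3 * r := abs_nd_le _ _ _ hx
  have h5 : |x 0| ≤ r := hx 0
  have h8 := neg_abs_le (nd θ φ x)
  have h11 := le_abs_self r
  simp only [Pi.smul_apply, nv_zero, smul_zero, sub_zero]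
  linarith

lemma exists_far_test {f g : 𝓢(Mink, ℂ)} (hf : IsTest Set.univ f) (hg : IsTest Set.univ g)
    (θ φ : ℝ) : ∃ a : V, IsTest (MW (Wed (Rt θ φ) a 1)) f ∧ IsTest (MW (Wed (Rt θ φ) a 1)) g := by
  obtain ⟨r1, _, h1⟩ := exists_ball f hf.1
  obtain ⟨r2, _, h2⟩ := exists_ball g hg.1
  obtain ⟨a, ha⟩ := exists_far θ φ (max r1 r2)
  exact ⟨a, ⟨hf.1, fun x hx => ha _ fun i => (h1 x hx i).trans (le_max_left _ _)⟩,
    ⟨hg.1, fun x hx => ha _ fun i => (h2 x hx i).trans (le_max_right _ _)⟩⟩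

/-- every spacelike vector lies in a wedge -/
lemma exists_dir {d : V} (hd : GF.mdot d d < 0) : ∃ θ φ, |d 0| < nd θ φ d := by
  set z : ℂ := ⟨d 2, d 3⟩ with hz
  set w : ℂ := ⟨d 1, ‖z‖⟩ with hw
  refine ⟨arg w, arg z, ?_⟩
  have h1 : ‖w‖ * Real.cos (arg w) = d 1 := Complex.norm_mul_cos_arg w
  have h2 : ‖w‖ * Real.sin (arg w) = ‖z‖ := Complex.norm_mul_sin_arg w
  have h3 : ‖z‖ * Real.cos (arg z) = d 2 := Complex.norm_mul_cos_arg z
  have h4 : ‖z‖ * Real.sin (arg z) = d 3 := Complex.norm_mul_sin_arg z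
  have h5 := Real.sin_sq_add_cos_sq (arg w)
  have h6 := Real.sin_sq_add_cos_sq (arg z)
  have hn : nd (arg w) (arg z) d = ‖w‖ := by
    unfold nd
    rw [← h3, ← h4, ← h1, ← h2]
    linear_combination ‖w‖ * h5 + ‖w‖ * Real.sin (arg w) ^ 2 * h6
  have hsq : ‖w‖ ^ 2 = d 1 ^ 2 + d 2 ^ 2 + d 3 ^ 2 := by
    rw [← h3, ← h4, ← h1]
    have : ‖z‖ ^ 2 = (‖w‖ * Real.sin (arg w)) ^ 2 := by rw [h2]
    linear_combination (-‖w‖ ^ 2) * h5 - ‖z‖ ^ 2 * h6 - this
  rw [hn]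
  have hm : GF.mdot d d = d 0 ^ 2 - d 1 ^ 2 - d 2 ^ 2 - d 3 ^ 2 := by
    simp [GF.mdot, GF.eta, o, Fin.sum_univ_four]
    ring
  rw [hm] at hd
  apply abs_lt_of_sq_lt_sq _ (norm_nonneg w)
  rw [hsq]
  linarith

variable {D : Type*} [NormedAddCommGroup D] [InnerProductSpace ℂ D]
variable {Q : GF.Theory D}
variable {lam : 𝓢(Mink, ℂ) → UniformSpace.Completion D}
variable {k : ℕ} {M M' : ℝ} {f g : 𝓢(Mink, ℂ)} {v w : D}
  {x y : UniformSpace.Completion D}

lemma glue {θ φ θ' φ' : ℝ} {a a' : V} (h : Val lam Q (Wed (Rt θ φ) a (-1)) k M f v x)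
    (h' : Val lam Q (Wed (Rt θ' φ') a' (-1)) k M' f v y) (hn : -1 < nd θ φ (nv θ' φ'))
    (hv : PW Q Set.univ v) : x = y := by
  refine h.unique h' Set.inter_subset_left Set.inter_subset_right
    (big_inter a a' (d := (-1 : ℝ) • (nv θ φ + nv θ' φ')) ?_ ?_ ?_) hv
  · simp [nv_zero]
  · rw [nd_smul, nd_add, nd_nv]; linarith
  · rw [nd_smul, nd_add, nd_nv, nd_nv_symm]; linarith

/-- the hypothesis on a test function -/
def HW (lam : 𝓢(Mink, ℂ) → UniformSpace.Completion D) (Q : GF.Theory D) (k : ℕ) (M : ℝ)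
    (f : 𝓢(Mink, ℂ)) : Prop := ∀ θ φ a, IsTest (MW (Wed (Rt θ φ) a 1)) f →
  HB lam Q (Wed (Rt θ φ) a (-1)) k M f

/-- the value does not depend on the wedge -/
theorem exists_LL (hf : IsTest Set.univ f) (hb : HW lam Q k M f) (hM : 0 ≤ M)
    (hv : PW Q Set.univ v) : ∃ x, ∀ θ φ a, IsTest (MW (Wed (Rt θ φ) a 1)) f →
      Val lam Q (Wed (Rt θ φ) a (-1)) k M f v x := by
  have hex : ∀ θ φ a, IsTest (MW (Wed (Rt θ φ) a 1)) f →
      ∃ x, Val lam Q (Wed (Rt θ φ) a (-1)) k M f v x := fun θ φ a h =>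
    Val.exists (hb θ φ a h) hM (big_wed θ φ a) hv
  obtain ⟨a0, ha0, _⟩ := exists_far_test hf hf 0 0
  obtain ⟨a2, ha2, _⟩ := exists_far_test hf hf (Real.pi / 2) 0
  obtain ⟨x0, hx0⟩ := hex _ _ _ ha0
  obtain ⟨x2, hx2⟩ := hex _ _ _ ha2
  refine ⟨x0, fun θ φ a h => ?_⟩
  obtain ⟨y, hy⟩ := hex _ _ _ h
  have e20 : x2 = x0 := glue hx2 hx0 (by simp [nd, nv]) hv
  by_cases hc : -1 < Real.cos θ
  · have : y = x0 := glue hy hx0 (by simpa [nd, nv] using hc) hv
    rwa [this] at hy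
  · have hc1 : Real.cos θ = -1 := le_antisymm (not_lt.1 hc) (Real.neg_one_le_cos θ)
    have hs : Real.sin θ = 0 := by
      have := Real.sin_sq_add_cos_sq θ
      rw [hc1] at this
      nlinarith
    have : y = x2 := glue hy hx2 (by simp [nd, nv, hs]) hv
    rw [this, e20] at hy
    exact hy

end Vale.Agent.P352.H246

end
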