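import Vale.Agent.P352.H246.Ind

set_option linter.all false

noncomputable section

open MeasureTheory SchwartzMap Complex Filter Topology
open scoped SchwartzMap ComplexConjugate ENNReal LineDeriv NNReal Uniformity

namespace Vale.Agent.P352.H246

open GF (Ix V Fn Sch ev pd bar sim one bas o)

open Classical in
/-- a centre for a test function with compact support -/
def ctr (f : 𝓢(Mink, ℂ)) : Mink :=
  if h : ∃ a : V, IsTest (MW (Wed (Rt 0 0) a 1)) f then WithLp.toLp 2 h.choose else 0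

lemma ctr_spec {f : 𝓢(Mink, ℂ)} (hf : IsTest Set.univ f) :
    IsTest (MW (Wed (Rt 0 0) (ctr f).ofLp 1)) f := by
  have h : ∃ a : V, IsTest (MW (Wed (Rt 0 0) a 1)) f := by
    obtain ⟨a, ha, _⟩ := exists_far_test hf hf 0 0
    exact ⟨a, ha⟩
  unfold ctr
  rw [dif_pos h]
  exact h.choose_spec

variable {D : Type*} [NormedAddCommGroup D] [InnerProductSpace ℂ D]
variable {Q : GF.Theory D} {T : Ix → Ix → GF.Fld D}

/-- the primitive of the current -/
def LJ (J : Ix → GF.Fld D) (f : 𝓢(Mink, ℂ)) (v : D) : UniformSpace.Completion D :=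
  La J (ctr f) f v

/-- the curl vanishes if it annihilates the vacuum -/
theorem VFld.curl {J : Ix → GF.Fld D} (hJ : VFld Q J) (hc : Curl J Q.vac) (v : D) :
    Curl J v := by
  intro m n f
  rw [← sub_eq_zero]
  refine van (Q := Q)
    (B := fun f v => (GF.eta n : ℂ) • J n (fl (∂_{eb m} f)) v -
      (GF.eta m : ℂ) • J m (fl (∂_{eb n} f)) v)
    (B' := fun f v => (GF.eta n : ℂ) • J n (fl (∂_{eb m} f)) v -
      (GF.eta m : ℂ) • J m (fl (∂_{eb n} f)) v) ?_ ?_ ?_ ?_ f v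
  · intro f v w
    rw [inner_sub_left, inner_sub_right, inner_smul_left, inner_smul_left, inner_smul_right,
      inner_smul_right, hJ.herm, hJ.herm, conjS_lineDeriv, conjS_lineDeriv, conj_ofReal,
      conj_ofReal]
  · intro f a X X' hf hX
    have h1 : ∀ k l : Ix, J k (fl (∂_{eb l} f)) (X Q.vac) = X (J k (fl (∂_{eb l} f)) Q.vac) :=
      fun k l => hJ.comm k (isLor_Rt 0 0) (isTest_lineDeriv hf _) hX _
    rw [h1, h1]
    have := (hX.map_add ((GF.eta n : ℂ) • J n (fl (∂_{eb m} f)) Q.vac)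
      ((-1 : ℂ) • ((GF.eta m : ℂ) • J m (fl (∂_{eb n} f)) Q.vac)))
    rw [hX.map_smul, hX.map_smul, hX.map_smul, neg_one_smul, neg_one_smul, ← sub_eq_add_neg,
      ← sub_eq_add_neg] at this
    exact this.symm
  · intro f _
    rw [hc m n f, sub_self]
  · intro v
    have h1 : ∀ k l : Ix, Continuous fun f : 𝓢(Mink, ℂ) => J k (fl (∂_{eb l} f)) v := by
      intro k l
      have h2 : Continuous fun f : 𝓢(Mink, ℂ) => (∂_{eb l} f : 𝓢(Mink, ℂ)) :=
        (LineDeriv.lineDerivOpCLM ℂ 𝓢(Mink, ℂ) (eb l)).continuous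
      exact (fld_cont (hJ.fld k) v).comp h2
    exact ((h1 n m).const_smul _).sub ((h1 m n).const_smul _)

section

variable {J : Ix → GF.Fld D} (hJ : VFld Q J) (hc : Curl J Q.vac)
include hJ hc

lemma VFld.LJ_eq {L : Ix → V} (hL : GF.IsLor L) {c : Mink} {f : 𝓢(Mink, ℂ)}
    (hf : IsTest (MW (Wed L c.ofLp 1)) f) {w : D} (hw : GoodV J w) : LJ J f w = La J c f w :=
  (hJ.La_indep hc hL hf (ctr_spec (isTest_univ hf)) hw).symm

lemma VFld.LJ_vac (f : 𝓢(Mink, ℂ)) : LJ J f Q.vac = hJ.kp 0 f := hJ.La_vac hc _ f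

omit hc in
lemma VFld.LJ_addv {f : 𝓢(Mink, ℂ)} (hf : IsTest Set.univ f) {v w : D} (hv : GoodV J v)
    (hw : GoodV J w) : LJ J f (v + w) = LJ J f v + LJ J f w :=
  hJ.La_addv (hv _ _ _ (isLor_Rt 0 0) (ctr_spec hf)) (hw _ _ _ (isLor_Rt 0 0) (ctr_spec hf))

omit hc in
lemma VFld.LJ_smulv (f : 𝓢(Mink, ℂ)) (k : ℂ) (v : D) : LJ J f (k • v) = k • LJ J f v :=
  hJ.La_smulv _ _ _ _

lemma VFld.LJ_addf {f g : 𝓢(Mink, ℂ)} (hf : IsTest Set.univ f) (hg : IsTest Set.univ g) {v : D}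
    (hv : GoodV J v) : LJ J (f + g) v = LJ J f v + LJ J g v := by
  obtain ⟨a, ha, hb⟩ := exists_far_test hf hg 0 0
  have ha' : IsTest (MW (Wed (Rt 0 0) (WithLp.toLp 2 a : Mink).ofLp 1)) f := ha
  have hb' : IsTest (MW (Wed (Rt 0 0) (WithLp.toLp 2 a : Mink).ofLp 1)) g := hb
  rw [hJ.LJ_eq hc (isLor_Rt 0 0) ha' hv, hJ.LJ_eq hc (isLor_Rt 0 0) hb' hv,
    hJ.LJ_eq hc (isLor_Rt 0 0) (ha'.add hb') hv]
  exact hJ.La_addf (hv _ _ _ (isLor_Rt 0 0) ha') (hv _ _ _ (isLor_Rt 0 0) hb')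

lemma VFld.LJ_smulf {f : 𝓢(Mink, ℂ)} (hf : IsTest Set.univ f) (k : ℂ) {v : D}
    (hv : GoodV J v) : LJ J (k • f) v = k • LJ J f v := by
  have h := ctr_spec hf
  rw [hJ.LJ_eq hc (isLor_Rt 0 0) (h.smul k) hv]
  exact hJ.La_smulf _ _ _ _

lemma VFld.LJ_herm {f : 𝓢(Mink, ℂ)} (hf : IsTest Set.univ f) {v w : D} (hv : GoodV J v)
    (hw : GoodV J w) : inner ℂ (v : UniformSpace.Completion D) (LJ J f w) =
      inner ℂ (LJ J (conjS f) v) (w : UniformSpace.Completion D) := by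
  have h := ctr_spec hf
  have h' := isTest_conj h
  rw [hJ.LJ_eq hc (isLor_Rt 0 0) h' hv]
  exact hJ.La_herm (hw _ _ _ (isLor_Rt 0 0) h) (hv _ _ _ (isLor_Rt 0 0) h')

/-- locality across a wedge -/
lemma VFld.LJ_loc {A B : GF.Fld D} (hA : Q.fld A) (hB : Q.fld B)
    (hadj : ∀ f v w, GF.IsTest f → inner ℂ (A f v) w = inner ℂ v (B (bar f) w))
    {θ φ : ℝ} {a : V} {f g : 𝓢(Mink, ℂ)} (hf : IsTest (MW (Wed (Rt θ φ) a 1)) f)
    (hg : IsTest (MW (Wed (Rt θ φ) a (-1))) g) {v : D} (hv : PW Q Set.univ v) (z : D) :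
    inner ℂ ((B (fl (conjS g)) z : D) : UniformSpace.Completion D) (LJ J f v) =
      inner ℂ (z : UniformSpace.Completion D) (LJ J f (A (fl g) v)) := by
  have hf' : IsTest (MW (Wed (Rt θ φ) (WithLp.toLp 2 a : Mink).ofLp 1)) f := hf
  have hAv : PW Q Set.univ (A (fl g) v) := .fld hA (isTest_univ hg) hv
  have g1 := hJ.goodV hv
  have g2 := hJ.goodV hAv
  rw [hJ.LJ_eq hc (isLor_Rt θ φ) hf' g1, hJ.LJ_eq hc (isLor_Rt θ φ) hf' g2]
  have hX := Al.fld A B (fl g) (fun v => v) (fun v => v) hA hB hadj (In_fl.2 hg)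
    (Al.one (Q := Q) (W := Wed (Rt θ φ) (WithLp.toLp 2 a : Mink).ofLp (-1)))
  have h := hJ.La_comm (isLor_Rt θ φ) hf' hX (g1 _ _ _ (isLor_Rt θ φ) hf')
    (g2 _ _ _ (isLor_Rt θ φ) hf') z
  rw [bar_fl] at h
  exact h

/-- relative locality -/
theorem VFld.LJ_local {A B : GF.Fld D} (hA : Q.fld A) (hB : Q.fld B)
    (hadj : ∀ f v w, GF.IsTest f → inner ℂ (A f v) w = inner ℂ v (B (bar f) w))
    {f g : 𝓢(Mink, ℂ)} (hf : IsTest Set.univ f) (hg : IsTest Set.univ g) (hs : SpSep f g)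
    {v : D} (hv : PW Q Set.univ v) (z : D) :
    inner ℂ ((B (fl (conjS g)) z : D) : UniformSpace.Completion D) (LJ J f v) =
      inner ℂ (z : UniformSpace.Completion D) (LJ J f (A (fl g) v)) := by
  have hL0 : ∀ v, PW Q Set.univ v → LJ J 0 v = 0 := by
    intro v hv
    have := hJ.LJ_smulf hc (isTest_zero Set.univ) 0 (hJ.goodV hv)
    rwa [zero_smul, zero_smul] at this
  have step : ∀ x ∈ tsupport f, ∃ U, IsOpen U ∧ x ∈ U ∧ ∀ f', IsTest U f' →
      inner ℂ ((B (fl (conjS g)) z : D) : UniformSpace.Completion D) (LJ J f' v) =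
        inner ℂ (z : UniformSpace.Completion D) (LJ J f' (A (fl g) v)) := by
    intro x hx
    obtain ⟨U, hU, hKU, h⟩ := part_induct (P := fun g' => IsTest Set.univ g' ∧
      ∃ U, IsOpen U ∧ x ∈ U ∧ ∀ f', IsTest U f' →
      inner ℂ ((B (fl (conjS g')) z : D) : UniformSpace.Completion D) (LJ J f' v) =
        inner ℂ (z : UniformSpace.Completion D) (LJ J f' (A (fl g') v)))
      (by
        refine ⟨isTest_zero _, Set.univ, isOpen_univ, trivial, fun f' hf' => ?_⟩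
        rw [conjS_zero, fld_zero hB, fld_zero hA, UniformSpace.Completion.coe_zero,
          inner_zero_left]
        have := hJ.LJ_smulv f' 0 v
        rw [zero_smul, zero_smul] at this
        rw [this, inner_zero_right])
      (by
        rintro g1 g2 _ _ ⟨hg1, U1, hU1, hx1, h1⟩ ⟨hg2, U2, hU2, hx2, h2⟩
        refine ⟨hg1.add hg2, U1 ∩ U2, hU1.inter hU2, ⟨hx1, hx2⟩, fun f' hf' => ?_⟩
        have e1 := h1 f' ⟨hf'.1, hf'.2.trans Set.inter_subset_left⟩
        have e2 := h2 f' ⟨hf'.1, hf'.2.trans Set.inter_subset_right⟩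
        rw [conjS_add, fld_addf hB, fld_addf hA, UniformSpace.Completion.coe_add, inner_add_left,
          hJ.LJ_addv (isTest_univ hf') (hJ.goodV (.fld hA hg1 hv)) (hJ.goodV (.fld hA hg2 hv)),
          inner_add_right, e1, e2])
      hg.1.isCompact
      (by
        intro y hy
        obtain ⟨θ, φ, a, hxa, hya⟩ := exists_sep (hs x hx y hy)
        refine ⟨_, isOpen_Wed_Rt θ φ a (-1), hya, fun g' hg' => ⟨isTest_univ hg', _,
          isOpen_Wed_Rt θ φ a 1, hxa, fun f' hf' => ?_⟩⟩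
        exact hJ.LJ_loc hc hA hB hadj hf' hg' hv z)
    exact (h g ⟨hg.1, hKU⟩).2
  obtain ⟨U, hU, hKU, h⟩ := part_induct (P := fun f' => IsTest Set.univ f' ∧
      inner ℂ ((B (fl (conjS g)) z : D) : UniformSpace.Completion D) (LJ J f' v) =
        inner ℂ (z : UniformSpace.Completion D) (LJ J f' (A (fl g) v)))
    (by
      refine ⟨isTest_zero _, ?_⟩
      rw [hL0 _ hv, hL0 _ (.fld hA hg hv), inner_zero_right, inner_zero_right])
    (by
      rintro f1 f2 _ _ ⟨h1, e1⟩ ⟨h2, e2⟩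
      refine ⟨h1.add h2, ?_⟩
      rw [hJ.LJ_addf hc h1 h2 (hJ.goodV hv), hJ.LJ_addf hc h1 h2 (hJ.goodV (.fld hA hg hv)),
        inner_add_right, inner_add_right, e1, e2])
    hf.1.isCompact
    (by
      intro x hx
      obtain ⟨U, hU, hxU, h⟩ := step x hx
      exact ⟨U, hU, hxU, fun f' hf' => ⟨isTest_univ hf', h f' hf'⟩⟩)
  exact (h f ⟨hf.1, hKU⟩).2

/-- the gradient of the primitive is the current -/
theorem VFld.LJ_pd (m : Ix) {f : 𝓢(Mink, ℂ)} (hf : IsTest Set.univ f) {v : D}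
    (hv : PW Q Set.univ v) : (3 : ℂ) • LJ J (∂_{eb m} f) v =
      -((GF.eta m : ℂ) • ((J m (fl f) v : D) : UniformSpace.Completion D)) := by
  have h := ctr_spec hf
  have h' := isTest_lineDeriv h (eb m)
  rw [hJ.LJ_eq hc (isLor_Rt 0 0) h' (hJ.goodV hv)]
  exact hJ.La_pd (hJ.curl hc v) (hJ.good (isLor_Rt 0 0) h' hv) (hJ.dec (isLor_Rt 0 0) h hv)

/-- covariance -/
theorem VFld.LJ_cov {s : ℝ} (hs : 0 < s) {B : Ix → V} (hB : GF.IsLor B) (b : V)
    {f : 𝓢(Mink, ℂ)} (hf : IsTest Set.univ f) {v : D} (hv : PW Q Set.univ v) (z : D) :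
    inner ℂ ((Q.U s B b z : D) : UniformSpace.Completion D) (LJ J f (Q.U s B b v)) =
      ((s ^ 2 : ℝ) : ℂ) * inner ℂ (z : UniformSpace.Completion D)
        (LJ J (simS s hs hB b f) v) := by
  have hf' := isTest_simS_univ hs hB b hf
  have h := ctr_spec hf'
  set c := ctr (simS s hs hB b f) with hcd
  have h0 : IsTest (MW (Wed one c.ofLp 1)) (simS s hs hB b f) := by
    rw [← Rt_zero]; exact h
  have h1 := isTest_simS' hs hB b h0
  have h2 : IsTest (MW (Wed B (WithLp.toLp 2 (sim s B b c.ofLp) : Mink).ofLp 1)) f :=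
    ⟨h1.1, h1.2.trans fun x hx => sim_wed hs b c.ofLp 1 hx⟩
  rw [hJ.LJ_eq hc hB h2 (hJ.goodV_U hs hB b (hJ.goodV hv))]
  exact hJ.La_cov hs hB b (hJ.good (isLor_Rt 0 0) h hv) z

/-- continuity on test functions supported in a fixed compact set -/
theorem VFld.LJ_cont {K : Set Mink} (hK : IsCompact K) {v : D} (hv : PW Q Set.univ v) :
    Continuous fun f : DK K => LJ J (f : 𝓢(Mink, ℂ)) v := by
  have := barrelled_DK K
  have hT : ∀ f : DK K, IsTest Set.univ (f : 𝓢(Mink, ℂ)) ∧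
      tsupport ((f : 𝓢(Mink, ℂ)) : Mink → ℂ) ⊆ K := by
    intro f
    have h1 : tsupport ((f : 𝓢(Mink, ℂ)) : Mink → ℂ) ⊆ K := by
      apply closure_minimal _ hK.isClosed
      intro x hx
      by_contra h
      exact hx (f.2 x h)
    exact ⟨⟨hK.of_isClosed_subset (isClosed_tsupport _) h1, Set.subset_univ _⟩, h1⟩
  obtain ⟨r, hr⟩ : ∃ r : ℝ, ∀ x ∈ K, ∀ i, |x i| ≤ r := by
    obtain ⟨R, hR⟩ := hK.isBounded.exists_norm_le
    refine ⟨R, fun x hx i => ?_⟩
    have := PiLp.norm_apply_le x i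
    rw [Real.norm_eq_abs] at this
    exact this.trans (hR x hx)
  obtain ⟨a, ha⟩ := exists_far 0 0 r
  set c : Mink := WithLp.toLp 2 a with hcd
  have hf : ∀ f : DK K, IsTest (MW (Wed (Rt 0 0) c.ofLp 1)) (f : 𝓢(Mink, ℂ)) := fun f =>
    ⟨(hT f).1.1, fun x hx => ha x.ofLp fun i => hr x ((hT f).2 hx) i⟩
  have hg := hJ.goodV hv
  set Ψ : DK K →ₗ[ℂ] UniformSpace.Completion D :=
    { toFun := fun f => LJ J (f : 𝓢(Mink, ℂ)) v
      map_add' := fun f g => hJ.LJ_addf hc (hT f).1 (hT g).1 hg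
      map_smul' := fun k f => hJ.LJ_smulf hc (hT f).1 k hg } with hΨ
  refine cont_of_weak Ψ (Z := PC Q (MW (Wed (Rt 0 0) c.ofLp (-1)))) (dense_PC (big_wed 0 0 _))
    fun z hz => ?_
  obtain ⟨y, hy, rfl⟩ := hz
  obtain ⟨Y, Y', hY, rfl⟩ := exists_Al hy
  have e : (fun f : DK K => inner ℂ ((Y Q.vac : D) : UniformSpace.Completion D) (Ψ f)) =
      fun f : DK K => inner ℂ (hJ.kp 0 (conjS (f : 𝓢(Mink, ℂ))))
        ((Y' v : D) : UniformSpace.Completion D) := by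
    funext f
    show inner ℂ ((Y Q.vac : D) : UniformSpace.Completion D) (LJ J (f : 𝓢(Mink, ℂ)) v) = _
    rw [hJ.LJ_eq hc (isLor_Rt 0 0) (hf f) hg, hJ.La_elem hc (isLor_Rt 0 0) (hf f) hY hg]
  show Continuous fun f : DK K => inner ℂ ((Y Q.vac : D) : UniformSpace.Completion D) (Ψ f)
  rw [e]
  exact (((hJ.kp 0).continuous.comp continuous_conjS).comp continuous_subtype_val).inner
    continuous_const

end

end Vale.Agent.P352.H246

end
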