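import Vale.Agent.P352.H246.Meas

set_option linter.all false

noncomputable section

open MeasureTheory SchwartzMap Complex Filter Topology
open scoped SchwartzMap ComplexConjugate ENNReal LineDeriv

namespace Vale.Agent.P352.H246

open GF (Ix V Fn Sch ev pd bar sim one bas o)

variable {D : Type*} [NormedAddCommGroup D] [InnerProductSpace ℂ D]
variable {μ : Measure Mink}

/-- inverse mass squared -/
def im (p : Mink) : ℝ := (mass2 p)⁻¹

lemma measurable_im : Measurable im := measurable_mass2.inv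

lemma rho_lt_top (p : Mink) : rho p < ∞ := ENNReal.ofReal_lt_top

lemma rho_toReal (p : Mink) : (rho p).toReal = im p ^ 2 := by
  unfold rho im
  rw [ENNReal.toReal_ofReal (by positivity), inv_pow]

lemma memLp_im {φ : Mink → ℂ} (hφ : MemLp φ 2 (μ.withDensity rho)) (hm : Measurable φ) :
    MemLp (fun p => (im p : ℂ) * φ p) 2 μ := by
  have h1 := (memLp_two_iff_integrable_sq_norm hφ.1).1 hφ
  rw [integrable_withDensity_iff measurable_rho
    (Eventually.of_forall rho_lt_top)] at h1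
  have hm' : Measurable fun p => (im p : ℂ) * φ p :=
    (measurable_ofReal.comp measurable_im).mul hm
  rw [memLp_two_iff_integrable_sq_norm hm'.aestronglyMeasurable]
  refine h1.congr (Eventually.of_forall fun p => ?_)
  simp only [rho_toReal, norm_mul, norm_real, Real.norm_eq_abs, mul_pow, sq_abs]
  ring

section

variable (S : SymMeasure μ 4)

include S in
lemma memLp_mft_im (f : 𝓢(Mink, ℂ)) : MemLp (fun p => (im p : ℂ) * mft f p) 2 μ :=
  memLp_im (mft_memLp (sym_rho S).temp f) (continuous_mft f).measurable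

/-- `L²` class of the Fourier transform divided by the mass squared -/
def toI : 𝓢(Mink, ℂ) →ₗ[ℂ] Lp ℂ 2 μ where
  toFun f := (memLp_mft_im S f).toLp _
  map_add' f g := by
    rw [← MemLp.toLp_add]
    congr 1
    ext p
    simp only [mft_add, Pi.add_apply]; ring
  map_smul' c f := by
    rw [RingHom.id_apply, ← MemLp.toLp_const_smul]
    congr 1
    ext p
    simp only [mft_smul, Pi.smul_apply, smul_eq_mul]; ring

lemma coeFn_toI (f : 𝓢(Mink, ℂ)) : toI S f =ᵐ[μ] fun p => (im p : ℂ) * mft f p :=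
  MemLp.coeFn_toLp (memLp_mft_im S f)

lemma inner_toI (f : 𝓢(Mink, ℂ)) (u : Lp ℂ 2 μ) :
    inner ℂ (toI S f) u = ∫ p, conj (mft f p) * ((im p : ℂ) * u p) ∂μ := by
  rw [L2.inner_def]
  apply integral_congr_ae
  filter_upwards [coeFn_toI S f] with p hp
  rw [hp]
  simp only [RCLike.inner_apply, map_mul, conj_ofReal]
  ring

lemma inner_toI_toI (f g : 𝓢(Mink, ℂ)) :
    inner ℂ (toI S f) (toI S g) =
      inner ℂ (toL (sym_rho S).temp f) (toL (sym_rho S).temp g) := by
  rw [inner_toL_toL, inner_toI,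
    integral_withDensity_eq_integral_toReal_smul measurable_rho (Eventually.of_forall rho_lt_top)]
  apply integral_congr_ae
  filter_upwards [coeFn_toI S g] with p hp
  rw [hp, rho_toReal, real_smul]
  push_cast
  ring

lemma norm_toI (f : 𝓢(Mink, ℂ)) : ‖toI S f‖ = ‖toL (sym_rho S).temp f‖ := by
  have h := inner_toI_toI S f f
  rw [inner_self_eq_norm_sq_to_K, inner_self_eq_norm_sq_to_K] at h
  have h2 : ‖toI S f‖ ^ 2 = ‖toL (sym_rho S).temp f‖ ^ 2 := by exact_mod_cast h
  exact (pow_left_inj₀ (norm_nonneg _) (norm_nonneg _) (by norm_num)).1 h2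

lemma continuous_toL (hμ : μ.HasTemperateGrowth) : Continuous (toL hμ) := by
  have h : (toL hμ : 𝓢(Mink, ℂ) → Lp ℂ 2 μ) =
      fun f => SchwartzMap.toLpCLM ℂ ℂ 2 μ (mftS f) := by
    funext f
    rw [SchwartzMap.toLpCLM_apply]
    apply Lp.ext
    filter_upwards [coeFn_toL hμ f, SchwartzMap.coeFn_toLp (mftS f) 2 μ] with p h1 h2
    rw [h1, h2, mftS_apply]
  rw [h]
  exact (SchwartzMap.toLpCLM ℂ ℂ 2 μ).continuous.comp mftS.continuous

lemma continuous_toI : Continuous (toI S) := by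
  rw [continuous_iff_continuousAt]
  intro f
  rw [ContinuousAt, tendsto_iff_dist_tendsto_zero]
  have h := (continuous_toL (sym_rho S).temp).tendsto f
  rw [tendsto_iff_dist_tendsto_zero] at h
  refine h.congr fun g => ?_
  rw [dist_eq_norm, dist_eq_norm, ← map_sub, ← map_sub, norm_toI]

end

section

variable {Q : GF.Theory D} {T : Ix → Ix → GF.Fld D} {A : GF.Fld D}
variable (S : SymMeasure μ 4) (hA : PField Q T A 4)

/-- the map from momentum space functions to vectors -/
def J : Lp ℂ 2 μ →L[ℂ] UniformSpace.Completion D :=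
  (hA.kap : 𝓢(Mink, ℂ) →ₗ[ℂ] UniformSpace.Completion D).extendOfNorm (toL S.good.temp)

/-- two point function in momentum space -/
def Two (Q : GF.Theory D) (A : GF.Fld D) (μ : Measure Mink) : Prop :=
  ∀ f g, inner ℂ (A (fl f) Q.vac) (A (fl g) Q.vac) = ∫ p, conj (mft f p) * mft g p ∂μ

variable (two : Two Q A μ)

include two in
lemma norm_kap (f : 𝓢(Mink, ℂ)) : ‖hA.kap f‖ = ‖toL S.good.temp f‖ := by
  have h : inner ℂ (hA.kap f) (hA.kap f) = inner ℂ (toL S.good.temp f) (toL S.good.temp f) := by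
    rw [hA.inner_kap, two, inner_toL_toL]
  rw [inner_self_eq_norm_sq_to_K, inner_self_eq_norm_sq_to_K] at h
  have h2 : ‖hA.kap f‖ ^ 2 = ‖toL S.good.temp f‖ ^ 2 := by exact_mod_cast h
  exact (pow_left_inj₀ (norm_nonneg _) (norm_nonneg _) (by norm_num)).1 h2

include two in
lemma J_toL (f : 𝓢(Mink, ℂ)) : J S hA (toL S.good.temp f) = hA.kap f := by
  unfold J
  rw [LinearMap.extendOfNorm_eq (denseRange_toL S.good)]
  · rfl
  · refine ⟨1, fun x => ?_⟩
    rw [one_mul, ← norm_kap S hA two]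
    rfl

include two in
lemma inner_J (u v : Lp ℂ 2 μ) : inner ℂ (J S hA u) (J S hA v) = inner ℂ u v := by
  refine (denseRange_toL S.good).induction_on₂ (p := fun u v =>
    inner ℂ (J S hA u) (J S hA v) = inner ℂ u v) ?_ ?_ u v
  · apply isClosed_eq <;> fun_prop
  · intro f g
    rw [J_toL S hA two, J_toL S hA two, hA.inner_kap, two, inner_toL_toL]

/-- the vector potential of the trace -/
def lamV : 𝓢(Mink, ℂ) →L[ℂ] UniformSpace.Completion D where
  toLinearMap := (-(1 / 3 : ℂ)) • ((J S hA).toLinearMap ∘ₗ toI S)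
  cont := by
    exact (continuous_const_smul (-(1 / 3 : ℂ))).comp
      ((J S hA).continuous.comp (continuous_toI S))

lemma lamV_apply (f : 𝓢(Mink, ℂ)) : lamV S hA f = (-(1 / 3 : ℂ)) • (J S hA (toI S f)) := rfl

lemma mdot_eb (p : Mink) (k : Fin 4) : mdot p (eb k) = GF.eta k * p k := by
  fin_cases k <;> simp [mdot, eb, eta_0, eta_1, eta_2, eta_3]

lemma mft_sum (s : Finset (Fin 4)) (F : Fin 4 → 𝓢(Mink, ℂ)) (p : Mink) :
    mft (∑ k ∈ s, F k) p = ∑ k ∈ s, mft (F k) p := by
  induction s using Finset.induction_on with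
  | empty => simp [mft_zero]
  | insert a s ha ih => rw [Finset.sum_insert ha, Finset.sum_insert ha, mft_add, ih]

lemma mft_boxS (f : 𝓢(Mink, ℂ)) (p : Mink) : mft (boxS f) p = -(mass2 p : ℂ) * mft f p := by
  unfold boxS
  rw [mft_sum]
  simp only [mft_smul, mft_lineDeriv, mdot_eb]
  rw [Fin.sum_univ_four]
  simp only [eta_0, eta_1, eta_2, eta_3, mass2, mdot]
  push_cast
  ring_nf
  rw [I_sq]
  ring

lemma toI_box (f : 𝓢(Mink, ℂ)) : toI S (boxS f) = -toL S.good.temp f := by
  apply Lp.ext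
  have hnull : ∀ᵐ p ∂μ, mass2 p ≠ 0 := by
    have := S.null_zero (by norm_num)
    exact measure_eq_zero_iff_ae_notMem.1 this
  filter_upwards [coeFn_toI S (boxS f), coeFn_toL S.good.temp f,
    Lp.coeFn_neg (toL S.good.temp f), hnull] with p h1 h2 h3 h4
  rw [h1, h3, Pi.neg_apply, h2, mft_boxS]
  unfold im
  have : (mass2 p : ℂ) ≠ 0 := by exact_mod_cast h4
  push_cast
  field_simp

include two in
lemma lamV_box (f : 𝓢(Mink, ℂ)) : (3 : ℂ) • lamV S hA (boxS f) = hA.kap f := by
  rw [lamV_apply, toI_box, map_neg, J_toL S hA two, smul_smul]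
  rw [smul_neg, ← neg_smul]
  norm_num

lemma mft_simS (s : ℝ) (hs : 0 < s) {L : Ix → V} (hL : GF.IsLor L) (a : V)
    (f : 𝓢(Mink, ℂ)) (p : Mink) : mft (simS s hs hL a f) p =
      ((s ^ 4)⁻¹ : ℝ) * (chr (-WithLp.toLp 2 a) (s⁻¹ • lam L p) * mft f (s⁻¹ • lam L p)) := by
  unfold simS
  rw [mft_compLam, mft_scaleS s hs, mft_tauS]

lemma measurable_M (s : ℝ) (L : Ix → V) : Measurable fun p : Mink => s⁻¹ • lam L p := by
  have := (continuous_lam L).measurable
  fun_prop

include S in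
lemma map_M (s : ℝ) (hs : 0 < s) {L : Ix → V} (hL : GF.IsLor L) :
    μ.map (fun p => s⁻¹ • lam L p) = ENNReal.ofReal (s ^ (2 * (4 : ℝ))) • μ := by
  ext B hB
  rw [Measure.map_apply (measurable_M s L) hB, Measure.smul_apply, smul_eq_mul,
    ← S.scale s hs B hB]
  have hM : Measurable fun p : Mink => s⁻¹ • p := by fun_prop
  exact (S.lor L hL).measure_preimage (hM hB).nullMeasurableSet

/-- the substitution on `L²` -/
def Kf (s : ℝ) (L : Ix → V) (a : V) (φ : Mink → ℂ) (p : Mink) : ℂ :=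
  ((s ^ 4)⁻¹ : ℝ) * (chr (-WithLp.toLp 2 a) (s⁻¹ • lam L p) * φ (s⁻¹ • lam L p))

include S in
lemma qmp (s : ℝ) (hs : 0 < s) {L : Ix → V} (hL : GF.IsLor L) :
    Measure.QuasiMeasurePreserving (fun p : Mink => s⁻¹ • lam L p) μ μ := by
  refine ⟨measurable_M s L, ?_⟩
  rw [map_M S s hs hL]
  exact Measure.smul_absolutelyContinuous

include S in
lemma Kf_bound (s : ℝ) (hs : 0 < s) {L : Ix → V} (hL : GF.IsLor L) (a : V) {φ : Mink → ℂ}
    (hφ : MemLp φ 2 μ) : MemLp (Kf s L a φ) 2 μ ∧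
    eLpNorm (Kf s L a φ) 2 μ = eLpNorm φ 2 μ := by
  set M : Mink → Mink := fun p => s⁻¹ • lam L p with hM
  have hm : AEStronglyMeasurable φ (μ.map M) := by
    rw [map_M S s hs hL]
    exact hφ.1.smul_measure _
  have h1 : eLpNorm (φ ∘ M) 2 μ = ENNReal.ofReal (s ^ 4) * eLpNorm φ 2 μ := by
    rw [← eLpNorm_map_measure hm (measurable_M s L).aemeasurable, map_M S s hs hL,
      eLpNorm_smul_measure_of_ne_top (by norm_num)]
    congr 1
    have e1 : (2 * (4 : ℝ)) = ((8 : ℕ) : ℝ) := by norm_num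
    rw [e1, Real.rpow_natCast, ENNReal.ofReal_rpow_of_pos (by positivity)]
    congr 1
    rw [show (s ^ 8) = (s ^ 4) ^ (2 : ℝ) by
      rw [show (2 : ℝ) = ((2 : ℕ) : ℝ) by norm_num, Real.rpow_natCast]; ring]
    rw [← Real.rpow_mul (by positivity)]
    norm_num
  have hm2 : AEStronglyMeasurable (Kf s L a φ) μ := by
    have h2 : AEStronglyMeasurable (φ ∘ M) μ := hφ.1.comp_quasiMeasurePreserving (qmp S s hs hL)
    have h3 : AEStronglyMeasurable (fun p => chr (-WithLp.toLp 2 a) (M p)) μ :=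
      ((continuous_chr _).measurable.comp (measurable_M s L)).aestronglyMeasurable
    exact (h3.mul h2).const_mul _
  have h2 : eLpNorm (Kf s L a φ) 2 μ = eLpNorm φ 2 μ := by
    have h3 : eLpNorm (Kf s L a φ) 2 μ = eLpNorm (((s ^ 4)⁻¹ : ℝ) • (φ ∘ M)) 2 μ := by
      apply eLpNorm_congr_norm_ae
      refine Eventually.of_forall fun p => ?_
      simp only [Kf, norm_mul, norm_chr, one_mul, Pi.smul_apply, norm_smul, Function.comp_apply,
        norm_real]
      rfl
    rw [h3, eLpNorm_const_smul, h1, ← mul_assoc]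
    have : ‖((s ^ 4)⁻¹ : ℝ)‖ₑ * ENNReal.ofReal (s ^ 4) = 1 := by
      rw [← ofReal_norm, Real.norm_of_nonneg (by positivity), ← ENNReal.ofReal_mul (by positivity),
        inv_mul_cancel₀ (by positivity), ENNReal.ofReal_one]
    rw [this, one_mul]
  exact ⟨⟨hm2, by rw [h2]; exact hφ.2⟩, h2⟩

/-- the substitution on `L²` as a linear map -/
def KL (s : ℝ) (hs : 0 < s) {L : Ix → V} (hL : GF.IsLor L) (a : V) : Lp ℂ 2 μ →ₗ[ℂ] Lp ℂ 2 μ where
  toFun φ := (Kf_bound S s hs hL a (Lp.memLp φ)).1.toLp _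
  map_add' φ ψ := by
    rw [← MemLp.toLp_add]
    apply MemLp.toLp_congr
    have := (qmp S s hs hL).ae_eq_comp (Lp.coeFn_add φ ψ)
    filter_upwards [this] with p hp
    simp only [Function.comp_apply, Pi.add_apply] at hp
    simp only [Kf, hp, Pi.add_apply]; ring
  map_smul' c φ := by
    rw [RingHom.id_apply, ← MemLp.toLp_const_smul]
    apply MemLp.toLp_congr
    have := (qmp S s hs hL).ae_eq_comp (Lp.coeFn_smul c φ)
    filter_upwards [this] with p hp
    simp only [Function.comp_apply, Pi.smul_apply] at hp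
    simp only [Kf, hp, Pi.smul_apply, smul_eq_mul]; ring

lemma coeFn_KL (s : ℝ) (hs : 0 < s) {L : Ix → V} (hL : GF.IsLor L) (a : V) (φ : Lp ℂ 2 μ) :
    KL S s hs hL a φ =ᵐ[μ] Kf s L a φ :=
  MemLp.coeFn_toLp (Kf_bound S s hs hL a (Lp.memLp φ)).1

lemma norm_KL (s : ℝ) (hs : 0 < s) {L : Ix → V} (hL : GF.IsLor L) (a : V) (φ : Lp ℂ 2 μ) :
    ‖KL S s hs hL a φ‖ = ‖φ‖ := by
  rw [Lp.norm_def, Lp.norm_def, eLpNorm_congr_ae (coeFn_KL S s hs hL a φ),
    (Kf_bound S s hs hL a (Lp.memLp φ)).2]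

lemma continuous_KL (s : ℝ) (hs : 0 < s) {L : Ix → V} (hL : GF.IsLor L) (a : V) :
    Continuous (KL S s hs hL a) :=
  (LinearIsometry.mk (KL S s hs hL a) (norm_KL S s hs hL a)).continuous

lemma KL_toL (s : ℝ) (hs : 0 < s) {L : Ix → V} (hL : GF.IsLor L) (a : V) (f : 𝓢(Mink, ℂ)) :
    KL S s hs hL a (toL S.good.temp f) = toL S.good.temp (simS s hs hL a f) := by
  apply Lp.ext
  have := (qmp S s hs hL).ae_eq_comp (coeFn_toL S.good.temp f)
  filter_upwards [coeFn_KL S s hs hL a (toL S.good.temp f),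
    coeFn_toL S.good.temp (simS s hs hL a f), this] with p h1 h2 h3
  simp only [Function.comp_apply] at h3
  rw [h1, h2, mft_simS, Kf, h3]

lemma KL_toI (s : ℝ) (hs : 0 < s) {L : Ix → V} (hL : GF.IsLor L) (a : V) (f : 𝓢(Mink, ℂ)) :
    KL S s hs hL a (toI S f) = ((s ^ 2 : ℝ) : ℂ) • toI S (simS s hs hL a f) := by
  apply Lp.ext
  have := (qmp S s hs hL).ae_eq_comp (coeFn_toI S f)
  filter_upwards [coeFn_KL S s hs hL a (toI S f),
    coeFn_toI S (simS s hs hL a f), this,
    Lp.coeFn_smul ((s ^ 2 : ℝ) : ℂ) (toI S (simS s hs hL a f))] with p h1 h2 h3 h4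
  simp only [Function.comp_apply] at h3
  rw [h1, h4, Pi.smul_apply, h2, mft_simS, Kf, h3]
  have hm : im (s⁻¹ • lam L p) = s ^ 2 * im p := by
    unfold im
    have em : mass2 (lam L p) = mass2 p := mdot_lam hL p p
    rw [mass2_smul, em, mul_inv, inv_pow, inv_inv]
  rw [hm, smul_eq_mul]
  push_cast
  ring

include two in
/-- covariance of the vector potential -/
lemma lamV_cov (s : ℝ) (hs : 0 < s) {L : Ix → V} (hL : GF.IsLor L) (a : V) (f : 𝓢(Mink, ℂ))
    (v : D) : inner ℂ ((Q.U s L a v : D) : UniformSpace.Completion D) (lamV S hA f) =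
      ((s ^ 2 : ℝ) : ℂ) * inner ℂ (v : UniformSpace.Completion D)
        (lamV S hA (simS s hs hL a f)) := by
  have key : ∀ φ : Lp ℂ 2 μ, inner ℂ ((Q.U s L a v : D) : UniformSpace.Completion D)
      (J S hA φ) = inner ℂ (v : UniformSpace.Completion D) (J S hA (KL S s hs hL a φ)) := by
    intro φ
    refine (denseRange_toL S.good).induction_on (p := fun φ =>
      inner ℂ ((Q.U s L a v : D) : UniformSpace.Completion D)
      (J S hA φ) = inner ℂ (v : UniformSpace.Completion D) (J S hA (KL S s hs hL a φ))) φ ?_ ?_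
    · have := continuous_KL S s hs hL a
      apply isClosed_eq <;> fun_prop
    · intro g
      rw [KL_toL, J_toL S hA two, J_toL S hA two, hA.kap_apply, hA.kap_apply,
        UniformSpace.Completion.inner_coe, UniformSpace.Completion.inner_coe,
        hA.cov_vac s hs hL a g]
      simp only [sub_self, Real.rpow_zero, ofReal_one, one_smul]
      rw [Q.U_inner _ _ _ _ _ hs hL]
  rw [lamV_apply, lamV_apply, inner_smul_right, inner_smul_right, key, KL_toI, map_smul,
    inner_smul_right]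
  ring

end

end Vale.Agent.P352.H246

end
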