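import Vale.Agent.P352.H15.NPDefs

namespace Vale.Agent.P352.H246

open GF H15 H496

variable {D : Type*} [NormedAddCommGroup D] [InnerProductSpace ℂ D]

/-- The operators `K a` are additive in the null vector `a`, as the components of a vector. -/
def AddK (K : V → D → D) : Prop := ∀ a b c d v, IsNull a → IsNull b → IsNull c → IsNull d →
  a + b = c + d → K a v + K b v = K c v + K d v

end Vale.Agent.P352.H246
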