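import Vale.Agent.P352.H246.Glue

set_option linter.all false

noncomputable section

open MeasureTheory SchwartzMap Complex Filter Topology
open scoped SchwartzMap ComplexConjugate ENNReal LineDeriv NNReal

namespace Vale.Agent.P352.H246

open GF (Ix V Fn Sch ev pd bar sim one bas o)

variable {D : Type*} [NormedAddCommGroup D] [InnerProductSpace ℂ D]
variable {Q : GF.Theory D}
variable {lam : 𝓢(Mink, ℂ) → UniformSpace.Completion D}
variable {S S' : Set V} {k : ℕ} {M M' : ℝ} {f g : 𝓢(Mink, ℂ)} {v w : D}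
  {x y : UniformSpace.Completion D}

/-! ### Linearity of the values -/

lemma Val.addv (h : Val lam Q S k M f v x) (h' : Val lam Q S k M f w y) (hM : 0 ≤ M)
    (hB : Big (MW S)) (hv : PW Q Set.univ v) (hw : PW Q Set.univ w) :
    Val lam Q S k M f (v + w) (x + y) := by
  intro X X' hX z
  have hX0 := hX.pwu (v := Q.vac) .vac
  refine le_of_forall_pos_le_add fun ε hε => ?_
  obtain ⟨w', hw', hlt⟩ := dense_en hB k hw (ε := ε / (2 * (M * ‖z‖ + 1))) (by positivity)
  obtain ⟨Y, Y', hY, rfl⟩ := exists_Al hw'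
  have hY0 := hY.pwu (v := Q.vac) .vac
  have e1 := h _ _ (hX.sub hY) z
  have e2 := h' _ _ hY z
  have e3 : inner ℂ (z : UniformSpace.Completion D) (x + y) -
      inner ℂ ((X' z : D) : UniformSpace.Completion D) (lam f) =
      (inner ℂ (z : UniformSpace.Completion D) x -
        inner ℂ ((X' z - Y' z : D) : UniformSpace.Completion D) (lam f)) +
      (inner ℂ (z : UniformSpace.Completion D) y -
        inner ℂ ((Y' z : D) : UniformSpace.Completion D) (lam f)) := by
    rw [inner_add_right, UniformSpace.Completion.coe_sub, inner_sub_left]; ring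
  rw [e3]
  have e4 : en Q k (v - (X Q.vac - Y Q.vac)) ≤ en Q k (v + w - X Q.vac) +
      ε / (2 * (M * ‖z‖ + 1)) := by
    have : v - (X Q.vac - Y Q.vac) = (v + w - X Q.vac) + (Y Q.vac - w) := by abel
    rw [this]
    refine (en_add k (pw_sub (.add hv hw) hX0) (pw_sub hY0 hw)).trans ?_
    rw [en_sub_comm k hY0 hw]
    linarith
  have hK : 0 ≤ M * ‖z‖ := by positivity
  calc _ ≤ _ := norm_add_le _ _
    _ ≤ M * ‖z‖ * (en Q k (v + w - X Q.vac) + ε / (2 * (M * ‖z‖ + 1))) +
        M * ‖z‖ * (ε / (2 * (M * ‖z‖ + 1))) := by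
        refine add_le_add (e1.trans ?_) (e2.trans ?_)
        · gcongr
        · gcongr
    _ = M * ‖z‖ * en Q k (v + w - X Q.vac) + ε * (M * ‖z‖ / (M * ‖z‖ + 1)) := by
        field_simp; ring
    _ ≤ M * ‖z‖ * en Q k (v + w - X Q.vac) + ε * 1 := by
        gcongr
        rw [div_le_one (by positivity)]
        linarith
    _ = _ := by ring

lemma Val.smulv (hb : HB lam Q S k M f) (h : Val lam Q S k M f v x) (hv : PW Q Set.univ v)
    (c : ℂ) : Val lam Q S k M f (c • v) (c • x) := by
  intro X X' hX z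
  have hX0 := hX.pwu (v := Q.vac) .vac
  by_cases hc : c = 0
  · subst hc
    rw [zero_smul, zero_smul, inner_zero_right, zero_sub, norm_neg, zero_sub]
    have e : en Q k (-X Q.vac) = en Q k (X Q.vac) := by
      rw [← neg_one_smul ℂ, en_smul k _ hX0]; simp
    rw [e]
    exact hb _ _ hX z
  · have h1 := h _ _ (Al.smul c⁻¹ _ _ hX) z
    have e1 : inner ℂ (z : UniformSpace.Completion D) (c • x) -
        inner ℂ ((X' z : D) : UniformSpace.Completion D) (lam f) =
        c * (inner ℂ (z : UniformSpace.Completion D) x -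
        inner ℂ ((Star.star c⁻¹ • X' z : D) : UniformSpace.Completion D) (lam f)) := by
      rw [inner_smul_right, UniformSpace.Completion.coe_smul, inner_smul_left]
      have : (starRingEnd ℂ) (Star.star c⁻¹) = c⁻¹ := by
        show Star.star (Star.star c⁻¹) = c⁻¹
        rw [star_star]
      rw [this]
      field_simp
    have e2 : en Q k (c • v - X Q.vac) = ‖c‖ * en Q k (v - c⁻¹ • X Q.vac) := by
      rw [← en_smul k c (pw_sub hv (.smul _ hX0)), smul_sub, smul_smul, mul_inv_cancel₀ hc,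
        one_smul]
    rw [e1, e2, norm_mul]
    calc _ ≤ ‖c‖ * (M * ‖z‖ * en Q k (v - c⁻¹ • X Q.vac)) := by gcongr
      _ = _ := by ring

lemma Val.addf (hadd : ∀ f g, lam (f + g) = lam f + lam g) (h : Val lam Q S k M f v x)
    (h' : Val lam Q S k M' g v y) : Val lam Q S k (M + M') (f + g) v (x + y) := by
  intro X X' hX z
  have e3 : inner ℂ (z : UniformSpace.Completion D) (x + y) -
      inner ℂ ((X' z : D) : UniformSpace.Completion D) (lam (f + g)) =
      (inner ℂ (z : UniformSpace.Completion D) x -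
        inner ℂ ((X' z : D) : UniformSpace.Completion D) (lam f)) +
      (inner ℂ (z : UniformSpace.Completion D) y -
        inner ℂ ((X' z : D) : UniformSpace.Completion D) (lam g)) := by
    rw [inner_add_right, hadd, inner_add_right]; ring
  rw [e3]
  calc _ ≤ _ := norm_add_le _ _
    _ ≤ _ := add_le_add (h X X' hX z) (h' X X' hX z)
    _ = _ := by ring

lemma Val.smulf (hsmul : ∀ (c : ℂ) f, lam (c • f) = c • lam f) (h : Val lam Q S k M f v x)
    (c : ℂ) : Val lam Q S k (‖c‖ * M) (c • f) v (c • x) := by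
  intro X X' hX z
  have e3 : inner ℂ (z : UniformSpace.Completion D) (c • x) -
      inner ℂ ((X' z : D) : UniformSpace.Completion D) (lam (c • f)) =
      c * (inner ℂ (z : UniformSpace.Completion D) x -
        inner ℂ ((X' z : D) : UniformSpace.Completion D) (lam f)) := by
    rw [inner_smul_right, hsmul, inner_smul_right]; ring
  rw [e3, norm_mul]
  calc _ ≤ ‖c‖ * (M * ‖z‖ * en Q k (v - X Q.vac)) := by
        gcongr
        exact h X X' hX z
    _ = _ := by ring

/-- density in the energy norms, jointly with a test operator -/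
theorem dense_en_op {S : Set Mink} (hS : Big S) (k : ℕ) {R : D → D} (hR : TOp Q R) {v : D}
    (hv : PW Q Set.univ v) {ε : ℝ} (hε : 0 < ε) :
    ∃ v', PW Q S v' ∧ en Q k (v - v') < ε ∧ ‖R v - R v'‖ < ε := by
  obtain ⟨ι, hι, w, hw⟩ := exists_words Q k
  obtain ⟨v', hv', h⟩ := dense_gen (ι := Option ι)
    (R := fun o => Option.elim o R fun i => Dw Q (w i))
    (by
      rintro (_ | i)
      · exact hR
      · exact ((TR.id (Q := Q)).Dw (w i)).top) hS hv
    (ε := ε / (Fintype.card ι + 1)) (by positivity)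
  have hv'' := pw_mono (Set.subset_univ _) hv'
  have hle : ε / ((Fintype.card ι : ℝ) + 1) ≤ ε := by
    apply div_le_self hε.le
    have : (0 : ℝ) ≤ Fintype.card ι := by positivity
    linarith
  refine ⟨v', hv', ?_, ?_⟩
  · rw [hw]
    calc ∑ i, ‖Dw Q (w i) (v - v')‖ ≤ ∑ i : ι, ε / (Fintype.card ι + 1) := by
          refine Finset.sum_le_sum fun i _ => ?_
          rw [Dw_sub _ hv hv'']
          exact (h (some i)).le
      _ = Fintype.card ι * (ε / (Fintype.card ι + 1)) := by simp
      _ < (Fintype.card ι + 1) * (ε / (Fintype.card ι + 1)) := by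
          have : 0 < ε / ((Fintype.card ι : ℝ) + 1) := by positivity
          linarith
      _ = ε := by field_simp
  · exact (h none).trans_le hle

lemma Hol.const_mul {F : Mink → ℂ} (h : Hol F) (c : ℂ) : Hol fun a => c * F a := by
  obtain ⟨N, h⟩ := h
  exact ⟨N, h.smul c⟩

lemma TOp.smulR {R : D → D} (h : TOp Q R) (c : ℂ) : TOp Q (fun v => c • R v) where
  add v w hv hw := by rw [h.add v w hv hw, smul_add]
  smul a v hv := by rw [h.smul a v hv, smul_comm]
  hol y v hv := by
    have : (fun a => inner ℂ y ((c • R (U1 Q a v) : D) : UniformSpace.Completion D)) =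
        fun a => c * inner ℂ y ((R (U1 Q a v) : D) : UniformSpace.Completion D) := by
      funext a; rw [UniformSpace.Completion.coe_smul, inner_smul_right]
    rw [this]
    exact (h.hol y v hv).const_mul c

lemma top_zero : TOp Q (fun _ : D => (0 : D)) where
  add v w hv hw := by simp
  smul a v hv := by simp
  hol y v hv := by
    have : (fun a : Mink => inner ℂ y (((0 : D)) : UniformSpace.Completion D)) =
        fun _ => 0 := by
      funext a; rw [UniformSpace.Completion.coe_zero, inner_zero_right]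
    rw [this]
    exact hol_zero

lemma TOp.finsum {ι : Type*} (s : Finset ι) {R : ι → D → D} (h : ∀ i ∈ s, TOp Q (R i)) :
    TOp Q (fun v => ∑ i ∈ s, R i v) := by
  classical
  induction s using Finset.induction_on with
  | empty => simpa using top_zero
  | insert i s hi ih =>
    simp only [Finset.sum_insert hi]
    exact (h i (Finset.mem_insert_self _ _)).sum
      (ih fun j hj => h j (Finset.mem_insert_of_mem hj))

/-- the trace as a test operator -/
lemma top_tr {T : Ix → Ix → GF.Fld D} (hT : Q.IsStress T) {g : 𝓢(Mink, ℂ)}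
    (hg : IsTest Set.univ g) : TOp Q (fun v => GF.tr T (fl g) v) := by
  unfold GF.tr
  apply TOp.finsum
  intro m _
  exact (top_fld (Q.bose_fld _ (hT.bose m m)) [] hg TR.id).smulR _

lemma en_U1 (k : ℕ) (a : Mink) {v : D} (hv : PW Q Set.univ v) : en Q k (U1 Q a v) = en Q k v := by
  obtain ⟨ι, hι, w, hw⟩ := exists_words Q k
  rw [hw, hw]
  refine Finset.sum_congr rfl fun i _ => ?_
  rw [((TR.id (Q := Q)).Dw (w i)).comm a v hv, U1_norm]

lemma isTest_conj {W : Set V} (h : IsTest (MW W) f) : IsTest (MW W) (conjS f) := by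
  have h1 := (In_fl.2 h).bar
  rw [bar_fl] at h1
  exact In_fl.1 h1

lemma isTest_univ {W : Set Mink} (h : IsTest W f) : IsTest Set.univ f := ⟨h.1, Set.subset_univ _⟩

lemma isTest_box {W : Set Mink} (h : IsTest W f) : IsTest W (boxS f) :=
  ⟨h.1.of_isClosed_subset (isClosed_tsupport _) (tsupport_boxS f), (tsupport_boxS f).trans h.2⟩

/-! ### The extended operators -/

open Classical in
/-- the extended operator -/
def LL (lam : 𝓢(Mink, ℂ) → UniformSpace.Completion D) (Q : GF.Theory D) (k : ℕ)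
    (Mf : 𝓢(Mink, ℂ) → ℝ) (f : 𝓢(Mink, ℂ)) (v : D) : UniformSpace.Completion D :=
  if h : ∃ x, ∀ θ φ a, IsTest (MW (Wed (Rt θ φ) a 1)) f →
      Val lam Q (Wed (Rt θ φ) a (-1)) k (Mf f) f v x then h.choose else 0

variable {Mf : 𝓢(Mink, ℂ) → ℝ}

section

variable (hM : ∀ f, 0 ≤ Mf f) (hb : ∀ f, HW lam Q k (Mf f) f)
include hM hb

lemma LL_spec (hf : IsTest Set.univ f) (hv : PW Q Set.univ v) (θ φ : ℝ) (a : V)
    (h : IsTest (MW (Wed (Rt θ φ) a 1)) f) :
    Val lam Q (Wed (Rt θ φ) a (-1)) k (Mf f) f v (LL lam Q k Mf f v) := by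
  have hex := exists_LL hf (hb f) (hM f) hv
  unfold LL
  rw [dif_pos hex]
  exact hex.choose_spec θ φ a h

lemma LL_unique (hf : IsTest Set.univ f) (hv : PW Q Set.univ v) {θ φ : ℝ} {a : V}
    (h : IsTest (MW (Wed (Rt θ φ) a 1)) f) (hy : Val lam Q (Wed (Rt θ φ) a (-1)) k M f v y) :
    y = LL lam Q k Mf f v :=
  glue hy (LL_spec hM hb hf hv θ φ a h) (by rw [nd_nv]; norm_num) hv

lemma LL_vac (hf : IsTest Set.univ f) : LL lam Q k Mf f Q.vac = lam f := by
  obtain ⟨a, ha, _⟩ := exists_far_test hf hf 0 0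
  exact (LL_unique hM hb hf .vac ha (Val.vac (hb f 0 0 a ha))).symm

lemma LL_addv (hf : IsTest Set.univ f) (hv : PW Q Set.univ v) (hw : PW Q Set.univ w) :
    LL lam Q k Mf f (v + w) = LL lam Q k Mf f v + LL lam Q k Mf f w := by
  obtain ⟨a, ha, _⟩ := exists_far_test hf hf 0 0
  exact (LL_unique hM hb hf (.add hv hw) ha ((LL_spec hM hb hf hv 0 0 a ha).addv
    (LL_spec hM hb hf hw 0 0 a ha) (hM f) (big_wed _ _ _) hv hw)).symm

lemma LL_smulv (hf : IsTest Set.univ f) (hv : PW Q Set.univ v) (c : ℂ) :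
    LL lam Q k Mf f (c • v) = c • LL lam Q k Mf f v := by
  obtain ⟨a, ha, _⟩ := exists_far_test hf hf 0 0
  exact (LL_unique hM hb hf (.smul c hv) ha (Val.smulv (hb f 0 0 a ha)
    (LL_spec hM hb hf hv 0 0 a ha) hv c)).symm

lemma LL_addf (hadd : ∀ f g, lam (f + g) = lam f + lam g) (hf : IsTest Set.univ f)
    (hg : IsTest Set.univ g) (hv : PW Q Set.univ v) :
    LL lam Q k Mf (f + g) v = LL lam Q k Mf f v + LL lam Q k Mf g v := by
  obtain ⟨a, ha, hga⟩ := exists_far_test hf hg 0 0
  exact (LL_unique hM hb (hf.add hg) hv (ha.add hga) (Val.addf hadd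
    (LL_spec hM hb hf hv 0 0 a ha) (LL_spec hM hb hg hv 0 0 a hga))).symm

lemma LL_smulf (hsmul : ∀ (c : ℂ) f, lam (c • f) = c • lam f) (hf : IsTest Set.univ f)
    (hv : PW Q Set.univ v) (c : ℂ) : LL lam Q k Mf (c • f) v = c • LL lam Q k Mf f v := by
  obtain ⟨a, ha, _⟩ := exists_far_test hf hf 0 0
  exact (LL_unique hM hb (hf.smul c) hv (ha.smul c) (Val.smulf hsmul
    (LL_spec hM hb hf hv 0 0 a ha) c)).symm

lemma LL_bound (hf : IsTest Set.univ f) (hv : PW Q Set.univ v) :
    ‖LL lam Q k Mf f v‖ ≤ Mf f * en Q k v := by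
  obtain ⟨a, ha, _⟩ := exists_far_test hf hf 0 0
  exact (LL_spec hM hb hf hv 0 0 a ha).bound (hM f)

/-- hermiticity -/
lemma LL_herm (hrel : ∀ θ φ a f X X', IsTest (MW (Wed (Rt θ φ) a 1)) f →
      Al Q (Wed (Rt θ φ) a (-1)) X X' →
      inner ℂ ((X' Q.vac : D) : UniformSpace.Completion D) (lam f) =
        inner ℂ (lam (conjS f)) ((X Q.vac : D) : UniformSpace.Completion D))
    (hf : IsTest Set.univ f) (hv : PW Q Set.univ v) (hw : PW Q Set.univ w) :
    inner ℂ (w : UniformSpace.Completion D) (LL lam Q k Mf f v) =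
      inner ℂ (LL lam Q k Mf (conjS f) w) (v : UniformSpace.Completion D) := by
  obtain ⟨a, ha, _⟩ := exists_far_test hf hf 0 0
  have ha' := isTest_conj ha
  have hf' := isTest_univ ha'
  have s1 := LL_spec hM hb hf hv 0 0 a ha
  have s2 := LL_spec hM hb hf' hw 0 0 a ha'
  set x := LL lam Q k Mf f v
  set y := LL lam Q k Mf (conjS f) w
  have hx := s1.bound (hM f)
  have hy := s2.bound (hM (conjS f))
  apply eq_of_small (K := Mf f * (‖w‖ + 1) + ‖x‖ + (Mf (conjS f) * (‖v‖ + 1) + ‖y‖))
  intro ε hε hε1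
  obtain ⟨v', hv', h1⟩ := dense_en (big_wed 0 0 a) k hv hε
  obtain ⟨w', hw', h2⟩ := dense_en (big_wed 0 0 a) k hw hε
  obtain ⟨X, X', hX, rfl⟩ := exists_Al hv'
  obtain ⟨Y, Y', hY, rfl⟩ := exists_Al hw'
  have hXn : ‖v - X Q.vac‖ ≤ ε := (norm_le_en k _).trans h1.le
  have hYn : ‖w - Y Q.vac‖ ≤ ε := (norm_le_en k _).trans h2.le
  have hXb : ‖X Q.vac‖ ≤ ‖v‖ + 1 := by
    have : X Q.vac = v - (v - X Q.vac) := by abel
    rw [this]
    exact (norm_sub_le _ _).trans (by linarith)
  have hYb : ‖Y Q.vac‖ ≤ ‖w‖ + 1 := by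
    have : Y Q.vac = w - (w - Y Q.vac) := by abel
    rw [this]
    exact (norm_sub_le _ _).trans (by linarith)
  set c : ℂ := inner ℂ ((X' (Y Q.vac) : D) : UniformSpace.Completion D) (lam f) with hc
  have hc' : c = inner ℂ (lam (conjS f)) ((Y' (X Q.vac) : D) : UniformSpace.Completion D) := by
    have := hrel 0 0 a f _ _ ha (hY.star.mul hX)
    exact this
  have b1 : ‖inner ℂ (w : UniformSpace.Completion D) x - c‖ ≤
      (Mf f * (‖w‖ + 1) + ‖x‖) * ε := by
    have e1 := s1 X X' hX (Y Q.vac)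
    have e2 : inner ℂ (w : UniformSpace.Completion D) x - c =
        inner ℂ ((w - Y Q.vac : D) : UniformSpace.Completion D) x +
        (inner ℂ ((Y Q.vac : D) : UniformSpace.Completion D) x - c) := by
      rw [UniformSpace.Completion.coe_sub, inner_sub_left]; ring
    rw [e2]
    calc _ ≤ _ := norm_add_le _ _
      _ ≤ ‖w - Y Q.vac‖ * ‖x‖ + Mf f * ‖Y Q.vac‖ * en Q k (v - X Q.vac) := by
          refine add_le_add ?_ e1
          rw [← UniformSpace.Completion.norm_coe (w - Y Q.vac)]
          exact norm_inner_le_norm _ _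
      _ ≤ ε * ‖x‖ + Mf f * (‖w‖ + 1) * ε := by
          have := hM f
          have := en_nonneg (Q := Q) k (v - X Q.vac)
          gcongr
      _ = _ := by ring
  have b2 : ‖inner ℂ y (v : UniformSpace.Completion D) - c‖ ≤
      (Mf (conjS f) * (‖v‖ + 1) + ‖y‖) * ε := by
    have e1 := s2 Y Y' hY (X Q.vac)
    have e2 : inner ℂ y (v : UniformSpace.Completion D) - c =
        inner ℂ y ((v - X Q.vac : D) : UniformSpace.Completion D) +
        conj (inner ℂ ((X Q.vac : D) : UniformSpace.Completion D) y -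
          inner ℂ ((Y' (X Q.vac) : D) : UniformSpace.Completion D) (lam (conjS f))) := by
      rw [hc', map_sub, inner_conj_symm, inner_conj_symm, UniformSpace.Completion.coe_sub,
        inner_sub_right]
      ring
    rw [e2]
    calc _ ≤ _ := norm_add_le _ _
      _ ≤ ‖y‖ * ‖v - X Q.vac‖ + Mf (conjS f) * ‖X Q.vac‖ * en Q k (w - Y Q.vac) := by
          refine add_le_add ?_ ?_
          · rw [← UniformSpace.Completion.norm_coe (v - X Q.vac)]
            exact norm_inner_le_norm _ _
          · rw [RCLike.norm_conj]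
            exact e1
      _ ≤ ‖y‖ * ε + Mf (conjS f) * (‖v‖ + 1) * ε := by
          have := hM (conjS f)
          have := en_nonneg (Q := Q) k (w - Y Q.vac)
          gcongr
      _ = _ := by ring
  have e3 : inner ℂ (w : UniformSpace.Completion D) x - inner ℂ y (v : UniformSpace.Completion D) =
      (inner ℂ (w : UniformSpace.Completion D) x - c) -
        (inner ℂ y (v : UniformSpace.Completion D) - c) := by ring
  rw [e3]
  calc _ ≤ _ := norm_sub_le _ _
    _ ≤ _ := add_le_add b1 b2
    _ = _ := by ring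

/-- the box equation -/
lemma LL_box {T : Ix → Ix → GF.Fld D} (hT : Q.IsStress T)
    (hbox : ∀ f, (3 : ℂ) • lam (boxS f) = ((GF.tr T (fl f) Q.vac : D) : UniformSpace.Completion D))
    (hf : IsTest Set.univ f) (hv : PW Q Set.univ v) :
    (3 : ℂ) • LL lam Q k Mf (boxS f) v = ((GF.tr T (fl f) v : D) : UniformSpace.Completion D) := by
  obtain ⟨a, ha, _⟩ := exists_far_test hf hf 0 0
  have hA := PField.tr hT
  have ha' := isTest_box ha
  have s1 := LL_spec hM hb (isTest_univ ha') hv 0 0 a ha'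
  set x := LL lam Q k Mf (boxS f) v
  apply ext_coe
  intro z
  apply eq_of_small (K := 3 * (Mf (boxS f) * ‖z‖) + ‖z‖)
  intro ε hε _
  obtain ⟨v', hv', h1, h2⟩ := dense_en_op (big_wed 0 0 a) k (top_tr hT hf) hv hε
  obtain ⟨X, X', hX, rfl⟩ := exists_Al hv'
  have e1 := s1 X X' hX z
  have e2 : (3 : ℂ) * inner ℂ ((X' z : D) : UniformSpace.Completion D) (lam (boxS f)) =
      inner ℂ (z : UniformSpace.Completion D)
        ((GF.tr T (fl f) (X Q.vac) : D) : UniformSpace.Completion D) := by
    rw [← inner_smul_right, hbox, UniformSpace.Completion.inner_coe,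
      UniformSpace.Completion.inner_coe, hX.adj',
      hX.comm hA (fun G hG => wed_sep (isLor_Rt 0 0) a ha hG)]
  have e3 : inner ℂ (z : UniformSpace.Completion D) ((3 : ℂ) • x) -
      inner ℂ (z : UniformSpace.Completion D)
        ((GF.tr T (fl f) v : D) : UniformSpace.Completion D) =
      3 * (inner ℂ (z : UniformSpace.Completion D) x -
        inner ℂ ((X' z : D) : UniformSpace.Completion D) (lam (boxS f))) -
      inner ℂ (z : UniformSpace.Completion D)
        ((GF.tr T (fl f) v - GF.tr T (fl f) (X Q.vac) : D) : UniformSpace.Completion D) := by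
    rw [UniformSpace.Completion.coe_sub, inner_sub_right, ← e2, inner_smul_right]
    ring
  rw [e3]
  calc _ ≤ _ := norm_sub_le _ _
    _ ≤ 3 * (Mf (boxS f) * ‖z‖ * en Q k (v - X Q.vac)) +
        ‖z‖ * ‖GF.tr T (fl f) v - GF.tr T (fl f) (X Q.vac)‖ := by
        refine add_le_add ?_ ?_
        · rw [norm_mul]
          have : ‖(3 : ℂ)‖ = 3 := by norm_num
          rw [this]
          gcongr
        · refine (norm_inner_le_norm _ _).trans ?_
          rw [UniformSpace.Completion.norm_coe, UniformSpace.Completion.norm_coe]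
    _ ≤ 3 * (Mf (boxS f) * ‖z‖ * ε) + ‖z‖ * ε := by
        have := hM (boxS f)
        gcongr
    _ = _ := by ring

/-- locality across a wedge -/
lemma LL_loc {A B : GF.Fld D} (hA : Q.fld A) (hB : Q.fld B)
    (hadj : ∀ f v w, GF.IsTest f → inner ℂ (A f v) w = inner ℂ v (B (bar f) w))
    {θ φ : ℝ} {a : V} (hf : IsTest (MW (Wed (Rt θ φ) a 1)) f)
    (hg : IsTest (MW (Wed (Rt θ φ) a (-1))) g) (hv : PW Q Set.univ v) (z : D) :
    inner ℂ ((B (fl (conjS g)) z : D) : UniformSpace.Completion D) (LL lam Q k Mf f v) =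
      inner ℂ (z : UniformSpace.Completion D) (LL lam Q k Mf f (A (fl g) v)) := by
  have hfu := isTest_univ hf
  have hgu := isTest_univ hg
  have s1 := LL_spec hM hb hfu hv θ φ a hf
  have s2 := LL_spec hM hb hfu (.fld hA hgu hv) θ φ a hf
  set x := LL lam Q k Mf f v
  set y := LL lam Q k Mf f (A (fl g) v)
  apply eq_of_small (K := Mf f * ‖B (fl (conjS g)) z‖ + Mf f * ‖z‖)
  intro ε hε _
  obtain ⟨v', hv', h1, h2⟩ := dense_en_fld (big_wed θ φ a) k hA hgu hv hε
  obtain ⟨X, X', hX, rfl⟩ := exists_Al hv'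
  have e1 := s1 X X' hX (B (fl (conjS g)) z)
  have hAX := Al.fld A B (fl g) X X' hA hB hadj (In_fl.2 hg) hX
  have e2 := s2 _ _ hAX z
  rw [bar_fl] at e2
  have e3 : inner ℂ ((B (fl (conjS g)) z : D) : UniformSpace.Completion D) x -
      inner ℂ (z : UniformSpace.Completion D) y =
      (inner ℂ ((B (fl (conjS g)) z : D) : UniformSpace.Completion D) x -
        inner ℂ ((X' (B (fl (conjS g)) z) : D) : UniformSpace.Completion D) (lam f)) -
      (inner ℂ (z : UniformSpace.Completion D) y -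
        inner ℂ ((X' (B (fl (conjS g)) z) : D) : UniformSpace.Completion D) (lam f)) := by ring
  rw [e3]
  have := hM f
  calc _ ≤ _ := norm_sub_le _ _
    _ ≤ Mf f * ‖B (fl (conjS g)) z‖ * ε + Mf f * ‖z‖ * ε := by
        refine add_le_add (e1.trans ?_) (e2.trans ?_)
        · gcongr
        · gcongr
    _ = _ := by ring

end

end Vale.Agent.P352.H246

end
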