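import Vale.Agent.P352.Bdl.B2

set_option linter.all false

noncomputable section

open MeasureTheory SchwartzMap Complex Filter Topology
open scoped SchwartzMap ComplexConjugate ENNReal

namespace Vale.Agent.P352.H246

open Vale.Agent.P352

variable {μ : Measure Mink}

/-- boxes on the mass shells between `1/2` and `1` -/
def mbox (x y : ℝ) : Set Mink :=
  {p | (1 / 4 < mass2 p ∧ mass2 p ≤ 1) ∧ (1 ≤ p 0 + p 1 ∧ p 0 + p 1 < 2) ∧
    (x * (p 0 + p 1) ≤ p 2 ∧ p 2 < (x + 1) * (p 0 + p 1)) ∧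
    (y * (p 0 + p 1) ≤ p 3 ∧ p 3 < (y + 1) * (p 0 + p 1))}

lemma measurable_mass2 : Measurable mass2 := continuous_mass2.measurable

lemma measurableSet_mass_Ioc (a b : ℝ) : MeasurableSet {p : Mink | a < mass2 p ∧ mass2 p ≤ b} :=
  (measurableSet_lt measurable_const measurable_mass2).inter
    (measurableSet_le measurable_mass2 measurable_const)

lemma measurableSet_mbox (x y : ℝ) : MeasurableSet (mbox x y) := by
  have m0 : Measurable fun p : Mink => p 0 + p 1 := by fun_prop
  have m2 : Measurable fun p : Mink => p 2 := by fun_prop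
  have m3 : Measurable fun p : Mink => p 3 := by fun_prop
  refine (measurableSet_mass_Ioc _ _).inter (MeasurableSet.inter ?_ (MeasurableSet.inter ?_ ?_))
  · exact (measurableSet_le measurable_const m0).inter (measurableSet_lt m0 measurable_const)
  · exact (measurableSet_le (m0.const_mul x) m2).inter (measurableSet_lt m2 (m0.const_mul (x + 1)))
  · exact (measurableSet_le (m0.const_mul y) m3).inter (measurableSet_lt m3 (m0.const_mul (y + 1)))

section

variable {d : ℝ} (S : SymMeasure μ d)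
include S

lemma mbox_shift2 (x y b : ℝ) : μ (mbox (x - b) y) = μ (mbox x y) := by
  rw [← (S.lor _ (isLor_null b)).measure_preimage (measurableSet_mbox x y).nullMeasurableSet]
  congr 1
  ext p
  have e0 : (lam (mNull b) p) 0 + (lam (mNull b) p) 1 = p 0 + p 1 := by
    simp only [Fin.isValue, mNull, lam_apply, Matrix.cons_val', Matrix.cons_val_zero,
      Matrix.cons_val_fin_one, Fin.sum_univ_four, Matrix.cons_val_one, Matrix.cons_val, mul_zero,
      add_zero, mul_neg]; ring
  have e2 : (lam (mNull b) p) 2 = p 2 + b * (p 0 + p 1) := by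
    simp only [Fin.isValue, mNull, lam_apply, Matrix.cons_val', Matrix.cons_val,
      Matrix.cons_val_fin_one, Fin.sum_univ_four, Matrix.cons_val_zero, Matrix.cons_val_one,
      mul_one, mul_zero, add_zero]; ring
  have e3 : (lam (mNull b) p) 3 = p 3 := by
    simp [Fin.sum_univ_four, mNull]
  have em : mass2 (lam (mNull b) p) = mass2 p := mdot_lam (isLor_null b) p p
  simp only [mbox, Set.mem_preimage, Set.mem_ofPred_eq, e0, e2, e3, em]
  constructor
  · rintro ⟨h1, h2, ⟨h3, h4⟩, h5⟩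
    exact ⟨h1, h2, ⟨by linarith only [h3], by linarith only [h4]⟩, h5⟩
  · rintro ⟨h1, h2, ⟨h3, h4⟩, h5⟩
    exact ⟨h1, h2, ⟨by linarith only [h3], by linarith only [h4]⟩, h5⟩

lemma mbox_shift3 (x y b : ℝ) : μ (mbox x (y - b)) = μ (mbox x y) := by
  rw [← (S.lor _ (isLor_null' b)).measure_preimage (measurableSet_mbox x y).nullMeasurableSet]
  congr 1
  ext p
  have e0 : (lam (mNull' b) p) 0 + (lam (mNull' b) p) 1 = p 0 + p 1 := by
    simp only [Fin.isValue, mNull', lam_apply, Matrix.cons_val', Matrix.cons_val_zero,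
      Matrix.cons_val_fin_one, Fin.sum_univ_four, Matrix.cons_val_one, Matrix.cons_val, mul_zero,
      add_zero, mul_neg]; ring
  have e2 : (lam (mNull' b) p) 2 = p 2 := by
    simp only [Fin.isValue, mNull', lam_apply, Matrix.cons_val', Matrix.cons_val, Matrix.cons_val_fin_one, Fin.sum_univ_four, Matrix.cons_val_zero, mul_zero, Matrix.cons_val_one, add_zero, mul_one, zero_add]
  have e3 : (lam (mNull' b) p) 3 = p 3 + b * (p 0 + p 1) := by
    simp only [Fin.isValue, mNull', lam_apply, Matrix.cons_val', Matrix.cons_val,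
      Matrix.cons_val_fin_one, Fin.sum_univ_four, Matrix.cons_val_zero, Matrix.cons_val_one,
      mul_zero, add_zero, mul_one]; ring
  have em : mass2 (lam (mNull' b) p) = mass2 p := mdot_lam (isLor_null' b) p p
  simp only [mbox, Set.mem_preimage, Set.mem_ofPred_eq, e0, e2, e3, em]
  constructor
  · rintro ⟨h1, h2, h5, ⟨h3, h4⟩⟩
    exact ⟨h1, h2, h5, ⟨by linarith only [h3], by linarith only [h4]⟩⟩
  · rintro ⟨h1, h2, h5, ⟨h3, h4⟩⟩
    exact ⟨h1, h2, h5, ⟨by linarith only [h3], by linarith only [h4]⟩⟩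

lemma mbox_eq (x y : ℝ) : μ (mbox x y) = μ (mbox 0 0) := by
  have h1 := mbox_shift2 S x y x
  have h2 := mbox_shift3 S 0 y y
  rw [sub_self] at h1 h2
  rw [← h1, ← h2]

lemma mbox_finite : μ (mbox 0 0) ≠ ∞ := by
  refine ne_top_of_le_ne_top (S.fin 9).ne (measure_mono ?_)
  rintro p ⟨⟨h0, h1⟩, ⟨h2, h3⟩, ⟨h4, h5⟩, ⟨h6, h7⟩⟩
  rw [Metric.mem_closedBall, dist_zero_right]
  have hm : (p 0 - p 1) * (p 0 + p 1) = mass2 p + p 2 ^ 2 + p 3 ^ 2 := by
    unfold mass2 mdot
    ring
  have a2 : 0 ≤ p 2 := by linarith only [h4]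
  have b2 : p 2 ≤ 2 := by nlinarith only [h3, h5]
  have a3 : 0 ≤ p 3 := by linarith only [h6]
  have b3 : p 3 ≤ 2 := by nlinarith only [h3, h7]
  have c0 : p 2 ^ 2 + p 3 ^ 2 ≤ 8 := by nlinarith only [a2, b2, a3, b3]
  have c1 : 0 ≤ p 0 - p 1 := by
    by_contra hcon
    push Not at hcon
    nlinarith only [h0, h2, hm, hcon, sq_nonneg (p 2), sq_nonneg (p 3)]
  have c2 : p 0 - p 1 ≤ 9 := by
    nlinarith only [h1, h2, c0, hm, c1]
  have hn := norm_sq_mink p
  have : ‖p‖ ^ 2 ≤ 9 ^ 2 := by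
    rw [hn]
    have e1 : p 0 ^ 2 + p 1 ^ 2 = ((p 0 + p 1) ^ 2 + (p 0 - p 1) ^ 2) / 2 := by ring
    nlinarith only [h2, h3, c0, c1, c2, e1]
  exact le_of_sq_le_sq this (by norm_num)

/-- slab of large width -/
def slab (n : ℝ) : Set Mink :=
  {p | (1 / 4 < mass2 p ∧ mass2 p ≤ 1) ∧ (1 ≤ p 0 + p 1 ∧ p 0 + p 1 < 2) ∧
    |p 2| ≤ n ∧ |p 3| ≤ n}

lemma slab_le (n : ℕ) : μ (slab n) ≤ ((2 * n + 1) ^ 2 : ℕ) * μ (mbox 0 0) := by
  have hcov : slab (n : ℝ) ⊆ ⋃ i ∈ Finset.Icc (-(n : ℤ)) n, ⋃ j ∈ Finset.Icc (-(n : ℤ)) n,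
      mbox i j := by
    rintro p ⟨h1, h2, h3, h4⟩
    have hp : 0 < p 0 + p 1 := by linarith only [h2]
    have key : ∀ c : ℝ, |c| ≤ n → ⌊c / (p 0 + p 1)⌋ ∈ Finset.Icc (-(n : ℤ)) n := by
      intro c hc
      have hc' : |c / (p 0 + p 1)| ≤ n := by
        rw [abs_div, abs_of_pos hp, div_le_iff₀ hp]
        have : (0 : ℝ) ≤ n := Nat.cast_nonneg n
        nlinarith only [hc, h2, this]
      obtain ⟨g1, g2⟩ := abs_le.1 hc'
      rw [Finset.mem_Icc]
      constructor
      · rw [Int.le_floor]; push_cast; exact g1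
      · have := (Int.floor_le (c / (p 0 + p 1))).trans g2
        exact_mod_cast this
    refine Set.mem_biUnion (key _ h3) (Set.mem_biUnion (key _ h4) ?_)
    refine ⟨h1, h2, ⟨?_, ?_⟩, ⟨?_, ?_⟩⟩
    · rw [← le_div_iff₀ hp]; exact Int.floor_le _
    · rw [← div_lt_iff₀ hp]; exact Int.lt_floor_add_one _
    · rw [← le_div_iff₀ hp]; exact Int.floor_le _
    · rw [← div_lt_iff₀ hp]; exact Int.lt_floor_add_one _
  refine (measure_mono hcov).trans ?_
  refine (measure_biUnion_finset_le _ _).trans ?_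
  have hcard : (Finset.Icc (-(n : ℤ)) n).card = 2 * n + 1 := by
    rw [Int.card_Icc]
    omega
  calc ∑ i ∈ Finset.Icc (-(n : ℤ)) n, μ (⋃ j ∈ Finset.Icc (-(n : ℤ)) n, mbox i j)
      ≤ ∑ i ∈ Finset.Icc (-(n : ℤ)) n, ∑ j ∈ Finset.Icc (-(n : ℤ)) n, μ (mbox i j) :=
        Finset.sum_le_sum fun i _ => measure_biUnion_finset_le _ _
    _ = ((2 * n + 1) ^ 2 : ℕ) * μ (mbox 0 0) := by
        simp only [mbox_eq S, Finset.sum_const, hcard, nsmul_eq_mul]
        push_cast
        ring

/-- dyadic pieces -/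
def piece (i : ℕ) : Set Mink :=
  {p | (1 / 4 < mass2 p ∧ mass2 p ≤ 1) ∧ ((2 : ℝ) ^ i ≤ 2 * (p 0 + p 1) ∧
    2 * (p 0 + p 1) < 2 ^ (i + 1)) ∧ p 0 - p 1 ≤ p 0 + p 1}

omit S in
lemma measurableSet_piece (i : ℕ) : MeasurableSet (piece i) := by
  have m0 : Measurable fun p : Mink => 2 * (p 0 + p 1) := by fun_prop
  have m1 : Measurable fun p : Mink => p 0 + p 1 := by fun_prop
  have m2 : Measurable fun p : Mink => p 0 - p 1 := by fun_prop
  refine (measurableSet_mass_Ioc _ _).inter (MeasurableSet.inter ?_ (measurableSet_le m2 m1))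
  exact (measurableSet_le measurable_const m0).inter (measurableSet_lt m0 measurable_const)

omit S in
lemma measurableSet_slab (n : ℝ) : MeasurableSet (slab n) := by
  have m0 : Measurable fun p : Mink => p 0 + p 1 := by fun_prop
  have m2 : Measurable fun p : Mink => |p 2| := by fun_prop
  have m3 : Measurable fun p : Mink => |p 3| := by fun_prop
  refine (measurableSet_mass_Ioc _ _).inter (MeasurableSet.inter ?_ (MeasurableSet.inter ?_ ?_))
  · exact (measurableSet_le measurable_const m0).inter (measurableSet_lt m0 measurable_const)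
  · exact measurableSet_le m2 measurable_const
  · exact measurableSet_le m3 measurable_const

lemma piece_le (i : ℕ) : μ (piece i) ≤ (9 * 4 ^ i : ℕ) * μ (mbox 0 0) := by
  have hpos : (0 : ℝ) < 2 ^ i := by positivity
  set s : ℝ := 2 / 2 ^ i with hs
  have hs0 : 0 < s := by positivity
  have hsub : piece i ⊆ lam (mBoost (Real.log s)) ⁻¹' slab ((2 ^ i : ℕ) : ℝ) := by
    rintro p ⟨h1, ⟨h2, h3⟩, h4⟩
    have e0 := SymMeasure.boost_sum s hs0 p
    set q := lam (mBoost (Real.log s)) p with hq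
    have e2 : q 2 = p 2 := by
      rw [hq]; simp only [Fin.isValue, mBoost, lam_apply, Matrix.cons_val', Matrix.cons_val, Matrix.cons_val_fin_one, Fin.sum_univ_four, Matrix.cons_val_zero, mul_zero, Matrix.cons_val_one, add_zero, mul_one, zero_add]
    have e3 : q 3 = p 3 := by
      rw [hq]; simp only [Fin.isValue, mBoost, lam_apply, Matrix.cons_val', Matrix.cons_val, Matrix.cons_val_fin_one, Fin.sum_univ_four, Matrix.cons_val_zero, mul_zero, Matrix.cons_val_one, add_zero, mul_one, zero_add]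
    have em : mass2 q = mass2 p := mdot_lam (isLor_boost _) p p
    have hm : (p 0 - p 1) * (p 0 + p 1) = mass2 p + p 2 ^ 2 + p 3 ^ 2 := by
      unfold mass2 mdot
      ring
    have hu : p 0 + p 1 < 2 ^ i := by rw [pow_succ] at h3; linarith only [h3]
    have hl : 0 < p 0 + p 1 := by linarith only [h2, hpos]
    have hb : p 2 ^ 2 + p 3 ^ 2 ≤ (2 ^ i) ^ 2 := by
      nlinarith only [h1.1, hm, h4, hl, hu]
    refine ⟨by rw [em]; exact h1, ?_, ?_, ?_⟩
    · rw [e0, hs]
      constructor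
      · rw [div_mul_eq_mul_div, le_div_iff₀ hpos]; linarith only [h2]
      · rw [div_mul_eq_mul_div, div_lt_iff₀ hpos]; rw [pow_succ] at h3; linarith only [h3]
    · rw [e2]
      push_cast
      apply abs_le_of_sq_le_sq _ hpos.le
      nlinarith only [hb, sq_nonneg (p 3)]
    · rw [e3]
      push_cast
      apply abs_le_of_sq_le_sq _ hpos.le
      nlinarith only [hb, sq_nonneg (p 2)]
  calc μ (piece i) ≤ μ (lam (mBoost (Real.log s)) ⁻¹' slab ((2 ^ i : ℕ) : ℝ)) :=
        measure_mono hsub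
    _ = μ (slab ((2 ^ i : ℕ) : ℝ)) :=
        (S.lor _ (isLor_boost _)).measure_preimage (measurableSet_slab _).nullMeasurableSet
    _ ≤ ((2 * 2 ^ i + 1) ^ 2 : ℕ) * μ (mbox 0 0) := slab_le S (2 ^ i)
    _ ≤ (9 * 4 ^ i : ℕ) * μ (mbox 0 0) := by
        gcongr
        have h1 : 1 ≤ 2 ^ i := Nat.one_le_two_pow
        have h2 : (4 : ℕ) ^ i = 2 ^ i * 2 ^ i := by rw [← mul_pow]; norm_num
        rw [h2]
        nlinarith only [h1]

/-- shell between masses `1/2` and `1`, energy at most `2 ^ j` -/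
def cap (r : ℝ) : Set Mink :=
  {p | (1 / 4 < mass2 p ∧ mass2 p ≤ 1) ∧ 0 ≤ p 0 ∧ ‖p‖ ≤ r}

omit S in
lemma measurableSet_cap (r : ℝ) : MeasurableSet (cap r) := by
  have m0 : Measurable fun p : Mink => p 0 := by fun_prop
  have m1 : Measurable fun p : Mink => ‖p‖ := by fun_prop
  exact (measurableSet_mass_Ioc _ _).inter ((measurableSet_le measurable_const m0).inter
    (measurableSet_le m1 measurable_const))

omit S in
lemma abs_coord_le_norm (p : Mink) (i : Fin 4) : |p i| ≤ ‖p‖ := abs_coord_le p i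

lemma cap_le (j : ℕ) : μ (cap (2 ^ j)) ≤ (400 * 4 ^ j : ℕ) * μ (mbox 0 0) := by
  have hcov : cap (2 ^ j) ⊆ ⋃ i ∈ Finset.range (j + 3),
      (piece i ∪ lam mRot12 ⁻¹' piece i) := by
    rintro p ⟨h1, h2, h3⟩
    have hm : (p 0 - p 1) * (p 0 + p 1) = mass2 p + p 2 ^ 2 + p 3 ^ 2 := by
      unfold mass2 mdot
      ring
    have a0 := (abs_le.1 (abs_coord_le_norm p 0)).2
    have a1 := abs_le.1 (abs_coord_le_norm p 1)
    have key : ∀ q : Mink, (1 / 4 < mass2 q ∧ mass2 q ≤ 1) → 0 < q 0 + q 1 →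
        q 0 - q 1 ≤ q 0 + q 1 → q 0 + q 1 ≤ 2 * 2 ^ j → ∃ i ∈ Finset.range (j + 3), q ∈ piece i := by
      intro q g1 g2 g3 g4
      have gm : (q 0 - q 1) * (q 0 + q 1) = mass2 q + q 2 ^ 2 + q 3 ^ 2 := by
        unfold mass2 mdot
        ring
      have g5 : 1 ≤ 2 * (q 0 + q 1) := by
        by_contra hcon
        push Not at hcon
        nlinarith only [g1.1, gm, g2, g3, hcon, sq_nonneg (q 2), sq_nonneg (q 3)]
      obtain ⟨i, hi1, hi2⟩ := exists_nat_pow_near g5 (by norm_num : (1 : ℝ) < 2)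
      refine ⟨i, ?_, g1, ⟨hi1, hi2⟩, g3⟩
      rw [Finset.mem_range]
      by_contra hcon
      push Not at hcon
      have h5 : (2 : ℝ) ^ (j + 3) ≤ 2 ^ i := pow_le_pow_right₀ (by norm_num) hcon
      rw [pow_add] at h5
      have h6 : (0 : ℝ) < 2 ^ j := by positivity
      linarith only [h5, h6, hi1, g4]
    have hpos : 0 < (p 0 - p 1) * (p 0 + p 1) := by
      rw [hm]; nlinarith only [h1.1, sq_nonneg (p 2), sq_nonneg (p 3)]
    have hpp : 0 < p 0 + p 1 ∧ 0 < p 0 - p 1 := by
      rcases mul_pos_iff.1 hpos with h | h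
      · exact ⟨h.2, h.1⟩
      · exfalso; linarith only [h.1, h.2, h2]
    by_cases hc : p 0 - p 1 ≤ p 0 + p 1
    · obtain ⟨i, hi, hp⟩ := key p h1 hpp.1 hc (by linarith only [a0, a1.2, h3])
      exact Set.mem_biUnion hi (Or.inl hp)
    · push Not at hc
      have em : mass2 (lam mRot12 p) = mass2 p := mdot_lam isLor_rot12 p p
      have e0 : (lam mRot12 p) 0 = p 0 := by simp only [Fin.isValue, mRot12, lam_apply, Matrix.cons_val', Matrix.cons_val_zero, Matrix.cons_val_fin_one, Fin.sum_univ_four, mul_one, Matrix.cons_val_one, mul_zero, add_zero, Matrix.cons_val]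
      have e1 : (lam mRot12 p) 1 = - p 1 := by simp only [Fin.isValue, mRot12, lam_apply,
                                                       Matrix.cons_val', Matrix.cons_val_one,
                                                       Matrix.cons_val_zero,
                                                       Matrix.cons_val_fin_one, Fin.sum_univ_four,
                                                       mul_zero, mul_neg, mul_one, zero_add,
                                                       Matrix.cons_val, add_zero]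
      obtain ⟨i, hi, hp⟩ := key (lam mRot12 p) (by rw [em]; exact h1)
        (by rw [e0, e1]; linarith only [hpp.2]) (by rw [e0, e1]; linarith only [hc])
        (by rw [e0, e1]; linarith only [a0, a1.1, h3])
      exact Set.mem_biUnion hi (Or.inr hp)
  refine (measure_mono hcov).trans ((measure_biUnion_finset_le _ _).trans ?_)
  have hsum : ∀ n : ℕ, ∑ i ∈ Finset.range n, 3 * 4 ^ i ≤ 4 ^ n := by
    intro n
    induction n with
    | zero => simp
    | succ n ih => rw [Finset.sum_range_succ, pow_succ]; omega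
  calc ∑ i ∈ Finset.range (j + 3), μ (piece i ∪ lam mRot12 ⁻¹' piece i)
      ≤ ∑ i ∈ Finset.range (j + 3), ((6 * (3 * 4 ^ i) : ℕ) : ℝ≥0∞) * μ (mbox 0 0) := by
        refine Finset.sum_le_sum fun i _ => ?_
        refine (measure_union_le _ _).trans ?_
        rw [(S.lor _ isLor_rot12).measure_preimage (measurableSet_piece i).nullMeasurableSet]
        refine (add_le_add (piece_le S i) (piece_le S i)).trans (le_of_eq ?_)
        rw [← add_mul, ← Nat.cast_add]
        congr 2
        ring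
    _ = ((6 * ∑ i ∈ Finset.range (j + 3), (3 * 4 ^ i) : ℕ) : ℝ≥0∞) * μ (mbox 0 0) := by
        rw [← Finset.sum_mul, Finset.mul_sum]
        push_cast
        rfl
    _ ≤ (400 * 4 ^ j : ℕ) * μ (mbox 0 0) := by
        have h5 : 6 * ∑ i ∈ Finset.range (j + 3), (3 * 4 ^ i) ≤ 400 * 4 ^ j := by
          have := hsum (j + 3)
          rw [pow_add] at this
          omega
        exact mul_le_mul_left (by exact_mod_cast h5) _

end

/-- the weight `(p²)⁻²` -/
def rho (p : Mink) : ℝ≥0∞ := ENNReal.ofReal (((mass2 p) ^ 2)⁻¹)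

lemma measurable_rho : Measurable rho :=
  ENNReal.measurable_ofReal.comp (measurable_mass2.pow_const 2).inv

/-- shells in the unit ball -/
def shl (j : ℕ) : Set Mink :=
  {p | ((1 / 4 : ℝ) ^ (j + 1) < mass2 p ∧ mass2 p ≤ (1 / 4) ^ j) ∧ 0 ≤ p 0 ∧ ‖p‖ ≤ 1}

lemma mass2_smul (s : ℝ) (p : Mink) : mass2 (s • p) = s ^ 2 * mass2 p := by
  unfold mass2
  rw [mdot_smul_left, mdot_smul_right]
  ring

lemma measurableSet_shl (j : ℕ) : MeasurableSet (shl j) := by
  have m0 : Measurable fun p : Mink => p 0 := by fun_prop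
  have m1 : Measurable fun p : Mink => ‖p‖ := by fun_prop
  exact (measurableSet_mass_Ioc _ _).inter ((measurableSet_le measurable_const m0).inter
    (measurableSet_le m1 measurable_const))

lemma shl_eq (j : ℕ) : shl j = (fun p : Mink => ((1 / 2 : ℝ) ^ j)⁻¹ • p) ⁻¹' cap (2 ^ j) := by
  ext p
  have hpos : (0 : ℝ) < (1 / 2) ^ j := by positivity
  have e1 : ((1 / 2 : ℝ) ^ j)⁻¹ = 2 ^ j := by rw [← inv_pow]; norm_num
  have e2 : ((2 : ℝ) ^ j) ^ 2 = 4 ^ j := by rw [← pow_mul, mul_comm, pow_mul]; norm_num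
  have hpos2 : (0 : ℝ) < 2 ^ j := by positivity
  have hpos4 : (0 : ℝ) < 4 ^ j := by positivity
  have e3 : (1 / 4 : ℝ) ^ j = (4 ^ j)⁻¹ := by rw [one_div, inv_pow]
  simp only [shl, cap, Set.mem_ofPred_eq, Set.mem_preimage, e1, mass2_smul, e2, PiLp.smul_apply,
    smul_eq_mul, norm_smul, Real.norm_eq_abs, abs_of_pos hpos2, pow_succ, e3]
  constructor
  · rintro ⟨⟨h1, h2⟩, h3, h4⟩
    refine ⟨⟨?_, ?_⟩, by positivity, by nlinarith only [h4, hpos2]⟩
    · rw [inv_mul_eq_div, div_lt_iff₀ hpos4] at h1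
      linarith only [h1]
    · rw [le_inv_comm₀ (by
        by_contra hcon
        push Not at hcon
        have : 0 < (4 ^ j : ℝ)⁻¹ * (1 / 4) := by positivity
        linarith only [h1, hcon, this]) hpos4] at h2
      have h5 : 0 < mass2 p := by
        have : 0 < (4 ^ j : ℝ)⁻¹ * (1 / 4) := by positivity
        linarith only [h1, this]
      rw [le_inv_comm₀ hpos4 h5] at h2
      rw [le_inv_comm₀ h5 hpos4] at h2
      rw [← le_inv_mul_iff₀ hpos4, mul_one]
      first | exact h2 | exact (le_inv_comm₀ hpos4 h5).1 h2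
  · rintro ⟨⟨h1, h2⟩, h3, h4⟩
    refine ⟨⟨?_, ?_⟩, ?_, ?_⟩
    · rw [inv_mul_eq_div, div_lt_iff₀ hpos4]
      linarith only [h1]
    · rw [← le_inv_mul_iff₀ hpos4, mul_one] at h2
      exact h2
    · by_contra hcon
      push Not at hcon
      nlinarith only [h3, hpos2, hcon]
    · by_contra hcon
      push Not at hcon
      nlinarith only [h4, hpos2, hcon]

section

variable (S : SymMeasure μ 4)
include S

lemma shl_le (j : ℕ) : μ (shl j) ≤
    ENNReal.ofReal ((1 / 256) ^ j) * ((400 * 4 ^ j : ℕ) * μ (mbox 0 0)) := by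
  have hpos : (0 : ℝ) < (1 / 2) ^ j := by positivity
  rw [shl_eq, S.scale _ hpos _ (measurableSet_cap _)]
  have e : ((1 / 2 : ℝ) ^ j) ^ (2 * (4 : ℝ)) = (1 / 256) ^ j := by
    have : (2 * (4 : ℝ)) = ((8 : ℕ) : ℝ) := by norm_num
    rw [this, Real.rpow_natCast, ← pow_mul, mul_comm, pow_mul]
    norm_num
  rw [e]
  gcongr
  exact cap_le S j

lemma lint_unit : ∫⁻ p in Metric.closedBall 0 1, rho p ∂μ < ∞ := by
  have hcov : (Metric.closedBall (0 : Mink) 1) ⊆ (fwdConeᶜ ∪ {p | mass2 p = 0}) ∪ ⋃ j, shl j := by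
    intro p hp
    rw [Metric.mem_closedBall, dist_zero_right] at hp
    by_cases hc : p ∈ fwdCone
    · have hm0 : 0 ≤ mass2 p := hc.2
      rcases hm0.eq_or_lt with h0 | h0
      · left; right; exact h0.symm
      · right
        have hle : mass2 p ≤ 1 := by
          have hn := norm_sq_mink p
          have : ‖p‖ ^ 2 ≤ 1 := by nlinarith only [hp, norm_nonneg p]
          unfold mass2 mdot
          nlinarith only [hn, this, sq_nonneg (p 1), sq_nonneg (p 2), sq_nonneg (p 3)]
        obtain ⟨j, hj1, hj2⟩ := exists_nat_pow_near (x := (mass2 p)⁻¹) (y := 4)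
          (by rw [one_le_inv₀ h0]; exact hle) (by norm_num)
        refine Set.mem_iUnion.2 ⟨j, ⟨?_, ?_⟩, hc.1, hp⟩
        · rw [one_div, inv_pow]
          exact (inv_lt_comm₀ h0 (by positivity)).1 hj2
        · rw [one_div, inv_pow]
          exact (le_inv_comm₀ (by positivity) h0).1 hj1
    · left; left; exact hc
  have hnull : μ (fwdConeᶜ ∪ {p | mass2 p = 0}) = 0 :=
    measure_union_null S.cone (S.null_zero (by norm_num))
  have h1 : ∫⁻ p in Metric.closedBall 0 1, rho p ∂μ ≤
      ∫⁻ p in (fwdConeᶜ ∪ {p | mass2 p = 0}), rho p ∂μ + ∫⁻ p in ⋃ j, shl j, rho p ∂μ :=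
    (lintegral_mono_set hcov).trans (lintegral_union_le _ _ _)
  rw [setLIntegral_measure_zero _ _ hnull, zero_add] at h1
  refine lt_of_le_of_lt (h1.trans (lintegral_iUnion_le _ _)) ?_
  have h2 : ∀ j : ℕ, ∫⁻ p in shl j, rho p ∂μ ≤
      ENNReal.ofReal (6400 * (1 / 4) ^ j) * μ (mbox 0 0) := by
    intro j
    calc ∫⁻ p in shl j, rho p ∂μ ≤ ∫⁻ p in shl j, ENNReal.ofReal (16 * 16 ^ j) ∂μ := by
          apply setLIntegral_mono' (measurableSet_shl j)
          intro p hp
          unfold rho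
          apply ENNReal.ofReal_le_ofReal
          have g1 := hp.1.1
          have g0 : (0 : ℝ) < (1 / 4) ^ (j + 1) := by positivity
          have g2 : ((1 / 4 : ℝ) ^ (j + 1)) ^ 2 ≤ mass2 p ^ 2 := by
            apply pow_le_pow_left₀ g0.le g1.le
          calc ((mass2 p) ^ 2)⁻¹ ≤ (((1 / 4 : ℝ) ^ (j + 1)) ^ 2)⁻¹ := by
                apply inv_anti₀ (by positivity) g2
            _ = 16 * 16 ^ j := by
                rw [← pow_mul, mul_comm, pow_mul, ← inv_pow]
                norm_num [pow_succ]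
                ring
      _ = ENNReal.ofReal (16 * 16 ^ j) * μ (shl j) := by rw [setLIntegral_const]
      _ ≤ ENNReal.ofReal (16 * 16 ^ j) *
          (ENNReal.ofReal ((1 / 256) ^ j) * ((400 * 4 ^ j : ℕ) * μ (mbox 0 0))) := by
          gcongr
          exact shl_le S j
      _ = ENNReal.ofReal (6400 * (1 / 4) ^ j) * μ (mbox 0 0) := by
          rw [← mul_assoc, ← mul_assoc, ← ENNReal.ofReal_mul (by positivity),
            ← ENNReal.ofReal_natCast, ← ENNReal.ofReal_mul (by positivity)]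
          congr 2
          push_cast
          have : (16 : ℝ) * 16 ^ j * (1 / 256) ^ j * (400 * 4 ^ j) =
              6400 * (16 ^ j * (1 / 256) ^ j * 4 ^ j) := by ring
          rw [this, ← mul_pow, ← mul_pow]
          norm_num
  refine lt_of_le_of_lt (ENNReal.tsum_le_tsum h2) ?_
  rw [ENNReal.tsum_mul_right]
  apply ENNReal.mul_lt_top _ (mbox_finite S).lt_top
  have hs : Summable fun j : ℕ => 6400 * (1 / 4 : ℝ) ^ j :=
    (summable_geometric_of_lt_one (by norm_num) (by norm_num)).mul_left _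
  exact hs.tsum_ofReal_lt_top

/-- the weighted measure `(p²)⁻² μ` -/
theorem sym_rho : SymMeasure (μ.withDensity rho) 2 := by
  have hscale : ∀ s : ℝ, 0 < s → ∀ B : Set Mink, MeasurableSet B →
      (μ.withDensity rho) ((fun p => s⁻¹ • p) ⁻¹' B) =
        ENNReal.ofReal (s ^ (2 * (2 : ℝ))) * (μ.withDensity rho) B := by
    intro s hs B hB
    have hM : Measurable fun p : Mink => s⁻¹ • p := by fun_prop
    have hr : ∀ p, rho p = ENNReal.ofReal ((s ^ 4)⁻¹) * rho (s⁻¹ • p) := by
      intro p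
      unfold rho
      rw [← ENNReal.ofReal_mul (by positivity), mass2_smul]
      congr 1
      field_simp
    have hmap : μ.map (fun p => s⁻¹ • p) = ENNReal.ofReal (s ^ (2 * (4 : ℝ))) • μ := by
      ext C hC
      rw [Measure.map_apply hM hC, S.scale s hs C hC]
      rfl
    rw [withDensity_apply _ (hM hB), withDensity_apply _ hB]
    calc ∫⁻ p in (fun p => s⁻¹ • p) ⁻¹' B, rho p ∂μ
        = ∫⁻ p in (fun p => s⁻¹ • p) ⁻¹' B, ENNReal.ofReal ((s ^ 4)⁻¹) * rho (s⁻¹ • p) ∂μ := by
          congr 1; ext p; exact hr p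
      _ = ENNReal.ofReal ((s ^ 4)⁻¹) * ∫⁻ p in (fun p => s⁻¹ • p) ⁻¹' B, rho (s⁻¹ • p) ∂μ := by
          exact lintegral_const_mul _ (measurable_rho.comp hM)
      _ = ENNReal.ofReal ((s ^ 4)⁻¹) * ∫⁻ p in B, rho p ∂(μ.map (fun p => s⁻¹ • p)) := by
          rw [setLIntegral_map hB measurable_rho hM]
      _ = ENNReal.ofReal ((s ^ 4)⁻¹) * (ENNReal.ofReal (s ^ (2 * (4 : ℝ))) *
            ∫⁻ p in B, rho p ∂μ) := by
          rw [hmap, Measure.restrict_smul, lintegral_smul_measure]
          rfl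
      _ = ENNReal.ofReal (s ^ (2 * (2 : ℝ))) * ∫⁻ p in B, rho p ∂μ := by
          rw [← mul_assoc, ← ENNReal.ofReal_mul (by positivity)]
          congr 2
          have e1 : (2 * (4 : ℝ)) = ((8 : ℕ) : ℝ) := by norm_num
          have e2 : (2 * (2 : ℝ)) = ((4 : ℕ) : ℝ) := by norm_num
          rw [e1, e2, Real.rpow_natCast, Real.rpow_natCast]
          field_simp
  refine ⟨?_, ?_, hscale, ?_⟩
  · exact withDensity_absolutelyContinuous μ rho S.cone
  · intro L hL
    refine ⟨(continuous_lam L).measurable, ?_⟩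
    have h1 : ∀ p, rho (lam L p) = rho p := by
      intro p
      unfold rho
      have em : mass2 (lam L p) = mass2 p := mdot_lam hL p p
      rw [em]
    have h2 : μ.withDensity rho = μ.withDensity fun p => rho (lam L p) := by
      congr 1; ext p; rw [h1]
    rw [h2, map_withDensity_comp μ _ (continuous_lam L).measurable rho measurable_rho,
      (S.lor L hL).map_eq, ← h2]
  · intro R
    set r : ℝ := max R 1 with hr
    have hr0 : 0 < r := lt_max_of_lt_right one_pos
    have h1 : (μ.withDensity rho) (Metric.closedBall 0 1) < ∞ := by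
      rw [withDensity_apply _ Metric.isClosed_closedBall.measurableSet]
      exact lint_unit S
    have h2 : Metric.closedBall (0 : Mink) R ⊆
        (fun p => r⁻¹ • p) ⁻¹' Metric.closedBall 0 1 := by
      intro p hp
      simp only [Metric.mem_closedBall, dist_zero_right, Set.mem_preimage, norm_smul, norm_inv,
        Real.norm_eq_abs, abs_of_pos hr0] at hp ⊢
      rw [inv_mul_le_iff₀ hr0, mul_one]
      exact hp.trans (le_max_left _ _)
    refine lt_of_le_of_lt (measure_mono h2) ?_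
    rw [hscale r hr0 _ Metric.isClosed_closedBall.measurableSet]
    exact ENNReal.mul_lt_top ENNReal.ofReal_lt_top h1

end

end Vale.Agent.P352.H246

end
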