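import Vale.Agent.P352.H246.Loc
import Mathlib.Geometry.Manifold.PartitionOfUnity

set_option linter.all false

noncomputable section

open MeasureTheory SchwartzMap Complex Filter Topology
open scoped SchwartzMap ComplexConjugate ENNReal LineDeriv NNReal

namespace Vale.Agent.P352.H246

open GF (Ix V Fn Sch ev pd bar sim one bas o)

/-- splitting a test function along two open sets -/
lemma exists_split {f : 𝓢(Mink, ℂ)} {U1 U2 : Set Mink} (h1 : IsOpen U1) (h2 : IsOpen U2)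
    (hf : IsTest (U1 ∪ U2) f) : ∃ f1 f2, IsTest U1 f1 ∧ IsTest U2 f2 ∧ f = f1 + f2 := by
  have hK : IsCompact (tsupport f \ U2) := hf.1.isCompact.diff h2
  have hKU : tsupport f \ U2 ⊆ U1 := fun x hx => (hf.2 hx.1).resolve_right hx.2
  obtain ⟨L, hL, hKL, hLU⟩ := exists_compact_between hK h1 hKU
  obtain ⟨ρ, hρ1, hρ0, _⟩ := exists_contMDiffMap_one_nhds_of_subset_interior
    (n := (⊤ : ℕ∞)) (modelWithCornersSelf ℝ Mink) hK.isClosed hKL
  have hρs : ContDiff ℝ ((⊤ : ℕ∞) : WithTop ℕ∞) (ρ : Mink → ℝ) := ρ.contMDiff.contDiff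
  set F : Mink → ℂ := fun x => (ρ x : ℂ) * f x with hF
  have hFs : ContDiff ℝ ((⊤ : ℕ∞) : WithTop ℕ∞) F :=
    (Complex.ofRealCLM.contDiff.comp hρs).mul (f.smooth ⊤)
  have hFc : HasCompactSupport F := hf.1.mul_left
  have hFt : tsupport F ⊆ L := by
    apply closure_minimal _ hL.isClosed
    intro x hx
    by_contra hxL
    apply hx
    simp [hF, hρ0 x hxL]
  set f1 : 𝓢(Mink, ℂ) := hFc.toSchwartzMap hFs with hf1
  have hf1a : ∀ x, f1 x = (ρ x : ℂ) * f x := fun x => rfl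
  have hf1c : (f1 : Mink → ℂ) = F := rfl
  refine ⟨f1, f - f1, ⟨by rw [hf1c]; exact hFc, by rw [hf1c]; exact hFt.trans hLU⟩, ⟨?_, ?_⟩,
    by abel⟩
  · have : tsupport ((f - f1 : 𝓢(Mink, ℂ)) : Mink → ℂ) ⊆ tsupport f := by
      apply closure_mono
      intro x hx hfx
      apply hx
      rw [sub_apply, hf1a, hfx]; simp
    exact hf.1.of_isClosed_subset (isClosed_tsupport _) this
  · intro x hx
    by_contra hx2
    have hxf : x ∈ tsupport f := by
      have : tsupport ((f - f1 : 𝓢(Mink, ℂ)) : Mink → ℂ) ⊆ tsupport f := by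
        apply closure_mono
        intro x hx hfx
        apply hx
        rw [sub_apply, hf1a, hfx]; simp
      exact this hx
    have h3 : ∀ᶠ y in 𝓝 x, ρ y = 1 :=
      (Filter.eventually_iff.1 hρ1 |> mem_nhdsSet_iff_forall.1) x ⟨hxf, hx2⟩
    have h4 : ((f - f1 : 𝓢(Mink, ℂ)) : Mink → ℂ) =ᶠ[𝓝 x] 0 := by
      filter_upwards [h3] with y hy
      rw [sub_apply, hf1a, hy]
      simp
    exact notMem_tsupport_iff_eventuallyEq.2 h4 hx

lemma isTest_empty {f : 𝓢(Mink, ℂ)} (hf : IsTest ∅ f) : f = 0 := by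
  ext x
  by_contra h
  exact hf.2 (subset_tsupport _ h)

/-- localization principle -/
theorem part_induct {P : 𝓢(Mink, ℂ) → Prop} (h0 : P 0)
    (hadd : ∀ f g, IsTest Set.univ f → IsTest Set.univ g → P f → P g → P (f + g))
    {K : Set Mink} (hK : IsCompact K)
    (hloc : ∀ x ∈ K, ∃ U, IsOpen U ∧ x ∈ U ∧ ∀ f, IsTest U f → P f) :
    ∃ U, IsOpen U ∧ K ⊆ U ∧ ∀ f, IsTest U f → P f := by
  refine hK.induction_on (p := fun s => ∃ U, IsOpen U ∧ s ⊆ U ∧ ∀ f, IsTest U f → P f) ?_ ?_ ?_ ?_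
  · exact ⟨∅, isOpen_empty, le_rfl, fun f hf => by rw [isTest_empty hf]; exact h0⟩
  · rintro s t hst ⟨U, hU, htU, h⟩
    exact ⟨U, hU, hst.trans htU, h⟩
  · rintro s t ⟨U, hU, hsU, h⟩ ⟨U', hU', htU', h'⟩
    refine ⟨U ∪ U', hU.union hU', Set.union_subset_union hsU htU', fun f hf => ?_⟩
    obtain ⟨f1, f2, h1, h2, rfl⟩ := exists_split hU hU' hf
    exact hadd _ _ (isTest_univ h1) (isTest_univ h2) (h _ h1) (h' _ h2)
  · intro x hx
    obtain ⟨U, hU, hxU, h⟩ := hloc x hx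
    exact ⟨U, mem_nhdsWithin_of_mem_nhds (hU.mem_nhds hxU), U, hU, le_rfl, h⟩

lemma isOpen_Wed_Rt (θ φ : ℝ) (a : V) (r : ℝ) : IsOpen (MW (Wed (Rt θ φ) a r)) := by
  have : MW (Wed (Rt θ φ) a r) = {x : Mink | |x 0 - a 0| < r * nd θ φ (x.ofLp - a)} := by
    ext x
    exact mem_Wed_Rt θ φ a r x.ofLp
  rw [this]
  apply isOpen_lt
  · fun_prop
  · unfold nd
    simp only [Pi.sub_apply]
    fun_prop

/-- spacelike separated points are separated by a wedge -/
lemma exists_sep {x y : Mink} (h : mdot (x - y) (x - y) < 0) :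
    ∃ θ φ a, x ∈ MW (Wed (Rt θ φ) a 1) ∧ y ∈ MW (Wed (Rt θ φ) a (-1)) := by
  have h' : GF.mdot (x - y).ofLp (x - y).ofLp < 0 := by
    have : GF.mdot (x - y).ofLp (x - y).ofLp = mdot (x - y) (x - y) := by
      simp [GF.mdot, mdot, GF.eta, o, Fin.sum_univ_four]
      ring
    rwa [this]
  obtain ⟨θ, φ, hd⟩ := exists_dir h'
  refine ⟨θ, φ, ((1 / 2 : ℝ) • (x + y)).ofLp, ?_, ?_⟩
  · show x.ofLp ∈ Wed (Rt θ φ) ((1 / 2 : ℝ) • (x + y)).ofLp 1
    rw [mem_Wed_Rt]
    have e : x.ofLp - ((1 / 2 : ℝ) • (x + y)).ofLp = (1 / 2 : ℝ) • (x - y).ofLp := by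
      funext i; simp; ring
    have e0 : x.ofLp 0 - ((1 / 2 : ℝ) • (x + y)).ofLp 0 = 1 / 2 * (x - y).ofLp 0 := by
      simp; ring
    rw [e, e0, nd_smul, abs_mul, abs_of_pos (by norm_num : (0 : ℝ) < 1 / 2)]
    linarith
  · show y.ofLp ∈ Wed (Rt θ φ) ((1 / 2 : ℝ) • (x + y)).ofLp (-1)
    rw [mem_Wed_Rt]
    have e : y.ofLp - ((1 / 2 : ℝ) • (x + y)).ofLp = (-(1 / 2) : ℝ) • (x - y).ofLp := by
      funext i; simp; ring
    have e0 : y.ofLp 0 - ((1 / 2 : ℝ) • (x + y)).ofLp 0 = -(1 / 2) * (x - y).ofLp 0 := by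
      simp; ring
    rw [e, e0, nd_smul, abs_mul, abs_of_neg (by norm_num : -(1 / 2 : ℝ) < 0)]
    linarith

variable {D : Type*} [NormedAddCommGroup D] [InnerProductSpace ℂ D]
variable {Q : GF.Theory D}
variable {lam : 𝓢(Mink, ℂ) → UniformSpace.Completion D}
variable {k : ℕ} {M M' : ℝ} {f g : 𝓢(Mink, ℂ)} {v w : D}
  {x y : UniformSpace.Completion D} {Mf : 𝓢(Mink, ℂ) → ℝ}

lemma conjS_add (f g : 𝓢(Mink, ℂ)) : conjS (f + g) = conjS f + conjS g := by
  ext x; simp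

lemma conjS_zero : conjS (0 : 𝓢(Mink, ℂ)) = 0 := by
  ext x; simp

lemma isTest_zero (W : Set Mink) : IsTest W (0 : 𝓢(Mink, ℂ)) := by
  constructor
  · exact HasCompactSupport.zero
  · show closure (Function.support (0 : Mink → ℂ)) ⊆ W
    simp

/-- relative locality of the extended operators -/
theorem LL_local (hM : ∀ f, 0 ≤ Mf f) (hb : ∀ f, HW lam Q k (Mf f) f)
    (hadd : ∀ f g, lam (f + g) = lam f + lam g) (hsmul : ∀ (c : ℂ) f, lam (c • f) = c • lam f)
    {A B : GF.Fld D} (hA : Q.fld A) (hB : Q.fld B)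
    (hadj : ∀ f v w, GF.IsTest f → inner ℂ (A f v) w = inner ℂ v (B (bar f) w))
    (hf : IsTest Set.univ f) (hg : IsTest Set.univ g) (hs : SpSep f g)
    (hv : PW Q Set.univ v) (z : D) :
    inner ℂ ((B (fl (conjS g)) z : D) : UniformSpace.Completion D) (LL lam Q k Mf f v) =
      inner ℂ (z : UniformSpace.Completion D) (LL lam Q k Mf f (A (fl g) v)) := by
  have hL0 : ∀ v, PW Q Set.univ v → LL lam Q k Mf 0 v = 0 := by
    intro v hv
    have := LL_smulf hM hb hsmul (isTest_zero _) hv 0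
    rwa [zero_smul, zero_smul] at this
  have step : ∀ x ∈ tsupport f, ∃ U, IsOpen U ∧ x ∈ U ∧ ∀ f', IsTest U f' →
      inner ℂ ((B (fl (conjS g)) z : D) : UniformSpace.Completion D) (LL lam Q k Mf f' v) =
        inner ℂ (z : UniformSpace.Completion D) (LL lam Q k Mf f' (A (fl g) v)) := by
    intro x hx
    obtain ⟨U, hU, hKU, h⟩ := part_induct (P := fun g' => IsTest Set.univ g' ∧
      ∃ U, IsOpen U ∧ x ∈ U ∧ ∀ f', IsTest U f' →
      inner ℂ ((B (fl (conjS g')) z : D) : UniformSpace.Completion D) (LL lam Q k Mf f' v) =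
        inner ℂ (z : UniformSpace.Completion D) (LL lam Q k Mf f' (A (fl g') v)))
      (by
        refine ⟨isTest_zero _, Set.univ, isOpen_univ, trivial, fun f' hf' => ?_⟩
        rw [conjS_zero, fld_zero hB, fld_zero hA, UniformSpace.Completion.coe_zero,
          inner_zero_left]
        have := LL_smulv hM hb hf' hv 0
        rw [zero_smul, zero_smul] at this
        rw [this, inner_zero_right])
      (by
        rintro g1 g2 _ _ ⟨hg1, U1, hU1, hx1, h1⟩ ⟨hg2, U2, hU2, hx2, h2⟩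
        refine ⟨hg1.add hg2, U1 ∩ U2, hU1.inter hU2, ⟨hx1, hx2⟩, fun f' hf' => ?_⟩
        have e1 := h1 f' ⟨hf'.1, hf'.2.trans Set.inter_subset_left⟩
        have e2 := h2 f' ⟨hf'.1, hf'.2.trans Set.inter_subset_right⟩
        rw [conjS_add, fld_addf hB, fld_addf hA, UniformSpace.Completion.coe_add, inner_add_left,
          LL_addv hM hb (isTest_univ hf') (.fld hA hg1 hv) (.fld hA hg2 hv), inner_add_right,
          e1, e2])
      hg.1.isCompact
      (by
        intro y hy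
        obtain ⟨θ, φ, a, hxa, hya⟩ := exists_sep (hs x hx y hy)
        refine ⟨_, isOpen_Wed_Rt θ φ a (-1), hya, fun g' hg' => ⟨isTest_univ hg', _,
          isOpen_Wed_Rt θ φ a 1, hxa, fun f' hf' => ?_⟩⟩
        exact LL_loc hM hb hA hB hadj hf' hg' hv z)
    exact (h g ⟨hg.1, hKU⟩).2
  obtain ⟨U, hU, hKU, h⟩ := part_induct (P := fun f' => IsTest Set.univ f' ∧
      inner ℂ ((B (fl (conjS g)) z : D) : UniformSpace.Completion D) (LL lam Q k Mf f' v) =
        inner ℂ (z : UniformSpace.Completion D) (LL lam Q k Mf f' (A (fl g) v)))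
    (by
      refine ⟨isTest_zero _, ?_⟩
      rw [hL0 _ hv, hL0 _ (.fld hA hg hv), inner_zero_right, inner_zero_right])
    (by
      rintro f1 f2 _ _ ⟨h1, e1⟩ ⟨h2, e2⟩
      refine ⟨h1.add h2, ?_⟩
      rw [LL_addf hM hb hadd h1 h2 hv, LL_addf hM hb hadd h1 h2 (.fld hA hg hv), inner_add_right,
        inner_add_right, e1, e2])
    hf.1.isCompact
    (by
      intro x hx
      obtain ⟨U, hU, hxU, h⟩ := step x hx
      exact ⟨U, hU, hxU, fun f' hf' => ⟨isTest_univ hf', h f' hf'⟩⟩)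
  exact (h f ⟨hf.1, hKU⟩).2

end Vale.Agent.P352.H246

end
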