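import Vale.Agent.P352.H246.Vf

set_option linter.all false

noncomputable section

open MeasureTheory SchwartzMap Complex Filter Topology
open scoped SchwartzMap ComplexConjugate ENNReal LineDeriv NNReal

namespace Vale.Agent.P352.H246

open GF (Ix V Fn Sch ev pd bar sim one bas o)

variable {D : Type*} [NormedAddCommGroup D] [InnerProductSpace ℂ D]
variable {Q : GF.Theory D}

/-- the decay of the dilated operators on a vector -/
def Dec (J : Ix → GF.Fld D) (c : Mink) (f : 𝓢(Mink, ℂ)) (v : D) : Prop :=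
  ∀ m, ∃ C, 0 ≤ C ∧ ∀ t ≥ (0 : ℝ), ‖J m (fl (Bt c t f)) v‖ ≤ C * Real.exp (-3 * t)

/-- localized words -/
lemma exists_word {v : D} (hv : PW Q Set.univ v) : ∃ r X X',
    Al Q {x : V | (WithLp.toLp 2 x : Mink) ∈ Bx r} X X' ∧ v = X Q.vac := by
  obtain ⟨r, hr⟩ := exists_Bx hv
  obtain ⟨X, X', hX, rfl⟩ := exists_Al (W := {x : V | (WithLp.toLp 2 x : Mink) ∈ Bx r}) hr
  exact ⟨r, X, X', hX, rfl⟩

section

variable {J : Ix → GF.Fld D} (hJ : VFld Q J)
include hJ

lemma VFld.comm (m : Ix) {L : Ix → V} (hL : GF.IsLor L) {a : V} {f : 𝓢(Mink, ℂ)}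
    (hf : IsTest (MW (Wed L a 1)) f) {X X' : D → D} (hX : Al Q (Wed L a (-1)) X X') (v : D) :
    J m (fl f) (X v) = X (J m (fl f) v) :=
  bose_comm (hJ.bose m) (fun G hG => wed_sep hL a hf hG) hX v

/-- the decay estimate -/
theorem VFld.dec {L : Ix → V} (hL : GF.IsLor L) {c : Mink} {f : 𝓢(Mink, ℂ)}
    (hf : IsTest (MW (Wed L c.ofLp 1)) f) {v : D} (hv : PW Q Set.univ v) : Dec J c f v := by
  intro m
  obtain ⟨r, X, X', hX, rfl⟩ := exists_word hv
  obtain ⟨t0, ht0, hfar⟩ := exists_far_wed hL hf r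
  set M : ℝ := ‖X' (X Q.vac)‖ * ‖J m (fl (conjS f)) (J m (fl f) Q.vac)‖ with hM
  have hM0 : 0 ≤ M := by positivity
  have h1 : ∀ t ≥ t0, ‖J m (fl (Bt c t f)) (X Q.vac)‖ ≤ Real.sqrt M * Real.exp (-3 * t) := by
    intro t ht
    obtain ⟨a, ha1, ha2⟩ := hfar t ht
    have hXa : Al Q (Wed L a (-1)) X X' := hX.mono fun x hx => ha1 hx
    have e1 : inner ℂ (J m (fl (Bt c t f)) (X Q.vac)) (J m (fl (Bt c t f)) (X Q.vac)) =
        inner ℂ (X' (X Q.vac)) (J m (fl (Bt c t (conjS f))) (J m (fl (Bt c t f)) Q.vac)) := by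
      have ha3 := isTest_conj ha2
      rw [conjS_Bt] at ha3
      rw [hJ.herm, hJ.comm m hL ha2 hXa, conjS_Bt, hJ.comm m hL ha3 hXa, hXa.adj']
    have e2 : ‖J m (fl (Bt c t f)) (X Q.vac)‖ ^ 2 ≤ M * Real.exp (-6 * t) := by
      have e3 := congrArg norm e1
      rw [inner_self_eq_norm_sq_to_K, norm_pow, RCLike.norm_ofReal, abs_norm] at e3
      rw [e3]
      refine (norm_inner_le_norm _ _).trans ?_
      rw [hJ.norm_vac2]
      apply le_of_eq
      rw [hM]
      ring
    have e4 : M * Real.exp (-6 * t) = (Real.sqrt M * Real.exp (-3 * t)) ^ 2 := by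
      rw [mul_pow, Real.sq_sqrt hM0, ← Real.exp_nat_mul]
      congr 2
      push_cast
      ring
    rw [e4] at e2
    exact (pow_le_pow_iff_left₀ (norm_nonneg _) (by positivity) (by norm_num)).1 e2
  have hcont : Continuous fun t : ℝ => ‖J m (fl (Bt c t f)) (X Q.vac)‖ * Real.exp (3 * t) := by
    have h2 := (continuous_Bt (opC (hJ.fld m) (X Q.vac)) c f).norm
    simp only [opC_apply, UniformSpace.Completion.norm_coe] at h2
    exact h2.mul (by fun_prop)
  obtain ⟨K, hK⟩ := (isCompact_Icc (a := (0 : ℝ)) (b := t0)).exists_bound_of_continuousOn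
    hcont.continuousOn
  refine ⟨max (Real.sqrt M) |K|, (Real.sqrt_nonneg M).trans (le_max_left _ _), fun t ht => ?_⟩
  rcases le_total t0 t with h | h
  · refine (h1 t h).trans ?_
    gcongr
    exact le_max_left _ _
  · have h3 := hK t ⟨ht, h⟩
    rw [norm_mul, norm_norm, Real.norm_of_nonneg (Real.exp_pos _).le] at h3
    have h4 : ‖J m (fl (Bt c t f)) (X Q.vac)‖ ≤ |K| * Real.exp (-3 * t) := by
      have e5 : Real.exp (3 * t) * Real.exp (-3 * t) = 1 := by
        rw [← Real.exp_add]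
        have : 3 * t + -3 * t = 0 := by ring
        rw [this, Real.exp_zero]
      calc ‖J m (fl (Bt c t f)) (X Q.vac)‖ =
          ‖J m (fl (Bt c t f)) (X Q.vac)‖ * Real.exp (3 * t) * Real.exp (-3 * t) := by
            rw [mul_assoc, e5, mul_one]
        _ ≤ |K| * Real.exp (-3 * t) := by
            gcongr
            exact h3.trans (le_abs_self K)
    refine h4.trans ?_
    gcongr
    exact le_max_right _ _

lemma VFld.dec_vac (c : Mink) (f : 𝓢(Mink, ℂ)) : Dec J c f Q.vac := by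
  intro m
  refine ⟨‖J m (fl f) Q.vac‖, norm_nonneg _, fun t _ => ?_⟩
  rw [hJ.norm_vac, mul_comm]

end

/-! ### The radial integral -/

/-- the integrand -/
def Ph (J : Ix → GF.Fld D) (c : Mink) (t : ℝ) (f : 𝓢(Mink, ℂ)) (v : D) : D :=
  ∑ m, (GF.eta m : ℂ) • J m (fl (Bt c t (Xa c m f))) v

/-- the weighted integrand in the Hilbert space -/
def Ig (J : Ix → GF.Fld D) (c : Mink) (f : 𝓢(Mink, ℂ)) (v : D) (t : ℝ) :
    UniformSpace.Completion D :=
  ((Real.exp t : ℝ) : ℂ) • ((Ph J c t f v : D) : UniformSpace.Completion D)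

/-- the integral over the dilations -/
def La (J : Ix → GF.Fld D) (c : Mink) (f : 𝓢(Mink, ℂ)) (v : D) : UniformSpace.Completion D :=
  (-(1 / 3) : ℂ) • ∫ t in Set.Ioi (0 : ℝ), Ig J c f v t

/-- the radial integral converges -/
def Good (J : Ix → GF.Fld D) (c : Mink) (f : 𝓢(Mink, ℂ)) (v : D) : Prop :=
  ∀ n, Dec J c (Xa c n f) v

section

variable {J : Ix → GF.Fld D} (hJ : VFld Q J)
include hJ

lemma VFld.good {L : Ix → V} (hL : GF.IsLor L) {c : Mink} {f : 𝓢(Mink, ℂ)}
    (hf : IsTest (MW (Wed L c.ofLp 1)) f) {v : D} (hv : PW Q Set.univ v) : Good J c f v :=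
  fun n => hJ.dec hL (isTest_Xa hf c n) hv

lemma VFld.good_vac (c : Mink) (f : 𝓢(Mink, ℂ)) : Good J c f Q.vac :=
  fun n => hJ.dec_vac c _

lemma VFld.continuous_Ph (c : Mink) (f : 𝓢(Mink, ℂ)) (v : D) :
    Continuous fun t : ℝ => ((Ph J c t f v : D) : UniformSpace.Completion D) := by
  have e : (fun t : ℝ => ((Ph J c t f v : D) : UniformSpace.Completion D)) = fun t : ℝ =>
      ∑ m, (GF.eta m : ℂ) • opC (hJ.fld m) v (Bt c t (Xa c m f)) := by
    funext t
    have h := map_sum (UniformSpace.Completion.toComplL (𝕜 := ℂ) (E := D))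
      (fun m => (GF.eta m : ℂ) • J m (fl (Bt c t (Xa c m f))) v) Finset.univ
    refine h.trans ?_
    refine Finset.sum_congr rfl fun m _ => ?_
    rw [map_smul]
    rfl
  rw [e]
  refine continuous_finset_sum _ fun m _ => ?_
  have h := continuous_Bt (opC (hJ.fld m) v) c (Xa c m f)
  exact (continuous_const : Continuous fun _ : ℝ => (GF.eta m : ℂ)).smul h

lemma VFld.continuous_Ig (c : Mink) (f : 𝓢(Mink, ℂ)) (v : D) : Continuous (Ig J c f v) :=
  (continuous_ofReal.comp Real.continuous_exp).smul (hJ.continuous_Ph c f v)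

omit hJ in
lemma Good.bound {c : Mink} {f : 𝓢(Mink, ℂ)} {v : D} (h : Good J c f v) :
    ∃ C, 0 ≤ C ∧ ∀ t ≥ (0 : ℝ), ‖Ig J c f v t‖ ≤ C * Real.exp (-2 * t) := by
  choose C hC hle using fun n => h n n
  refine ⟨∑ n, C n, Finset.sum_nonneg fun n _ => hC n, fun t ht => ?_⟩
  rw [Ig, norm_smul, norm_real, Real.norm_of_nonneg (Real.exp_pos t).le,
    UniformSpace.Completion.norm_coe]
  have h1 : ‖Ph J c t f v‖ ≤ (∑ n, C n) * Real.exp (-3 * t) := by
    unfold Ph
    refine (norm_sum_le _ _).trans ?_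
    rw [Finset.sum_mul]
    refine Finset.sum_le_sum fun m _ => ?_
    rw [norm_smul]
    have : ‖(GF.eta m : ℂ)‖ = 1 := by
      rw [norm_real, Real.norm_eq_abs]
      unfold GF.eta; split_ifs <;> simp
    rw [this, one_mul]
    exact hle m t ht
  calc _ ≤ Real.exp t * ((∑ n, C n) * Real.exp (-3 * t)) := by gcongr
    _ = (∑ n, C n) * (Real.exp t * Real.exp (-3 * t)) := by ring
    _ = _ := by rw [← Real.exp_add]; congr 2; ring

omit hJ in
lemma integrable_exp2 (C : ℝ) : IntegrableOn (fun t : ℝ => C * Real.exp (-2 * t))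
    (Set.Ioi (0 : ℝ)) :=
  (exp_neg_integrableOn_Ioi 0 (by norm_num : (0 : ℝ) < 2)).const_mul C

lemma VFld.integrable {c : Mink} {f : 𝓢(Mink, ℂ)} {v : D} (h : Good J c f v) :
    IntegrableOn (Ig J c f v) (Set.Ioi (0 : ℝ)) := by
  obtain ⟨C, hC, hle⟩ := h.bound
  refine (integrable_exp2 C).mono' (hJ.continuous_Ig c f v).aestronglyMeasurable ?_
  filter_upwards [ae_restrict_mem measurableSet_Ioi] with t ht
  exact hle t (le_of_lt ht)

end

end Vale.Agent.P352.H246

end
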