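import Vale.Agent.P352.H246.Rad

set_option linter.all false

noncomputable section

open MeasureTheory SchwartzMap Complex Filter Topology
open scoped SchwartzMap ComplexConjugate ENNReal LineDeriv NNReal

namespace Vale.Agent.P352.H246

open GF (Ix V Fn Sch ev pd bar sim one bas o)

variable {D : Type*} [NormedAddCommGroup D] [InnerProductSpace ℂ D]
variable {Q : GF.Theory D}

/-- the curl vanishes on the vector `v` -/
def Curl (J : Ix → GF.Fld D) (v : D) : Prop := ∀ (m n : Ix) (f : 𝓢(Mink, ℂ)),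
  (GF.eta n : ℂ) • J n (fl (∂_{eb m} f)) v = (GF.eta m : ℂ) • J m (fl (∂_{eb n} f)) v

section

variable {J : Ix → GF.Fld D} (hJ : VFld Q J)
include hJ

/-! ### Linearity -/

lemma VFld.Ph_addv (c : Mink) (t : ℝ) (f : 𝓢(Mink, ℂ)) (v w : D) :
    Ph J c t f (v + w) = Ph J c t f v + Ph J c t f w := by
  unfold Ph
  rw [← Finset.sum_add_distrib]
  refine Finset.sum_congr rfl fun m _ => ?_
  rw [fld_add (hJ.fld m), smul_add]

lemma VFld.Ph_smulv (c : Mink) (t : ℝ) (f : 𝓢(Mink, ℂ)) (k : ℂ) (v : D) :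
    Ph J c t f (k • v) = k • Ph J c t f v := by
  unfold Ph
  rw [Finset.smul_sum]
  refine Finset.sum_congr rfl fun m _ => ?_
  rw [fld_smul (hJ.fld m), smul_comm]

lemma VFld.Ph_addf (c : Mink) (t : ℝ) (f g : 𝓢(Mink, ℂ)) (v : D) :
    Ph J c t (f + g) v = Ph J c t f v + Ph J c t g v := by
  unfold Ph
  rw [← Finset.sum_add_distrib]
  refine Finset.sum_congr rfl fun m _ => ?_
  rw [map_add, map_add, fld_addf (hJ.fld m), smul_add]

lemma VFld.Ph_smulf (c : Mink) (t : ℝ) (k : ℂ) (f : 𝓢(Mink, ℂ)) (v : D) :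
    Ph J c t (k • f) v = k • Ph J c t f v := by
  unfold Ph
  rw [Finset.smul_sum]
  refine Finset.sum_congr rfl fun m _ => ?_
  rw [map_smul, map_smul, fld_smulf (hJ.fld m), smul_comm]

lemma VFld.La_addv {c : Mink} {f : 𝓢(Mink, ℂ)} {v w : D} (h : Good J c f v) (h' : Good J c f w) :
    La J c f (v + w) = La J c f v + La J c f w := by
  unfold La
  rw [← smul_add, ← integral_add (hJ.integrable h) (hJ.integrable h')]
  congr 2
  funext t
  rw [Ig, hJ.Ph_addv, UniformSpace.Completion.coe_add, smul_add]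
  rfl

lemma VFld.La_smulv (c : Mink) (f : 𝓢(Mink, ℂ)) (k : ℂ) (v : D) :
    La J c f (k • v) = k • La J c f v := by
  have e : (fun t => Ig J c f (k • v) t) = fun t => k • Ig J c f v t := by
    funext t
    rw [Ig, hJ.Ph_smulv, UniformSpace.Completion.coe_smul, smul_comm]
    rfl
  rw [La, La, e, integral_smul, smul_comm]

lemma VFld.La_addf {c : Mink} {f g : 𝓢(Mink, ℂ)} {v : D} (h : Good J c f v)
    (h' : Good J c g v) : La J c (f + g) v = La J c f v + La J c g v := by
  unfold La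
  rw [← smul_add, ← integral_add (hJ.integrable h) (hJ.integrable h')]
  congr 2
  funext t
  rw [Ig, hJ.Ph_addf, UniformSpace.Completion.coe_add, smul_add]
  rfl

lemma VFld.La_smulf (c : Mink) (k : ℂ) (f : 𝓢(Mink, ℂ)) (v : D) :
    La J c (k • f) v = k • La J c f v := by
  have e : (fun t => Ig J c (k • f) v t) = fun t => k • Ig J c f v t := by
    funext t
    rw [Ig, hJ.Ph_smulf, UniformSpace.Completion.coe_smul, smul_comm]
    rfl
  rw [La, La, e, integral_smul, smul_comm]

/-! ### Matrix elements -/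

lemma VFld.inner_La {c : Mink} {f : 𝓢(Mink, ℂ)} {v : D} (h : Good J c f v)
    (y : UniformSpace.Completion D) : inner ℂ y (La J c f v) =
      (-(1 / 3) : ℂ) * ∫ t in Set.Ioi (0 : ℝ), ((Real.exp t : ℝ) : ℂ) *
        inner ℂ y ((Ph J c t f v : D) : UniformSpace.Completion D) := by
  rw [La, inner_smul_right, ← integral_inner (hJ.integrable h)]
  congr 2
  funext t
  rw [Ig, inner_smul_right]

lemma VFld.inner_Ph (c : Mink) (t : ℝ) (f : 𝓢(Mink, ℂ)) (v w : D) :
    inner ℂ v (Ph J c t f w) = inner ℂ (Ph J c t (conjS f) v) w := by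
  unfold Ph
  rw [inner_sum, sum_inner]
  refine Finset.sum_congr rfl fun m _ => ?_
  rw [inner_smul_right, inner_smul_left, conj_ofReal, ← inner_conj_symm v, hJ.herm, conjS_Bt,
    conjS_Xa, inner_conj_symm]

/-- hermiticity -/
lemma VFld.La_herm {c : Mink} {f : 𝓢(Mink, ℂ)} {v w : D} (h : Good J c f w)
    (h' : Good J c (conjS f) v) : inner ℂ (v : UniformSpace.Completion D) (La J c f w) =
      inner ℂ (La J c (conjS f) v) (w : UniformSpace.Completion D) := by
  rw [← inner_conj_symm (La J c (conjS f) v), hJ.inner_La h, hJ.inner_La h', map_mul,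
    ← integral_conj]
  congr 1
  · have e : (-(1 / 3) : ℂ) = ((-(1 / 3) : ℝ) : ℂ) := by push_cast; ring
    rw [e, conj_ofReal]
  · congr 1
    funext t
    rw [map_mul, conj_ofReal, inner_conj_symm, UniformSpace.Completion.inner_coe,
      UniformSpace.Completion.inner_coe, hJ.inner_Ph]

/-- commutation with the algebra of the opposite wedge -/
lemma VFld.La_comm {L : Ix → V} (hL : GF.IsLor L) {c : Mink} {f : 𝓢(Mink, ℂ)}
    (hf : IsTest (MW (Wed L c.ofLp 1)) f) {X X' : D → D} (hX : Al Q (Wed L c.ofLp (-1)) X X')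
    {v : D} (h : Good J c f v) (h' : Good J c f (X v)) (z : D) :
    inner ℂ ((X' z : D) : UniformSpace.Completion D) (La J c f v) =
      inner ℂ (z : UniformSpace.Completion D) (La J c f (X v)) := by
  rw [hJ.inner_La h, hJ.inner_La h']
  congr 2
  funext t
  rw [UniformSpace.Completion.inner_coe, UniformSpace.Completion.inner_coe, hX.adj']
  congr 2
  have e : X (Ph J c t f v) = Ph J c t f (X v) := by
    unfold Ph
    have hlin : ∀ w : Ix → D, X (∑ m, (GF.eta m : ℂ) • w m) =
        ∑ m, (GF.eta m : ℂ) • X (w m) := by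
      intro w
      have := map_sum (LinearMap.mk ⟨X, hX.map_add⟩ hX.map_smul : D →ₗ[ℂ] D)
        (fun m => (GF.eta m : ℂ) • w m) Finset.univ
      simp only [LinearMap.coe_mk, AddHom.coe_mk] at this
      rw [this]
      refine Finset.sum_congr rfl fun m _ => hX.map_smul _ _
    rw [hlin]
    refine Finset.sum_congr rfl fun m _ => ?_
    rw [hJ.comm m hL (isTest_Bt hL (isTest_Xa hf c m) t) hX]
  exact e

/-! ### The gradient -/

omit hJ in
lemma Xa_pd (c : Mink) (m n : Ix) (f : 𝓢(Mink, ℂ)) : Xa c m (∂_{eb n} f) =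
    (∂_{eb n} (Xa c m f) : 𝓢(Mink, ℂ)) - (if m = n then (1 : ℂ) else 0) • f := by
  rw [pd_Xa, add_sub_cancel_right]

omit hJ in
lemma Bt_pd (c : Mink) (t : ℝ) (v : Mink) (f : 𝓢(Mink, ℂ)) : Bt c t (∂_{v} f) =
    ((Real.exp t : ℝ) : ℂ) • (∂_{v} (Bt c t f) : 𝓢(Mink, ℂ)) := by
  rw [pd_Bt, smul_smul, ← ofReal_mul, ← Real.exp_add, add_neg_cancel, Real.exp_zero, ofReal_one,
    one_smul]

lemma VFld.Ph_pd {v : D} (hc : Curl J v) (c : Mink) (t : ℝ) (m : Ix) (f : 𝓢(Mink, ℂ)) :
    Ph J c t (∂_{eb m} f) v = (GF.eta m : ℂ) • (J m (fl (Bt c t (Dg c f))) v -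
      J m (fl (Bt c t f)) v) := by
  unfold Ph
  have h1 : ∀ n : Ix, (GF.eta n : ℂ) • J n (fl (Bt c t (Xa c n (∂_{eb m} f)))) v =
      (GF.eta m : ℂ) • J m (fl (Bt c t (∂_{eb n} (Xa c n f)))) v -
        (if n = m then (GF.eta m : ℂ) • J m (fl (Bt c t f)) v else 0) := by
    intro n
    rw [Xa_pd, map_sub, fld_subf (hJ.fld n), smul_sub, Bt_pd, fld_smulf (hJ.fld n), Bt_pd,
      fld_smulf (hJ.fld m), smul_comm, hc m n, smul_comm]
    congr 1
    split_ifs with h
    · subst h
      rw [one_smul]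
    · rw [zero_smul, map_zero, fld_zero (hJ.fld n), smul_zero]
  simp only [h1, Finset.sum_sub_distrib, Finset.sum_ite_eq', Finset.mem_univ, if_true]
  rw [smul_sub]
  congr 1
  rw [← Finset.smul_sum]
  congr 1
  unfold Dg
  rw [map_sum]
  have h2 := fld_sumf (hJ.fld m) Finset.univ (fun _ : Ix => (1 : ℂ))
    (fun n => Bt c t (∂_{eb n} (Xa c n f))) v
  simp only [one_smul] at h2
  rw [h2]

/-- the radial integral is a primitive of the current -/
theorem VFld.La_pd {v : D} (hc : Curl J v) {c : Mink} {m : Ix} {f : 𝓢(Mink, ℂ)}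
    (h : Good J c (∂_{eb m} f) v) (h' : Dec J c f v) :
    (3 : ℂ) • La J c (∂_{eb m} f) v =
      -((GF.eta m : ℂ) • ((J m (fl f) v : D) : UniformSpace.Completion D)) := by
  set F : ℝ → UniformSpace.Completion D := fun t =>
    (-(GF.eta m : ℂ)) • (Real.exp t • opC (hJ.fld m) v (Bt c t f)) with hF
  have hder : ∀ t, HasDerivAt F (Ig J c (∂_{eb m} f) v t) t := by
    intro t
    have h1 := (Real.hasDerivAt_exp t).smul (hasDerivAt_Bt (opC (hJ.fld m) v) c f t)
    have h2 := h1.const_smul (-(GF.eta m : ℂ))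
    refine h2.congr_deriv ?_
    rw [Ig, hJ.Ph_pd hc, opC_apply, opC_apply, UniformSpace.Completion.coe_smul,
      UniformSpace.Completion.coe_sub]
    have e : ∀ (r : ℝ) (x : UniformSpace.Completion D), r • x = (r : ℂ) • x := fun _ _ => rfl
    rw [e, e]
    module
  have hlim : Tendsto F atTop (𝓝 0) := by
    obtain ⟨C, hC, hle⟩ := h' m
    have h0 : Tendsto (fun t : ℝ => C * Real.exp (-2 * t)) atTop (𝓝 0) := by
      have h1 : Tendsto (fun t : ℝ => Real.exp (-2 * t)) atTop (𝓝 0) := by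
        apply Real.tendsto_exp_atBot.comp
        exact tendsto_id.const_mul_atTop_of_neg (by norm_num)
      simpa using h1.const_mul C
    refine squeeze_zero_norm' ?_ h0
    filter_upwards [eventually_ge_atTop (0 : ℝ)] with t ht
    rw [hF]
    simp only
    have hη : ‖(-(GF.eta m : ℂ))‖ = 1 := by
      rw [norm_neg, norm_real, Real.norm_eq_abs]
      unfold GF.eta; split_ifs <;> simp
    rw [norm_smul, norm_smul, hη, one_mul, Real.norm_of_nonneg (Real.exp_pos t).le, opC_apply,
      UniformSpace.Completion.norm_coe]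
    calc _ ≤ Real.exp t * (C * Real.exp (-3 * t)) := by gcongr; exact hle t ht
      _ = C * (Real.exp t * Real.exp (-3 * t)) := by ring
      _ = _ := by rw [← Real.exp_add]; congr 2; ring
  have hI := integral_Ioi_of_hasDerivAt_of_tendsto' (a := (0 : ℝ)) (fun t _ => hder t)
    (hJ.integrable h) hlim
  rw [La, hI, hF]
  simp only [Real.exp_zero, one_smul, Bt_zero, opC_apply]
  module

end

end Vale.Agent.P352.H246

end
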