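import Vale.Agent.P352.H246.Rad2

set_option linter.all false

noncomputable section

open MeasureTheory SchwartzMap Complex Filter Topology
open scoped SchwartzMap ComplexConjugate ENNReal LineDeriv NNReal

namespace Vale.Agent.P352.H246

open GF (Ix V Fn Sch ev pd bar sim one bas o)

variable {D : Type*} [NormedAddCommGroup D] [InnerProductSpace ℂ D]
variable {Q : GF.Theory D} {T : Ix → Ix → GF.Fld D}

section

variable {J : Ix → GF.Fld D} (hJ : VFld Q J)
variable {s : ℝ} (hs : 0 < s) {L : Ix → V} (hL : GF.IsLor L) (b : V)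
include hJ

/-! ### Covariance -/

lemma VFld.J_cov (c : Mink) (t : ℝ) (m n : Ix) (f : 𝓢(Mink, ℂ)) (v : D) :
    J m (fl (Bt (WithLp.toLp 2 (sim s L b c.ofLp)) t
        (Xa (WithLp.toLp 2 (sim s L b c.ofLp)) n f))) (Q.U s L b v) =
      ∑ k, ((s * L k m : ℝ) : ℂ) • ∑ l, ((s * L l n : ℝ) : ℂ) •
        Q.U s L b (J k (fl (Bt c t (Xa c l (simS s hs hL b f)))) v) := by
  rw [hJ.cov m s hs L hL b]
  refine Finset.sum_congr rfl fun k _ => ?_
  congr 1
  rw [simS_Bt, simS_Xa, map_sum]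
  simp only [map_smul]
  rw [fld_sumf (hJ.fld k), U_sum hs hL]
  refine Finset.sum_congr rfl fun l _ => ?_
  rw [U_smul hs hL]

lemma VFld.Ph_cov (c : Mink) (t : ℝ) (f : 𝓢(Mink, ℂ)) (v : D) :
    Ph J (WithLp.toLp 2 (sim s L b c.ofLp)) t f (Q.U s L b v) =
      ((s ^ 2 : ℝ) : ℂ) • Q.U s L b (Ph J c t (simS s hs hL b f) v) := by
  unfold Ph
  simp only [hJ.J_cov hs hL b c t]
  rw [U_sum hs hL, Finset.smul_sum]
  simp only [U_smul hs hL]
  set Y : Ix → Ix → D := fun k l =>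
    Q.U s L b (J k (fl (Bt c t (Xa c l (simS s hs hL b f)))) v) with hY
  have e1 : ∀ m : Ix, (GF.eta m : ℂ) • ∑ k, ((s * L k m : ℝ) : ℂ) •
      ∑ l, ((s * L l m : ℝ) : ℂ) • Y k l =
      ∑ k, ∑ l, ((s ^ 2 * (GF.eta m * L k m * L l m) : ℝ) : ℂ) • Y k l := by
    intro m
    rw [Finset.smul_sum]
    refine Finset.sum_congr rfl fun k _ => ?_
    rw [smul_smul, Finset.smul_sum]
    refine Finset.sum_congr rfl fun l _ => ?_
    rw [smul_smul]
    congr 1
    push_cast
    ring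
  show ∑ m, (GF.eta m : ℂ) • ∑ k, ((s * L k m : ℝ) : ℂ) •
      ∑ l, ((s * L l m : ℝ) : ℂ) • Y k l = ∑ k, ((s ^ 2 : ℝ) : ℂ) • (GF.eta k : ℂ) • Y k k
  simp only [e1]
  rw [Finset.sum_comm]
  refine Finset.sum_congr rfl fun k _ => ?_
  rw [Finset.sum_comm]
  have e2 : ∀ l : Ix, ∑ m, ((s ^ 2 * (GF.eta m * L k m * L l m) : ℝ) : ℂ) • Y k l =
      if l = k then ((s ^ 2 * GF.eta k : ℝ) : ℂ) • Y k k else 0 := by
    intro l
    rw [← Finset.sum_smul, ← ofReal_sum, ← Finset.mul_sum]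
    have e3 : ∑ m, GF.eta m * L k m * L l m = bas k (GF.eta k) l := hL.1 k l
    rw [e3]
    unfold bas
    split_ifs with h
    · subst h; rfl
    · simp
  simp only [e2, Finset.sum_ite_eq', Finset.mem_univ, if_true]
  rw [smul_smul, ofReal_mul]

include hs hL in
lemma VFld.good_U {c : Mink} {f : 𝓢(Mink, ℂ)} {v : D} (h : Good J c (simS s hs hL b f) v) :
    Good J (WithLp.toLp 2 (sim s L b c.ofLp)) f (Q.U s L b v) := by
  intro n m
  choose C hC hle using fun (l k : Ix) => h l k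
  refine ⟨∑ k, |s * L k m| * ∑ l, |s * L l n| * C l k,
    Finset.sum_nonneg fun k _ => mul_nonneg (abs_nonneg _)
      (Finset.sum_nonneg fun l _ => mul_nonneg (abs_nonneg _) (hC l k)), fun t ht => ?_⟩
  rw [hJ.J_cov hs hL b c t m n f v]
  refine (norm_sum_le _ _).trans ?_
  rw [Finset.sum_mul]
  refine Finset.sum_le_sum fun k _ => ?_
  rw [norm_smul, norm_real, Real.norm_eq_abs, mul_assoc]
  refine mul_le_mul_of_nonneg_left ?_ (abs_nonneg _)
  refine (norm_sum_le _ _).trans ?_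
  rw [Finset.sum_mul]
  refine Finset.sum_le_sum fun l _ => ?_
  rw [norm_smul, norm_real, Real.norm_eq_abs, mul_assoc, U_nrm hs hL]
  exact mul_le_mul_of_nonneg_left (hle l k t ht) (abs_nonneg _)

/-- covariance of the radial integral -/
lemma VFld.La_cov {c : Mink} {f : 𝓢(Mink, ℂ)} {v : D} (h : Good J c (simS s hs hL b f) v)
    (z : D) : inner ℂ ((Q.U s L b z : D) : UniformSpace.Completion D)
        (La J (WithLp.toLp 2 (sim s L b c.ofLp)) f (Q.U s L b v)) =
      ((s ^ 2 : ℝ) : ℂ) * inner ℂ (z : UniformSpace.Completion D)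
        (La J c (simS s hs hL b f) v) := by
  have e : (fun t : ℝ => ((Real.exp t : ℝ) : ℂ) *
      inner ℂ ((Q.U s L b z : D) : UniformSpace.Completion D)
        ((Ph J (WithLp.toLp 2 (sim s L b c.ofLp)) t f (Q.U s L b v) : D) :
          UniformSpace.Completion D)) = fun t : ℝ => ((s ^ 2 : ℝ) : ℂ) *
      (((Real.exp t : ℝ) : ℂ) * inner ℂ (z : UniformSpace.Completion D)
        ((Ph J c t (simS s hs hL b f) v : D) : UniformSpace.Completion D)) := by
    funext t
    rw [hJ.Ph_cov hs hL b, UniformSpace.Completion.inner_coe, UniformSpace.Completion.inner_coe,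
      inner_smul_right, Q.U_inner _ _ _ _ _ hs hL]
    ring
  rw [hJ.inner_La (hJ.good_U hs hL b h), hJ.inner_La h, e, integral_const_mul]
  ring

end

/-! ### The action on the vacuum -/

section

variable {J : Ix → GF.Fld D} (hJ : VFld Q J)
include hJ

lemma VFld.La_vac_le (c : Mink) (f : 𝓢(Mink, ℂ)) : ‖La J c f Q.vac‖ ≤
    (1 / 3) * (∫ t in Set.Ioi (0 : ℝ), Real.exp (-2 * t)) *
      ∑ m, ‖J m (fl (Xa c m f)) Q.vac‖ := by
  have h1 : ‖∫ t in Set.Ioi (0 : ℝ), Ig J c f Q.vac t‖ ≤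
      ∫ t in Set.Ioi (0 : ℝ), (∑ m, ‖J m (fl (Xa c m f)) Q.vac‖) * Real.exp (-2 * t) := by
    refine norm_integral_le_of_norm_le (integrable_exp2 _) ?_
    filter_upwards [ae_restrict_mem measurableSet_Ioi] with t ht
    rw [Ig, norm_smul, norm_real, Real.norm_of_nonneg (Real.exp_pos t).le,
      UniformSpace.Completion.norm_coe]
    have h2 : ‖Ph J c t f Q.vac‖ ≤ (∑ m, ‖J m (fl (Xa c m f)) Q.vac‖) * Real.exp (-3 * t) := by
      unfold Ph
      refine (norm_sum_le _ _).trans ?_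
      rw [Finset.sum_mul]
      refine Finset.sum_le_sum fun m _ => ?_
      rw [norm_smul]
      have : ‖(GF.eta m : ℂ)‖ = 1 := by
        rw [norm_real, Real.norm_eq_abs]
        unfold GF.eta; split_ifs <;> simp
      rw [this, one_mul, hJ.norm_vac, mul_comm]
    calc _ ≤ Real.exp t * ((∑ m, ‖J m (fl (Xa c m f)) Q.vac‖) * Real.exp (-3 * t)) := by gcongr
      _ = (∑ m, ‖J m (fl (Xa c m f)) Q.vac‖) * (Real.exp t * Real.exp (-3 * t)) := by ring
      _ = _ := by rw [← Real.exp_add]; congr 2; ring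
  rw [integral_const_mul] at h1
  rw [La, norm_smul]
  have e : ‖(-(1 / 3) : ℂ)‖ = 1 / 3 := by norm_num
  rw [e]
  calc _ ≤ (1 / 3) * ((∑ m, ‖J m (fl (Xa c m f)) Q.vac‖) *
        ∫ t in Set.Ioi (0 : ℝ), Real.exp (-2 * t)) := by gcongr
    _ = _ := by ring

/-- the radial integral on the vacuum as a vector valued distribution -/
def VFld.kp (c : Mink) : 𝓢(Mink, ℂ) →L[ℂ] UniformSpace.Completion D where
  toFun f := La J c f Q.vac
  map_add' f g := hJ.La_addf (hJ.good_vac c f) (hJ.good_vac c g)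
  map_smul' k f := hJ.La_smulf c k f Q.vac
  cont := by
    set K : 𝓢(Mink, ℂ) →+ UniformSpace.Completion D :=
      { toFun := fun f => La J c f Q.vac
        map_zero' := by
          have := hJ.La_smulf c 0 0 Q.vac
          rwa [zero_smul, zero_smul] at this
        map_add' := fun f g => hJ.La_addf (hJ.good_vac c f) (hJ.good_vac c g) } with hK
    have hc : Continuous fun f : 𝓢(Mink, ℂ) =>
        (1 / 3) * (∫ t in Set.Ioi (0 : ℝ), Real.exp (-2 * t)) *
          ∑ m, ‖J m (fl (Xa c m f)) Q.vac‖ := by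
      refine continuous_const.mul (continuous_finset_sum _ fun m _ => ?_)
      exact ((fld_cont (hJ.fld m) Q.vac).comp (Xa c m).continuous).norm
    have h0 : Tendsto K (𝓝 0) (𝓝 (K 0)) := by
      rw [map_zero]
      have h1 := hc.tendsto 0
      simp only [map_zero, fld_zero (hJ.fld _), norm_zero, Finset.sum_const_zero, mul_zero] at h1
      exact squeeze_zero_norm (fun f => hJ.La_vac_le c f) h1
    exact continuous_of_continuousAt_zero K h0

lemma VFld.kp_apply (c : Mink) (f : 𝓢(Mink, ℂ)) : hJ.kp c f = La J c f Q.vac := rfl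

lemma VFld.kp_pd (hc : Curl J Q.vac) (c : Mink) (m : Ix) (f : 𝓢(Mink, ℂ)) :
    (3 : ℂ) • hJ.kp c (∂_{eb m} f) =
      -((GF.eta m : ℂ) • ((J m (fl f) Q.vac : D) : UniformSpace.Completion D)) :=
  hJ.La_pd hc (hJ.good_vac c _) (hJ.dec_vac c f)

/-- the vacuum values do not depend on the centre -/
theorem VFld.kp_indep (hc : Curl J Q.vac) (c c' : Mink) (f : 𝓢(Mink, ℂ)) :
    hJ.kp c f = hJ.kp c' f := by
  set δ : 𝓢(Mink, ℂ) →L[ℂ] UniformSpace.Completion D := hJ.kp c - hJ.kp c' with hδ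
  have h1 : ∀ (m : Ix) (g : 𝓢(Mink, ℂ)), δ (∂_{eb m} g) = 0 := by
    intro m g
    have h2 := hJ.kp_pd hc c m g
    rw [← hJ.kp_pd hc c' m g] at h2
    have h3 : (3 : ℂ) • δ (∂_{eb m} g) = 0 := by
      rw [hδ, ContinuousLinearMap.sub_apply, smul_sub, h2, sub_self]
    exact (smul_eq_zero.1 h3).resolve_left (by norm_num)
  have h2 : ∀ t, HasDerivAt (fun t : ℝ => δ (Bt 0 t f)) 0 t := by
    intro t
    refine (hasDerivAt_Bt δ 0 f t).congr_deriv ?_
    unfold Dg
    rw [map_sum, map_sum, neg_eq_zero]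
    refine Finset.sum_eq_zero fun n _ => ?_
    rw [Bt_pd, map_smul, h1, smul_zero]
  have h3 : ∀ t, δ (Bt 0 t f) = δ f := by
    intro t
    have := is_const_of_deriv_eq_zero (fun t => (h2 t).differentiableAt)
      (fun t => (h2 t).deriv) t 0
    rwa [Bt_zero] at this
  have h4 : ∀ c : Mink, Tendsto (fun t : ℝ => hJ.kp c (Bt 0 t f)) atTop (𝓝 0) := by
    intro c
    set K := (1 / 3) * (∫ t in Set.Ioi (0 : ℝ), Real.exp (-2 * t)) with hK
    have hK0 : 0 ≤ K := by
      have : 0 ≤ ∫ t in Set.Ioi (0 : ℝ), Real.exp (-2 * t) :=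
        integral_nonneg fun t => (Real.exp_pos _).le
      positivity
    set A := ∑ m, (‖J m (fl (Xa 0 m f)) Q.vac‖ + |c m| * ‖J m (fl f) Q.vac‖) with hA
    have h0 : Tendsto (fun t : ℝ => K * A * Real.exp (-2 * t)) atTop (𝓝 0) := by
      have h1 : Tendsto (fun t : ℝ => Real.exp (-2 * t)) atTop (𝓝 0) := by
        apply Real.tendsto_exp_atBot.comp
        exact tendsto_id.const_mul_atTop_of_neg (by norm_num)
      simpa using h1.const_mul (K * A)
    refine squeeze_zero_norm' ?_ h0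
    filter_upwards [eventually_ge_atTop (0 : ℝ)] with t ht
    rw [hJ.kp_apply]
    refine (hJ.La_vac_le c _).trans ?_
    rw [mul_assoc K]
    refine mul_le_mul_of_nonneg_left ?_ hK0
    rw [hA, Finset.sum_mul]
    refine Finset.sum_le_sum fun m _ => ?_
    rw [Xa_Bt, fld_subf (hJ.fld m), fld_smulf (hJ.fld m), fld_smulf (hJ.fld m)]
    refine (norm_sub_le _ _).trans ?_
    rw [norm_smul, norm_smul, norm_real, norm_real, Real.norm_of_nonneg (Real.exp_pos t).le,
      Real.norm_eq_abs, hJ.norm_vac, hJ.norm_vac, ← mul_assoc, ← Real.exp_add, add_mul]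
    have e1 : t + -3 * t = -2 * t := by ring
    rw [e1]
    refine add_le_add (le_of_eq (mul_comm _ _)) ?_
    have h5 : Real.exp (-3 * t) ≤ Real.exp (-2 * t) := Real.exp_le_exp.2 (by linarith)
    calc |c m| * (Real.exp (-3 * t) * ‖J m (fl f) Q.vac‖) ≤
        |c m| * (Real.exp (-2 * t) * ‖J m (fl f) Q.vac‖) := by gcongr
      _ = _ := by ring
  have h5 : Tendsto (fun t : ℝ => δ (Bt 0 t f)) atTop (𝓝 0) := by
    have := (h4 c).sub (h4 c')
    rw [sub_zero] at this
    exact this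
  simp only [h3] at h5
  have h6 := tendsto_nhds_unique h5 tendsto_const_nhds
  exact sub_eq_zero.1 h6.symm

/-- covariance of the vacuum values -/
theorem VFld.kp_cov (hc : Curl J Q.vac) : VCov Q (hJ.kp 0) 2 := by
  intro s hs L hL b f v
  have e : (s ^ ((4 : ℝ) - 2) : ℝ) = s ^ 2 := by
    rw [show ((4 : ℝ) - 2) = ((2 : ℕ) : ℝ) by norm_num, Real.rpow_natCast]
  rw [e, hJ.kp_indep hc 0 (WithLp.toLp 2 (sim s L b (0 : Mink).ofLp)), hJ.kp_apply, hJ.kp_apply]
  have h1 := hJ.La_cov hs hL b (hJ.good_vac 0 (simS s hs hL b f)) v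
  rw [Q.U_vac _ _ _ hs hL] at h1
  exact h1

end

end Vale.Agent.P352.H246

end
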