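import Vale.Agent.P352.H246.Rc1
import Vale.Agent.P352.H246.Vec

set_option linter.all false

noncomputable section

open MeasureTheory SchwartzMap Complex Filter Topology
open scoped SchwartzMap ComplexConjugate ENNReal LineDeriv ContDiff

namespace Vale.Agent.P352.H246R

open GF (Ix V)
open H246

/-- smooth functions with compact support -/
def CS {X : Type*} [NormedAddCommGroup X] [NormedSpace ℝ X] (g : X → ℂ) : Prop :=
  ContDiff ℝ ∞ g ∧ HasCompactSupport g

section glue

variable {X Y : Type*} [NormedAddCommGroup X] [NormedSpace ℝ X]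
variable [NormedAddCommGroup Y] [NormedSpace ℝ Y]

lemma glue {U : Set X} (hU : IsOpen U) {f : X → Y} {h : Y → X} (hh : Continuous h)
    (hhU : ∀ y, h y ∈ U) (hf : ∀ z ∈ U, ContDiffAt ℝ ∞ f z) (hhf : ∀ z ∈ U, h (f z) = z)
    {g : Y → ℂ} (hg : CS g) : CS (U.indicator fun z => g (f z)) := by
  have hK : IsCompact (h '' tsupport g) := IsCompact.image hg.2 hh
  have hsub : h '' tsupport g ⊆ U := by rintro _ ⟨y, -, rfl⟩; exact hhU y
  have hz : ∀ z, z ∉ h '' tsupport g → U.indicator (fun z => g (f z)) z = 0 := by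
    intro z hz
    by_cases h1 : z ∈ U
    · rw [Set.indicator_of_mem h1]
      by_contra h2
      exact hz ⟨f z, subset_tsupport _ h2, hhf z h1⟩
    · exact Set.indicator_of_notMem h1 _
  refine ⟨contDiff_iff_contDiffAt.2 fun z => ?_, HasCompactSupport.intro hK fun z h1 => hz z h1⟩
  by_cases h1 : z ∈ U
  · have : U.indicator (fun z => g (f z)) =ᶠ[𝓝 z] g ∘ f := by
      filter_upwards [hU.mem_nhds h1] with w hw
      rw [Set.indicator_of_mem hw]
      rfl
    exact ((hg.1.contDiffAt).comp z (hf z h1)).congr_of_eventuallyEq this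
  · have h2 : z ∉ h '' tsupport g := fun h3 => h1 (hsub h3)
    have : U.indicator (fun z => g (f z)) =ᶠ[𝓝 z] fun _ => 0 := by
      filter_upwards [hK.isClosed.isOpen_compl.mem_nhds h2] with w hw
      exact hz w hw
    exact contDiffAt_const.congr_of_eventuallyEq this

end glue

/-! ### Coordinates on the half space -/

/-- the light cone coordinate -/
def pm (p : Mink) : ℝ := p 0 + p 1

/-- the half space -/
def Hs : Set Mink := {p | 0 < pm p}

lemma continuous_pm : Continuous pm := by unfold pm; fun_prop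

lemma isOpen_Hs : IsOpen Hs := isOpen_lt continuous_const continuous_pm

/-- coordinates -/
def crd (p : Mink) : Mink :=
  WithLp.toLp 2 ![Real.log (pm p), p 2 / pm p, p 3 / pm p, mass2 p]

/-- auxiliary -/
def nn (y : Mink) : ℝ := Real.exp (-y 0) * y 3 + Real.exp (y 0) * (y 1 ^ 2 + y 2 ^ 2)

/-- the inverse of the coordinates -/
def icd (y : Mink) : Mink :=
  WithLp.toLp 2 ![(Real.exp (y 0) + nn y) / 2, (Real.exp (y 0) - nn y) / 2,
    Real.exp (y 0) * y 1, Real.exp (y 0) * y 2]

lemma crd_0 (p : Mink) : crd p 0 = Real.log (pm p) := rfl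
lemma crd_1 (p : Mink) : crd p 1 = p 2 / pm p := rfl
lemma crd_2 (p : Mink) : crd p 2 = p 3 / pm p := rfl
lemma crd_3 (p : Mink) : crd p 3 = mass2 p := rfl
lemma icd_0 (y : Mink) : icd y 0 = (Real.exp (y 0) + nn y) / 2 := rfl
lemma icd_1 (y : Mink) : icd y 1 = (Real.exp (y 0) - nn y) / 2 := rfl
lemma icd_2 (y : Mink) : icd y 2 = Real.exp (y 0) * y 1 := rfl
lemma icd_3 (y : Mink) : icd y 3 = Real.exp (y 0) * y 2 := rfl

lemma pm_icd (y : Mink) : pm (icd y) = Real.exp (y 0) := by
  unfold pm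
  rw [icd_0, icd_1]
  ring

lemma mem_Hs_icd (y : Mink) : icd y ∈ Hs := by
  show 0 < pm (icd y)
  rw [pm_icd]
  exact Real.exp_pos _

lemma mass2_icd (y : Mink) : mass2 (icd y) = y 3 := by
  unfold mass2 mdot
  rw [icd_0, icd_1, icd_2, icd_3, nn, Real.exp_neg]
  have := Real.exp_pos (y 0)
  field_simp
  ring

lemma crd_icd (y : Mink) : crd (icd y) = y := by
  have := Real.exp_pos (y 0)
  apply mink_ext
  · rw [crd_0, pm_icd, Real.log_exp]
  · rw [crd_1, pm_icd, icd_2]; field_simp
  · rw [crd_2, pm_icd, icd_3]; field_simp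
  · rw [crd_3, mass2_icd]

lemma icd_crd {p : Mink} (hp : p ∈ Hs) : icd (crd p) = p := by
  have h : 0 < pm p := hp
  have he : Real.exp (Real.log (pm p)) = pm p := Real.exp_log h
  have hn : nn (crd p) = p 0 - p 1 := by
    unfold nn
    rw [crd_0, crd_1, crd_2, crd_3, Real.exp_neg, he]
    field_simp
    unfold mass2 mdot pm
    ring
  apply mink_ext
  · rw [icd_0, hn, crd_0, he]; unfold pm; ring
  · rw [icd_1, hn, crd_0, he]; unfold pm; ring
  · rw [icd_2, crd_0, he, crd_1]; field_simp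
  · rw [icd_3, crd_0, he, crd_2]; field_simp

lemma contDiff_coord (i : Fin 4) : ContDiff ℝ ∞ fun p : Mink => p i :=
  (EuclideanSpace.proj i : Mink →L[ℝ] ℝ).contDiff

lemma contDiff_pm : ContDiff ℝ ∞ pm := (contDiff_coord 0).add (contDiff_coord 1)

lemma contDiff_mass2 : ContDiff ℝ ∞ mass2 := by
  unfold mass2 mdot
  exact ((((contDiff_coord 0).mul (contDiff_coord 0)).sub
    ((contDiff_coord 1).mul (contDiff_coord 1))).sub
    ((contDiff_coord 2).mul (contDiff_coord 2))).sub ((contDiff_coord 3).mul (contDiff_coord 3))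

lemma contDiffAt_crd {p : Mink} (hp : p ∈ Hs) : ContDiffAt ℝ ∞ crd p := by
  have h : pm p ≠ 0 := (show 0 < pm p from hp).ne'
  rw [contDiffAt_euclidean]
  intro i
  fin_cases i
  · exact (Real.contDiffAt_log.2 h).comp p contDiff_pm.contDiffAt
  · exact (contDiff_coord 2).contDiffAt.div contDiff_pm.contDiffAt h
  · exact (contDiff_coord 3).contDiffAt.div contDiff_pm.contDiffAt h
  · exact contDiff_mass2.contDiffAt

lemma contDiff_exp0 : ContDiff ℝ ∞ fun y : Mink => Real.exp (y 0) :=
  Real.contDiff_exp.comp (contDiff_coord 0)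

lemma contDiff_nn : ContDiff ℝ ∞ nn := by
  unfold nn
  exact ((Real.contDiff_exp.comp (contDiff_coord 0).neg).mul (contDiff_coord 3)).add
    (contDiff_exp0.mul (((contDiff_coord 1).pow 2).add ((contDiff_coord 2).pow 2)))

lemma contDiff_icd : ContDiff ℝ ∞ icd := by
  rw [contDiff_euclidean]
  intro i
  fin_cases i
  · exact (contDiff_exp0.add contDiff_nn).div_const 2
  · exact (contDiff_exp0.sub contDiff_nn).div_const 2
  · exact contDiff_exp0.mul (contDiff_coord 1)
  · exact contDiff_exp0.mul (contDiff_coord 2)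

/-- extension by zero of a function of the coordinates -/
def ext (G : Mink → ℂ) : Mink → ℂ := Hs.indicator fun p => G (crd p)

lemma CS_ext {G : Mink → ℂ} (hG : CS G) : CS (ext G) :=
  glue isOpen_Hs contDiff_icd.continuous mem_Hs_icd (fun _ => contDiffAt_crd)
    (fun _ => icd_crd) hG

open Classical in
/-- the test function on momentum space with given coordinate expression -/
def psi (G : Mink → ℂ) : 𝓢(Mink, ℂ) := if h : CS (ext G) then h.2.toSchwartzMap h.1 else 0

lemma psi_apply {G : Mink → ℂ} (hG : CS G) (p : Mink) : psi G p = ext G p := by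
  unfold psi
  rw [dif_pos (CS_ext hG)]
  rfl

lemma psi_apply_of_mem {G : Mink → ℂ} (hG : CS G) {p : Mink} (hp : p ∈ Hs) :
    psi G p = G (crd p) := by
  rw [psi_apply hG, ext, Set.indicator_of_mem hp]

lemma psi_apply_of_notMem {G : Mink → ℂ} (hG : CS G) {p : Mink} (hp : p ∉ Hs) :
    psi G p = 0 := by
  rw [psi_apply hG, ext, Set.indicator_of_notMem hp]

lemma CS.add {X : Type*} [NormedAddCommGroup X] [NormedSpace ℝ X] {G G' : X → ℂ} (h : CS G)
    (h' : CS G') : CS (G + G') := ⟨h.1.add h'.1, h.2.add h'.2⟩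

lemma CS.smul {X : Type*} [NormedAddCommGroup X] [NormedSpace ℝ X] {G : X → ℂ} (c : ℂ)
    (h : CS G) : CS (c • G) := ⟨contDiff_const.smul h.1, h.2.smul_left (f := fun _ => c)⟩

lemma psi_add {G G' : Mink → ℂ} (h : CS G) (h' : CS G') : psi (G + G') = psi G + psi G' := by
  ext p
  rw [SchwartzMap.add_apply]
  by_cases hp : p ∈ Hs
  · rw [psi_apply_of_mem (h.add h') hp, psi_apply_of_mem h hp, psi_apply_of_mem h' hp]; rfl
  · rw [psi_apply_of_notMem (h.add h') hp, psi_apply_of_notMem h hp, psi_apply_of_notMem h' hp,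
      add_zero]

lemma psi_smul {G : Mink → ℂ} (c : ℂ) (h : CS G) : psi (c • G) = c • psi G := by
  ext p
  rw [SchwartzMap.smul_apply]
  by_cases hp : p ∈ Hs
  · rw [psi_apply_of_mem (h.smul c) hp, psi_apply_of_mem h hp]; rfl
  · rw [psi_apply_of_notMem (h.smul c) hp, psi_apply_of_notMem h hp, smul_zero]

/-- every test function with support in the half space is of this form -/
lemma exists_psi {F : 𝓢(Mink, ℂ)} (hF : HasCompactSupport F) (hs : tsupport F ⊆ Hs) :
    CS (fun y => F (icd y)) ∧ psi (fun y => F (icd y)) = F ∧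
      tsupport (fun y => F (icd y)) ⊆ crd '' tsupport F := by
  have hc : IsCompact (crd '' tsupport F) := by
    refine IsCompact.image_of_continuousOn hF fun p hp => ?_
    exact (contDiffAt_crd (hs hp)).continuousAt.continuousWithinAt
  have hz : ∀ y, y ∉ crd '' tsupport F → F (icd y) = 0 := by
    intro y hy
    by_contra h
    exact hy ⟨icd y, subset_tsupport _ h, crd_icd y⟩
  have hcs : CS (fun y => F (icd y)) := by
    refine ⟨(F.smooth _).comp contDiff_icd, HasCompactSupport.intro hc hz⟩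
  refine ⟨hcs, ?_, ?_⟩
  · ext p
    by_cases hp : p ∈ Hs
    · rw [psi_apply_of_mem hcs hp, icd_crd hp]
    · rw [psi_apply_of_notMem hcs hp]
      by_contra h
      exact hp (hs (subset_tsupport _ (Ne.symm h)))
  · refine closure_minimal (fun y hy => ?_) hc.isClosed
    by_contra h
    exact hy (hz y h)

/-! ### Families -/

/-- extension by zero of a family of functions of the coordinates -/
def ext2 (G : ℝ × Mink → ℂ) : ℝ × Mink → ℂ :=
  (Prod.snd ⁻¹' Hs : Set (ℝ × Mink)).indicator fun z => G (z.1, crd z.2)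

lemma CS_ext2 {G : ℝ × Mink → ℂ} (hG : CS G) : CS (ext2 G) := by
  refine glue (X := ℝ × Mink) (Y := ℝ × Mink) (f := fun z => (z.1, crd z.2))
    (h := fun z => (z.1, icd z.2)) (isOpen_Hs.preimage continuous_snd)
    (continuous_fst.prodMk (contDiff_icd.continuous.comp continuous_snd))
    (fun z => mem_Hs_icd z.2) (fun z hz => ?_) (fun z hz => ?_) hG
  · exact contDiffAt_fst.prodMk ((contDiffAt_crd hz).comp z contDiffAt_snd)
  · have : icd (crd z.2) = z.2 := icd_crd hz
    simp only [this]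

lemma CS_slice {G : ℝ × Mink → ℂ} (hG : CS G) (t : ℝ) : CS (fun y => G (t, y)) := by
  refine ⟨hG.1.comp (contDiff_const.prodMk contDiff_id), ?_⟩
  have hK : IsCompact (Prod.snd '' tsupport G) := IsCompact.image hG.2 continuous_snd
  refine HasCompactSupport.intro hK fun y hy => ?_
  by_contra h
  exact hy ⟨(t, y), subset_tsupport _ h, rfl⟩

lemma deriv_eq_fderiv {X : Type*} [NormedAddCommGroup X] [NormedSpace ℝ X] {G : ℝ × X → ℂ}
    (hG : ContDiff ℝ ∞ G) (x : X) (s : ℝ) :
    HasDerivAt (fun t => G (t, x)) (fderiv ℝ G (s, x) (1, 0)) s := by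
  have h1 : HasFDerivAt G (fderiv ℝ G (s, x)) (s, x) :=
    (hG.differentiable (by simp) (s, x)).hasFDerivAt
  have h2 : HasDerivAt (fun t : ℝ => (t, x)) ((1 : ℝ), (0 : X)) s :=
    (hasDerivAt_id s).prodMk (hasDerivAt_const s x)
  exact h1.comp_hasDerivAt s h2

lemma CS_deriv {G : ℝ × Mink → ℂ} (hG : CS G) : CS (fun y => deriv (fun t => G (t, y)) 0) := by
  have e : (fun y => deriv (fun t => G (t, y)) 0) = fun y => fderiv ℝ G (0, y) (1, 0) := by
    funext y
    exact (deriv_eq_fderiv hG.1 y 0).deriv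
  rw [e]
  have h1 : CS (fun z => fderiv ℝ G z (1, 0)) :=
    ⟨(hG.1.fderiv_right (m := ∞) (by simp)).clm_apply contDiff_const,
      hG.2.fderiv_apply (𝕜 := ℝ) (1, 0)⟩
  exact CS_slice h1 0

theorem psi_deriv (T : 𝓢(Mink, ℂ) →L[ℂ] ℂ) {G : ℝ × Mink → ℂ} (hG : CS G) :
    HasDerivAt (fun t : ℝ => T (psi fun y => G (t, y)))
      (T (psi fun y => deriv (fun t => G (t, y)) 0)) 0 := by
  set Ξ : 𝓢(ℝ × Mink, ℂ) := (CS_ext2 hG).2.toSchwartzMap (CS_ext2 hG).1 with hΞ
  have hΞa : ∀ z, Ξ z = ext2 G z := fun z => rfl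
  have h := slice_deriv T Ξ
  have e1 : ∀ t, slc t Ξ = psi fun y => G (t, y) := by
    intro t
    ext p
    rw [slc_apply, hΞa]
    by_cases hp : p ∈ Hs
    · rw [psi_apply_of_mem (CS_slice hG t) hp, ext2, Set.indicator_of_mem (show (t, p) ∈ _ from hp)]
    · rw [psi_apply_of_notMem (CS_slice hG t) hp, ext2,
        Set.indicator_of_notMem (show (t, p) ∉ _ from hp)]
  have e2 : rs (∂_{((1 : ℝ), (0 : Mink))} Ξ : 𝓢(ℝ × Mink, ℂ)) =
      psi fun y => deriv (fun t => G (t, y)) 0 := by
    ext p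
    rw [rs_apply, coe_lineDerivE]
    have h3 : (fun x => fderiv ℝ (⇑Ξ) x ((1 : ℝ), (0 : Mink))) (0, p) =
        deriv (fun t => ext2 G (t, p)) 0 :=
      (deriv_eq_fderiv (CS_ext2 hG).1 p 0).deriv.symm
    rw [h3]
    by_cases hp : p ∈ Hs
    · rw [psi_apply_of_mem (CS_deriv hG) hp]
      have : (fun t => ext2 G (t, p)) = fun t => G (t, crd p) := by
        funext t
        rw [ext2, Set.indicator_of_mem (show (t, p) ∈ _ from hp)]
      rw [this]
    · rw [psi_apply_of_notMem (CS_deriv hG) hp]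
      have : (fun t => ext2 G (t, p)) = fun t => 0 := by
        funext t
        rw [ext2, Set.indicator_of_notMem (show (t, p) ∉ _ from hp)]
      rw [this, deriv_const]
  simp only [e1, e2] at h
  exact h

end Vale.Agent.P352.H246R

end
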