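import Vale.Agent.P352.H246.Rc2
import Mathlib.Analysis.Calculus.BumpFunction.InnerProduct

set_option linter.all false

noncomputable section

open MeasureTheory SchwartzMap Complex Filter Topology
open scoped SchwartzMap ComplexConjugate ENNReal LineDeriv ContDiff

namespace Vale.Agent.P352.H246R

open GF (Ix V)
open H246

/-- test functions with support in `O` -/
def TF (O : Set Mink) (G : Mink → ℂ) : Prop := CS G ∧ tsupport G ⊆ O

/-- coordinate derivatives -/
def dd (i : Fin 4) (G : Mink → ℂ) : Mink → ℂ := fun y => fderiv ℝ G y (eb i)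

lemma tsupport_dd (i : Fin 4) (G : Mink → ℂ) : tsupport (dd i G) ⊆ tsupport G :=
  tsupport_fderiv_apply_subset ℝ (eb i)

lemma TF.dd {O : Set Mink} {G : Mink → ℂ} (h : TF O G) (i : Fin 4) : TF O (dd i G) :=
  ⟨⟨(h.1.1.fderiv_right (m := ∞) (by simp)).clm_apply contDiff_const,
    h.1.2.fderiv_apply (𝕜 := ℝ) (eb i)⟩, (tsupport_dd i G).trans h.2⟩

lemma TF.mul {O : Set Mink} {G : Mink → ℂ} (h : TF O G) {f : Mink → ℂ} (hf : ContDiff ℝ ∞ f) :
    TF O (fun y => f y * G y) :=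
  ⟨⟨hf.mul h.1.1, h.1.2.mul_left⟩, (tsupport_mul_subset_right (f := f) (g := G)).trans h.2⟩

lemma TF.add {O : Set Mink} {G G' : Mink → ℂ} (h : TF O G) (h' : TF O G') : TF O (G + G') :=
  ⟨h.1.add h'.1, (tsupport_add G G').trans (Set.union_subset h.2 h'.2)⟩

lemma TF.smul {O : Set Mink} {G : Mink → ℂ} (c : ℂ) (h : TF O G) : TF O (c • G) :=
  ⟨h.1.smul c, (tsupport_smul_subset_right (fun _ => c) G).trans h.2⟩

lemma exists_chi : ∃ χ : ℝ → ℂ, CS χ ∧ ∀ᶠ t in 𝓝 (0 : ℝ), χ t = 1 := by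
  let f : ContDiffBump (0 : ℝ) := ⟨1, 2, one_pos, one_lt_two⟩
  refine ⟨fun t => (f t : ℂ), ⟨ofRealCLM.contDiff.comp f.contDiff, ?_⟩, ?_⟩
  · exact f.hasCompactSupport.comp_left (g := fun x : ℝ => (x : ℂ)) ofReal_zero
  · filter_upwards [f.eventuallyEq_one] with t ht
    rw [ht]; simp

theorem flow_id (T : 𝓢(Mink, ℂ) →L[ℂ] ℂ) {P : ℝ × Mink → Mink} (hP : ContDiff ℝ ∞ P)
    (hP0 : ∀ y, P (0, y) = y) (hPi : ∀ t y, P (-t, P (t, y)) = y) {lam : ℂ} {G : Mink → ℂ}
    (hG : CS G) (h : ∀ t : ℝ, T (psi fun y => G (P (t, y))) = exp (lam * t) * T (psi G)) :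
    T (psi fun y => fderiv ℝ G y (deriv (fun t => P (t, y)) 0)) = lam * T (psi G) := by
  obtain ⟨χ, hχ, hχ1⟩ := exists_chi
  set Ĝ : ℝ × Mink → ℂ := fun z => χ z.1 * G (P z) with hĜ
  have hcs : CS Ĝ := by
    refine ⟨(hχ.1.comp contDiff_fst).mul (hG.1.comp hP), ?_⟩
    have hK : IsCompact ((fun z : ℝ × Mink => (z.1, P (-z.1, z.2))) ''
        (tsupport χ ×ˢ tsupport G)) := by
      refine IsCompact.image (IsCompact.prod hχ.2 hG.2) ?_
      exact continuous_fst.prodMk (hP.continuous.comp (continuous_fst.neg.prodMk continuous_snd))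
    refine HasCompactSupport.intro hK fun z hz => ?_
    by_contra hne
    have h1 : χ z.1 ≠ 0 := fun h0 => hne (by simp [hĜ, h0])
    have h2 : G (P z) ≠ 0 := fun h0 => hne (by simp [hĜ, h0])
    refine hz ⟨(z.1, P z), ⟨subset_tsupport _ h1, subset_tsupport _ h2⟩, ?_⟩
    have := hPi z.1 z.2
    ext1
    · rfl
    · exact this
  have h1 := psi_deriv T hcs
  have h2 : (fun t : ℝ => T (psi fun y => Ĝ (t, y))) =ᶠ[𝓝 0]
      fun t : ℝ => exp (lam * t) * T (psi G) := by
    filter_upwards [hχ1] with t ht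
    rw [← h t]
    congr 2
    funext y
    simp only [hĜ, ht, one_mul]
  have h3 : HasDerivAt (fun t : ℝ => exp (lam * t) * T (psi G)) (lam * T (psi G)) 0 := by
    have h4 : HasDerivAt (fun t : ℝ => lam * (t : ℂ)) lam 0 := by
      simpa using (Complex.ofRealCLM.hasDerivAt (x := (0 : ℝ))).const_mul lam
    have h5 := (h4.cexp).mul_const (T (psi G))
    simpa using h5
  have h6 := (h1.congr_of_eventuallyEq h2.symm).unique h3
  rw [← h6]
  congr 2
  funext y
  have h7 : (fun t => Ĝ (t, y)) =ᶠ[𝓝 0] fun t => G (P (t, y)) := by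
    filter_upwards [hχ1] with t ht
    simp only [hĜ, ht, one_mul]
  rw [h7.deriv_eq]
  have h8 : HasDerivAt (fun t => P (t, y)) (deriv (fun t => P (t, y)) 0) 0 := by
    have : DifferentiableAt ℝ (fun t : ℝ => P (t, y)) 0 :=
      ((hP.comp (contDiff_id.prodMk contDiff_const)).differentiable (by simp)) 0
    exact this.hasDerivAt
  have h9 : HasFDerivAt G (fderiv ℝ G (P (0, y))) (P (0, y)) :=
    (hG.1.differentiable (by simp) _).hasFDerivAt
  have h10 := (h9.comp_hasDerivAt (0 : ℝ) h8).deriv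
  rw [hP0] at h10
  exact h10.symm

/-- the boosts in the coordinates -/
def bst (z : ℝ × Mink) : Mink :=
  WithLp.toLp 2 ![z.2 0 + z.1, Real.exp (-z.1) * z.2 1, Real.exp (-z.1) * z.2 2, z.2 3]

/-- the dilations in the coordinates -/
def dlt (z : ℝ × Mink) : Mink :=
  WithLp.toLp 2 ![z.2 0 + z.1, z.2 1, z.2 2, Real.exp (2 * z.1) * z.2 3]

/-- the null rotations in the coordinates -/
def shi (i : Fin 4) (z : ℝ × Mink) : Mink := z.2 + z.1 • eb i

lemma contDiff_snd_coord (i : Fin 4) : ContDiff ℝ ∞ fun z : ℝ × Mink => z.2 i :=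
  (contDiff_coord i).comp contDiff_snd

lemma contDiff_bst : ContDiff ℝ ∞ bst := by
  rw [contDiff_euclidean]
  intro i
  have he : ContDiff ℝ ∞ fun z : ℝ × Mink => Real.exp (-z.1) :=
    Real.contDiff_exp.comp contDiff_fst.neg
  fin_cases i
  · exact (contDiff_snd_coord 0).add contDiff_fst
  · exact he.mul (contDiff_snd_coord 1)
  · exact he.mul (contDiff_snd_coord 2)
  · exact contDiff_snd_coord 3

lemma contDiff_dlt : ContDiff ℝ ∞ dlt := by
  rw [contDiff_euclidean]
  intro i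
  have he : ContDiff ℝ ∞ fun z : ℝ × Mink => Real.exp (2 * z.1) :=
    Real.contDiff_exp.comp (contDiff_const.mul contDiff_fst)
  fin_cases i
  · exact (contDiff_snd_coord 0).add contDiff_fst
  · exact contDiff_snd_coord 1
  · exact contDiff_snd_coord 2
  · exact he.mul (contDiff_snd_coord 3)

lemma contDiff_shi (i : Fin 4) : ContDiff ℝ ∞ (shi i) :=
  contDiff_snd.add (contDiff_fst.smul contDiff_const)

lemma deriv_shi (i : Fin 4) (y : Mink) : deriv (fun t => shi i (t, y)) 0 = eb i := by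
  have : HasDerivAt (fun t : ℝ => shi i (t, y)) (eb i) 0 := by
    simpa [shi] using ((hasDerivAt_id (0 : ℝ)).smul_const (eb i)).const_add y
  exact this.deriv

lemma deriv_bst (y : Mink) : deriv (fun t => bst (t, y)) 0 = eb 0 - y 1 • eb 1 - y 2 • eb 2 := by
  have he : HasDerivAt (fun t : ℝ => Real.exp (-t)) (-1) 0 := by
    simpa using ((hasDerivAt_id (0 : ℝ)).neg).exp
  have e : (fun t : ℝ => bst (t, y)) = fun t : ℝ => (y 0 + t) • (eb 0 : Mink) +
      (Real.exp (-t) * y 1) • (eb 1 : Mink) + (Real.exp (-t) * y 2) • (eb 2 : Mink) +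
      y 3 • (eb 3 : Mink) := by
    funext t
    apply mink_ext <;> simp [bst, eb]
  have : HasDerivAt (fun t : ℝ => bst (t, y)) (eb 0 - y 1 • eb 1 - y 2 • eb 2) 0 := by
    rw [e]
    have h0 := ((hasDerivAt_id (0 : ℝ)).const_add (y 0)).smul_const (eb 0 : Mink)
    have h1 := (he.mul_const (y 1)).smul_const (eb 1 : Mink)
    have h2 := (he.mul_const (y 2)).smul_const (eb 2 : Mink)
    have h := ((h0.add h1).add h2).add_const (y 3 • (eb 3 : Mink))
    refine HasDerivAt.congr_deriv h ?_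
    apply mink_ext <;> simp [eb]
  exact this.deriv

lemma deriv_dlt (y : Mink) : deriv (fun t => dlt (t, y)) 0 = eb 0 + (2 * y 3) • eb 3 := by
  have he : HasDerivAt (fun t : ℝ => Real.exp (2 * t)) 2 0 := by
    simpa using ((hasDerivAt_id (0 : ℝ)).const_mul 2).exp
  have e : (fun t : ℝ => dlt (t, y)) = fun t : ℝ => (y 0 + t) • (eb 0 : Mink) +
      (Real.exp (2 * t) * y 3) • (eb 3 : Mink) + (y 1 • (eb 1 : Mink) + y 2 • (eb 2 : Mink)) := by
    funext t
    apply mink_ext <;> simp [dlt, eb]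
  have : HasDerivAt (fun t : ℝ => dlt (t, y)) (eb 0 + (2 * y 3) • eb 3) 0 := by
    rw [e]
    have h0 := ((hasDerivAt_id (0 : ℝ)).const_add (y 0)).smul_const (eb 0 : Mink)
    have h3 := (he.mul_const (y 3)).smul_const (eb 3 : Mink)
    have h := (h0.add h3).add_const (y 1 • (eb 1 : Mink) + y 2 • (eb 2 : Mink))
    refine HasDerivAt.congr_deriv h ?_
    apply mink_ext <;> simp [eb]
  exact this.deriv

/-- covariance of a functional of the test functions with support in `O`, in coordinates -/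
structure Cvr (T : 𝓢(Mink, ℂ) →L[ℂ] ℂ) (O : Set Mink) (β δ : ℂ) : Prop where
  n1 : ∀ (b : ℝ) G, TF O G → T (psi fun y => G (shi 1 (b, y))) = T (psi G)
  n2 : ∀ (b : ℝ) G, TF O G → T (psi fun y => G (shi 2 (b, y))) = T (psi G)
  bo : ∀ (t : ℝ) G, TF O G → T (psi fun y => G (bst (t, y))) = exp (β * t) * T (psi G)
  di : ∀ (t : ℝ) G, TF O G → T (psi fun y => G (dlt (t, y))) = exp (δ * t) * T (psi G)

section

variable {T : 𝓢(Mink, ℂ) →L[ℂ] ℂ} {O : Set Mink} {β δ : ℂ} (C : Cvr T O β δ)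
include C

lemma Cvr.d1 {G : Mink → ℂ} (hG : TF O G) : T (psi (dd 1 G)) = 0 := by
  have h := flow_id T (contDiff_shi 1) (fun y => by simp [shi])
    (fun t y => by simp [shi]) (lam := 0) hG.1 (fun t => by rw [C.n1 t G hG]; simp)
  rw [zero_mul] at h
  rw [← h]
  congr 2
  funext y
  rw [deriv_shi]
  rfl

lemma Cvr.d2 {G : Mink → ℂ} (hG : TF O G) : T (psi (dd 2 G)) = 0 := by
  have h := flow_id T (contDiff_shi 2) (fun y => by simp [shi])
    (fun t y => by simp [shi]) (lam := 0) hG.1 (fun t => by rw [C.n2 t G hG]; simp)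
  rw [zero_mul] at h
  rw [← h]
  congr 2
  funext y
  rw [deriv_shi]
  rfl

omit C in
lemma contDiff_cc (i : Fin 4) : ContDiff ℝ ∞ fun y : Mink => ((y i : ℝ) : ℂ) :=
  ofRealCLM.contDiff.comp (contDiff_coord i)

omit C in
lemma dd_mul_coord {G : Mink → ℂ} (hG : CS G) (i : Fin 4) (y : Mink) :
    dd i (fun y => (y i : ℂ) * G y) y = (y i : ℂ) * dd i G y + G y := by
  have h1 : HasFDerivAt (fun y : Mink => ((y i : ℝ) : ℂ))
      (ofRealCLM.comp (EuclideanSpace.proj i : Mink →L[ℝ] ℝ)) y :=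
    (ofRealCLM.comp (EuclideanSpace.proj i : Mink →L[ℝ] ℝ)).hasFDerivAt
  have h2 : HasFDerivAt G (fderiv ℝ G y) y := (hG.1.differentiable (by simp) y).hasFDerivAt
  have h3 : HasFDerivAt (fun y : Mink => ((y i : ℝ) : ℂ) * G y) _ y := h1.mul h2
  unfold dd
  rw [h3.fderiv]
  simp [eb]

omit C in
lemma T_add {G G' : Mink → ℂ} (h : TF O G) (h' : TF O G') :
    T (psi (G + G')) = T (psi G) + T (psi G') := by
  rw [psi_add h.1 h'.1, map_add]

omit C in
lemma T_smul {G : Mink → ℂ} (c : ℂ) (h : TF O G) : T (psi (c • G)) = c * T (psi G) := by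
  rw [psi_smul c h.1, map_smul, smul_eq_mul]

lemma Cvr.q {G : Mink → ℂ} (hG : TF O G) (i : Fin 4)
    (hi : ∀ {G : Mink → ℂ}, TF O G → T (psi (dd i G)) = 0) :
    T (psi fun y => (y i : ℂ) * dd i G y) = -T (psi G) := by
  have h1 := hi (hG.mul (contDiff_cc i))
  have e : dd i (fun y => (y i : ℂ) * G y) = (fun y => (y i : ℂ) * dd i G y) + G := by
    funext y
    exact dd_mul_coord hG.1 i y
  rw [e, T_add ((hG.dd i).mul (contDiff_cc i)) hG] at h1
  exact eq_neg_of_add_eq_zero_left h1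

theorem Cvr.d0 {G : Mink → ℂ} (hG : TF O G) : T (psi (dd 0 G)) = (β - 2) * T (psi G) := by
  have h := flow_id T contDiff_bst (fun y => by
      apply mink_ext <;> simp [bst])
    (fun t y => by
      apply mink_ext <;> simp [bst, ← mul_assoc, ← Real.exp_add]) (lam := β) hG.1
      (fun t => C.bo t G hG)
  have t0 := hG.dd 0
  have t1 := (hG.dd 1).mul (contDiff_cc 1)
  have t2 := (hG.dd 2).mul (contDiff_cc 2)
  have e : (fun y => fderiv ℝ G y (deriv (fun t => bst (t, y)) 0)) =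
      dd 0 G + ((-1 : ℂ) • (fun y => (y 1 : ℂ) * dd 1 G y) +
        (-1 : ℂ) • (fun y => (y 2 : ℂ) * dd 2 G y)) := by
    funext y
    rw [deriv_bst]
    simp only [map_sub, map_smul, Pi.add_apply, Pi.smul_apply, smul_eq_mul, real_smul, dd]
    ring
  rw [e, T_add t0 ((t1.smul _).add (t2.smul _)), T_add (t1.smul _) (t2.smul _), T_smul _ t1,
    T_smul _ t2, C.q hG 1 C.d1, C.q hG 2 C.d2] at h
  linear_combination h

theorem Cvr.d3 {G : Mink → ℂ} (hG : TF O G) :
    T (psi fun y => (y 3 : ℂ) * dd 3 G y) = ((δ - β + 2) / 2) * T (psi G) := by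
  have h := flow_id T contDiff_dlt (fun y => by
      apply mink_ext <;> simp [dlt])
    (fun t y => by
      apply mink_ext <;> simp [dlt, ← mul_assoc, ← Real.exp_add]) (lam := δ) hG.1
      (fun t => C.di t G hG)
  have t0 := hG.dd 0
  have t3 := (hG.dd 3).mul (contDiff_cc 3)
  have e : (fun y => fderiv ℝ G y (deriv (fun t => dlt (t, y)) 0)) =
      dd 0 G + (2 : ℂ) • (fun y => (y 3 : ℂ) * dd 3 G y) := by
    funext y
    rw [deriv_dlt]
    simp only [map_add, map_smul, Pi.add_apply, Pi.smul_apply, smul_eq_mul, real_smul, dd]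
    push_cast
    ring
  rw [e, T_add t0 (t3.smul _), T_smul _ t3, C.d0 hG] at h
  linear_combination (1 / 2) * h

end

end Vale.Agent.P352.H246R

end
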