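import Vale.Agent.P352.H246.Rc3
import Vale.Agent.P352.H246.Vir
import Vale.Agent.P352.H496.Crit2

set_option linter.all false

noncomputable section

open MeasureTheory SchwartzMap Complex Filter Topology
open scoped SchwartzMap ComplexConjugate ENNReal LineDeriv ContDiff FourierTransform

namespace Vale.Agent.P352.H246R

open GF (Ix V Fn Sch ev pd bar sim bas o)
open H246
open H496
open UniformSpace (Completion)

/-- the inverse of the Fourier transform -/
def imf : 𝓢(Mink, ℂ) →L[ℂ] 𝓢(Mink, ℂ) :=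
  (FourierTransform.fourierInvCLM ℂ 𝓢(Mink, ℂ)).comp
    (SchwartzMap.compCLMOfContinuousLinearEquiv ℂ mftEquiv.symm)

lemma mftS_imf (F : 𝓢(Mink, ℂ)) : mftS (imf F) = F := by
  unfold mftS imf
  simp only [ContinuousLinearMap.comp_apply, FourierTransform.fourierCLM_apply,
    FourierTransform.fourierInvCLM_apply, FourierTransform.fourier_fourierInv_eq]
  ext p
  simp

lemma imf_mftS (F : 𝓢(Mink, ℂ)) : imf (mftS F) = F := by
  unfold mftS imf
  simp only [ContinuousLinearMap.comp_apply, FourierTransform.fourierCLM_apply,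
    FourierTransform.fourierInvCLM_apply]
  have : SchwartzMap.compCLMOfContinuousLinearEquiv ℂ mftEquiv.symm
      (SchwartzMap.compCLMOfContinuousLinearEquiv ℂ mftEquiv (𝓕 F)) = 𝓕 F := by
    ext p
    simp
  rw [this, FourierTransform.fourierInv_fourier_eq]

/-- the action of the similitudes on functions on momentum space -/
def act (s : ℝ) (hs : 0 < s) {L : Ix → V} (hL : GF.IsLor L) (F : 𝓢(Mink, ℂ)) : 𝓢(Mink, ℂ) :=
  mftS (simS s hs hL 0 (imf F))

lemma act_apply (s : ℝ) (hs : 0 < s) {L : Ix → V} (hL : GF.IsLor L) (F : 𝓢(Mink, ℂ))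
    (p : Mink) : act s hs hL F p = ((s ^ 4)⁻¹ : ℝ) * F (s⁻¹ • lam L p) := by
  unfold act
  rw [mftS_apply, mft_simS, ← mftS_apply, mftS_imf]
  have : (-WithLp.toLp 2 (0 : V) : Mink) = 0 := by ext n; simp
  rw [this, chr_zero', one_mul]

lemma imf_act (s : ℝ) (hs : 0 < s) {L : Ix → V} (hL : GF.IsLor L) (F : 𝓢(Mink, ℂ)) :
    imf (act s hs hL F) = simS s hs hL 0 (imf F) := imf_mftS _

variable {D : Type*} [NormedAddCommGroup D] [InnerProductSpace ℂ D]
variable {Q : GF.Theory D}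
variable {H : D → D} {alg : Set V → Set (D → D)} {S : V → ℝ → D → D}

/-- fields do not see test functions with Fourier transform vanishing on the cone -/
lemma vac_zero {A : GF.Fld D} (hA : Q.fld A) {g : 𝓢(Mink, ℂ)} (h : ∀ p ∈ fwdCone, mft g p = 0) :
    A (fl g) Q.vac = 0 := by
  obtain ⟨ν, hν⟩ := exists_data (Q := Q) (opC hA Q.vac) (fun g a z => by
    rw [opC_apply, opC_apply, Completion.inner_coe, Completion.inner_coe]
    have h1 := U_fld hA g a Q.vac
    have h2 : A (fl (tauS a g)) Q.vac = U1 Q a (A (fl g) Q.vac) := by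
      have h3 : U1 Q a (A (fl g) Q.vac) = A (fl (tauS a g)) (U1 Q a Q.vac) := h1
      rw [h3, U1_vac]
    rw [h2, U1_inner])
  obtain ⟨μ, h1, h2⟩ := hν.exists_KL
  have h3 := norm_sq_spec hν g
  have h4 : ν g Set.univ = 0 := by
    rw [h2 g, withDensity_apply _ MeasurableSet.univ, setLIntegral_univ]
    have hae : ∀ᵐ p ∂μ, p ∈ fwdCone := by
      rw [ae_iff]; exact h1
    rw [lintegral_congr_ae (g := fun _ => 0) (by
      filter_upwards [hae] with p hp
      unfold dens
      rw [h p hp]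
      simp)]
    simp
  rw [h4, ENNReal.ofReal_eq_zero] at h3
  have h5 : ‖opC hA Q.vac g‖ = 0 := by
    have := sq_nonneg ‖opC hA Q.vac g‖
    exact pow_eq_zero_iff two_ne_zero |>.1 (le_antisymm h3 this)
  rw [opC_apply, Completion.norm_coe] at h5
  exact norm_eq_zero.1 h5

/-- vector valued distributions composed with an operator -/
lemma exists_fun (N : CNet Q H alg S) (φ : Completion D) {A : GF.Fld D} (hA : Q.fld A)
    {X : D → D} (hX : X ∈ alg Set.univ) : ∃ T : 𝓢(Mink, ℂ) →L[ℂ] ℂ, ∀ F,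
      T F = inner ℂ φ ((X (A (fl F) Q.vac) : D) : Completion D) := by
  obtain ⟨Y, hY, hadj⟩ := N.adj _ X hX
  have hadd : ∀ v w, X (v + w) = X v + X w := fun v w => Adj.add hadj v w
  have hsm : ∀ (c : ℂ) v, X (c • v) = c • X v := fun c v => Adj.smul hadj c v
  set Ψ : 𝓢(Mink, ℂ) →ₗ[ℂ] Completion D :=
    { toFun := fun F => ((X (A (fl F) Q.vac) : D) : Completion D)
      map_add' := fun F G => by
        have h1 := fld_lin hA F G 1 Q.vac
        rw [one_smul, one_smul] at h1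
        rw [h1, hadd, Completion.coe_add]
      map_smul' := fun c F => by
        have h1 := fld_lin hA 0 F c Q.vac
        have h0 : A (fl (0 : 𝓢(Mink, ℂ))) Q.vac = 0 := by
          have h2 := fld_lin hA 0 (0 : 𝓢(Mink, ℂ)) 1 Q.vac
          simpa using h2
        rw [h0, zero_add, zero_add] at h1
        rw [h1, hsm, Completion.coe_smul, RingHom.id_apply] } with hΨ
  have := barrelled_schwartz
  have hcont : Continuous Ψ := by
    refine cont_of_weak Ψ (Z := Set.range ((↑) : D → Completion D)) Completion.denseRange_coe ?_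
    rintro _ ⟨z, rfl⟩
    have e : (fun F : 𝓢(Mink, ℂ) => inner ℂ (z : Completion D) (Ψ F)) =
        fun F : 𝓢(Mink, ℂ) => inner ℂ (Y z) (A (fl F) Q.vac) := by
      funext F
      show inner ℂ (z : Completion D) ((X (A (fl F) Q.vac) : D) : Completion D) = _
      rw [Completion.inner_coe, ← inner_conj_symm, hadj, inner_conj_symm]
    rw [e]
    exact continuous_const.inner (fld_cont hA Q.vac)
  exact ⟨(innerSL ℂ φ).comp ⟨Ψ, hcont⟩, fun F => rfl⟩

/-! ### Covariance of the generators -/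

section

variable (N : CNet Q H alg S) {G : V → D → D}
variable (hG : ∀ a v, IsNull a → HasDerivAt (fun s : ℝ => S a s v) (I • G a v) 0)

/-- the similitudes as continuous linear maps -/
def UL {s : ℝ} {L : Ix → V} (hs : 0 < s) (hL : GF.IsLor L) (a : V) : D →L[ℂ] D :=
  LinearMap.mkContinuous (LinearMap.mk ⟨Q.U s L a, U_add hs hL a⟩ (U_smul hs hL a) : D →ₗ[ℂ] D)
    1 (fun v => by
      rw [one_mul]
      exact (U_nrm0 hs hL a v).le)

lemma isNull_sim {a : V} (ha : IsNull a) {L : Ix → V} (hL : GF.IsLor L) {r : ℝ} {b : V}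
    (hb : IsNull b) (hab : sim 1 L 0 a = r • b) (hr : 0 < r) : IsNull (sim 1 L 0 a) := by
  rw [hab]
  refine ⟨?_, ?_⟩
  · have h1 : GF.mdot (r • b) (r • b) = r ^ 2 * GF.mdot b b := by
      simp only [gf_mdot, Pi.smul_apply, smul_eq_mul]; ring
    rw [h1, hb.1, mul_zero]
  · show 0 < r * b o
    exact mul_pos hr hb.2

include N hG in
/-- covariance of the generators -/
lemma G_cov {σ r : ℝ} (hσ : 0 < σ) (hr : 0 < r) {L : Ix → V} (hL : GF.IsLor L) {a b : V}
    (ha : IsNull a) (hb : IsNull b) (hab : sim 1 L 0 a = r • b) (v : D) :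
    Q.U σ L 0 (G a v) = ((r / σ : ℝ) : ℂ) • G b (Q.U σ L 0 v) := by
  set W : D →L[ℝ] D := (UL (Q := Q) hσ hL (0 : V)).restrictScalars ℝ with hW
  have h1 : HasDerivAt (fun s : ℝ => Q.U σ L 0 (S a s v)) (Q.U σ L 0 (I • G a v)) 0 :=
    W.hasFDerivAt.comp_hasDerivAt (0 : ℝ) (hG a v ha)
  have e1 : (fun s : ℝ => Q.U σ L 0 (S a s v)) =
      fun s : ℝ => S b (r / σ * s) (Q.U σ L 0 v) := by
    funext s
    rw [N.S_cov σ L a s v hσ hL ha, hab, N.S_scale b r _ _ hb hr]
    congr 1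
    ring
  rw [e1] at h1
  have h2 : HasDerivAt (fun s : ℝ => S b (r / σ * s) (Q.U σ L 0 v))
      ((r / σ : ℝ) • (I • G b (Q.U σ L 0 v))) 0 := by
    have h3 : HasDerivAt (fun s : ℝ => r / σ * s) (r / σ) 0 := by
      simpa using (hasDerivAt_id (0 : ℝ)).const_mul (r / σ)
    have h4 : HasDerivAt (fun s : ℝ => S b s (Q.U σ L 0 v)) (I • G b (Q.U σ L 0 v)) (r / σ * 0) := by
      rw [mul_zero]
      exact hG b _ hb
    exact h4.scomp (0 : ℝ) h3
  have h5 := h1.unique h2
  rw [U_smul hσ hL, smul_comm] at h5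
  have h6 := congrArg (fun w => (-I) • w) h5
  simp only [smul_smul] at h6
  have h7 : -I * I = 1 := by rw [neg_mul, I_mul_I, neg_neg]
  rw [h7, one_smul, one_smul] at h6
  rw [h6, coe_smul]

include N in
lemma pt_add' {B : D → D} (hB : B ∈ alg Set.univ) (φ : Completion D) (v w : D) :
    pt φ B (v + w) = pt φ B v + pt φ B w := by
  obtain ⟨Y, -, hadj⟩ := N.adj _ B hB
  unfold pt
  rw [Adj.add hadj, Completion.coe_add, inner_add_right]

include N in
lemma pt_smul' {B : D → D} (hB : B ∈ alg Set.univ) (φ : Completion D) (c : ℂ) (v : D) :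
    pt φ B (c • v) = c * pt φ B v := by
  obtain ⟨Y, -, hadj⟩ := N.adj _ B hB
  unfold pt
  rw [Adj.smul hadj, Completion.coe_smul, inner_smul_right]

variable (hmem : ∀ a, IsNull a → G a ∈ alg Set.univ)
variable {φ : Completion D} {B : D → D} (hB : B ∈ alg Set.univ)

include N hmem in
lemma G_add {a : V} (ha : IsNull a) (v w : D) : G a (v + w) = G a v + G a w := by
  obtain ⟨Y, -, hadj⟩ := N.adj _ _ (hmem a ha)
  exact Adj.add hadj v w

include N hmem in
lemma G_smul {a : V} (ha : IsNull a) (c : ℂ) (v : D) : G a (c • v) = c • G a v := by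
  obtain ⟨Y, -, hadj⟩ := N.adj _ _ (hmem a ha)
  exact Adj.smul hadj c v

include N hmem hB in
lemma pt_G_sum {a : V} (ha : IsNull a) {ι : Type*} (t : Finset ι) (c : ι → ℂ) (w : ι → D) :
    pt φ B (G a (∑ i ∈ t, c i • w i)) = ∑ i ∈ t, c i * pt φ B (G a (w i)) := by
  set ℓ : D →ₗ[ℂ] ℂ :=
    { toFun := fun v => pt φ B (G a v)
      map_add' := fun v w => by rw [G_add N hmem ha, pt_add' N hB]
      map_smul' := fun c v => by
        rw [G_smul N hmem ha, pt_smul' N hB, RingHom.id_apply, smul_eq_mul] } with hℓ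
  have h := map_sum ℓ (fun i => c i • w i) t
  simp only [map_smul, smul_eq_mul] at h
  exact h

variable (hq : ∀ σ L v, 0 < σ → GF.IsLor L → pt φ B (Q.U σ L 0 v) = ((σ ^ 2)⁻¹ : ℝ) * pt φ B v)

include N hG hB hq in
/-- covariance of the values -/
lemma ze_U {σ r : ℝ} (hσ : 0 < σ) (hr : 0 < r) {L : Ix → V} (hL : GF.IsLor L) {a b : V}
    (ha : IsNull a) (hb : IsNull b) (hab : sim 1 L 0 a = r • b) (v : D) :
    pt φ B (G b (Q.U σ L 0 v)) = ((r * σ)⁻¹ : ℝ) * pt φ B (G a v) := by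
  have h1 := G_cov N hG hσ hr hL ha hb hab v
  have h2 := hq σ L (G a v) hσ hL
  rw [h1, pt_smul' N hB] at h2
  have hσ' : (σ : ℂ) ≠ 0 := by exact_mod_cast hσ.ne'
  have hr' : (r : ℂ) ≠ 0 := by exact_mod_cast hr.ne'
  push_cast at h2 ⊢
  field_simp at h2 ⊢
  linear_combination h2

include N hG hB hq hmem in
/-- covariance of the values on the virial current -/
lemma ze_J {J : Ix → GF.Fld D} (hJ : VFld Q J) {σ r : ℝ} (hσ : 0 < σ) (hr : 0 < r)
    {L : Ix → V} (hL : GF.IsLor L) {a b : V} (ha : IsNull a) (hb : IsNull b)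
    (hab : sim 1 L 0 a = r • b) (m : Ix) (f : 𝓢(Mink, ℂ)) :
    pt φ B (G b (J m (fl f) Q.vac)) =
      ∑ k, ((L k m / r : ℝ) : ℂ) * pt φ B (G a (J k (fl (simS σ hσ hL 0 f)) Q.vac)) := by
  have h1 := hJ.cov m σ hσ L hL 0 f Q.vac
  rw [Q.U_vac σ L 0 hσ hL] at h1
  rw [h1, pt_G_sum N hmem hB hb]
  refine Finset.sum_congr rfl fun k _ => ?_
  rw [ze_U N hG hB hq hσ hr hL ha hb hab]
  have hσ' : (σ : ℂ) ≠ 0 := by exact_mod_cast hσ.ne'
  have hr' : (r : ℂ) ≠ 0 := by exact_mod_cast hr.ne'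
  push_cast
  field_simp

/-- abstract properties of the values of the deformed potential on the virial current -/
structure Tens (T : Ix → 𝓢(Mink, ℂ) →L[ℂ] ℂ) : Prop where
  cov : ∀ s (hs : 0 < s) L (hL : GF.IsLor L) r, 0 < r → sim 1 L 0 (nu (-1)) = r • nu (-1) →
    ∀ m F, T m F = ∑ k, ((L k m / r : ℝ) : ℂ) * T k (act s hs hL F)
  cone : ∀ m F, (∀ p ∈ fwdCone, F p = 0) → T m F = 0

include N hG hB hq hmem in
theorem exists_tens {J : Ix → GF.Fld D} (hJ : VFld Q J) : ∃ T : Ix → 𝓢(Mink, ℂ) →L[ℂ] ℂ,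
    Tens T ∧ ∀ m f, T m (mftS f) = pt φ B (G (nu (-1)) (J m (fl f) Q.vac)) := by
  have ha : IsNull (nu (-1)) := isNull_nu (Or.inr rfl)
  have hX : (fun v => B (G (nu (-1)) v)) ∈ alg Set.univ := N.mul _ _ hB _ (hmem _ ha)
  have hfld : ∀ m, Q.fld (J m) := fun m => Q.bose_fld _ (hJ.bose m)
  choose T0 hT0 using fun m => exists_fun N φ (hfld m) hX
  refine ⟨fun m => (T0 m).comp imf, ⟨?_, ?_⟩, ?_⟩
  · intro s hs L hL r hr hab m F
    simp only [ContinuousLinearMap.comp_apply, hT0, imf_act]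
    exact ze_J N hG hmem hB hq hJ hs hr hL ha ha hab m (imf F)
  · intro m F hF
    rw [ContinuousLinearMap.comp_apply, hT0]
    have h1 : J m (fl (imf F)) Q.vac = 0 := by
      refine vac_zero (hfld m) fun p hp => ?_
      rw [← mftS_apply, mftS_imf]
      exact hF p hp
    rw [h1]
    have h2 : G (nu (-1)) 0 = 0 := by
      have := G_smul N hmem ha 0 (0 : D)
      simpa using this
    have h3 := pt_smul' N hB φ 0 (0 : D)
    rw [zero_smul, zero_mul] at h3
    show pt φ B (G (nu (-1)) 0) = 0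
    rw [h2, h3]
  · intro m f
    rw [ContinuousLinearMap.comp_apply, imf_mftS, hT0]
    rfl

end

end Vale.Agent.P352.H246R

end
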