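import Vale.Agent.P352.H246.Rc4
import Vale.Agent.P352.H283.Const
import Vale.Agent.P352.H846.VanishPos

set_option linter.all false

noncomputable section

open MeasureTheory SchwartzMap Complex Filter Topology
open scoped SchwartzMap ComplexConjugate ENNReal LineDeriv ContDiff FourierTransform

namespace Vale.Agent.P352.H246R

open GF (Ix V Fn Sch ev pd bar sim bas o)
open H246
open H496
open UniformSpace (Completion)

lemma tf_iff {O : Set Mink} {G : Mink → ℂ} : H467.Tf O G ↔ TF O G := by
  unfold H467.Tf TF CS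
  exact and_assoc.symm

/-- the open forward cone in the coordinates -/
def Pos : Set Mink := {y | 0 < y 3}

/-- the region `p² < 0` in the coordinates -/
def Neg : Set Mink := {y | y 3 < 0}

/-- no homogeneous extension across the cone -/
theorem b0 {T : 𝓢(Mink, ℂ) →L[ℂ] ℂ} {β : ℂ} (C : Cvr T Set.univ β (β - 2))
    (hneg : ∀ G, TF Neg G → T (psi G) = 0) {G : Mink → ℂ} (hG : TF Pos G) : T (psi G) = 0 := by
  refine H846.vanish_pos (fun G => T (psi G)) ?_ ?_ ?_ ?_ G (tf_iff.2 hG)
  · intro G G' h h'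
    exact T_add (tf_iff.1 h) (tf_iff.1 h')
  · intro c G h
    exact T_smul c (tf_iff.1 h)
  · intro G h
    have h1 := C.d3 (tf_iff.1 h)
    have e : (β - 2 - β + 2) / 2 = (0 : ℂ) := by ring
    rw [e, zero_mul] at h1
    exact h1
  · intro G h
    exact hneg G (tf_iff.1 h)

/-! ### Transformations -/

lemma TF_flow {P : ℝ × Mink → Mink} (hP : ContDiff ℝ ∞ P) (hPi : ∀ t y, P (-t, P (t, y)) = y)
    {O : Set Mink} {G : Mink → ℂ} (hG : TF O G) (t : ℝ) (hO : ∀ y, P (t, y) ∈ O → y ∈ O) :
    TF O (fun y => G (P (t, y))) := by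
  have hPt : ContDiff ℝ ∞ fun y => P (t, y) := hP.comp (contDiff_const.prodMk contDiff_id)
  refine ⟨⟨hG.1.1.comp hPt, ?_⟩, ?_⟩
  · have hK : IsCompact ((fun y => P (-t, y)) '' tsupport G) :=
      IsCompact.image hG.1.2 (hP.continuous.comp (continuous_const.prodMk continuous_id))
    refine HasCompactSupport.intro hK fun y hy => ?_
    by_contra h
    exact hy ⟨P (t, y), subset_tsupport _ h, hPi t y⟩
  · intro y hy
    exact hO y (hG.2 (tsupport_comp_subset_preimage G hPt.continuous hy))

lemma shi_inv (i : Fin 4) (t : ℝ) (y : Mink) : shi i (-t, shi i (t, y)) = y := by simp [shi]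

lemma bst_inv (t : ℝ) (y : Mink) : bst (-t, bst (t, y)) = y := by
  apply mink_ext <;> simp [bst, ← mul_assoc, ← Real.exp_add]

lemma dlt_inv (t : ℝ) (y : Mink) : dlt (-t, dlt (t, y)) = y := by
  apply mink_ext <;> simp [dlt, ← mul_assoc, ← Real.exp_add]

/-- regions invariant under the transformations -/
def Adm (O : Set Mink) : Prop := ∀ (y y' : Mink) (r : ℝ), 0 < r → y' 3 = r * y 3 → y' ∈ O → y ∈ O

lemma adm_univ : Adm Set.univ := fun _ _ _ _ _ _ => trivial

lemma adm_Pos : Adm Pos := by
  intro y y' r hr h h'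
  have h1 : 0 < y' 3 := h'
  rw [h] at h1
  exact (mul_pos_iff_of_pos_left hr).1 h1

section
variable {O : Set Mink} (hO : Adm O) {G : Mink → ℂ} (hG : TF O G)
include hO hG

lemma TF_shi {i : Fin 4} (hi : i = 1 ∨ i = 2) (t : ℝ) : TF O (fun y => G (shi i (t, y))) := by
  refine TF_flow (contDiff_shi i) (shi_inv i) hG t fun y hy => hO _ _ 1 one_pos ?_ hy
  rcases hi with rfl | rfl <;> simp [shi, eb]

lemma TF_bst (t : ℝ) : TF O (fun y => G (bst (t, y))) :=
  TF_flow contDiff_bst bst_inv hG t fun y hy => hO _ _ 1 one_pos (by simp [bst]) hy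

lemma TF_dlt (t : ℝ) : TF O (fun y => G (dlt (t, y))) :=
  TF_flow contDiff_dlt dlt_inv hG t fun y hy => hO _ _ _ (Real.exp_pos (2 * t)) (by simp [dlt]) hy

end

lemma pm_lam_null (b : ℝ) (p : Mink) : pm (lam (mNull b) p) = pm p := by
  unfold pm
  simp only [lam_apply, Fin.sum_univ_four]
  simp [mNull]
  ring

lemma pm_lam_null' (b : ℝ) (p : Mink) : pm (lam (mNull' b) p) = pm p := by
  unfold pm
  simp only [lam_apply, Fin.sum_univ_four]
  simp [mNull']
  ring

lemma pm_lam_boost (t : ℝ) (p : Mink) : pm (lam (mBoost t) p) = Real.exp t * pm p := by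
  have h := Real.cosh_add_sinh t
  unfold pm
  simp only [lam_apply, Fin.sum_univ_four]
  simp [mBoost]
  rw [← h]
  ring

lemma pm_lam_rot (p : Mink) : pm (lam mRot23 p) = pm p := by
  unfold pm
  simp only [lam_apply, Fin.sum_univ_four]
  simp [mRot23]

lemma mass2_lam {L : Ix → V} (hL : GF.IsLor L) (p : Mink) : mass2 (lam L p) = mass2 p :=
  mdot_lam hL p p

lemma act_one {L : Ix → V} (hL : GF.IsLor L) (F : 𝓢(Mink, ℂ)) (p : Mink) :
    act 1 one_pos hL F p = F (lam L p) := by
  rw [act_apply]
  simp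

lemma psi_null {G : Mink → ℂ} (hG : CS G) (b : ℝ) (h' : CS fun y => G (shi 1 (b, y))) :
    psi (fun y => G (shi 1 (b, y))) = act 1 one_pos (isLor_null b) (psi G) := by
  ext p
  rw [act_one]
  by_cases hp : p ∈ Hs
  · have hp' : lam (mNull b) p ∈ Hs := by
      show 0 < pm _
      rw [pm_lam_null]; exact hp
    have h0 : pm p ≠ 0 := (show 0 < pm p from hp).ne'
    rw [psi_apply_of_mem h' hp, psi_apply_of_mem hG hp']
    congr 1
    apply mink_ext
    · rw [crd_0, pm_lam_null]
      simp [shi, eb, crd_0]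
    · rw [crd_1, pm_lam_null]
      simp [shi, eb, crd_1, lam_apply, Fin.sum_univ_four, mNull]
      field_simp
      unfold pm
      ring
    · rw [crd_2, pm_lam_null]
      simp [shi, eb, crd_2, lam_apply, Fin.sum_univ_four, mNull]
    · rw [crd_3, mass2_lam (isLor_null b)]
      simp [shi, eb, crd_3]
  · have hp' : lam (mNull b) p ∉ Hs := by
      intro h
      apply hp
      show 0 < pm p
      rw [← pm_lam_null b]; exact h
    rw [psi_apply_of_notMem h' hp, psi_apply_of_notMem hG hp']

lemma psi_null' {G : Mink → ℂ} (hG : CS G) (b : ℝ) (h' : CS fun y => G (shi 2 (b, y))) :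
    psi (fun y => G (shi 2 (b, y))) = act 1 one_pos (isLor_null' b) (psi G) := by
  ext p
  rw [act_one]
  by_cases hp : p ∈ Hs
  · have hp' : lam (mNull' b) p ∈ Hs := by
      show 0 < pm _
      rw [pm_lam_null']; exact hp
    have h0 : pm p ≠ 0 := (show 0 < pm p from hp).ne'
    rw [psi_apply_of_mem h' hp, psi_apply_of_mem hG hp']
    congr 1
    apply mink_ext
    · rw [crd_0, pm_lam_null']
      simp [shi, eb, crd_0]
    · rw [crd_1, pm_lam_null']
      simp [shi, eb, crd_1, lam_apply, Fin.sum_univ_four, mNull']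
    · rw [crd_2, pm_lam_null']
      simp [shi, eb, crd_2, lam_apply, Fin.sum_univ_four, mNull']
      field_simp
      unfold pm
      ring
    · rw [crd_3, mass2_lam (isLor_null' b)]
      simp [shi, eb, crd_3]
  · have hp' : lam (mNull' b) p ∉ Hs := by
      intro h
      apply hp
      show 0 < pm p
      rw [← pm_lam_null' b]; exact h
    rw [psi_apply_of_notMem h' hp, psi_apply_of_notMem hG hp']

lemma psi_boost {G : Mink → ℂ} (hG : CS G) (t : ℝ) (h' : CS fun y => G (bst (t, y))) :
    psi (fun y => G (bst (t, y))) = act 1 one_pos (isLor_boost t) (psi G) := by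
  have ht := Real.exp_pos t
  ext p
  rw [act_one]
  by_cases hp : p ∈ Hs
  · have h00 : 0 < pm p := hp
    have hp' : lam (mBoost t) p ∈ Hs := by
      show 0 < pm _
      rw [pm_lam_boost]; exact mul_pos ht hp
    have h0 : pm p ≠ 0 := h00.ne'
    rw [psi_apply_of_mem h' hp, psi_apply_of_mem hG hp']
    congr 1
    apply mink_ext
    · rw [crd_0, pm_lam_boost, Real.log_mul ht.ne' h0, Real.log_exp]
      simp [bst, crd_0, add_comm]
    · rw [crd_1, pm_lam_boost]
      simp [bst, crd_1, lam_apply, Fin.sum_univ_four, mBoost, Real.exp_neg]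
      field_simp
    · rw [crd_2, pm_lam_boost]
      simp [bst, crd_2, lam_apply, Fin.sum_univ_four, mBoost, Real.exp_neg]
      field_simp
    · rw [crd_3, mass2_lam (isLor_boost t)]
      simp [bst, crd_3]
  · have hp' : lam (mBoost t) p ∉ Hs := by
      intro h
      apply hp
      have h1 : 0 < pm (lam (mBoost t) p) := h
      rw [pm_lam_boost] at h1
      exact (mul_pos_iff_of_pos_left ht).1 h1
    rw [psi_apply_of_notMem h' hp, psi_apply_of_notMem hG hp']

lemma pm_smul (s : ℝ) (p : Mink) : pm (s • p) = s * pm p := by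
  unfold pm
  simp
  ring

lemma psi_dil {G : Mink → ℂ} (hG : CS G) (t : ℝ) (h' : CS fun y => G (dlt (t, y))) :
    act (Real.exp (-t)) (Real.exp_pos _) isLor_one (psi G) =
      exp (4 * t) • psi (fun y => G (dlt (t, y))) := by
  have ht := Real.exp_pos t
  ext p
  rw [act_apply, lam_one, ← Real.exp_neg, neg_neg, SchwartzMap.smul_apply, smul_eq_mul]
  have e1 : (((Real.exp (-t) ^ 4)⁻¹ : ℝ) : ℂ) = exp (4 * t) := by
    rw [← Real.exp_nat_mul, ← Real.exp_neg]
    push_cast
    congr 1
    ring
  rw [e1]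
  congr 1
  by_cases hp : p ∈ Hs
  · have h00 : 0 < pm p := hp
    have hp' : Real.exp t • p ∈ Hs := by
      show 0 < pm _
      rw [pm_smul]; exact mul_pos ht hp
    have h0 : pm p ≠ 0 := h00.ne'
    rw [psi_apply_of_mem h' hp, psi_apply_of_mem hG hp']
    congr 1
    apply mink_ext
    · rw [crd_0, pm_smul, Real.log_mul ht.ne' h0, Real.log_exp]
      simp [dlt, crd_0, add_comm]
    · rw [crd_1, pm_smul]
      simp [dlt, crd_1]
      field_simp
    · rw [crd_2, pm_smul]
      simp [dlt, crd_2]
      field_simp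
    · rw [crd_3, mass2_smul]
      simp [dlt, crd_3]
      left
      rw [two_mul, Real.exp_add, sq]
  · have hp' : Real.exp t • p ∉ Hs := by
      intro h
      apply hp
      have h1 : 0 < pm (Real.exp t • p) := h
      rw [pm_smul] at h1
      exact (mul_pos_iff_of_pos_left ht).1 h1
    rw [psi_apply_of_notMem h' hp, psi_apply_of_notMem hG hp']

/-- reflection of the transversal coordinates -/
def rfc (y : Mink) : Mink := WithLp.toLp 2 ![y 0, -y 1, -y 2, y 3]

lemma psi_rot {G : Mink → ℂ} (hG : CS G) (h' : CS fun y => G (rfc y)) :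
    psi (fun y => G (rfc y)) = act 1 one_pos isLor_rot23 (psi G) := by
  ext p
  rw [act_one]
  by_cases hp : p ∈ Hs
  · have hp' : lam mRot23 p ∈ Hs := by
      show 0 < pm _
      rw [pm_lam_rot]; exact hp
    rw [psi_apply_of_mem h' hp, psi_apply_of_mem hG hp']
    congr 1
    apply mink_ext
    · rw [crd_0, pm_lam_rot]
      simp [rfc, crd_0]
    · rw [crd_1, pm_lam_rot]
      simp [rfc, crd_1, lam_apply, Fin.sum_univ_four, mRot23, neg_div]
    · rw [crd_2, pm_lam_rot]
      simp [rfc, crd_2, lam_apply, Fin.sum_univ_four, mRot23, neg_div]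
    · rw [crd_3, mass2_lam isLor_rot23]
      simp [rfc, crd_3]
  · have hp' : lam mRot23 p ∉ Hs := by
      intro h
      apply hp
      show 0 < pm p
      rw [← pm_lam_rot]; exact h
    rw [psi_apply_of_notMem h' hp, psi_apply_of_notMem hG hp']

end Vale.Agent.P352.H246R

end
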