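import Vale.Agent.P352.H246.Rc6

set_option linter.all false

noncomputable section

open MeasureTheory SchwartzMap Complex Filter Topology
open scoped SchwartzMap ComplexConjugate ENNReal LineDeriv ContDiff FourierTransform

namespace Vale.Agent.P352.H246R

open GF (Ix V Fn Sch ev pd bar sim bas o)
open H246
open H496
open UniformSpace (Completion)

/-- a nonnegative test function near `(1,0,0,0)` -/
lemma exists_bumpPC : ∃ F : 𝓢(Mink, ℂ), PC F ∧ MI F ≠ 0 ∧ F (eb 0) ≠ 0 ∧
    (∀ p, 0 ≤ (F p).re ∧ (F p).im = 0) := by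
  let f : ContDiffBump (eb 0 : Mink) := ⟨1 / 4, 1 / 3, by norm_num, by norm_num⟩
  have hs : ContDiff ℝ ∞ (fun p : Mink => (f p : ℂ)) := ofRealCLM.contDiff.comp f.contDiff
  have hc : HasCompactSupport (fun p : Mink => (f p : ℂ)) :=
    f.hasCompactSupport.comp_left (g := fun x : ℝ => (x : ℂ)) ofReal_zero
  have hF : ∀ p, hc.toSchwartzMap hs p = (f p : ℂ) := fun p => rfl
  have h1 : f (eb 0) = 1 := f.eventuallyEq_one.self_of_nhds
  refine ⟨hc.toSchwartzMap hs, ⟨hc, ?_⟩, ?_, ?_, ?_⟩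
  · have ht : tsupport (fun p : Mink => (f p : ℂ)) ⊆ Metric.closedBall (eb 0) (1 / 3) := by
      have h2 : tsupport f = Metric.closedBall (eb 0) (1 / 3) := f.tsupport_eq
      rw [← h2]
      exact closure_mono (fun p hp h => hp (by simp [h]))
    intro p hp
    have h2 := ht hp
    rw [Metric.mem_closedBall, dist_eq_norm] at h2
    have h3 : ‖p - eb 0‖ ^ 2 ≤ (1 / 3) ^ 2 := by
      apply pow_le_pow_left₀ (norm_nonneg _) h2
    rw [norm_sq_mink] at h3
    simp [eb] at h3
    have a0 : 2 / 3 ≤ p 0 := by nlinarith [sq_nonneg (p 1), sq_nonneg (p 2), sq_nonneg (p 3)]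
    have a1 : p 1 ^ 2 + p 2 ^ 2 + p 3 ^ 2 ≤ 1 / 9 := by nlinarith [sq_nonneg (p 0 - 1)]
    have a2 : -(1 / 3) ≤ p 1 := by
      nlinarith [sq_nonneg (p 2), sq_nonneg (p 3)]
    refine ⟨?_, ?_⟩
    · show 0 < pm p
      unfold pm
      linarith
    · show 0 < mass2 p
      unfold mass2 mdot
      nlinarith
  · rw [MI_apply]
    have h2 : ∫ p, hc.toSchwartzMap hs p = ((∫ p, f p : ℝ) : ℂ) := by
      simp only [hF]
      exact integral_ofReal
    rw [h2]
    have h3 : 0 < ∫ p, f p := f.integral_pos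
    exact_mod_cast h3.ne'
  · rw [hF, h1]
    simp
  · intro p
    rw [hF]
    exact ⟨by rw [ofReal_re]; exact f.nonneg, ofReal_im _⟩

/-- uniqueness of covariant functionals on the open forward cone -/
theorem Cvr.unique' {T : 𝓢(Mink, ℂ) →L[ℂ] ℂ} (C : Cvr T Pos 0 (-4)) : ∃ c : ℂ, ∀ F, PC F →
    T F = c * MI F := by
  obtain ⟨c1, h1⟩ := C.unique
  obtain ⟨c2, h2⟩ := Cvr_MI.unique
  obtain ⟨F0, hF0, hne, -⟩ := exists_bumpPC
  have hc2 : c2 ≠ 0 := by
    intro h0
    obtain ⟨G, hG, rfl⟩ := hF0.exists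
    apply hne
    rw [h2 G hG, h0, zero_mul]
  refine ⟨c1 / c2, fun F hF => ?_⟩
  obtain ⟨G, hG, rfl⟩ := hF.exists
  rw [h1 G hG, h2 G hG]
  field_simp

section

variable {T : Ix → 𝓢(Mink, ℂ) →L[ℂ] ℂ} (hT : Tens T)
include hT

lemma Tens.null (b : ℝ) (F : 𝓢(Mink, ℂ)) :
    T 0 F = (1 + b ^ 2 / 2) * T 0 (act 1 one_pos (isLor_null b) F) +
      (b ^ 2 / 2) * T 1 (act 1 one_pos (isLor_null b) F) +
      b * T 2 (act 1 one_pos (isLor_null b) F) ∧
    T 1 F = -(b ^ 2 / 2) * T 0 (act 1 one_pos (isLor_null b) F) +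
      (1 - b ^ 2 / 2) * T 1 (act 1 one_pos (isLor_null b) F) -
      b * T 2 (act 1 one_pos (isLor_null b) F) ∧
    T 2 F = b * T 0 (act 1 one_pos (isLor_null b) F) + b * T 1 (act 1 one_pos (isLor_null b) F) +
      T 2 (act 1 one_pos (isLor_null b) F) ∧
    T 3 F = T 3 (act 1 one_pos (isLor_null b) F) := by
  have h := fun m => hT.cov 1 one_pos _ (isLor_null b) 1 one_pos (null_nu b) m F
  refine ⟨?_, ?_, ?_, ?_⟩
  · rw [h 0, Fin.sum_univ_four]
    simp [mNull]
  · rw [h 1, Fin.sum_univ_four]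
    simp [mNull]
    ring
  · rw [h 2, Fin.sum_univ_four]
    simp [mNull]
  · rw [h 3, Fin.sum_univ_four]
    simp [mNull]

lemma Tens.null' (b : ℝ) (F : 𝓢(Mink, ℂ)) :
    T 0 F = (1 + b ^ 2 / 2) * T 0 (act 1 one_pos (isLor_null' b) F) +
      (b ^ 2 / 2) * T 1 (act 1 one_pos (isLor_null' b) F) +
      b * T 3 (act 1 one_pos (isLor_null' b) F) ∧
    T 1 F = -(b ^ 2 / 2) * T 0 (act 1 one_pos (isLor_null' b) F) +
      (1 - b ^ 2 / 2) * T 1 (act 1 one_pos (isLor_null' b) F) -
      b * T 3 (act 1 one_pos (isLor_null' b) F) ∧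
    T 3 F = b * T 0 (act 1 one_pos (isLor_null' b) F) +
      b * T 1 (act 1 one_pos (isLor_null' b) F) + T 3 (act 1 one_pos (isLor_null' b) F) ∧
    T 2 F = T 2 (act 1 one_pos (isLor_null' b) F) := by
  have h := fun m => hT.cov 1 one_pos _ (isLor_null' b) 1 one_pos (null_nu' b) m F
  refine ⟨?_, ?_, ?_, ?_⟩
  · rw [h 0, Fin.sum_univ_four]
    simp [mNull']
  · rw [h 1, Fin.sum_univ_four]
    simp [mNull']
    ring
  · rw [h 3, Fin.sum_univ_four]
    simp [mNull']
  · rw [h 2, Fin.sum_univ_four]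
    simp [mNull']

lemma Tens.boost (t : ℝ) (F : 𝓢(Mink, ℂ)) :
    T 0 F = exp t * (Real.cosh t * T 0 (act 1 one_pos (isLor_boost t) F) +
      Real.sinh t * T 1 (act 1 one_pos (isLor_boost t) F)) ∧
    T 1 F = exp t * (Real.sinh t * T 0 (act 1 one_pos (isLor_boost t) F) +
      Real.cosh t * T 1 (act 1 one_pos (isLor_boost t) F)) ∧
    T 2 F = exp t * T 2 (act 1 one_pos (isLor_boost t) F) ∧
    T 3 F = exp t * T 3 (act 1 one_pos (isLor_boost t) F) := by
  have h := fun m => hT.cov 1 one_pos _ (isLor_boost t) _ (Real.exp_pos (-t)) (boost_nu t) m F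
  have he : ∀ x : ℝ, x / Real.exp (-t) = Real.exp t * x := by
    intro x
    rw [Real.exp_neg]
    field_simp
  refine ⟨?_, ?_, ?_, ?_⟩
  · rw [h 0, Fin.sum_univ_four]
    simp only [he]
    simp [mBoost]
    ring
  · rw [h 1, Fin.sum_univ_four]
    simp only [he]
    simp [mBoost]
    ring
  · rw [h 2, Fin.sum_univ_four]
    simp only [he]
    simp [mBoost]
  · rw [h 3, Fin.sum_univ_four]
    simp only [he]
    simp [mBoost]

omit hT in
lemma sim_one_nu : sim 1 GF.one 0 (nu (-1)) = (1 : ℝ) • nu (-1) := by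
  rw [sim_one]
  funext n
  simp

lemma Tens.dil (s : ℝ) (hs : 0 < s) (m : Ix) (F : 𝓢(Mink, ℂ)) :
    T m (act s hs isLor_one F) = T m F := by
  rw [hT.cov s hs _ isLor_one 1 one_pos sim_one_nu m F, Fin.sum_univ_four]
  fin_cases m <;> simp [GF.one, bas]

lemma Tens.rot (F : 𝓢(Mink, ℂ)) : T 2 F = -T 2 (act 1 one_pos isLor_rot23 F) ∧
    T 3 F = -T 3 (act 1 one_pos isLor_rot23 F) := by
  have hr : sim 1 mRot23 0 (nu (-1)) = (1 : ℝ) • nu (-1) := by
    funext n
    fin_cases n <;> simp [sim, nu, mRot23, Fin.sum_univ_four]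
  have h := fun m => hT.cov 1 one_pos _ isLor_rot23 1 one_pos hr m F
  refine ⟨?_, ?_⟩
  · rw [h 2, Fin.sum_univ_four]
    simp [mRot23]
  · rw [h 3, Fin.sum_univ_four]
    simp [mRot23]

/-- the component along the null vector vanishes -/
theorem Tens.plus {G : Mink → ℂ} (hG : TF Pos G) : T 0 (psi G) + T 1 (psi G) = 0 := by
  have C : Cvr (T 0 + T 1) Set.univ (-2) (-2 - 2) := by
    refine ⟨?_, ?_, ?_, ?_⟩
    · intro b G hG
      obtain ⟨h0, h1, h2, h3⟩ := hT.null b (psi G)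
      rw [psi_null hG.1 b (TF_shi adm_univ hG (Or.inl rfl) b).1]
      simp only [ContinuousLinearMap.add_apply]
      rw [h0, h1]
      ring
    · intro b G hG
      obtain ⟨h0, h1, h2, h3⟩ := hT.null' b (psi G)
      rw [psi_null' hG.1 b (TF_shi adm_univ hG (Or.inr rfl) b).1]
      simp only [ContinuousLinearMap.add_apply]
      rw [h0, h1]
      ring
    · intro t G hG
      obtain ⟨h0, h1, h2, h3⟩ := hT.boost t (psi G)
      rw [psi_boost hG.1 t (TF_bst adm_univ hG t).1]
      simp only [ContinuousLinearMap.add_apply]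
      rw [h0, h1]
      have e1 : (Real.cosh t : ℂ) + Real.sinh t = exp t := by
        rw [← ofReal_add, Real.cosh_add_sinh, ofReal_exp]
      have e2 : exp (-2 * (t : ℂ)) * exp t * exp t = 1 := by
        rw [← Complex.exp_add, ← Complex.exp_add]
        have : -2 * (t : ℂ) + t + t = 0 := by ring
        rw [this, Complex.exp_zero]
      linear_combination (-(T 0 (act 1 one_pos (isLor_boost t) (psi G))) -
        T 1 (act 1 one_pos (isLor_boost t) (psi G))) * (e2 + exp (-2 * (t : ℂ)) * exp t * e1)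
    · intro t G hG
      have := T_dil (T := T 0 + T 1) (fun s hs F => by
        simp only [ContinuousLinearMap.add_apply]
        rw [hT.dil, hT.dil]) adm_univ t G hG
      rw [this]
      norm_num
  have hneg : ∀ G, TF Neg G → (T 0 + T 1) (psi G) = 0 := by
    intro G hG
    have hz : ∀ p ∈ fwdCone, psi G p = 0 := by
      intro p hp
      by_cases h1 : p ∈ Hs
      · rw [psi_apply_of_mem hG.1 h1]
        apply image_eq_zero_of_notMem_tsupport
        intro h2
        have h3 : crd p 3 < 0 := hG.2 h2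
        rw [crd_3] at h3
        have h4 : 0 ≤ mass2 p := hp.2
        linarith
      · exact psi_apply_of_notMem hG.1 h1
    rw [ContinuousLinearMap.add_apply, hT.cone 0 _ hz, hT.cone 1 _ hz, add_zero]
  have h := b0 C hneg hG
  rw [ContinuousLinearMap.add_apply] at h
  exact h

omit hT in
lemma TF_rfc {G : Mink → ℂ} (hG : TF Pos G) : TF Pos (fun y => G (rfc y)) := by
  have hr : ContDiff ℝ ∞ rfc := by
    rw [contDiff_euclidean]
    intro i
    fin_cases i
    · exact contDiff_coord 0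
    · exact (contDiff_coord 1).neg
    · exact (contDiff_coord 2).neg
    · exact contDiff_coord 3
  have hi : ∀ y, rfc (rfc y) = y := by
    intro y
    apply mink_ext <;> simp [rfc]
  refine ⟨⟨hG.1.1.comp hr, ?_⟩, ?_⟩
  · have hK : IsCompact (rfc '' tsupport G) := IsCompact.image hG.1.2 hr.continuous
    refine HasCompactSupport.intro hK fun y hy => ?_
    by_contra h
    exact hy ⟨rfc y, subset_tsupport _ h, hi y⟩
  · intro y hy
    have h1 := hG.2 (tsupport_comp_subset_preimage G hr.continuous hy)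
    have h2 : 0 < rfc y 3 := h1
    exact h2

omit hT in
lemma zero_tr {T2 : 𝓢(Mink, ℂ) →L[ℂ] ℂ}
    (n1 : ∀ (b : ℝ) G, TF Pos G → T2 (psi fun y => G (shi 1 (b, y))) = T2 (psi G))
    (n2 : ∀ (b : ℝ) G, TF Pos G → T2 (psi fun y => G (shi 2 (b, y))) = T2 (psi G))
    (ro : ∀ G, TF Pos G → T2 (psi fun y => G (rfc y)) = -T2 (psi G)) {G : Mink → ℂ}
    (hG : TF Pos G) : T2 (psi G) = 0 := by
  refine H283.zero_even (fun G => T2 (psi G)) ?_ ?_ ?_ ?_ G (tf_iff.2 hG)
  · intro G G' h h'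
    exact T_add (tf_iff.1 h) (tf_iff.1 h')
  · intro c G h
    exact T_smul c (tf_iff.1 h)
  · intro j hj G h
    have hG := tf_iff.1 h
    rcases hj with rfl | hj
    · have h := flow_id T2 (contDiff_shi 1) (fun y => by simp [shi])
        (fun t y => by simp [shi]) (lam := 0) hG.1 (fun t => by rw [n1 t G hG]; simp)
      rw [zero_mul] at h
      rw [← h]
      show T2 (psi _) = T2 (psi _)
      congr 2
      funext y
      rw [deriv_shi]
      rfl
    · rw [Set.mem_singleton_iff] at hj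
      subst hj
      have h := flow_id T2 (contDiff_shi 2) (fun y => by simp [shi])
        (fun t y => by simp [shi]) (lam := 0) hG.1 (fun t => by rw [n2 t G hG]; simp)
      rw [zero_mul] at h
      rw [← h]
      show T2 (psi _) = T2 (psi _)
      congr 2
      funext y
      rw [deriv_shi]
      rfl
  · intro G h
    exact ro G (tf_iff.1 h)

theorem Tens.two {G : Mink → ℂ} (hG : TF Pos G) : T 2 (psi G) = 0 := by
  refine zero_tr ?_ ?_ ?_ hG
  · intro b G hG
    obtain ⟨h0, h1, h2, h3⟩ := hT.null b (psi G)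
    have h4 := TF_shi adm_Pos hG (Or.inl rfl) b
    have h5 := hT.plus h4
    rw [psi_null hG.1 b h4.1] at h5 ⊢
    rw [h2]
    linear_combination (-(b : ℂ)) * h5
  · intro b G hG
    obtain ⟨h0, h1, h2, h3⟩ := hT.null' b (psi G)
    rw [psi_null' hG.1 b (TF_shi adm_Pos hG (Or.inr rfl) b).1, h3]
  · intro G hG
    obtain ⟨h2, h3⟩ := hT.rot (psi G)
    rw [psi_rot hG.1 (TF_rfc hG).1, h2, neg_neg]

theorem Tens.three {G : Mink → ℂ} (hG : TF Pos G) : T 3 (psi G) = 0 := by
  refine zero_tr ?_ ?_ ?_ hG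
  · intro b G hG
    obtain ⟨h0, h1, h2, h3⟩ := hT.null b (psi G)
    rw [psi_null hG.1 b (TF_shi adm_Pos hG (Or.inl rfl) b).1, h3]
  · intro b G hG
    obtain ⟨h0, h1, h2, h3⟩ := hT.null' b (psi G)
    have h4 := TF_shi adm_Pos hG (Or.inr rfl) b
    have h5 := hT.plus h4
    rw [psi_null' hG.1 b h4.1] at h5 ⊢
    rw [h2]
    linear_combination (-(b : ℂ)) * h5
  · intro G hG
    obtain ⟨h2, h3⟩ := hT.rot (psi G)
    rw [psi_rot hG.1 (TF_rfc hG).1, h3, neg_neg]

theorem Tens.minus : ∃ c : ℂ, ∀ F, PC F → T 0 F - T 1 F = c * MI F := by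
  have C : Cvr (T 0 - T 1) Pos 0 (-4) := by
    refine ⟨?_, ?_, ?_, ?_⟩
    · intro b G hG
      obtain ⟨h0, h1, h2, h3⟩ := hT.null b (psi G)
      have h4 := TF_shi adm_Pos hG (Or.inl rfl) b
      have h5 := hT.plus h4
      have h6 := hT.two h4
      rw [psi_null hG.1 b h4.1] at h5 h6 ⊢
      simp only [ContinuousLinearMap.sub_apply]
      rw [h0, h1]
      linear_combination (-(b : ℂ) ^ 2) * h5 - 2 * b * h6
    · intro b G hG
      obtain ⟨h0, h1, h2, h3⟩ := hT.null' b (psi G)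
      have h4 := TF_shi adm_Pos hG (Or.inr rfl) b
      have h5 := hT.plus h4
      have h6 := hT.three h4
      rw [psi_null' hG.1 b h4.1] at h5 h6 ⊢
      simp only [ContinuousLinearMap.sub_apply]
      rw [h0, h1]
      linear_combination (-(b : ℂ) ^ 2) * h5 - 2 * b * h6
    · intro t G hG
      obtain ⟨h0, h1, h2, h3⟩ := hT.boost t (psi G)
      rw [psi_boost hG.1 t (TF_bst adm_Pos hG t).1]
      simp only [ContinuousLinearMap.sub_apply]
      rw [h0, h1]
      have e1 : (Real.cosh t : ℂ) - Real.sinh t = exp (-t) := by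
        rw [← ofReal_sub, Real.cosh_sub_sinh, ofReal_exp, ofReal_neg]
      have e2 : exp (t : ℂ) * exp (-t) = 1 := by
        rw [← Complex.exp_add, add_neg_cancel, Complex.exp_zero]
      rw [zero_mul, Complex.exp_zero, one_mul]
      linear_combination (-(T 0 (act 1 one_pos (isLor_boost t) (psi G))) +
        T 1 (act 1 one_pos (isLor_boost t) (psi G))) * (e2 + exp t * e1)
    · intro t G hG
      exact T_dil (T := T 0 - T 1) (fun s hs F => by
        simp only [ContinuousLinearMap.sub_apply]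
        rw [hT.dil, hT.dil]) adm_Pos t G hG
  obtain ⟨c, hc⟩ := C.unique'
  exact ⟨c, fun F hF => by rw [← hc F hF]; rfl⟩

/-- classification -/
theorem Tens.cls : ∃ c : ℂ, ∀ F, PC F → T 0 F = c * MI F ∧ T 1 F = -(c * MI F) ∧ T 2 F = 0 ∧
    T 3 F = 0 := by
  obtain ⟨c, hc⟩ := hT.minus
  refine ⟨c / 2, fun F hF => ?_⟩
  have h1 := hc F hF
  obtain ⟨G, hG, rfl⟩ := hF.exists
  have h2 := hT.plus hG
  refine ⟨by linear_combination (h1 + h2) / 2, by linear_combination (h2 - h1) / 2, hT.two hG,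
    hT.three hG⟩

end

end Vale.Agent.P352.H246R

end
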