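import Vale.Agent.P352.H246.Rc8

set_option linter.all false

noncomputable section

open MeasureTheory SchwartzMap Complex Filter Topology
open scoped SchwartzMap ComplexConjugate ENNReal LineDeriv ContDiff FourierTransform

namespace Vale.Agent.P352.H246R

open GF (Ix V Fn Sch ev pd bar sim bas o)
open H246
open H496
open UniformSpace (Completion)

variable {D : Type*} [NormedAddCommGroup D] [InnerProductSpace ℂ D]
variable {Q : GF.Theory D}
variable {H : D → D} {alg : Set V → Set (D → D)} {S : V → ℝ → D → D}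

lemma deriv_two (f : ℝ → ℝ) : deriv (fun s : ℝ => f (2 * s)) = fun s => 2 * deriv f (2 * s) := by
  funext s
  rw [deriv_comp_mul_left, smul_eq_mul]

lemma deriv_two2 {f : ℝ → ℝ} : deriv (deriv (fun s : ℝ => f (2 * s))) =
    fun s => 4 * deriv (deriv f) (2 * s) := by
  rw [deriv_two]
  funext s
  rw [deriv_const_mul_field]
  have := congrFun (deriv_two (deriv f)) s
  rw [this]
  ring

section

variable (N : CNet Q H alg S) {G : V → D → D}
variable (hG : ∀ a v, IsNull a → HasDerivAt (fun s : ℝ => S a s v) (I • G a v) 0)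
variable (hmem : ∀ a, IsNull a → G a ∈ alg Set.univ)
variable {φ : Completion D} {B : D → D} (hB : B ∈ alg Set.univ)
variable (hq : ∀ σ L v, 0 < σ → GF.IsLor L → pt φ B (Q.U σ L 0 v) = ((σ ^ 2)⁻¹ : ℝ) * pt φ B v)
variable {J : Ix → GF.Fld D} (hJ : VFld Q J)

include N hG hB in
lemma pt_half (v : D) :
    pt φ B (G ((1 / 2 : ℝ) • nu 1) v) = (1 / 2 : ℂ) * pt φ B (G (nu 1) v) := by
  have hb : IsNull (nu 1) := isNull_nu (Or.inl rfl)
  have hb' : IsNull ((1 / 2 : ℝ) • nu 1) := by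
    refine ⟨?_, ?_⟩
    · have h1 : GF.mdot ((1 / 2 : ℝ) • nu 1) ((1 / 2 : ℝ) • nu 1) =
          (1 / 2) ^ 2 * GF.mdot (nu 1) (nu 1) := by
        simp only [gf_mdot, Pi.smul_apply, smul_eq_mul]; ring
      rw [h1, hb.1, mul_zero]
    · show 0 < (1 / 2 : ℝ) * nu 1 o
      exact mul_pos (by norm_num) hb.2
  have h := G_cov N hG one_pos two_pos isLor_one hb hb' (by
    rw [sim_one]
    funext n
    simp) v
  have e : ∀ w : D, Q.U 1 GF.one 0 w = w := fun w => U1_zero_all (Q := Q) w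
  rw [e, e] at h
  rw [h, pt_smul' N hB]
  push_cast
  ring

variable (hR : ∀ Phi Sig : ℝ → ℝ, ContDiff ℝ ∞ Phi → HasCompactSupport Phi → ContDiff ℝ ∞ Sig →
  HasCompactSupport Sig → ∀ (m : Ix) (g : 𝓢(Mink, ℂ)), PC (mftS g) →
  ∫ y : Mink, ((deriv (deriv (deriv Phi)) (y 0 + y 1) : ℝ) : ℂ) *
      ((deriv (deriv Sig) ((y 0 - y 1) / 2) : ℝ) : ℂ) *
      pt φ B (G (nu (-1)) (U1 Q (-y) (J m (fl g) Q.vac))) =
  ∫ y : Mink, ((deriv (deriv Phi) (y 0 + y 1) : ℝ) : ℂ) *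
      ((deriv (deriv (deriv Sig)) ((y 0 - y 1) / 2) : ℝ) : ℂ) *
      pt φ B (G ((1 / 2 : ℝ) • nu 1) (U1 Q (-y) (J m (fl g) Q.vac))))

include N hG hB hq hmem hJ hR in
/-- reciprocity implies that the values of the deformed potential vanish -/
theorem val_zero (g : 𝓢(Mink, ℂ)) (hg : PC (mftS g)) (m : Ix) :
    pt φ B (G (nu (-1)) (J m (fl g) Q.vac)) = 0 := by
  obtain ⟨κ, hκ⟩ := exists_kap3 N hG hmem hB hq hJ
  have h1 : ∀ Phi Sig : ℝ → ℝ, ContDiff ℝ ∞ Phi → HasCompactSupport Phi → ContDiff ℝ ∞ Sig →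
      HasCompactSupport Sig → ∀ (g : 𝓢(Mink, ℂ)), PC (mftS g) →
      κ * ∫ y : Mink, ((deriv (deriv (deriv Phi)) (y 0 + y 1) : ℝ) : ℂ) *
        ((deriv (deriv Sig) (y 0 - y 1) : ℝ) : ℂ) * g y = 0 := by
    intro Phi Sig hP hPc hS hSc g hg
    have hS2 : ContDiff ℝ ∞ (fun s : ℝ => Sig (2 * s)) :=
      hS.comp (contDiff_const.mul contDiff_id)
    have hS2c : HasCompactSupport (fun s : ℝ => Sig (2 * s)) :=
      hSc.comp_homeomorph (Homeomorph.mulLeft₀ (2 : ℝ) two_ne_zero)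
    have e0 := hR Phi _ hP hPc hS2 hS2c 0 g hg
    have e1 := hR Phi _ hP hPc hS2 hS2c 1 g hg
    have k := fun y => hκ g hg y
    have k0 : ∀ y, pt φ B (G (nu (-1)) (U1 Q (-y) (J 0 (fl g) Q.vac))) = κ * g y :=
      fun y => (k y).1.1
    have k1 : ∀ y, pt φ B (G (nu (-1)) (U1 Q (-y) (J 1 (fl g) Q.vac))) = -(κ * g y) :=
      fun y => (k y).1.2.1
    have l0 : ∀ y, pt φ B (G (nu 1) (U1 Q (-y) (J 0 (fl g) Q.vac))) = κ * g y :=
      fun y => (k y).2.1
    have l1 : ∀ y, pt φ B (G (nu 1) (U1 Q (-y) (J 1 (fl g) Q.vac))) = κ * g y :=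
      fun y => (k y).2.2.1
    simp only [pt_half N hG hB, k0, k1, l0, l1] at e0 e1
    have e2 : ∀ y : Mink, ((deriv (deriv (deriv Phi)) (y 0 + y 1) : ℝ) : ℂ) *
        ((deriv (deriv fun s => Sig (2 * s)) ((y 0 - y 1) / 2) : ℝ) : ℂ) * -(κ * g y) =
        -(((deriv (deriv (deriv Phi)) (y 0 + y 1) : ℝ) : ℂ) *
        ((deriv (deriv fun s => Sig (2 * s)) ((y 0 - y 1) / 2) : ℝ) : ℂ) * (κ * g y)) := by
      intro y; ring
    simp only [e2] at e1
    rw [integral_neg] at e1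
    have e3 : ∫ y : Mink, ((deriv (deriv (deriv Phi)) (y 0 + y 1) : ℝ) : ℂ) *
        ((deriv (deriv fun s => Sig (2 * s)) ((y 0 - y 1) / 2) : ℝ) : ℂ) * (κ * g y) = 0 := by
      linear_combination (e0 - e1) / 2
    rw [← integral_const_mul]
    have e4 : ∀ y : Mink, ((deriv (deriv (deriv Phi)) (y 0 + y 1) : ℝ) : ℂ) *
        ((deriv (deriv fun s => Sig (2 * s)) ((y 0 - y 1) / 2) : ℝ) : ℂ) * (κ * g y) =
        4 * (κ * (((deriv (deriv (deriv Phi)) (y 0 + y 1) : ℝ) : ℂ) *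
        ((deriv (deriv Sig) (y 0 - y 1) : ℝ) : ℂ) * g y)) := by
      intro y
      rw [deriv_two2]
      have : 2 * ((y 0 - y 1) / 2) = y 0 - y 1 := by ring
      simp only [this]
      push_cast
      ring
    simp only [e4] at e3
    rw [integral_const_mul] at e3
    exact (mul_eq_zero.1 e3).resolve_left (by norm_num)
  have hκ0 : κ = 0 := by
    by_contra hne
    obtain ⟨F0, hF0, -, hF1, -⟩ := exists_bumpPC
    have hgp : PC (mftS (imf F0)) := by rw [mftS_imf]; exact hF0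
    have h2 := H846.nonvan32 (g := imf F0) (fun Phi Sig hP hPc hS hSc =>
      (mul_eq_zero.1 (h1 Phi Sig hP hPc hS hSc _ hgp)).resolve_left hne) (1 / 2) (1 / 2)
      (by norm_num) (by norm_num)
    apply hF1
    rw [← mftS_imf F0, mftS_apply, mft, ← h2]
    congr 1
    ext x
    congr 3
    have : mdot (eb 0) x = x 0 := by
      simp [mdot, eb]
    rw [this]
    congr 1
    ring
  obtain ⟨⟨a0, a1, a2, a3⟩, -⟩ := hκ g hg 0
  rw [hκ0, zero_mul] at a0 a1
  have e : ∀ w : D, U1 Q (-0) w = w := fun w => by rw [neg_zero]; exact U1_zero_all w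
  rw [e] at a0 a1 a2 a3
  fin_cases m
  · exact a0
  · rw [neg_zero] at a1; exact a1
  · exact a2
  · exact a3

include N hG hB hq hmem hR in
/-- reciprocity implies that the response of the potential on the trace vanishes -/
theorem hk_of_rec {T : Ix → Ix → GF.Fld D} (hV : IsVirial Q T J) (f : 𝓢(Mink, ℂ))
    (hf : PC (mftS f)) : pt φ B (G (nu (-1)) (GF.tr T (fl f) Q.vac)) = 0 := by
  have ha : IsNull (nu (-1)) := isNull_nu (Or.inr rfl)
  rw [hV.div']
  have h1 : -∑ m, J m (fl (∂_{eb m} f)) Q.vac =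
      ∑ m : Ix, (-1 : ℂ) • J m (fl (∂_{eb m} f)) Q.vac := by
    rw [← Finset.smul_sum, neg_one_smul]
  rw [h1, pt_G_sum N hmem hB ha]
  apply Finset.sum_eq_zero
  intro m _
  rw [val_zero N hG hmem hB hq hV.vfld hR _ (PC_deriv hf _) m, mul_zero]

end

end Vale.Agent.P352.H246R

end
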