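import Vale.Agent.P352.H246.SubConfDefs

set_option linter.all false

noncomputable section

open MeasureTheory SchwartzMap Complex Filter Topology
open scoped SchwartzMap ComplexConjugate ENNReal NNReal

namespace Vale.Agent.P352.SubConf

open GF (Ix V Fn Sch ev pd bar sim one bas o eta mdot)
open UniformSpace (Completion)

variable {D : Type*} [NormedAddCommGroup D] [InnerProductSpace ℂ D]
variable {D' : Type*} [NormedAddCommGroup D'] [InnerProductSpace ℂ D']
variable {Q : GF.Theory D} {Q' : GF.Theory D'} {i : D →ₗᵢ[ℂ] D'}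

/-! ### The compression -/

lemma ext_coe {x y : Completion D} (h : ∀ z : D, inner ℂ (z : Completion D) x =
    inner ℂ (z : Completion D) y) : x = y := by
  refine ext_inner_left ℂ fun w => ?_
  refine UniformSpace.Completion.induction_on w ?_ h
  exact isClosed_eq (by fun_prop) (by fun_prop)

/-- the isometry as a map into the big Hilbert space -/
def iC (i : D →ₗᵢ[ℂ] D') : D →L[ℂ] Completion D' :=
  (UniformSpace.Completion.toComplL (𝕜 := ℂ) (E := D')).comp i.toContinuousLinearMap

/-- the isometry of the Hilbert spaces -/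
def iH (i : D →ₗᵢ[ℂ] D') : Completion D →L[ℂ] Completion D' :=
  (iC i).extend (UniformSpace.Completion.toComplL (𝕜 := ℂ) (E := D))

lemma iH_coe (i : D →ₗᵢ[ℂ] D') (v : D) : iH i (v : Completion D) = ((i v : D') : Completion D') :=
  (iC i).extend_eq (UniformSpace.Completion.denseRange_coe)
    (UniformSpace.Completion.isUniformInducing_coe D) v

/-- the adjoint of the isometry -/
def iA (i : D →ₗᵢ[ℂ] D') : Completion D' →L[ℂ] Completion D :=
  ContinuousLinearMap.adjoint (iH i)

lemma inner_iA (i : D →ₗᵢ[ℂ] D') (v : D) (x : Completion D') :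
    inner ℂ (v : Completion D) (iA i x) = inner ℂ ((i v : D') : Completion D') x := by
  rw [iA, ContinuousLinearMap.adjoint_inner_right, iH_coe]

lemma inner_iA' (i : D →ₗᵢ[ℂ] D') (v : D) (x : Completion D') :
    inner ℂ (iA i x) (v : Completion D) = inner ℂ x ((i v : D') : Completion D') := by
  rw [← inner_conj_symm, inner_iA, inner_conj_symm]

lemma iA_coe (i : D →ₗᵢ[ℂ] D') (v : D) : iA i ((i v : D') : Completion D') =
    (v : Completion D) := by
  apply ext_coe
  intro z
  rw [inner_iA, UniformSpace.Completion.inner_coe, UniformSpace.Completion.inner_coe,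
    i.inner_map_map]

/-! ### Test functions -/

lemma isTest_bar {f : Fn} (hf : GF.IsTest f) : GF.IsTest (bar f) := by
  obtain ⟨g, rfl⟩ := hf
  exact ⟨SchwartzMap.postcompCLM (𝕜 := ℝ) Complex.conjCLE.toContinuousLinearMap g, rfl⟩

lemma isTest_mk {f : Fn} (hf : ContDiff ℝ (⊤ : ℕ∞) f) (hc : HasCompactSupport f) :
    GF.IsTest f := ⟨hc.toSchwartzMap hf, rfl⟩

lemma pd_eq {f : Fn} (hf : ContDiff ℝ (⊤ : ℕ∞) f) (m : Ix) :
    pd m f = fun x => fderiv ℝ f x (bas m 1) := by
  funext x
  have h1 : (fun t : ℝ => f fun n => x n + bas m t n) = fun t : ℝ => f (x + t • bas m 1) := by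
    funext t
    congr 1
    funext n
    simp [bas]
  unfold pd
  rw [h1]
  have h2 : HasDerivAt (fun t : ℝ => x + t • (bas m 1 : V)) (bas m 1) 0 := by
    simpa using ((hasDerivAt_id (0 : ℝ)).smul_const (bas m 1 : V)).const_add x
  have h3 : HasFDerivAt f (fderiv ℝ f (x + (0 : ℝ) • (bas m 1 : V))) (x + (0 : ℝ) • (bas m 1 : V)) :=
    (hf.differentiable (by simp) _).hasFDerivAt
  have h4 := (h3.comp_hasDerivAt (0 : ℝ) h2).deriv
  rw [zero_smul, add_zero] at h4
  exact h4

lemma isTest_pd_mul {X : V → ℝ} (hX : ContDiff ℝ (⊤ : ℕ∞) X) {f : Fn} (hf : GF.IsTest f)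
    (hc : HasCompactSupport f) (m : Ix) : GF.IsTest (pd m fun x => (X x : ℂ) * f x) := by
  obtain ⟨g, rfl⟩ := hf
  have h1 : HasCompactSupport fun x : V => (X x : ℂ) * g x := HasCompactSupport.mul_left hc
  have h2 : ContDiff ℝ (⊤ : ℕ∞) fun x : V => (X x : ℂ) * g x :=
    (Complex.ofRealCLM.contDiff.comp hX).mul (g.smooth (⊤ : ℕ∞))
  show GF.IsTest (pd m fun x => (X x : ℂ) * g x)
  rw [pd_eq h2]
  refine isTest_mk ?_ ?_
  · exact (h2.fderiv_right (m := (⊤ : ℕ∞)) (by simp)).clm_apply contDiff_const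
  · exact (h1.fderiv (𝕜 := ℝ)).comp_left (g := fun T : V →L[ℝ] ℂ => T (bas m 1)) rfl

lemma IsKil.contDiff {X : Ix → V → ℝ} (h : IsKil X) (n : Ix) :
    ContDiff ℝ (⊤ : ℕ∞) (X n) := by
  obtain ⟨a, b, r, w, _, h⟩ := h
  have : X n = fun x => a n + r * x n + ∑ m, x m * w m n + 2 * mdot b x * x n - mdot x x * b n :=
    funext (h n)
  rw [this]
  unfold mdot
  fun_prop

/-! ### Compression of local fields to subtheories -/

/-- the compression of an operator valued distribution -/
def cmp (i : D →ₗᵢ[ℂ] D') (A : Fn → D' → Completion D') : Fn → D → Completion D :=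
  fun f v => iA i (A f (i v))

lemma isLor_one : GF.IsLor one := by
  refine ⟨fun m n => ?_, ?_, ?_⟩
  · fin_cases m <;> fin_cases n <;> simp [mdot, one, bas, GF.eta, GF.o, Fin.sum_univ_four]
  · simp [one, bas, o]
  · have e : (one : Ix → V) = (1 : Matrix Ix Ix ℝ) := by
      funext m n
      show (if n = m then (1 : ℝ) else 0) = (1 : Matrix Ix Ix ℝ) m n
      rw [Matrix.one_apply]
      by_cases h : m = n
      · rw [if_pos h, if_pos h.symm]
      · rw [if_neg h, if_neg fun e => h e.symm]
    exact (congrArg (Matrix.det (n := Ix) (R := ℝ)) e).trans Matrix.det_one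

theorem IsSubT.cmp_loc (h : IsSubT Q Q' i) {A B : Fn → D' → Completion D'}
    (hA : IsLoc Q' A B) : IsLoc Q (cmp i A) (cmp i B) where
  linf f g c v hf hg := by
    show iA i _ = iA i _ + c • iA i _
    rw [hA.linf f g c _ hf hg, map_add, map_smul]
  linv f c v w hf := by
    show iA i (A f (i (v + c • w))) = iA i _ + c • iA i _
    rw [map_add, map_smul, hA.linv f c _ _ hf, map_add, map_smul]
  cont v := (iA i).continuous.comp (hA.cont (i v))
  adj f v w hf := by
    show inner ℂ (iA i _) _ = inner ℂ _ (iA i _)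
    rw [inner_iA', inner_iA, hA.adj f _ _ hf]
  transl a f v z hf := by
    show inner ℂ _ (iA i _) = inner ℂ _ (iA i _)
    rw [inner_iA, inner_iA, h.U _ _ _ _ one_pos isLor_one, h.U _ _ _ _ one_pos isLor_one,
      hA.transl a f _ _ hf]
  loc C C' f g v z hC hC' hadj hf hg hs := by
    obtain ⟨A', B', hA', hB', hadj', eA, eB⟩ := h.fld C C' hC hC' hadj
    show inner ℂ _ (iA i _) = inner ℂ _ (iA i _)
    rw [inner_iA, inner_iA, eB _ _ (isTest_bar hg), eA _ _ hg]
    exact hA.loc A' B' f g (i v) (i z) hA' hB' hadj' hf hg hs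

lemma chg_cmp (t : Ix → Ix → Fn → D' → Completion D') (X : Ix → V → ℝ) (g : Fn) (v : D) :
    chg (fun m n => cmp i (t m n)) X g v = iA i (chg t X g (i v)) := by
  unfold chg cmp
  rw [map_sum]

lemma comm_cmp {t : Ix → Ix → Fn → D' → Completion D'} {X : Ix → V → ℝ} {A B : GF.Fld D}
    {A' B' : GF.Fld D'} {f : Fn} (eA : ∀ f v, GF.IsTest f → i (A f v) = A' f (i v))
    (eB : ∀ f v, GF.IsTest f → i (B f v) = B' f (i v)) (hf : GF.IsTest f) {w v : D} {c : ℂ}
    (h : Comm t X A' B' f (i w) (i v) c) :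
    Comm (fun m n => cmp i (t m n)) X A B f w v c := by
  intro F hF
  refine (h F hF).congr fun R => ?_
  rw [chg_cmp, chg_cmp, inner_iA, inner_iA', eA _ _ hf, eB _ _ (isTest_bar hf)]

/-- Conformal invariance is inherited by subtheories: the compression of the traceless stress
tensor is a traceless stress tensor of the subtheory. -/
theorem IsSubT.conf (h : IsSubT Q Q' i) {t : Ix → Ix → Fn → D' → Completion D'}
    (ht : IsConf Q' t) : IsConf Q fun m n => cmp i (t m n) where
  loc m n := h.cmp_loc (ht.loc m n)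
  symm m n f v hf := by
    show iA i _ = iA i _
    rw [ht.symm m n f _ hf]
  cov m n s L a f v z hs hL hf := by
    show inner ℂ _ (iA i _) = ∑ k, ∑ l, _ * inner ℂ _ (iA i _)
    rw [inner_iA, h.U s L a _ hs hL, h.U s L a _ hs hL, ht.cov m n s L a f _ _ hs hL hf]
    simp only [inner_iA]
  conserved n f v hf := by
    show ∑ m, iA i _ = 0
    rw [← map_sum, ht.conserved n f _ hf, map_zero]
  trace f v hf := by
    show ∑ m, (GF.eta m : ℂ) • iA i _ = 0
    simp only [← map_smul]
    rw [← map_sum, ht.trace f _ hf, map_zero]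
  simil s L a hc X A B f w v hX hA hB hadj hf hcs := by
    obtain ⟨A', B', hA', hB', hadj', eA, eB⟩ := h.fld A B hA hB hadj
    obtain ⟨d, hd, hd'⟩ := ht.simil s L a hc X A' B' f (i w) (i v) hX hA' hB' hadj' hf hcs
    refine ⟨d, comm_cmp eA eB hf hd, ?_⟩
    refine hd'.congr_of_eventuallyEq (Eventually.of_forall fun e => ?_)
    obtain ⟨h1, h2⟩ := hc.2.2.2 e
    show inner ℂ _ _ = inner ℂ _ _
    rw [← h.U _ _ _ _ h1 h2, ← h.U _ _ _ _ h1 h2, ← eA _ _ hf, i.inner_map_map]
  conf A B hA hB hadj := by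
    obtain ⟨A', B', hA', hB', hadj', eA, eB⟩ := h.fld A B hA hB hadj
    obtain ⟨S, S', K, K', hS, hK, hX⟩ := ht.conf A' B' hA' hB' hadj'
    refine ⟨fun m n => cmp i (S m n), fun m n => cmp i (S' m n), fun m => cmp i (K m),
      fun m => cmp i (K' m), fun m n => h.cmp_loc (hS m n), fun m => h.cmp_loc (hK m), ?_⟩
    intro X f w v hXk hf hc
    have key := comm_cmp eA eB hf (hX X f (i w) (i v) hXk hf hc)
    have e : ∀ n, i (A (pd n fun x => (X n x : ℂ) * f x) v) =
        A' (pd n fun x => (X n x : ℂ) * f x) (i v) :=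
      fun n => eA _ _ (isTest_pd_mul (hXk.contDiff n) hf hc n)
    have e2 : ∀ x : D, ∀ y z : Completion D',
        inner ℂ (w : Completion D) ((x : Completion D) - iA i y - iA i z) =
          inner ℂ ((i w : D') : Completion D') (((i x : D') : Completion D') - y - z) := by
      intro x y z
      rw [← iA_coe i x, ← map_sub, ← map_sub, inner_iA]
    simp only [← e, ← map_sum] at key
    rw [← e2] at key
    simp only [map_sum] at key
    exact key

/-- Two tensors whose charges generate the Poincare transformations have the same charges. -/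
theorem GenPoinc.same {T t : Ix → Ix → Fn → D → Completion D} (h : GenPoinc Q T)
    (h' : GenPoinc Q t) : SameCharges Q T t := by
  intro L a X A B f w v hc hX hA hB hadj hf hcs
  obtain ⟨d, h1, h2⟩ := h L a hc X A B f w v hX hA hB hadj hf hcs
  obtain ⟨d', h1', h2'⟩ := h' L a hc X A B f w v hX hA hB hadj hf hcs
  have e := h2.unique h2'
  subst e
  exact ⟨_, h1, h1'⟩

end Vale.Agent.P352.SubConf

end
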