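import Vale.Agent.P352.GFDefs
import Mathlib.Analysis.InnerProductSpace.Completion

open MeasureTheory Filter Topology
open scoped SchwartzMap ComplexConjugate

namespace Vale.Agent.P352.SubConf

open GF UniformSpace

noncomputable section

variable {D : Type*} [NormedAddCommGroup D] [InnerProductSpace ℂ D]
variable {D' : Type*} [NormedAddCommGroup D'] [InnerProductSpace ℂ D']

/-- `B` is the formal adjoint of `A`. -/
def IsAdj (A B : Fld D) : Prop :=
  ∀ f v w, IsTest f → inner ℂ (A f v) w = inner ℂ v (B (bar f) w)

/-- `A` is a local field of the theory `Q`, with formal adjoint `B`: a translation covariant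
operator valued tempered distribution, relatively local to the fields of `Q`, whose operators map
`D` into the Hilbert space. -/
structure IsLoc (Q : Theory D) (A B : Fn → D → Completion D) : Prop where
  linf : ∀ (f g : Fn) (c : ℂ) v, IsTest f → IsTest g →
    A (fun x => f x + c * g x) v = A f v + c • A g v
  linv : ∀ f (c : ℂ) v w, IsTest f → A f (v + c • w) = A f v + c • A f w
  cont : ∀ v, Continuous fun g => A (ev g) v
  adj : ∀ f (v w : D), IsTest f →
    inner ℂ (A f v) (w : Completion D) = inner ℂ (v : Completion D) (B (bar f) w)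
  transl : ∀ a f (v z : D), IsTest f → inner ℂ (Q.U 1 one a z : Completion D)
    (A f (Q.U 1 one a v)) = inner ℂ (z : Completion D) (A (fun x => f (sim 1 one a x)) v)
  loc : ∀ C C' f g v z, Q.fld C → Q.fld C' → IsAdj C C' → IsTest f → IsTest g → Sep f g →
    inner ℂ (C' (bar g) z : Completion D) (A f v) = inner ℂ (z : Completion D) (A f (C g v))

/-- The conformal Killing vector fields
`X(x) = a + r x + w x + 2 (b, x) x - (x, x) b` with an infinitesimal Lorentz transformation `w`. -/
def IsKil (X : Ix → V → ℝ) : Prop := ∃ (a b : V) (r : ℝ) (w : Ix → V),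
  (∀ m n, eta n * w m n = -(eta m * w n m)) ∧ ∀ n x,
    X n x = a n + r * x n + ∑ m, x m * w m n + 2 * mdot b x * x n - mdot x x * b n

/-- The charge of the current `X^n t_{mn}` with the cutoff `g`. -/
def chg (t : Ix → Ix → Fn → D → Completion D) (X : Ix → V → ℝ) (g : Fn) (v : D) : Completion D :=
  ∑ n, t o n (fun x => (eta n * X n x : ℝ) * g x) v

/-- The matrix element between `w` and `v` of the commutator of the charge of the current
`X^n t_{mn}` with `A f` converges to `c` when the cutoff is removed; `B` is the adjoint of `A`. -/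
def Comm (t : Ix → Ix → Fn → D → Completion D) (X : Ix → V → ℝ) (A B : Fld D) (f : Fn)
    (w v : D) (c : ℂ) : Prop :=
  ∀ F, IsCutoff F → Tendsto (fun R => inner ℂ (chg t X (F R) w) (A f v : Completion D) -
    inner ℂ (B (bar f) w : Completion D) (chg t X (F R) v)) atTop (𝓝 c)

/-- The charges of the currents `X^n t_{mn}` generate the similitudes
`x ↦ s(e) L(e) x + a(e)`, where `X` is the velocity field of this curve at `e = 0`. -/
def Drives (Q : Theory D) (t : Ix → Ix → Fn → D → Completion D) (s : ℝ → ℝ) (L : ℝ → Ix → V)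
    (a : ℝ → V) : Prop := ∀ X A B f w v,
  (∀ n x, HasDerivAt (fun e => sim (s e) (L e) (a e) x n) (X n x) 0) →
  Q.fld A → Q.fld B → IsAdj A B → IsTest f → HasCompactSupport f →
  ∃ d, Comm t X A B f w v (Complex.I * d) ∧ HasDerivAt
    (fun e => inner ℂ (Q.U (s e) (L e) (a e) w) (A f (Q.U (s e) (L e) (a e) v))) d 0

/-- Curves of similitudes that start at the identity. -/
def IsCurve (s : ℝ → ℝ) (L : ℝ → Ix → V) (a : ℝ → V) : Prop :=
  s 0 = 1 ∧ L 0 = one ∧ a 0 = 0 ∧ ∀ e, 0 < s e ∧ IsLor (L e)

/-- The theory `Q` is conformally invariant, with the traceless stress tensor `t`. The components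
`t m n` are hermitian local fields of `Q`. The charges of `X^n t_{mn}` generate the similitudes,
and for every conformal Killing vector field `X` they act on every field `A` by the infinitesimal
conformal transformation `-X^n ∂_n A - (∂_m X^n) S_mn A - (∂_m ∂_n X^n) K_m A` with local fields
`S_mn A` and `K_m A`. -/
structure IsConf (Q : Theory D) (t : Ix → Ix → Fn → D → Completion D) : Prop where
  loc : ∀ m n, IsLoc Q (t m n) (t m n)
  symm : ∀ m n f v, IsTest f → t m n f v = t n m f v
  cov : ∀ m n s L a f v z, 0 < s → IsLor L → IsTest f →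
    inner ℂ (Q.U s L a z : Completion D) (t m n f (Q.U s L a v)) = ∑ k, ∑ l,
      (L k m * L l n : ℂ) * inner ℂ (z : Completion D) (t k l (fun x => f (sim s L a x)) v)
  conserved : ∀ n f v, IsTest f → ∑ m, t m n (pd m f) v = 0
  trace : ∀ f v, IsTest f → ∑ m, (eta m : ℂ) • t m m f v = 0
  simil : ∀ s L a, IsCurve s L a → Drives Q t s L a
  conf : ∀ A B, Q.fld A → Q.fld B → IsAdj A B → ∃ (S S' : Ix → Ix → Fn → D → Completion D)
    (K K' : Ix → Fn → D → Completion D), (∀ m n, IsLoc Q (S m n) (S' m n)) ∧
      (∀ m, IsLoc Q (K m) (K' m)) ∧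
      ∀ X f w v, IsKil X → IsTest f → HasCompactSupport f → Comm t X A B f w v
        (Complex.I * inner ℂ (w : Completion D) (∑ n, (A (pd n fun x => X n x * f x) v) -
          ∑ m, ∑ n, S m n (fun x => pd m (fun y => (X n y : ℂ)) x * f x) v -
          ∑ m, ∑ n, K m (fun x => pd m (pd n fun y => (X n y : ℂ)) x * f x) v))

/-- The charges of `T` generate the translations and Lorentz transformations. -/
def GenPoinc (Q : Theory D) (T : Ix → Ix → Fn → D → Completion D) : Prop :=
  ∀ L a, IsCurve (fun _ => 1) L a → Drives Q T (fun _ => 1) L a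

/-- The translation and Lorentz charges of `t` and `T` agree: their commutators with the fields
have the same limit when the cutoff is removed. -/
def SameCharges (Q : Theory D) (T t : Ix → Ix → Fn → D → Completion D) : Prop :=
  ∀ L a X A B f w v, IsCurve (fun _ => 1) L a →
    (∀ n x, HasDerivAt (fun e => sim 1 (L e) (a e) x n) (X n x) 0) →
    Q.fld A → Q.fld B → IsAdj A B → IsTest f → HasCompactSupport f →
    ∃ c, Comm T X A B f w v c ∧ Comm t X A B f w v c

/-- The theory `Q` is, by means of the isometry `i`, a subtheory of `Q'`: the vacuum and the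
representation of the similitudes are restricted, and the fields of `Q` (with their adjoints) are
restrictions of fields of `Q'`. -/
structure IsSubT (Q : Theory D) (Q' : Theory D') (i : D →ₗᵢ[ℂ] D') : Prop where
  vac : i Q.vac = Q'.vac
  U : ∀ s L a v, 0 < s → IsLor L → i (Q.U s L a v) = Q'.U s L a (i v)
  fld : ∀ A B, Q.fld A → Q.fld B → IsAdj A B → ∃ A' B', Q'.fld A' ∧ Q'.fld B' ∧ IsAdj A' B' ∧
    (∀ f v, IsTest f → i (A f v) = A' f (i v)) ∧ ∀ f v, IsTest f → i (B f v) = B' f (i v)

end

end Vale.Agent.P352.SubConf
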