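import Vale.Agent.P352.H246.SubFDefs
import Vale.Agent.P352.H246.SubConf

set_option linter.all false

noncomputable section

open MeasureTheory SchwartzMap Complex Filter Topology
open scoped SchwartzMap ComplexConjugate ENNReal NNReal

namespace Vale.Agent.P352.SubF

open GF (Ix V Fn Sch ev pd bar sim one bas o mdot)
open UniformSpace (Completion)
open SubConf H755 H846

variable {D : Type*} [NormedAddCommGroup D] [InnerProductSpace ℂ D]
variable {D' : Type*} [NormedAddCommGroup D'] [InnerProductSpace ℂ D']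
variable {Q : GF.Theory D} {Q' : GF.Theory D'} {i : D →ₗᵢ[ℂ] D'}

lemma IsSubF.sub (h : IsSubF Q Q' i) : IsSubT Q Q' i where
  vac := h.vac
  U := h.U
  fld A B hA hB hadj := by
    obtain ⟨A', B', hA', hB', hadj', -, eA, eB⟩ := h.fld A B hA hB hadj
    exact ⟨A', B', hA', hB', hadj', eA, eB⟩

theorem IsSubF.cmp_locF (h : IsSubF Q Q' i) {A : GF.Fld D} {A' : GF.Fld D'}
    (hb : Q.bose A → Q'.bose A') {P P' : Fn → D' → Completion D'}
    (hA : IsLocF Q' A' P P') : IsLocF Q A (cmp i P) (cmp i P') where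
  linf f g c v hf hg := by
    show iA i _ = iA i _ + c • iA i _
    rw [hA.linf f g c _ hf hg, map_add, map_smul]
  linv f c v w hf := by
    show iA i (P f (i (v + c • w))) = iA i _ + c • iA i _
    rw [map_add, map_smul, hA.linv f c _ _ hf, map_add, map_smul]
  cont v := (iA i).continuous.comp (hA.cont (i v))
  adj f v w hf := by
    show inner ℂ (iA i _) _ = inner ℂ _ (iA i _)
    rw [inner_iA', inner_iA, hA.adj f _ _ hf]
  transl a f v z hf := by
    show inner ℂ _ (iA i _) = inner ℂ _ (iA i _)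
    rw [inner_iA, inner_iA, h.U _ _ _ _ one_pos isLor_one, h.U _ _ _ _ one_pos isLor_one,
      hA.transl a f _ _ hf]
  loc C C' f g v z hC hC' hadj hb' hf hg hs := by
    obtain ⟨C₁, C₂, hC₁, hC₂, hadj', hbC, eA, eB⟩ := h.fld C C' hC hC' hadj
    show inner ℂ _ (iA i _) = inner ℂ _ (iA i _)
    rw [inner_iA, inner_iA, eB _ _ (isTest_bar hg), eA _ _ hg]
    exact hA.loc C₁ C₂ f g (i v) (i z) hC₁ hC₂ hadj' (hb'.imp hb hbC) hf hg hs

/-- Conformal invariance is inherited by subtheories: the compression of the traceless stress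
tensor is a traceless stress tensor of the subtheory. -/
theorem IsSubF.confF (h : IsSubF Q Q' i) {t : Ix → Ix → Fn → D' → Completion D'}
    (ht : IsConfF Q' t) : IsConfF Q fun m n => cmp i (t m n) where
  loc m n := h.sub.cmp_loc (ht.loc m n)
  symm m n f v hf := by
    show iA i _ = iA i _
    rw [ht.symm m n f _ hf]
  cov m n s L a f v z hs hL hf := by
    show inner ℂ _ (iA i _) = ∑ k, ∑ l, _ * inner ℂ _ (iA i _)
    rw [inner_iA, h.U s L a _ hs hL, h.U s L a _ hs hL, ht.cov m n s L a f _ _ hs hL hf]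
    simp only [inner_iA]
  conserved n f v hf := by
    show ∑ m, iA i _ = 0
    rw [← map_sum, ht.conserved n f _ hf, map_zero]
  trace f v hf := by
    show ∑ m, (GF.eta m : ℂ) • iA i _ = 0
    simp only [← map_smul]
    rw [← map_sum, ht.trace f _ hf, map_zero]
  simil s L a hc X A B f w v hX hA hB hadj hf hcs := by
    obtain ⟨A', B', hA', hB', hadj', -, eA, eB⟩ := h.fld A B hA hB hadj
    obtain ⟨d, hd, hd'⟩ := ht.simil s L a hc X A' B' f (i w) (i v) hX hA' hB' hadj' hf hcs
    refine ⟨d, comm_cmp eA eB hf hd, ?_⟩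
    refine hd'.congr_of_eventuallyEq (Eventually.of_forall fun e => ?_)
    obtain ⟨h1, h2⟩ := hc.2.2.2 e
    show inner ℂ _ _ = inner ℂ _ _
    rw [← h.U _ _ _ _ h1 h2, ← h.U _ _ _ _ h1 h2, ← eA _ _ hf, i.inner_map_map]
  conf A B hA hB hadj := by
    obtain ⟨A', B', hA', hB', hadj', hb, eA, eB⟩ := h.fld A B hA hB hadj
    obtain ⟨S, S', K, K', hS, hK, hX⟩ := ht.conf A' B' hA' hB' hadj'
    refine ⟨fun m n => cmp i (S m n), fun m n => cmp i (S' m n), fun m => cmp i (K m),
      fun m => cmp i (K' m), fun m n => h.cmp_locF hb (hS m n), fun m => h.cmp_locF hb (hK m), ?_⟩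
    intro X f w v hXk hf hc
    have key := comm_cmp eA eB hf (hX X f (i w) (i v) hXk hf hc)
    have e : ∀ n, i (A (pd n fun x => (X n x : ℂ) * f x) v) =
        A' (pd n fun x => (X n x : ℂ) * f x) (i v) :=
      fun n => eA _ _ (isTest_pd_mul (hXk.contDiff n) hf hc n)
    have e2 : ∀ x : D, ∀ y z : Completion D',
        inner ℂ (w : Completion D) ((x : Completion D) - iA i y - iA i z) =
          inner ℂ ((i w : D') : Completion D') (((i x : D') : Completion D') - y - z) := by
      intro x y z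
      rw [← iA_coe i x, ← map_sub, ← map_sub, inner_iA]
    simp only [← e, ← map_sum] at key
    rw [← e2] at key
    simp only [map_sum] at key
    exact key

end Vale.Agent.P352.SubF

end
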