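import Vale.Agent.P352.H846.ConfFDefs

open MeasureTheory Filter Topology
open scoped SchwartzMap ComplexConjugate

namespace Vale.Agent.P352.SubF

open GF UniformSpace SubConf

noncomputable section

variable {D : Type*} [NormedAddCommGroup D] [InnerProductSpace ℂ D]
variable {D' : Type*} [NormedAddCommGroup D'] [InnerProductSpace ℂ D']

/-- The theory `Q` is, by means of the isometry `i`, a subtheory of `Q'`: the vacuum and the
representation of the similitudes are restricted, and the fields of `Q` (with their adjoints) are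
restrictions of fields of `Q'`, Bose fields of Bose fields. -/
structure IsSubF (Q : Theory D) (Q' : Theory D') (i : D →ₗᵢ[ℂ] D') : Prop where
  vac : i Q.vac = Q'.vac
  U : ∀ s L a v, 0 < s → IsLor L → i (Q.U s L a v) = Q'.U s L a (i v)
  fld : ∀ A B, Q.fld A → Q.fld B → IsAdj A B → ∃ A' B', Q'.fld A' ∧ Q'.fld B' ∧ IsAdj A' B' ∧
    (Q.bose A → Q'.bose A') ∧
    (∀ f v, IsTest f → i (A f v) = A' f (i v)) ∧ ∀ f v, IsTest f → i (B f v) = B' f (i v)

end

end Vale.Agent.P352.SubF
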