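import Vale.Agent.P352.H746.Bk
import Vale.Agent.P352.H746.PtGen
import Vale.Agent.P352.H746.Temp
import Vale.Agent.P352.H993.TrFt

/-!
# Measures on the forward cone that are invariant under a null translation
-/

set_option linter.all false

noncomputable section

open MeasureTheory SchwartzMap Filter Topology
open scoped SchwartzMap ComplexConjugate ENNReal LineDeriv ContDiff

namespace Vale.Agent.P352.H246

open GF (Ix V Fn Sch ev pd bar sim bas o)
open H496 H746
open UniformSpace (Completion)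

variable {D : Type*} [NormedAddCommGroup D] [InnerProductSpace ℂ D]
variable {Q : GF.Theory D}

/-- `x⁻² exp(-1/x)` -/
def eg (x : ℝ) : ℝ := x⁻¹ ^ 2 * expNegInvGlue x

lemma eg_deriv (x : ℝ) : HasDerivAt expNegInvGlue (eg x) x := by
  have h := expNegInvGlue.hasDerivAt_polynomial_eval_inv_mul 1 x
  simpa [eg] using h

lemma eg_nonneg (x : ℝ) : 0 ≤ eg x := mul_nonneg (sq_nonneg _) (expNegInvGlue.nonneg x)

lemma eg_pos {x : ℝ} (h : 0 < x) : 0 < eg x :=
  mul_pos (pow_pos (inv_pos.2 h) 2) (expNegInvGlue.pos_of_pos h)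

lemma eg_zero {x : ℝ} (h : x ≤ 0) : eg x = 0 := by
  rw [eg, expNegInvGlue.zero_of_nonpos h, mul_zero]

lemma norm_cone {p : Mink} (hp : p ∈ fwdCone) : ‖p‖ ≤ 2 * p 0 := by
  obtain ⟨h1, h2⟩ := hp
  have h3 : ‖p‖ ^ 2 ≤ (2 * p 0) ^ 2 := by
    rw [EuclideanSpace.norm_sq_eq]
    simp only [Fin.sum_univ_four, Real.norm_eq_abs, sq_abs]
    unfold mdot at h2
    nlinarith [sq_nonneg (p 0)]
  exact le_of_sq_le_sq h3 (by linarith)

/-- the bump function -/
def bmp (R : ℝ) (hR : 0 < R) : ContDiffBump (0 : Mink) := ⟨2 * R + 1, 2 * R + 2, by linarith, by linarith⟩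

/-- the first test function -/
def t1 (R : ℝ) (hR : 0 < R) : 𝓢(Mink, ℂ) :=
  HasCompactSupport.toSchwartzMap (f := fun p => ((bmp R hR p : ℝ) : ℂ))
    ((bmp R hR).hasCompactSupport.comp_left (g := fun r : ℝ => (r : ℂ)) (by simp))
    (Complex.ofRealCLM.contDiff.comp (bmp R hR).contDiff)

lemma cd_coord : ContDiff ℝ ∞ fun p : Mink => p 0 := by fun_prop

/-- the second test function -/
def t2 (R : ℝ) (hR : 0 < R) : 𝓢(Mink, ℂ) :=
  HasCompactSupport.toSchwartzMap
    (f := fun p => ((expNegInvGlue (R - p 0) * bmp R hR p : ℝ) : ℂ))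
    (((bmp R hR).hasCompactSupport.mul_left (f := fun p : Mink => expNegInvGlue (R - p 0))).comp_left
      (g := fun r : ℝ => (r : ℂ)) (by simp))
    (Complex.ofRealCLM.contDiff.comp
      ((expNegInvGlue.contDiff.comp (contDiff_const.sub cd_coord)).mul (bmp R hR).contDiff))

lemma t1_apply (R : ℝ) (hR : 0 < R) (p : Mink) : t1 R hR p = ((bmp R hR p : ℝ) : ℂ) := rfl

lemma t2_apply (R : ℝ) (hR : 0 < R) (p : Mink) :
    t2 R hR p = ((expNegInvGlue (R - p 0) * bmp R hR p : ℝ) : ℂ) := rfl

lemma bmp_near {R : ℝ} (hR : 0 < R) {p : Mink} (hp : p ∈ fwdCone) (h : p 0 < R) :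
    ∀ᶠ q in 𝓝 p, bmp R hR q = 1 := by
  have h1 : ‖p‖ < 2 * R + 1 := by linarith [norm_cone hp]
  have h2 : Metric.ball (0 : Mink) (2 * R + 1) ∈ 𝓝 p :=
    Metric.isOpen_ball.mem_nhds (by rw [Metric.mem_ball, dist_zero_right]; exact h1)
  filter_upwards [h2] with q hq
  refine (bmp R hR).one_of_mem_closedBall ?_
  exact Metric.ball_subset_closedBall hq

lemma ld_at (f : 𝓢(Mink, ℂ)) (v p : Mink) {d : ℂ}
    (h : HasDerivAt (fun t : ℝ => f (p + t • v)) d 0) : (∂_{v} f : 𝓢(Mink, ℂ)) p = d := by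
  have h2 : HasDerivAt (fun t : ℝ => f (p + t • v)) ((∂_{v} f : 𝓢(Mink, ℂ)) p) 0 :=
    (f.differentiableAt.hasFDerivAt (x := p)).hasLineDerivAt v
  exact h2.unique h

lemma cont_line (p v : Mink) : Tendsto (fun t : ℝ => p + t • v) (𝓝 0) (𝓝 p) := by
  have h : Continuous fun t : ℝ => p + t • v := by fun_prop
  simpa using h.tendsto 0

lemma dS_t1 {R : ℝ} (hR : 0 < R) (a : V) {p : Mink} (hp : p ∈ fwdCone) (h : p 0 < R) :
    H993.dS a (t1 R hR) p = 0 := by
  have h1 : ∀ m, (∂_{eb m} (t1 R hR) : 𝓢(Mink, ℂ)) p = 0 := by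
    intro m
    refine ld_at _ _ _ ((hasDerivAt_const (0 : ℝ) (1 : ℂ)).congr_of_eventuallyEq ?_)
    filter_upwards [(cont_line p (eb m)).eventually (bmp_near hR hp h)] with t ht
    rw [t1_apply, ht, Complex.ofReal_one]
  unfold H993.dS
  rw [SchwartzMap.sum_apply]
  simp only [SchwartzMap.smul_apply, h1, smul_zero, Finset.sum_const_zero]

lemma dS_t2 {R : ℝ} (hR : 0 < R) (a : V) {p : Mink} (hp : p ∈ fwdCone) :
    H993.dS a (t2 R hR) p = ((-(a 0 * eg (R - p 0)) : ℝ) : ℂ) := by
  have h1 : ∀ m, (∂_{eb m} (t2 R hR) : 𝓢(Mink, ℂ)) p =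
      (((if m = 0 then (-1 : ℝ) else 0) * eg (R - p 0) : ℝ) : ℂ) := by
    intro m
    have hE : HasDerivAt (fun t : ℝ => expNegInvGlue (R - (p + t • eb m) 0))
        ((if m = 0 then (-1 : ℝ) else 0) * eg (R - p 0)) 0 := by
      have hl : HasDerivAt (fun t : ℝ => R - (p + t • eb m) 0) (if m = 0 then (-1 : ℝ) else 0) 0 := by
        have e : (fun t : ℝ => R - (p + t • eb m) 0) =
            fun t : ℝ => (R - p 0) + t * (if m = 0 then (-1 : ℝ) else 0) := by
          funext t
          by_cases hm : m = 0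
          · subst hm
            simp [eb]
            ring
          · have : (eb m : Mink) 0 = 0 := by simp [eb, Ne.symm hm]
            simp [this, hm]
        rw [e]
        simpa using ((hasDerivAt_id (0:ℝ)).mul_const (if m = 0 then (-1 : ℝ) else 0)).const_add
          (R - p 0)
      have h2 : HasDerivAt expNegInvGlue (eg (R - p 0)) ((fun t : ℝ => R - (p + t • eb m) 0) 0) := by
        have e : (fun t : ℝ => R - (p + t • eb m) 0) 0 = R - p 0 := by simp
        rw [e]
        exact eg_deriv _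
      have h3 := h2.comp (0 : ℝ) hl
      rw [mul_comm] at h3
      exact h3
    by_cases h : p 0 < R
    · refine ld_at _ _ _ (hE.ofReal_comp.congr_of_eventuallyEq ?_)
      filter_upwards [(cont_line p (eb m)).eventually (bmp_near hR hp h)] with t ht
      rw [t2_apply, ht, mul_one]
    · push Not at h
      have hz : R - p 0 ≤ 0 := by linarith
      have hb : HasDerivAt (fun t : ℝ => bmp R hR (p + t • eb m))
          (deriv (fun t : ℝ => bmp R hR (p + t • eb m)) 0) 0 := by
        have hd : DifferentiableAt ℝ (fun t : ℝ => bmp R hR (p + t • eb m)) 0 := by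
          have h4 : ContDiff ℝ 1 (fun t : ℝ => bmp R hR (p + t • eb m)) :=
            (bmp R hR).contDiff.comp (by fun_prop)
          exact h4.differentiable (by norm_num) 0
        exact hd.hasDerivAt
      have h5 := (hE.mul hb).ofReal_comp
      refine ld_at _ _ _ ?_
      have e : (((if m = 0 then (-1 : ℝ) else 0) * eg (R - p 0) : ℝ) : ℂ) =
          (((if m = 0 then (-1 : ℝ) else 0) * eg (R - p 0) * bmp R hR (p + (0:ℝ) • eb m) +
            expNegInvGlue (R - (p + (0:ℝ) • eb m) 0) *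
              deriv (fun t : ℝ => bmp R hR (p + t • eb m)) 0 : ℝ) : ℂ) := by
        have e1 : (p + (0:ℝ) • eb m) 0 = p 0 := by simp
        rw [e1, expNegInvGlue.zero_of_nonpos hz, eg_zero hz]
        simp
      rw [e]
      exact h5
  unfold H993.dS
  rw [SchwartzMap.sum_apply]
  simp only [SchwartzMap.smul_apply, h1, smul_eq_mul, Fin.sum_univ_four]
  simp

/-- **(S)** a covariant family on which the multiplication by `a·x` is symmetric vanishes -/
theorem sup_zero {a : V} {Y : 𝓢(Mink, ℂ) →L[ℂ] D} {μ : Measure Mink}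
    (Kd : Cvd Q ((UniformSpace.Completion.toComplL (𝕜 := ℂ) (E := D)).comp Y) μ)
    (ha : IsNull a)
    (h : ∀ F G, (inner ℂ (Y F) (Y (axL a G)) : ℂ) = inner ℂ (Y (axL a F)) (Y G))
    (F : 𝓢(Mink, ℂ)) : Y F = 0 := by
  haveI := Kd.temp
  have ha0 : 0 < a 0 := ha.2
  have hax : ∀ f : 𝓢(Mink, ℂ), axL a f = H993.axS a f := by
    intro f
    unfold axL H993.axS
    rw [ContinuousLinearMap.sum_apply]
    rfl
  have two : ∀ f g : 𝓢(Mink, ℂ), (inner ℂ (Y f) (Y g) : ℂ) =
      ∫ p, conj (mftS f p) * mftS g p ∂μ := by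
    intro f g
    have h1 : inner ℂ ((Y f : D) : Completion D) ((Y g : D) : Completion D) =
      ∫ p, conj (mft f p) * mft g p ∂μ := Kd.two f g
    rw [← UniformSpace.Completion.inner_coe]
    simpa only [mftS_apply] using h1
  -- the integral identity
  have key : ∀ φ ψ : 𝓢(Mink, ℂ), ∫ p, conj (φ p) * H993.dS a ψ p ∂μ =
      -∫ p, conj (H993.dS a φ p) * ψ p ∂μ := by
    intro φ ψ
    obtain ⟨f, rfl⟩ := mftS_surj φ
    obtain ⟨g, rfl⟩ := mftS_surj ψ
    have h1 := h f g
    rw [two, two, hax, hax, H993.mftS_axS, H993.mftS_axS] at h1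
    have e1 : ∫ p, conj (mftS f p) * ((-Complex.I) • H993.dS a (mftS g)) p ∂μ =
        -Complex.I * ∫ p, conj (mftS f p) * H993.dS a (mftS g) p ∂μ := by
      rw [← integral_const_mul]
      refine integral_congr_ae (Eventually.of_forall fun p => ?_)
      simp only [SchwartzMap.smul_apply, smul_eq_mul]
      ring
    have e2 : ∫ p, conj (((-Complex.I) • H993.dS a (mftS f)) p) * mftS g p ∂μ =
        Complex.I * ∫ p, conj (H993.dS a (mftS f) p) * mftS g p ∂μ := by
      rw [← integral_const_mul]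
      refine integral_congr_ae (Eventually.of_forall fun p => ?_)
      simp only [SchwartzMap.smul_apply, smul_eq_mul, map_mul, map_neg, Complex.conj_I, neg_neg]
      ring
    rw [e1, e2] at h1
    have h2 : Complex.I * (∫ p, conj (mftS f p) * H993.dS a (mftS g) p ∂μ) =
        Complex.I * (-∫ p, conj (H993.dS a (mftS f) p) * mftS g p ∂μ) := by
      linear_combination -h1
    exact mul_left_cancel₀ Complex.I_ne_zero h2
  -- the measure vanishes on `p 0 < R`
  have hR : ∀ R : ℝ, 0 < R → ∀ᵐ p ∂μ, ¬ p 0 < R := by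
    intro R hR
    have k := key (t1 R hR) (t2 R hR)
    have e1 : ∫ p, conj (H993.dS a (t1 R hR) p) * t2 R hR p ∂μ = 0 := by
      refine integral_eq_zero_of_ae ?_
      filter_upwards [Kd.cone] with p hp
      by_cases h : p 0 < R
      · rw [dS_t1 hR a hp h]; simp
      · push Not at h
        rw [t2_apply, expNegInvGlue.zero_of_nonpos (by linarith)]; simp
    have ae : (fun p => conj (t1 R hR p) * H993.dS a (t2 R hR) p) =ᵐ[μ]
        fun p => H993.dS a (t2 R hR) p := by
      filter_upwards [Kd.cone] with p hp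
      by_cases h : p 0 < R
      · rw [t1_apply, (bmp_near hR hp h).self_of_nhds]; simp
      · push Not at h
        rw [dS_t2 hR a hp, eg_zero (by linarith)]; simp
    rw [integral_congr_ae ae, e1, neg_zero] at k
    have hi : Integrable (fun p => H993.dS a (t2 R hR) p) μ :=
      (H993.dS a (t2 R hR)).integrable (μ := μ)
    have ae2 : (fun p => H993.dS a (t2 R hR) p) =ᵐ[μ]
        fun p => ((-(a 0 * eg (R - p 0)) : ℝ) : ℂ) := by
      filter_upwards [Kd.cone] with p hp
      exact dS_t2 hR a hp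
    rw [integral_congr_ae ae2, integral_complex_ofReal] at k
    have hi2 := (hi.congr ae2).re
    have hi3 : Integrable (fun p : Mink => a 0 * eg (R - p 0)) μ := by
      have := hi2.neg
      refine this.congr (Eventually.of_forall fun p => ?_)
      simp
    have k2 : ∫ p : Mink, a 0 * eg (R - p 0) ∂μ = 0 := by
      have : ∫ p : Mink, -(a 0 * eg (R - p 0)) ∂μ = 0 := by exact_mod_cast k
      rw [integral_neg] at this
      linarith
    rw [integral_eq_zero_iff_of_nonneg (fun p => mul_nonneg ha0.le (eg_nonneg _)) hi3] at k2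
    filter_upwards [k2] with p hp h
    have : 0 < a 0 * eg (R - p 0) := mul_pos ha0 (eg_pos (by linarith))
    exact this.ne' hp
  have hμ : μ = 0 := by
    rw [← Measure.measure_univ_eq_zero]
    have h1 : ∀ᵐ p ∂μ, False := by
      have h2 : ∀ᵐ p ∂μ, ∀ n : ℕ, ¬ p 0 < (n + 1 : ℝ) :=
        ae_all_iff.2 fun n => hR _ (by positivity)
      filter_upwards [h2] with p hp
      obtain ⟨n, hn⟩ := exists_nat_gt (p 0)
      exact hp n (by linarith)
    have h3 := ae_iff.1 h1
    simpa using h3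
  have h1 := two F F
  rw [hμ, integral_zero_measure, inner_self_eq_zero] at h1
  exact h1

end Vale.Agent.P352.H246

end
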