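import Vale.Agent.P352.H246.Conf

set_option linter.all false

noncomputable section

open MeasureTheory SchwartzMap Complex Filter Topology
open scoped SchwartzMap ComplexConjugate ENNReal LineDeriv

namespace Vale.Agent.P352.H246

open GF (Ix V Fn Sch ev pd bar sim one bas o)

lemma contDiff_iter (g : 𝓢(Mink, ℂ)) (n m : ℕ) : ContDiff ℝ m (iteratedFDeriv ℝ n g) :=
  (g.smooth (m + n)).iteratedFDeriv_right (by norm_cast)

lemma iter_lineDeriv (g : 𝓢(Mink, ℂ)) (e : Mink) (n : ℕ) (y : Mink) (m : Fin n → Mink) :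
    iteratedFDeriv ℝ n (fun x => fderiv ℝ g x e) y m =
      fderiv ℝ (fun z => iteratedFDeriv ℝ n g z m) y e := by
  induction n generalizing y with
  | zero =>
    simp only [iteratedFDeriv_zero_apply]
  | succ n ih =>
    have hG := contDiff_iter g n 2
    have hf1 : ContDiff ℝ (n + 1 : ℕ) (fun x => fderiv ℝ g x e) :=
      (((g.smooth (n + 2)).fderiv_right (m := (n + 1 : ℕ)) (by norm_cast)).clm_apply
        contDiff_const)
    have hfd : DifferentiableAt ℝ (iteratedFDeriv ℝ n fun x => fderiv ℝ g x e) y :=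
      (hf1.differentiable_iteratedFDeriv (by norm_cast; omega)) y
    have hGd : ∀ z, DifferentiableAt ℝ (iteratedFDeriv ℝ n g) z := fun z =>
      (hG.differentiable (by norm_num)) z
    rw [hfd.iteratedFDeriv_succ_apply_left']
    have e1 : (fun z => iteratedFDeriv ℝ (n + 1) g z m) = fun z =>
        fderiv ℝ (fun w => iteratedFDeriv ℝ n g w (Fin.tail m)) z (m 0) := by
      funext z
      rw [(hGd z).iteratedFDeriv_succ_apply_left']
    rw [e1]
    have e2 : (fun z => iteratedFDeriv ℝ n (fun x => fderiv ℝ g x e) z (Fin.tail m)) = fun z =>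
        fderiv ℝ (fun w => iteratedFDeriv ℝ n g w (Fin.tail m)) z e := by
      funext z
      rw [ih]
    rw [e2]
    set H : Mink → ℂ := fun w => iteratedFDeriv ℝ n g w (Fin.tail m) with hH
    have hH2 : ContDiff ℝ 2 H := by
      have : H = (ContinuousMultilinearMap.apply ℝ (fun _ : Fin n => Mink) ℂ (Fin.tail m)) ∘
        iteratedFDeriv ℝ n g := rfl
      rw [this]
      exact (ContinuousLinearMap.contDiff _).comp hG
    have hd : DifferentiableAt ℝ (fderiv ℝ H) y :=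
      (hH2.fderiv_right (m := 1) (by norm_num)).differentiable (by norm_num) y
    rw [fderiv_clm_apply hd (differentiableAt_const _),
      fderiv_clm_apply hd (differentiableAt_const _)]
    have hs : IsSymmSndFDerivAt ℝ H y := (hH2.contDiffAt (x := y)).isSymmSndFDerivAt (by simp)
    simp
    exact hs.eq _ _

lemma iter_tauS (g : 𝓢(Mink, ℂ)) (n : ℕ) (a x : Mink) :
    iteratedFDeriv ℝ n (tauS a g) x = iteratedFDeriv ℝ n g (x - a) := by
  have : (tauS a g : Mink → ℂ) = fun y => g (y - a) := by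
    funext y; rw [tauS_apply]
  rw [this]
  exact iteratedFDeriv_comp_sub n a x

lemma coe_lineDeriv (g : 𝓢(Mink, ℂ)) (e : Mink) :
    ((∂_{e} g : 𝓢(Mink, ℂ)) : Mink → ℂ) = fun x => fderiv ℝ g x e := rfl

lemma exists_shift (g : 𝓢(Mink, ℂ)) (e : Mink) (k n : ℕ) : ∃ C : ℝ, 0 ≤ C ∧
    ∀ s : ℝ, |s| ≤ 1 → SchwartzMap.seminorm ℂ k n (tauS (s • e) g - g) ≤ C * |s| := by
  refine ⟨2 ^ k * (SchwartzMap.seminorm ℂ k (n + 1) g +
    ‖e‖ ^ k * SchwartzMap.seminorm ℂ 0 (n + 1) g) * ‖e‖, by positivity, fun s hs => ?_⟩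
  have h := seminorm_shift_sub_le g k n (s • e) 0 ‖e‖ (by
    rw [norm_smul, Real.norm_eq_abs]
    exact mul_le_of_le_one_left (norm_nonneg _) hs) (by simp)
  have h0 : compSubConstCLM ℂ (0 : Mink) g = g := tauS_zero' g
  rw [h0, sub_zero, norm_smul, Real.norm_eq_abs] at h
  refine h.trans (le_of_eq ?_)
  ring

lemma seminorm_taylor (g : 𝓢(Mink, ℂ)) (e : Mink) (k n : ℕ) : ∃ C : ℝ, 0 ≤ C ∧
    ∀ t : ℝ, |t| ≤ 1 → SchwartzMap.seminorm ℂ k n
      (tauS (t • e) g - g + (t : ℂ) • (∂_{e} g : 𝓢(Mink, ℂ))) ≤ C * |t| * |t| := by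
  obtain ⟨C, hC0, hC⟩ := exists_shift (∂_{e} g : 𝓢(Mink, ℂ)) e k n
  refine ⟨C, hC0, fun t ht => ?_⟩
  refine seminorm_le_bound ℂ k n _ (by positivity) fun x => ?_
  have hdg : ContDiff ℝ n ((∂_{e} g : 𝓢(Mink, ℂ)) : Mink → ℂ) :=
    (∂_{e} g : 𝓢(Mink, ℂ)).smooth n
  have e0 : iteratedFDeriv ℝ n (⇑(tauS (t • e) g - g + (t : ℂ) • (∂_{e} g : 𝓢(Mink, ℂ)))) x =
      iteratedFDeriv ℝ n g (x - t • e) - iteratedFDeriv ℝ n g x +
        t • iteratedFDeriv ℝ n (∂_{e} g : 𝓢(Mink, ℂ)) x := by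
    have h1 : (⇑(tauS (t • e) g - g + (t : ℂ) • (∂_{e} g : 𝓢(Mink, ℂ))) : Mink → ℂ) =
        (⇑(tauS (t • e) g) - ⇑g) + t • ⇑(∂_{e} g : 𝓢(Mink, ℂ)) := by
      funext y
      simp
    have c1 : ContDiffAt ℝ n (⇑(tauS (t • e) g)) x := ((tauS (t • e) g).smooth n).contDiffAt
    have c2 : ContDiffAt ℝ n (⇑g) x := (g.smooth n).contDiffAt
    have c3 : ContDiffAt ℝ n (⇑(tauS (t • e) g) - ⇑g) x := c1.sub c2
    have c4 : ContDiffAt ℝ n (t • ⇑(∂_{e} g : 𝓢(Mink, ℂ))) x := hdg.contDiffAt.const_smul t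
    rw [h1, iteratedFDeriv_add_apply c3 c4, iteratedFDeriv_sub_apply c1 c2, iter_tauS,
      iteratedFDeriv_const_smul_apply hdg.contDiffAt]
  rw [e0]
  have key : ∀ m : Fin n → Mink, ‖x‖ ^ k * ‖(iteratedFDeriv ℝ n g (x - t • e) -
      iteratedFDeriv ℝ n g x + t • iteratedFDeriv ℝ n (∂_{e} g : 𝓢(Mink, ℂ)) x) m‖ ≤
      C * |t| * |t| * ∏ i, ‖m i‖ := by
    intro m
    set φ : ℝ → ℂ := fun s => iteratedFDeriv ℝ n g (x - s • e) m +
      (s : ℂ) * iteratedFDeriv ℝ n (∂_{e} g : 𝓢(Mink, ℂ)) x m with hφ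
    have hder : ∀ s : ℝ, HasDerivAt φ (-(iteratedFDeriv ℝ n (∂_{e} g : 𝓢(Mink, ℂ)) (x - s • e) m) +
        iteratedFDeriv ℝ n (∂_{e} g : 𝓢(Mink, ℂ)) x m) s := by
      intro s
      have hG : DifferentiableAt ℝ (fun z => iteratedFDeriv ℝ n g z m) (x - s • e) := by
        have : (fun z => iteratedFDeriv ℝ n g z m) =
          (ContinuousMultilinearMap.apply ℝ (fun _ : Fin n => Mink) ℂ m) ∘
            iteratedFDeriv ℝ n g := rfl
        rw [this]
        exact (ContinuousLinearMap.differentiableAt _).comp _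
          ((contDiff_iter g n 1).differentiable (by norm_num) _)
      have h1 : HasDerivAt (fun s : ℝ => x - s • e) (-e) s := by
        simpa using ((hasDerivAt_id s).smul_const e).const_sub x
      have h2 := hG.hasFDerivAt.comp_hasDerivAt s h1
      have h3 : fderiv ℝ (fun z => iteratedFDeriv ℝ n g z m) (x - s • e) (-e) =
          -(iteratedFDeriv ℝ n (∂_{e} g : 𝓢(Mink, ℂ)) (x - s • e) m) := by
        rw [map_neg, coe_lineDeriv, iter_lineDeriv]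
      rw [h3] at h2
      have h4 : HasDerivAt (fun s : ℝ => (s : ℂ) * iteratedFDeriv ℝ n (∂_{e} g : 𝓢(Mink, ℂ)) x m)
          (iteratedFDeriv ℝ n (∂_{e} g : 𝓢(Mink, ℂ)) x m) s := by
        simpa using (Complex.ofRealCLM.hasDerivAt (x := s)).mul_const
          (iteratedFDeriv ℝ n (∂_{e} g : 𝓢(Mink, ℂ)) x m)
      exact h2.add h4
    have hbd : ∀ s ∈ Metric.closedBall (0 : ℝ) |t|, ‖(‖x‖ ^ k : ℝ) •
        (-(iteratedFDeriv ℝ n (∂_{e} g : 𝓢(Mink, ℂ)) (x - s • e) m) +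
        iteratedFDeriv ℝ n (∂_{e} g : 𝓢(Mink, ℂ)) x m)‖ ≤ C * |t| * ∏ i, ‖m i‖ := by
      intro s hs
      rw [Metric.mem_closedBall, dist_zero_right, Real.norm_eq_abs] at hs
      have h1 := hC s (hs.trans ht)
      have h2 := le_seminorm ℂ k n (tauS (s • e) (∂_{e} g : 𝓢(Mink, ℂ)) -
        (∂_{e} g : 𝓢(Mink, ℂ))) x
      have h3 : iteratedFDeriv ℝ n (⇑(tauS (s • e) (∂_{e} g : 𝓢(Mink, ℂ)) -
          (∂_{e} g : 𝓢(Mink, ℂ)))) x = iteratedFDeriv ℝ n (∂_{e} g : 𝓢(Mink, ℂ)) (x - s • e) -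
            iteratedFDeriv ℝ n (∂_{e} g : 𝓢(Mink, ℂ)) x := by
        have h4 : (⇑(tauS (s • e) (∂_{e} g : 𝓢(Mink, ℂ)) - (∂_{e} g : 𝓢(Mink, ℂ))) : Mink → ℂ) =
          ⇑(tauS (s • e) (∂_{e} g : 𝓢(Mink, ℂ))) - ⇑(∂_{e} g : 𝓢(Mink, ℂ)) := rfl
        rw [h4, iteratedFDeriv_sub_apply (((tauS (s • e) _).smooth n).contDiffAt)
          hdg.contDiffAt, iter_tauS]
      rw [h3] at h2
      rw [norm_smul, Real.norm_of_nonneg (by positivity)]
      have h5 : ‖-(iteratedFDeriv ℝ n (∂_{e} g : 𝓢(Mink, ℂ)) (x - s • e) m) +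
          iteratedFDeriv ℝ n (∂_{e} g : 𝓢(Mink, ℂ)) x m‖ ≤
          ‖iteratedFDeriv ℝ n (∂_{e} g : 𝓢(Mink, ℂ)) (x - s • e) -
            iteratedFDeriv ℝ n (∂_{e} g : 𝓢(Mink, ℂ)) x‖ * ∏ i, ‖m i‖ := by
        rw [← norm_neg, neg_add, neg_neg, ← sub_eq_add_neg]
        exact (iteratedFDeriv ℝ n (∂_{e} g : 𝓢(Mink, ℂ)) (x - s • e) -
            iteratedFDeriv ℝ n (∂_{e} g : 𝓢(Mink, ℂ)) x).le_opNorm m
      have hp : 0 ≤ ∏ i, ‖m i‖ := Finset.prod_nonneg fun i _ => norm_nonneg _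
      calc _ ≤ ‖x‖ ^ k * (‖iteratedFDeriv ℝ n (∂_{e} g : 𝓢(Mink, ℂ)) (x - s • e) -
            iteratedFDeriv ℝ n (∂_{e} g : 𝓢(Mink, ℂ)) x‖ * ∏ i, ‖m i‖) := by gcongr
        _ = (‖x‖ ^ k * ‖iteratedFDeriv ℝ n (∂_{e} g : 𝓢(Mink, ℂ)) (x - s • e) -
            iteratedFDeriv ℝ n (∂_{e} g : 𝓢(Mink, ℂ)) x‖) * ∏ i, ‖m i‖ := by ring
        _ ≤ (C * |s|) * ∏ i, ‖m i‖ := mul_le_mul_of_nonneg_right (h2.trans h1) hp
        _ ≤ C * |t| * ∏ i, ‖m i‖ := by gcongr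
    have hmv := (convex_closedBall (0 : ℝ) |t|).norm_image_sub_le_of_norm_hasDerivWithin_le
      (f := fun s => (‖x‖ ^ k : ℝ) • φ s)
      (fun s _ => ((hder s).const_smul (‖x‖ ^ k : ℝ)).hasDerivWithinAt) hbd
      (x := 0) (y := t) (by simp) (by simp)
    rw [← smul_sub, norm_smul, Real.norm_of_nonneg (by positivity), sub_zero,
      Real.norm_eq_abs] at hmv
    have e1 : φ t - φ 0 = (iteratedFDeriv ℝ n g (x - t • e) -
      iteratedFDeriv ℝ n g x + t • iteratedFDeriv ℝ n (∂_{e} g : 𝓢(Mink, ℂ)) x) m := by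
      simp only [hφ, zero_smul, sub_zero, ofReal_zero, zero_mul, add_zero,
        ContinuousMultilinearMap.add_apply, ContinuousMultilinearMap.sub_apply,
        ContinuousMultilinearMap.smul_apply, real_smul]
      ring
    rw [e1] at hmv
    refine hmv.trans (le_of_eq ?_)
    ring
  rcases eq_or_lt_of_le (pow_nonneg (norm_nonneg x) k) with h0 | h0
  · rw [← h0, zero_mul]; positivity
  · rw [← le_div_iff₀' h0]
    refine ContinuousMultilinearMap.opNorm_le_bound (by positivity) fun m => ?_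
    have := key m
    rw [div_mul_eq_mul_div, le_div_iff₀' h0]
    exact this

/-- translations are differentiable in Schwartz space -/
lemma tendsto_shift (g : 𝓢(Mink, ℂ)) (e : Mink) :
    Tendsto (fun t : ℝ => ((t : ℂ)⁻¹) • (tauS (t • e) g - g)) (𝓝[≠] 0)
      (𝓝 (-(∂_{e} g : 𝓢(Mink, ℂ)))) := by
  rw [(schwartz_withSeminorms ℂ Mink ℂ).tendsto_nhds]
  intro i ε hε
  obtain ⟨C, hC0, hC⟩ := seminorm_taylor g e i.1 i.2
  have hball : Metric.ball (0 : ℝ) (min 1 (ε / (C + 1))) ∈ 𝓝 (0 : ℝ) :=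
    Metric.ball_mem_nhds 0 (by positivity)
  filter_upwards [nhdsWithin_le_nhds hball, self_mem_nhdsWithin] with t ht ht0
  have ht0' : (t : ℂ) ≠ 0 := by exact_mod_cast ht0
  rw [Metric.mem_ball, dist_zero_right, Real.norm_eq_abs] at ht
  have h1 : |t| ≤ 1 := ht.le.trans (min_le_left _ _)
  have h2 : |t| < ε / (C + 1) := ht.trans_le (min_le_right _ _)
  have e1 : (t : ℂ)⁻¹ • (tauS (t • e) g - g) - -(∂_{e} g : 𝓢(Mink, ℂ)) =
      (t : ℂ)⁻¹ • (tauS (t • e) g - g + (t : ℂ) • (∂_{e} g : 𝓢(Mink, ℂ))) := by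
    rw [smul_add, smul_smul, inv_mul_cancel₀ ht0', one_smul, sub_neg_eq_add]
  rw [e1]
  change SchwartzMap.seminorm ℂ i.1 i.2 _ < ε
  rw [map_smul_eq_mul, norm_inv, norm_real, Real.norm_eq_abs]
  have ht1 : 0 < |t| := abs_pos.2 ht0
  calc |t|⁻¹ * SchwartzMap.seminorm ℂ i.1 i.2 _ ≤ |t|⁻¹ * (C * |t| * |t|) := by
        gcongr; exact hC t h1
    _ = C * |t| := by field_simp
    _ ≤ (C + 1) * |t| := by gcongr; linarith
    _ < (C + 1) * (ε / (C + 1)) := by gcongr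
    _ = ε := by field_simp

end Vale.Agent.P352.H246

end
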