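import Vale.Agent.P352.H246.Taylor
import Mathlib.Analysis.Complex.LocallyUniformLimit
import Mathlib.Analysis.Complex.PhragmenLindelof

set_option linter.all false

noncomputable section

open MeasureTheory SchwartzMap Complex Filter Topology
open scoped SchwartzMap ComplexConjugate ENNReal LineDeriv

namespace Vale.Agent.P352.H246

open GF (Ix V Fn Sch ev pd bar sim one bas o)

variable {μ : Measure Mink}

/-- functions that extend holomorphically along all future directed lines -/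
def LineHol (N : ℕ) (F : Mink → ℂ) : Prop := ∀ (a v : Mink), (∀ p ∈ fwdCone, 0 ≤ mdot p v) →
  ∃ G : ℂ → ℂ, ContinuousOn G {z | 0 ≤ z.im} ∧ DifferentiableOn ℂ G {z | 0 < z.im} ∧
    (∃ M, ∀ z : ℂ, 0 ≤ z.im → ‖G z‖ ≤ M) ∧ ∀ r : ℝ, G r = F (a + r • v) * ((r : ℂ) + I)⁻¹ ^ N

lemma add_I_ne {z : ℂ} (hz : 0 ≤ z.im) : z + I ≠ 0 := by
  intro h
  have := congrArg Complex.im h
  simp at this
  linarith

lemma norm_add_I_ge {z : ℂ} (hz : 0 ≤ z.im) : 1 ≤ ‖z + I‖ := by
  calc (1 : ℝ) ≤ |(z + I).im| := by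
        rw [add_im, I_im, abs_of_nonneg (by linarith)]; linarith
    _ ≤ ‖z + I‖ := abs_im_le_norm _

lemma norm_inv_add_I_le {z : ℂ} (hz : 0 ≤ z.im) : ‖(z + I)⁻¹‖ ≤ 1 := by
  rw [norm_inv]
  exact inv_le_one_of_one_le₀ (norm_add_I_ge hz)

lemma cont_inv : ContinuousOn (fun z : ℂ => (z + I)⁻¹) {z | 0 ≤ z.im} := by
  apply ContinuousOn.inv₀ (by fun_prop)
  intro z hz
  exact add_I_ne hz

lemma diff_inv : DifferentiableOn ℂ (fun z : ℂ => (z + I)⁻¹) {z | 0 < z.im} := by
  apply DifferentiableOn.inv (by fun_prop)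
  intro z hz
  exact add_I_ne (le_of_lt hz)

lemma LineHol.raise {N : ℕ} {F : Mink → ℂ} (h : LineHol N F) (k : ℕ) : LineHol (N + k) F := by
  intro a v hv
  obtain ⟨G, h1, h2, ⟨M, h3⟩, h4⟩ := h a v hv
  refine ⟨fun z => G z * (z + I)⁻¹ ^ k, h1.mul (cont_inv.pow k), h2.mul (diff_inv.pow k),
    ⟨|M|, fun z hz => ?_⟩, fun r => ?_⟩
  · rw [norm_mul, norm_pow]
    calc ‖G z‖ * ‖(z + I)⁻¹‖ ^ k ≤ |M| * 1 := by
          gcongr
          · exact (h3 z hz).trans (le_abs_self M)
          · exact pow_le_one₀ (norm_nonneg _) (norm_inv_add_I_le hz)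
      _ = |M| := mul_one _
  · show G r * ((r : ℂ) + I)⁻¹ ^ k = _
    rw [h4, pow_add, mul_assoc]

lemma LineHol.add {N : ℕ} {F F' : Mink → ℂ} (h : LineHol N F) (h' : LineHol N F') :
    LineHol N (fun a => F a + F' a) := by
  intro a v hv
  obtain ⟨G, h1, h2, ⟨M, h3⟩, h4⟩ := h a v hv
  obtain ⟨G', h1', h2', ⟨M', h3'⟩, h4'⟩ := h' a v hv
  refine ⟨fun z => G z + G' z, h1.add h1', h2.add h2', ⟨M + M', fun z hz => ?_⟩, fun r => ?_⟩
  · exact (norm_add_le _ _).trans (add_le_add (h3 z hz) (h3' z hz))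
  · show G r + G' r = _
    rw [h4, h4']; ring

lemma LineHol.smul {N : ℕ} {F : Mink → ℂ} (h : LineHol N F) (c : ℂ) :
    LineHol N (fun a => c * F a) := by
  intro a v hv
  obtain ⟨G, h1, h2, ⟨M, h3⟩, h4⟩ := h a v hv
  refine ⟨fun z => c * G z, h1.const_mul c |>.congr fun z _ => rfl, h2.const_mul c,
    ⟨‖c‖ * M, fun z hz => ?_⟩, fun r => ?_⟩
  · rw [norm_mul]
    gcongr
    exact h3 z hz
  · show c * G r = _
    rw [h4]; ring

lemma cint_hol (hμ : ∀ᵐ p ∂μ, p ∈ fwdCone) {ψ : Mink → ℂ} (hψ : Integrable ψ μ) :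
    LineHol 0 (cint μ ψ) := by
  intro a v hv
  set G : ℂ → ℂ := fun z => ∫ p, exp (I * z * (mdot p v : ℂ)) * (chr a p * ψ p) ∂μ with hG
  have hψa := integrable_chr_mul hψ a
  have hGr : ∀ r : ℝ, G r = cint μ ψ (a + r • v) := by
    intro r
    simp only [hG, cint]
    congr 1
    ext p
    rw [← mul_assoc]
    congr 1
    rw [chr, chr, ← exp_add, mdot_add_right, mdot_smul_right]
    congr 1
    push_cast
    ring
  have hmeas : ∀ z : ℂ, AEStronglyMeasurable
      (fun p => exp (I * z * (mdot p v : ℂ)) * (chr a p * ψ p)) μ := by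
    intro z
    refine AEStronglyMeasurable.mul ?_ hψa.aestronglyMeasurable
    exact (continuous_exp.comp (continuous_const.mul
      (continuous_ofReal.comp (continuous_mdot_left v)))).aestronglyMeasurable
  have hbd : ∀ᵐ p ∂μ, ∀ z : ℂ, 0 ≤ z.im →
      ‖exp (I * z * (mdot p v : ℂ)) * (chr a p * ψ p)‖ ≤ ‖chr a p * ψ p‖ := by
    filter_upwards [hμ] with p hp z hz
    rw [norm_mul, norm_exp]
    have h1 : (I * z * (mdot p v : ℂ)).re ≤ 0 := by
      simp only [mul_re, I_re, I_im, ofReal_re, ofReal_im, mul_im]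
      nlinarith only [mul_nonneg hz (hv p hp)]
    calc _ ≤ 1 * ‖chr a p * ψ p‖ := by gcongr; exact Real.exp_le_one_iff.2 h1
      _ = _ := one_mul _
  refine ⟨G, ?_, ?_, ?_, ?_⟩
  · intro z₀ _
    apply continuousWithinAt_of_dominated (bound := fun p => ‖chr a p * ψ p‖)
    · exact Eventually.of_forall hmeas
    · filter_upwards [self_mem_nhdsWithin] with z hz
      filter_upwards [hbd] with p hp using hp z hz
    · exact hψa.norm
    · refine Eventually.of_forall fun p => Continuous.continuousWithinAt ?_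
      fun_prop
  · intro z₀ hz₀
    apply DifferentiableAt.differentiableWithinAt
    refine differentiableAt_integral (U := {z : ℂ | 0 < z.im})
      (isOpen_lt continuous_const continuous_im)
      (F := fun z p => exp (I * z * (mdot p v : ℂ)) * (chr a p * ψ p))
      (bound := fun p => ‖chr a p * ψ p‖) ?_ ?_ ?_ hψa.norm hz₀
    · exact fun z _ => hmeas z
    · refine Eventually.of_forall fun p => ?_
      apply Differentiable.differentiableOn
      fun_prop
    · filter_upwards [hbd] with p hp z hz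
      exact hp z (le_of_lt hz)
  · refine ⟨∫ p, ‖chr a p * ψ p‖ ∂μ, fun z hz => ?_⟩
    refine norm_integral_le_of_norm_le hψa.norm ?_
    filter_upwards [hbd] with p hp using hp z hz
  · intro r
    rw [hGr, pow_zero, mul_one]

/-- maximum principle in the upper half plane -/
lemma half_max {G : ℂ → ℂ} (h1 : ContinuousOn G {z | 0 ≤ z.im})
    (h2 : DifferentiableOn ℂ G {z | 0 < z.im}) (h3 : ∃ M, ∀ z : ℂ, 0 ≤ z.im → ‖G z‖ ≤ M)
    {C : ℝ} (h4 : ∀ r : ℝ, ‖G r‖ ≤ C) {z : ℂ} (hz : 0 ≤ z.im) : ‖G z‖ ≤ C := by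
  obtain ⟨M, hM⟩ := h3
  set f : ℂ → ℂ := fun w => G (I * w) with hf
  have him : ∀ w : ℂ, (I * w).im = w.re := by intro w; simp
  have hcl : closure {z : ℂ | 0 < z.re} = {z | 0 ≤ z.re} := Complex.closure_setOf_lt_re 0
  have hd : DiffContOnCl ℂ f {z | 0 < z.re} := by
    constructor
    · refine h2.comp (by fun_prop) ?_
      intro w hw
      change 0 < (I * w).im
      rw [him]; exact hw
    · rw [hcl]
      refine h1.comp (by fun_prop) ?_
      intro w hw
      change 0 ≤ (I * w).im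
      rw [him]; exact hw
  have hbd : ∀ w : ℂ, 0 ≤ w.re → ‖f w‖ ≤ M := by
    intro w hw
    apply hM
    rw [him]; exact hw
  have key := PhragmenLindelof.right_half_plane_of_bounded_on_real (f := f) (C := C) hd ?_ ?_ ?_
    (z := -I * z) ?_
  · have : I * (-I * z) = z := by
      rw [← mul_assoc, mul_neg, I_mul_I, neg_neg, one_mul]
    simp only [hf] at key
    rwa [this] at key
  · refine ⟨1, by norm_num, 0, ?_⟩
    simp only [zero_mul, Real.exp_zero]
    apply Asymptotics.IsBigO.of_bound M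
    rw [Filter.eventually_inf_principal]
    refine Eventually.of_forall fun w hw => ?_
    have : ‖(1 : ℝ)‖ = 1 := by simp
    rw [this, mul_one]
    exact hbd w (le_of_lt hw)
  · refine ⟨M, ?_⟩
    rw [Filter.eventually_map]
    filter_upwards [eventually_ge_atTop 0] with x hx
    exact hbd x (by simpa using hx)
  · intro x
    have : f (x * I) = G ((-x : ℝ) : ℂ) := by
      rw [hf]
      congr 1
      push_cast
      rw [mul_comm (x : ℂ) I, ← mul_assoc, I_mul_I]
      ring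
    rw [this]
    exact h4 _
  · simpa using hz

/-- limits of line holomorphic functions -/
lemma LineHol.lim {N : ℕ} {F : Mink → ℂ} (h : ∀ ε : ℝ, 0 < ε → ∃ F', LineHol N F' ∧
    ∀ a, ‖F a - F' a‖ ≤ ε * (1 + ‖a‖) ^ N) : LineHol N F := by
  intro a v hv
  choose F' hF' hFe using fun n : ℕ => h (1 / ((n : ℝ) + 1)) (by positivity)
  choose G h1 h2 h3 h4 using fun n => hF' n a v hv
  set K : ℝ := 1 + ‖a‖ + ‖v‖ with hK
  have hK0 : 0 < K := by positivity
  set ε : ℕ → ℝ := fun n => 1 / ((n : ℝ) + 1) with hε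
  have hε0 : ∀ n, 0 ≤ ε n := fun n => by positivity
  have hreal : ∀ r : ℝ, ∀ n, ‖G n r - F (a + r • v) * ((r : ℂ) + I)⁻¹ ^ N‖ ≤ ε n * K ^ N := by
    intro r n
    rw [h4, ← sub_mul, norm_mul, norm_pow, norm_inv]
    have e1 : ‖F' n (a + r • v) - F (a + r • v)‖ ≤ ε n * (1 + ‖a + r • v‖) ^ N := by
      rw [norm_sub_rev]; exact hFe n _
    have hI : 1 ≤ ‖(r : ℂ) + I‖ := norm_add_I_ge (by simp)
    have hI' : |r| ≤ ‖(r : ℂ) + I‖ := by
      calc |r| = |((r : ℂ) + I).re| := by simp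
        _ ≤ _ := abs_re_le_norm _
    have e2 : 1 + ‖a + r • v‖ ≤ K * ‖(r : ℂ) + I‖ := by
      have : ‖a + r • v‖ ≤ ‖a‖ + |r| * ‖v‖ := by
        refine (norm_add_le _ _).trans ?_
        rw [norm_smul, Real.norm_eq_abs]
      have h5 : |r| * ‖v‖ ≤ ‖(r : ℂ) + I‖ * ‖v‖ := by gcongr
      have h6 : ‖a‖ ≤ ‖(r : ℂ) + I‖ * ‖a‖ := le_mul_of_one_le_left (norm_nonneg _) hI
      rw [hK]
      nlinarith
    have hpos : 0 < ‖(r : ℂ) + I‖ := by linarith
    calc ‖F' n (a + r • v) - F (a + r • v)‖ * (‖(r : ℂ) + I‖)⁻¹ ^ N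
        ≤ (ε n * (K * ‖(r : ℂ) + I‖) ^ N) * (‖(r : ℂ) + I‖)⁻¹ ^ N := by
          gcongr
          refine e1.trans ?_
          have := hε0 n
          gcongr
      _ = ε n * K ^ N := by
          rw [mul_pow, inv_pow]
          field_simp
  have hcau : ∀ n m, ∀ z : ℂ, 0 ≤ z.im → ‖G n z - G m z‖ ≤ (ε n + ε m) * K ^ N := by
    intro n m z hz
    obtain ⟨M, hM⟩ := h3 n
    obtain ⟨M', hM'⟩ := h3 m
    refine half_max (G := fun z => G n z - G m z) ((h1 n).sub (h1 m)) ((h2 n).sub (h2 m))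
      ⟨M + M', fun z hz => (norm_sub_le _ _).trans (add_le_add (hM z hz) (hM' z hz))⟩ ?_ hz
    intro r
    calc ‖G n r - G m r‖ ≤ ‖G n r - F (a + r • v) * ((r : ℂ) + I)⁻¹ ^ N‖ +
          ‖G m r - F (a + r • v) * ((r : ℂ) + I)⁻¹ ^ N‖ := by
          rw [← norm_sub_rev (F (a + r • v) * ((r : ℂ) + I)⁻¹ ^ N) (G m r)]
          refine le_trans (le_of_eq ?_) (norm_add_le _ _)
          congr 1
          ring
      _ ≤ ε n * K ^ N + ε m * K ^ N := add_le_add (hreal r n) (hreal r m)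
      _ = _ := by ring
  have hεt : Tendsto ε atTop (𝓝 0) := tendsto_one_div_add_atTop_nhds_zero_nat
  have hlim : ∀ z : ℂ, 0 ≤ z.im → ∃ w, Tendsto (fun n => G n z) atTop (𝓝 w) := by
    intro z hz
    apply cauchySeq_tendsto_of_complete
    apply cauchySeq_of_le_tendsto_0 (fun n => 2 * ε n * K ^ N)
    · intro n m k hn hm
      rw [dist_eq_norm]
      refine (hcau n m z hz).trans ?_
      have e1 : ε n ≤ ε k := by
        simp only [hε]
        apply one_div_le_one_div_of_le (by positivity)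
        have : (k : ℝ) ≤ n := by exact_mod_cast hn
        linarith
      have e2 : ε m ≤ ε k := by
        simp only [hε]
        apply one_div_le_one_div_of_le (by positivity)
        have : (k : ℝ) ≤ m := by exact_mod_cast hm
        linarith
      have : 0 ≤ K ^ N := by positivity
      nlinarith
    · have := (hεt.const_mul 2).mul_const (K ^ N)
      simpa using this
  choose! H hH using hlim
  have hHle : ∀ n, ∀ z : ℂ, 0 ≤ z.im → ‖G n z - H z‖ ≤ ε n * K ^ N := by
    intro n z hz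
    have t1 : Tendsto (fun m => ‖G n z - G m z‖) atTop (𝓝 ‖G n z - H z‖) :=
      (tendsto_const_nhds.sub (hH z hz)).norm
    have t2 : Tendsto (fun m => (ε n + ε m) * K ^ N) atTop (𝓝 ((ε n + 0) * K ^ N)) :=
      (tendsto_const_nhds.add hεt).mul_const _
    rw [add_zero] at t2
    exact le_of_tendsto_of_tendsto t1 t2 (Eventually.of_forall fun m => hcau n m z hz)
  have hunif : TendstoUniformlyOn G H atTop {z | 0 ≤ z.im} := by
    rw [Metric.tendstoUniformlyOn_iff]
    intro δ hδ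
    have t1 : Tendsto (fun n => ε n * K ^ N) atTop (𝓝 0) := by
      simpa using hεt.mul_const (K ^ N)
    filter_upwards [t1.eventually_lt_const hδ] with n hn z hz
    rw [dist_comm, dist_eq_norm]
    exact (hHle n z hz).trans_lt hn
  refine ⟨H, hunif.continuousOn (Frequently.of_forall h1), ?_, ?_, ?_⟩
  · have hu2 : TendstoUniformlyOn G H atTop {z | 0 < z.im} :=
      hunif.mono fun z hz => (show (0 : ℝ) ≤ z.im from le_of_lt hz)
    exact TendstoLocallyUniformlyOn.differentiableOn hu2.tendstoLocallyUniformlyOn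
      (Eventually.of_forall h2) (isOpen_lt continuous_const continuous_im)
  · obtain ⟨M, hM⟩ := h3 0
    refine ⟨M + ε 0 * K ^ N, fun z hz => ?_⟩
    calc ‖H z‖ = ‖G 0 z - (G 0 z - H z)‖ := by congr 1; ring
      _ ≤ ‖G 0 z‖ + ‖G 0 z - H z‖ := norm_sub_le _ _
      _ ≤ _ := add_le_add (hM z hz) (hHle 0 z hz)
  · intro r
    refine tendsto_nhds_unique (hH r (by simp)) ?_
    rw [tendsto_iff_norm_sub_tendsto_zero]
    have t1 : Tendsto (fun n => ε n * K ^ N) atTop (𝓝 0) := by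
      simpa using hεt.mul_const (K ^ N)
    exact squeeze_zero (fun n => norm_nonneg _) (fun n => hreal r n) t1

lemma LineHol.line {N : ℕ} {F : Mink → ℂ} (h : LineHol N F) (a v : Mink)
    (hv : ∀ p ∈ fwdCone, 0 ≤ mdot p v) (s t : ℝ) (hst : s < t)
    (hz : ∀ r, s < r → r < t → F (a + r • v) = 0) (r : ℝ) : F (a + r • v) = 0 := by
  obtain ⟨G, h1, h2, h3, h4⟩ := h a v hv
  have := halfplane_unique G h1 h2 h3 s t hst (fun r hs ht => by rw [h4, hz r hs ht, zero_mul])
    r (by simp)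
  rw [h4] at this
  rcases mul_eq_zero.1 this with h5 | h5
  · exact h5
  · exfalso
    have h6 : ((r : ℂ) + I)⁻¹ ≠ 0 := inv_ne_zero (add_I_ne (by simp))
    exact pow_ne_zero N h6 h5

lemma abs_le_cone {p : Mink} (hp : p ∈ fwdCone) (i : Fin 4) : |p i| ≤ p 0 := by
  have h1 := hp.1
  have h2 := hp.2
  simp only [mdot] at h2
  apply abs_le_of_sq_le_sq _ h1
  fin_cases i
  · exact le_rfl
  · show p 1 ^ 2 ≤ p 0 ^ 2
    nlinarith [sq_nonneg (p 2), sq_nonneg (p 3)]
  · show p 2 ^ 2 ≤ p 0 ^ 2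
    nlinarith [sq_nonneg (p 1), sq_nonneg (p 3)]
  · show p 3 ^ 2 ≤ p 0 ^ 2
    nlinarith [sq_nonneg (p 1), sq_nonneg (p 2)]

lemma mdot_nonneg_of_fwd {v : Mink} (hv : |v 1| + |v 2| + |v 3| ≤ v 0) :
    ∀ p ∈ fwdCone, 0 ≤ mdot p v := by
  intro p hp
  have h0 := hp.1
  have h1 := abs_le_cone hp 1
  have h2 := abs_le_cone hp 2
  have h3 := abs_le_cone hp 3
  have e : ∀ i : Fin 4, |p i| ≤ p 0 → p i * v i ≤ p 0 * |v i| := by
    intro i hi
    calc p i * v i ≤ |p i * v i| := le_abs_self _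
      _ = |p i| * |v i| := abs_mul _ _
      _ ≤ p 0 * |v i| := by gcongr
  have e1 := e 1 h1
  have e2 := e 2 h2
  have e3 := e 3 h3
  simp only [mdot]
  nlinarith

/-- a line holomorphic function that vanishes on an open set vanishes -/
theorem LineHol.unique {N : ℕ} {F : Mink → ℂ} (h : LineHol N F) {O : Set Mink} (hO : IsOpen O)
    (hne : O.Nonempty) (hz : ∀ a ∈ O, F a = 0) (a : Mink) : F a = 0 := by
  set Z := interior {a | F a = 0} with hZ
  have step : ∀ a ∈ Z, ∀ v : Mink, (∀ p ∈ fwdCone, 0 ≤ mdot p v) → ∀ r : ℝ, a + r • v ∈ Z := by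
    intro a ha v hv r
    have hsub : (fun x => x - r • v) ⁻¹' Z ⊆ {a | F a = 0} := by
      intro b hb
      have hb' : b - r • v ∈ Z := hb
      have hopen : IsOpen Z := isOpen_interior
      obtain ⟨δ, hδ, hball⟩ := Metric.isOpen_iff.1 hopen _ hb'
      have h1 := h.line (b - r • v) v hv (-(δ / (‖v‖ + 1))) (δ / (‖v‖ + 1)) (by
        have : 0 < δ / (‖v‖ + 1) := by positivity
        linarith) (fun s hs1 hs2 => by
          have h2 : b - r • v + s • v ∈ Z := by
            apply hball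
            rw [Metric.mem_ball, dist_eq_norm, add_sub_cancel_left, norm_smul, Real.norm_eq_abs]
            have h3 : |s| < δ / (‖v‖ + 1) := abs_lt.2 ⟨hs1, hs2⟩
            calc |s| * ‖v‖ ≤ |s| * (‖v‖ + 1) := by gcongr; linarith
              _ < δ / (‖v‖ + 1) * (‖v‖ + 1) := by gcongr
              _ = δ := by field_simp
          have h5 : b - r • v + s • v ∈ {a | F a = 0} := interior_subset h2
          exact h5) r
      rw [sub_add_cancel] at h1
      exact h1
    have hop : IsOpen ((fun x => x - r • v) ⁻¹' Z) :=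
      isOpen_interior.preimage (by fun_prop)
    have h4 : (fun x => x - r • v) ⁻¹' Z ⊆ Z := interior_maximal hsub hop
    apply h4
    simpa using ha
  obtain ⟨a0, ha0⟩ := hne
  have h0 : a0 ∈ Z := interior_maximal (fun x hx => hz x hx) hO ha0
  set T : ℝ := |(a - a0) 0| + |(a - a0) 1| + |(a - a0) 2| + |(a - a0) 3| with hT
  have e0 : ∀ i : Fin 4, i ≠ 0 → (T • eb 0 : Mink) i = 0 := by
    intro i hi
    simp [eb, hi]
  have e00 : (T • eb 0 : Mink) 0 = T := by simp [eb]
  have hv1 : ∀ p ∈ fwdCone, 0 ≤ mdot p (a - a0 + T • eb 0) := by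
    apply mdot_nonneg_of_fwd
    rw [PiLp.add_apply, PiLp.add_apply, PiLp.add_apply, PiLp.add_apply,
      e0 1 (by decide), e0 2 (by decide), e0 3 (by decide), e00, add_zero, add_zero,
      add_zero, hT]
    have := neg_abs_le ((a - a0) 0)
    linarith
  have hv2 : ∀ p ∈ fwdCone, 0 ≤ mdot p (T • eb 0) := by
    apply mdot_nonneg_of_fwd
    rw [e0 1 (by decide), e0 2 (by decide), e0 3 (by decide), e00]
    simp only [abs_zero, add_zero]
    rw [hT]; positivity
  have s1 := step a0 h0 _ hv1 1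
  have s2 := step _ s1 _ hv2 (-1)
  have e3 : a0 + (1 : ℝ) • (a - a0 + T • eb 0) + (-1 : ℝ) • (T • eb 0) = a := by
    module
  rw [e3] at s2
  have h5 : a ∈ {a | F a = 0} := interior_subset s2
  exact h5

end Vale.Agent.P352.H246

end
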