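import Vale.Agent.P352.H246.Ctr

set_option linter.all false

noncomputable section

open MeasureTheory SchwartzMap Complex Filter Topology
open scoped SchwartzMap ComplexConjugate ENNReal LineDeriv NNReal

namespace Vale.Agent.P352.H246

open GF (Ix V Fn Sch ev pd bar sim one bas o)

variable {D : Type*} [NormedAddCommGroup D] [InnerProductSpace ℂ D]
variable {Q : GF.Theory D}

/-- the properties of vector fields of dimension three -/
structure VFld (Q : GF.Theory D) (J : Ix → GF.Fld D) : Prop where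
  bose : ∀ m, Q.bose (J m)
  herm : ∀ m f v w, inner ℂ (J m (fl f) v) w = inner ℂ v (J m (fl (conjS f)) w)
  cov : ∀ m s (hs : 0 < s) L (hL : GF.IsLor L) b f v, J m (fl f) (Q.U s L b v) =
    ∑ k, ((s * L k m : ℝ) : ℂ) • Q.U s L b (J k (fl (simS s hs hL b f)) v)

/-- a field as a vector valued distribution -/
def opC {A : GF.Fld D} (hA : Q.fld A) (v : D) :
    𝓢(Mink, ℂ) →L[ℂ] UniformSpace.Completion D :=
  (UniformSpace.Completion.toComplL (𝕜 := ℂ) (E := D)).comp ⟨fmap hA v, fld_cont hA v⟩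

@[simp] lemma opC_apply {A : GF.Fld D} (hA : Q.fld A) (v : D) (f : 𝓢(Mink, ℂ)) :
    opC hA v f = ((A (fl f) v : D) : UniformSpace.Completion D) := rfl

lemma U_sum {s : ℝ} {L : Ix → V} (hs : 0 < s) (hL : GF.IsLor L) (a : V) {ι : Type*}
    (t : Finset ι) (w : ι → D) : Q.U s L a (∑ i ∈ t, w i) = ∑ i ∈ t, Q.U s L a (w i) :=
  map_sum (LinearMap.mk ⟨Q.U s L a, U_add hs hL a⟩ (U_smul hs hL a) : D →ₗ[ℂ] D) w t

namespace VFld

variable {J : Ix → GF.Fld D} (hJ : VFld Q J)
include hJ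

lemma fld (m : Ix) : Q.fld (J m) := Q.bose_fld _ (hJ.bose m)

/-- the action of dilations -/
lemma dil (m : Ix) (c : Mink) (t : ℝ) (f : 𝓢(Mink, ℂ)) (v : D) :
    Q.U (Real.exp (-t)) one (c - Real.exp (-t) • c).ofLp (J m (fl (Bt c t f)) v) =
      ((Real.exp (-3 * t) : ℝ) : ℂ) •
        J m (fl f) (Q.U (Real.exp (-t)) one (c - Real.exp (-t) • c).ofLp v) := by
  have h1 := hJ.cov m (Real.exp (-t)) (Real.exp_pos _) one isLor_one
    (c - Real.exp (-t) • c).ofLp f v
  have h2 : ∀ k : Ix, (((Real.exp (-t) * one k m : ℝ) : ℂ) •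
      Q.U (Real.exp (-t)) one (c - Real.exp (-t) • c).ofLp
        (J k (fl (simS (Real.exp (-t)) (Real.exp_pos _) isLor_one
          (c - Real.exp (-t) • c).ofLp f)) v)) =
      if k = m then ((Real.exp (-t) : ℝ) : ℂ) •
        Q.U (Real.exp (-t)) one (c - Real.exp (-t) • c).ofLp
        (J m (fl (simS (Real.exp (-t)) (Real.exp_pos _) isLor_one
          (c - Real.exp (-t) • c).ofLp f)) v) else 0 := by
    intro k
    split_ifs with h
    · subst h
      simp [one, bas]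
    · simp [one, bas, Ne.symm h]
  simp only [h2, Finset.sum_ite_eq', Finset.mem_univ, if_true] at h1
  rw [h1, Bt_eq_sim, fld_smulf (hJ.fld m), U_smul (Real.exp_pos _) isLor_one, smul_smul]
  congr 1
  rw [← ofReal_mul, ← Real.exp_add]
  congr 2
  ring

lemma norm_vac (m : Ix) (c : Mink) (t : ℝ) (f : 𝓢(Mink, ℂ)) :
    ‖J m (fl (Bt c t f)) Q.vac‖ = Real.exp (-3 * t) * ‖J m (fl f) Q.vac‖ := by
  have h := congrArg norm (hJ.dil m c t f Q.vac)
  rw [U_nrm0 (Real.exp_pos _) isLor_one, Q.U_vac _ _ _ (Real.exp_pos _) isLor_one, norm_smul,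
    norm_real, Real.norm_of_nonneg (Real.exp_pos _).le] at h
  exact h

lemma norm_vac2 (m : Ix) (c : Mink) (t : ℝ) (f g : 𝓢(Mink, ℂ)) :
    ‖J m (fl (Bt c t f)) (J m (fl (Bt c t g)) Q.vac)‖ =
      Real.exp (-6 * t) * ‖J m (fl f) (J m (fl g) Q.vac)‖ := by
  have h := congrArg norm (hJ.dil m c t f (J m (fl (Bt c t g)) Q.vac))
  rw [U_nrm0 (Real.exp_pos _) isLor_one, hJ.dil m c t g Q.vac,
    Q.U_vac _ _ _ (Real.exp_pos _) isLor_one, fld_smul (hJ.fld m), norm_smul, norm_smul,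
    norm_real, Real.norm_of_nonneg (Real.exp_pos _).le] at h
  rw [h, ← mul_assoc, ← Real.exp_add]
  congr 2
  ring

end VFld

/-! ### Wedges and dilations -/

lemma wed_iff {L : Ix → V} (hL : GF.IsLor L) {a x : V} {r : ℝ} :
    x ∈ Wed L a r ↔ |GF.mdot (x - a) (L 0)| < r * (-GF.mdot (x - a) (L 1)) := by
  have e0 : GF.eta 0 = 1 := by simp [GF.eta, o]
  have e1 : GF.eta 1 = -1 := by simp [GF.eta, o]
  constructor
  · rintro ⟨y, hy, rfl⟩
    have h : ∀ m, GF.mdot (sim 1 L a y - a) (L m) = y m * GF.eta m := by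
      intro m
      have e : sim 1 L a y - a = fun n => ∑ k, y k * L k n := by
        funext n; simp [sim]
      have e2 : ∀ n, GF.eta n * (∑ k, y k * L k n) * L m n =
          ∑ k, y k * (GF.eta n * L k n * L m n) := by
        intro n
        rw [Finset.mul_sum, Finset.sum_mul]
        refine Finset.sum_congr rfl fun k _ => by ring
      rw [e]
      simp only [GF.mdot, e2]
      rw [Finset.sum_comm]
      simp only [← Finset.mul_sum]
      have e3 : ∀ k, ∑ n, GF.eta n * L k n * L m n = bas k (GF.eta k) m := fun k => hL.1 k m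
      simp only [e3, bas, mul_ite, mul_zero]
      simp
    rw [h, h, e0, e1]
    simpa using hy
  · intro h
    refine ⟨fun m => GF.eta m * GF.mdot (x - a) (L m), ?_, ?_⟩
    · show |GF.eta 0 * GF.mdot (x - a) (L 0)| < r * (GF.eta 1 * GF.mdot (x - a) (L 1))
      rw [e0, e1, one_mul, neg_one_mul]
      exact h
    · funext n
      have h1 : ∀ k, ∑ m, GF.eta m * L m k * L m n = bas k (GF.eta k) n :=
        fun k => lor_transpose hL k n
      have e2 : ∑ m, (GF.eta m * GF.mdot (x - a) (L m)) * L m n = x n - a n := by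
        have : ∀ m, (GF.eta m * GF.mdot (x - a) (L m)) * L m n =
            ∑ k, (GF.eta k * (x k - a k)) * (GF.eta m * L m k * L m n) := by
          intro m
          unfold GF.mdot
          rw [Finset.mul_sum, Finset.sum_mul]
          refine Finset.sum_congr rfl fun k _ => ?_
          simp only [Pi.sub_apply]
          ring
        simp only [this]
        rw [Finset.sum_comm]
        simp only [← Finset.mul_sum, h1]
        simp only [bas, mul_ite, mul_zero, Finset.sum_ite_eq, Finset.mem_univ, if_true]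
        have := eta_sq n
        linear_combination (x n - a n) * this
      simp only [sim]
      rw [e2]
      ring

lemma mdot_Bt {L : Ix → V} (c x : Mink) (t : ℝ) (m : Ix) :
    GF.mdot (x.ofLp - c.ofLp) (L m) = Real.exp t *
      GF.mdot ((c + Real.exp (-t) • (x - c)).ofLp - c.ofLp) (L m) := by
  have e : (c + Real.exp (-t) • (x - c)).ofLp - c.ofLp = Real.exp (-t) • (x.ofLp - c.ofLp) := by
    funext i; simp
  rw [e, mdot_smul_l, ← mul_assoc, ← Real.exp_add, add_neg_cancel, Real.exp_zero, one_mul]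

lemma isTest_Bt {L : Ix → V} (hL : GF.IsLor L) {c : Mink} {f : 𝓢(Mink, ℂ)} {r : ℝ}
    (hf : IsTest (MW (Wed L c.ofLp r)) f) (t : ℝ) : IsTest (MW (Wed L c.ofLp r)) (Bt c t f) := by
  refine ⟨compact_Bt c t hf.1, fun x hx => ?_⟩
  have h1 := (wed_iff hL).1 (hf.2 (tsupport_Bt c t f hx))
  show x.ofLp ∈ Wed L c.ofLp r
  rw [wed_iff hL, mdot_Bt c x t 0, mdot_Bt c x t 1, abs_mul, abs_of_pos (Real.exp_pos t)]
  calc _ < Real.exp t * (r * (-GF.mdot ((c + Real.exp (-t) • (x - c)).ofLp - c.ofLp) (L 1))) := by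
        gcongr
    _ = _ := by ring

lemma continuous_mdotL (c : V) (y : V) : Continuous fun x : Mink => GF.mdot (x.ofLp - c) y := by
  unfold GF.mdot
  simp only [Pi.sub_apply]
  fun_prop

lemma exists_eps {L : Ix → V} (hL : GF.IsLor L) {c : V} {f : 𝓢(Mink, ℂ)}
    (hf : IsTest (MW (Wed L c 1)) f) : ∃ ε : ℝ, 0 < ε ∧ ∀ x ∈ tsupport f,
      |GF.mdot (x.ofLp - c) (L 0)| + ε ≤ -GF.mdot (x.ofLp - c) (L 1) := by
  rcases Set.eq_empty_or_nonempty (tsupport f) with h | h
  · exact ⟨1, one_pos, fun x hx => by rw [h] at hx; exact absurd hx (Set.notMem_empty x)⟩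
  · have hc : Continuous fun x : Mink => -GF.mdot (x.ofLp - c) (L 1) -
        |GF.mdot (x.ofLp - c) (L 0)| :=
      (continuous_mdotL c (L 1)).neg.sub (continuous_mdotL c (L 0)).abs
    obtain ⟨x0, hx0, hmin⟩ := hf.1.isCompact.exists_isMinOn h hc.continuousOn
    refine ⟨-GF.mdot (x0.ofLp - c) (L 1) - |GF.mdot (x0.ofLp - c) (L 0)|, ?_, fun x hx => ?_⟩
    · have h1 := (wed_iff hL).1 (hf.2 hx0)
      rw [one_mul] at h1
      linarith
    · have h2 := isMinOn_iff.1 hmin x hx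
      linarith

lemma exists_far_wed {L : Ix → V} (hL : GF.IsLor L) {c : Mink} {f : 𝓢(Mink, ℂ)}
    (hf : IsTest (MW (Wed L c.ofLp 1)) f) (r : ℝ) : ∃ t0 : ℝ, 0 ≤ t0 ∧ ∀ t ≥ t0, ∃ a : V,
      Bx r ⊆ MW (Wed L a (-1)) ∧ IsTest (MW (Wed L a 1)) (Bt c t f) := by
  obtain ⟨ε, hε, hεf⟩ := exists_eps hL hf
  set B : ℝ := (∑ i, |L 0 i|) * |r| + |GF.mdot c.ofLp (L 0)| + ((∑ i, |L 1 i|) * |r| +
    |GF.mdot c.ofLp (L 1)|) + 1 with hB
  have hB1 : 1 ≤ B := by
    have : 0 ≤ (∑ i, |L 0 i|) * |r| + |GF.mdot c.ofLp (L 0)| + ((∑ i, |L 1 i|) * |r| +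
      |GF.mdot c.ofLp (L 1)|) := by positivity
    linarith
  have h10 : GF.mdot (L 1) (L 0) = 0 := by
    have := hL.1 1 0
    simpa [bas] using this
  have h11 : GF.mdot (L 1) (L 1) = -1 := by
    have := hL.1 1 1
    simpa [bas, GF.eta, o] using this
  refine ⟨max 0 (Real.log (B / ε + 1)), le_max_left _ _, fun t ht => ⟨c.ofLp + B • L 1, ?_, ?_⟩⟩
  · intro x hx
    show x.ofLp ∈ Wed L (c.ofLp + B • L 1) (-1)
    have e : ∀ m, GF.mdot (x.ofLp - (c.ofLp + B • L 1)) (L m) =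
        GF.mdot x.ofLp (L m) - GF.mdot c.ofLp (L m) - B * GF.mdot (L 1) (L m) := by
      intro m
      rw [← sub_sub, mdot_sub_l, mdot_sub_l, mdot_smul_l]
    rw [wed_iff hL, e, e, h10, h11]
    have hx' : ∀ i, |x.ofLp i| ≤ |r| := fun i => (hx i).trans (le_abs_self r)
    have b0 := abs_mdot_le x.ofLp (L 0) hx'
    have b1 := abs_mdot_le x.ofLp (L 1) hx'
    have c0 : |GF.mdot x.ofLp (L 0) - GF.mdot c.ofLp (L 0) - B * 0| ≤
        (∑ i, |L 0 i|) * |r| + |GF.mdot c.ofLp (L 0)| := by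
      rw [mul_zero, sub_zero]
      refine (abs_sub _ _).trans ?_
      gcongr
    have c1 := neg_abs_le (GF.mdot x.ofLp (L 1))
    have c2 := le_abs_self (GF.mdot c.ofLp (L 1))
    linarith
  · refine ⟨compact_Bt c t hf.1, fun x hx => ?_⟩
    show x.ofLp ∈ Wed L (c.ofLp + B • L 1) 1
    have e : ∀ m, GF.mdot (x.ofLp - (c.ofLp + B • L 1)) (L m) =
        GF.mdot (x.ofLp - c.ofLp) (L m) - B * GF.mdot (L 1) (L m) := by
      intro m
      rw [← sub_sub, mdot_sub_l, mdot_smul_l]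
    rw [wed_iff hL, e, e, h10, h11]
    have h1 := hεf _ (tsupport_Bt c t f hx)
    have hE : B / ε + 1 ≤ Real.exp t := by
      have h2 : Real.log (B / ε + 1) ≤ t := (le_max_right _ _).trans ht
      have h3 : 0 < B / ε + 1 := by positivity
      calc B / ε + 1 = Real.exp (Real.log (B / ε + 1)) := (Real.exp_log h3).symm
        _ ≤ Real.exp t := Real.exp_le_exp.2 h2
    have h4 : B < Real.exp t * ε := by
      have : B + ε ≤ Real.exp t * ε := by
        calc B + ε = (B / ε + 1) * ε := by field_simp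
          _ ≤ _ := by gcongr
      linarith
    rw [mdot_Bt c x t 0, mdot_Bt c x t 1, mul_zero, sub_zero, abs_mul,
      abs_of_pos (Real.exp_pos t)]
    have h5 : Real.exp t * (|GF.mdot ((c + Real.exp (-t) • (x - c)).ofLp - c.ofLp) (L 0)| + ε) ≤
        Real.exp t * (-GF.mdot ((c + Real.exp (-t) • (x - c)).ofLp - c.ofLp) (L 1)) := by
      gcongr
    linarith

end Vale.Agent.P352.H246

end
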