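import Vale.Agent.P352.H246.Lam
import Vale.Agent.P352.H246.Defs

set_option linter.all false

noncomputable section

open MeasureTheory SchwartzMap Complex Filter Topology
open scoped SchwartzMap ComplexConjugate ENNReal LineDeriv

namespace Vale.Agent.P352.H246

open GF (Ix V Fn Sch ev pd bar sim one bas o)

variable {D : Type*} [NormedAddCommGroup D] [InnerProductSpace ℂ D]
variable {μ : Measure Mink}

/-- cut off inverse mass -/
def imN (N : ℕ) (p : Mink) : ℝ := ind (Set.Ioi (1 / ((N : ℝ) + 1))) p * im p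

lemma measurable_imN (N : ℕ) : Measurable (imN N) :=
  (measurable_ind measurableSet_Ioi).mul measurable_im

lemma imN_le (N : ℕ) (p : Mink) : |imN N p| ≤ N + 1 := by
  unfold imN ind
  have h0 : (0 : ℝ) < (N : ℝ) + 1 := by positivity
  split_ifs with h
  · have h1 : 1 / ((N : ℝ) + 1) < mass2 p := h
    have h2 : 0 < mass2 p := lt_trans (by positivity) h1
    rw [one_mul, im, abs_of_pos (inv_pos.2 h2)]
    rw [inv_le_comm₀ h2 h0, ← one_div]
    exact h1.le
  · rw [zero_mul, abs_zero]; exact h0.le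

lemma abs_imN_le (N : ℕ) (p : Mink) : |imN N p| ≤ |im p| := by
  unfold imN
  rw [abs_mul]
  exact mul_le_of_le_one_left (abs_nonneg _) (abs_ind_le _ _)

lemma imN_congr (N : ℕ) {p q : Mink} (h : mdot p p = mdot q q) : imN N p = imN N q := by
  unfold imN im
  have : mass2 p = mass2 q := h
  rw [ind_congr h, this]

lemma tendsto_imN {p : Mink} (hp : 0 < mass2 p) :
    Tendsto (fun N => imN N p) atTop (𝓝 (im p)) := by
  have h : ∀ᶠ N : ℕ in atTop, imN N p = im p := by
    obtain ⟨N0, hN0⟩ := exists_nat_one_div_lt hp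
    filter_upwards [eventually_ge_atTop N0] with N hN
    unfold imN ind
    have : 1 / ((N : ℝ) + 1) < mass2 p := by
      refine lt_of_le_of_lt ?_ hN0
      have : (N0 : ℝ) ≤ N := by exact_mod_cast hN
      apply one_div_le_one_div_of_le (by positivity)
      linarith
    have h2 : mass2 p ∈ Set.Ioi (1 / ((N : ℝ) + 1)) := this
    rw [if_pos h2, one_mul]
  exact (tendsto_congr' h).2 tendsto_const_nhds

section

variable (S : SymMeasure μ 4)
include S

lemma ae_pos : ∀ᵐ p ∂μ, 0 < mass2 p := by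
  have hnull : ∀ᵐ p ∂μ, mass2 p ≠ 0 :=
    measure_eq_zero_iff_ae_notMem.1 (S.null_zero (by norm_num))
  filter_upwards [hnull, ae_cone S.good] with p h1 h2
  exact lt_of_le_of_ne h2.2 (Ne.symm h1)

lemma lim_left (f : 𝓢(Mink, ℂ)) {η : Mink → ℂ} (hη : MemLp η 2 μ) :
    Tendsto (fun N : ℕ => ∫ p, mft f p * ((imN N p : ℂ) * η p) ∂μ) atTop
      (𝓝 (∫ p, mft f p * ((im p : ℂ) * η p) ∂μ)) := by
  apply tendsto_integral_of_dominated_convergence (fun p => ‖(im p : ℂ) * mft f p * η p‖)
  · intro N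
    exact (continuous_mft f).aestronglyMeasurable.mul
      ((measurable_ofReal.comp (measurable_imN N)).aestronglyMeasurable.mul hη.1)
  · exact ((memLp_mft_im S f).integrable_mul hη).norm
  · intro N
    refine Eventually.of_forall fun p => ?_
    simp only [norm_mul, norm_real, Real.norm_eq_abs]
    have := abs_imN_le N p
    calc ‖mft f p‖ * (|imN N p| * ‖η p‖) ≤ ‖mft f p‖ * (|im p| * ‖η p‖) := by gcongr
      _ = |im p| * ‖mft f p‖ * ‖η p‖ := by ring
  · filter_upwards [ae_pos S] with p hp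
    have h1 := (continuous_ofReal.tendsto _).comp (tendsto_imN hp)
    exact (h1.mul_const _).const_mul _

lemma wedge_im {η ζ : Mink → ℂ} (hη : MemLp η 2 μ) (hζ : MemLp ζ 2 μ)
    (h : ∀ f, IsTest wedge f →
      ∫ p, mft f p * η p ∂μ = ∫ p, conj (mft (conjS f) p) * ζ p ∂μ)
    (f : 𝓢(Mink, ℂ)) (hf : IsTest wedge f) :
    ∫ p, mft f p * ((im p : ℂ) * η p) ∂μ =
      ∫ p, conj (mft (conjS f) p) * ((im p : ℂ) * ζ p) ∂μ := by
  have h1 := lim_left S f hη
  have h2 := lim_left S (conjS f) (μ := μ) (η := fun p => conj (ζ p)) hζ.star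
  have h3 := (Complex.continuous_conj.tendsto _).comp h2
  have e : ∀ (m : Mink → ℝ), conj (∫ p, mft (conjS f) p * ((m p : ℂ) * conj (ζ p)) ∂μ) =
      ∫ p, conj (mft (conjS f) p) * ((m p : ℂ) * ζ p) ∂μ := by
    intro m
    rw [← integral_conj]
    congr 1
    ext p
    simp
  rw [e] at h3
  refine tendsto_nhds_unique h1 (h3.congr fun N => ?_)
  simp only [Function.comp_apply]
  rw [e]
  exact (wedge_dual S.good hη hζ h (measurable_imN N) (imN_le N)
    (fun t p => imN_congr N (mdot_boost t p p)) (fun p => imN_congr N (mdot_rotPi p p)) f hf).symm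

end

/-- regions of `Mink` -/
def MW (W : Set V) : Set Mink := {x | x.ofLp ∈ W}

/-- the Poincare transformation as a homeomorphism -/
def poi {L : Ix → V} (hL : GF.IsLor L) (a : V) : Mink ≃ₜ Mink :=
  (lamE hL).toHomeomorph.trans (Homeomorph.addLeft (WithLp.toLp 2 a))

lemma poi_apply {L : Ix → V} (hL : GF.IsLor L) (a : V) (x : Mink) :
    poi hL a x = WithLp.toLp 2 (sim 1 L a x.ofLp) := by
  ext n
  simp [poi, sim]

lemma mem_MW_Wed {L : Ix → V} (hL : GF.IsLor L) (a : V) (r : ℝ) (x : Mink) :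
    poi hL a x ∈ MW (Wed L a r) ↔ |x 0| < r * x 1 := by
  constructor
  · rintro ⟨y, hy, hxy⟩
    have h1 : poi hL a x = poi hL a (WithLp.toLp 2 y) := by
      rw [poi_apply hL a (WithLp.toLp 2 y)]
      ext n
      have := congrFun hxy n
      exact this
    have h2 := (poi hL a).injective h1
    rw [h2]
    exact hy
  · intro h
    exact ⟨x.ofLp, h, by rw [poi_apply]⟩

lemma simS_eq {L : Ix → V} (hL : GF.IsLor L) (a : V) (f : 𝓢(Mink, ℂ)) :
    (simS 1 one_pos hL a f : Mink → ℂ) = f ∘ poi hL a := by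
  ext x
  rw [simS_apply, Function.comp_apply, poi_apply]

lemma isTest_simS {L : Ix → V} (hL : GF.IsLor L) (a : V) (f : 𝓢(Mink, ℂ)) :
    IsTest wedge (simS 1 one_pos hL a f) ↔ IsTest (MW (Wed L a 1)) f := by
  unfold IsTest
  rw [simS_eq, tsupport_comp_eq_preimage]
  constructor
  · rintro ⟨h1, h2⟩
    refine ⟨?_, ?_⟩
    · have := h1.comp_homeomorph (poi hL a).symm
      rwa [Function.comp_assoc, (poi hL a).self_comp_symm, Function.comp_id] at this
    · intro x hx
      obtain ⟨y, rfl⟩ := (poi hL a).surjective x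
      rw [mem_MW_Wed, one_mul]
      exact h2 hx
  · rintro ⟨h1, h2⟩
    refine ⟨h1.comp_homeomorph _, ?_⟩
    intro x hx
    have := h2 hx
    rw [mem_MW_Wed, one_mul] at this
    exact this

/-- inverse of `simS 1` -/
def simI {L : Ix → V} (hL : GF.IsLor L) (a : V) (g : 𝓢(Mink, ℂ)) : 𝓢(Mink, ℂ) :=
  tauS (WithLp.toLp 2 a) (SchwartzMap.compCLMOfContinuousLinearEquiv ℂ (lamE hL).symm g)

lemma simS_simI {L : Ix → V} (hL : GF.IsLor L) (a : V) (g : 𝓢(Mink, ℂ)) :
    simS 1 one_pos hL a (simI hL a g) = g := by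
  ext x
  have h : (simS 1 one_pos hL a (simI hL a g) : Mink → ℂ) x = simI hL a g (poi hL a x) := by
    rw [simS_eq]; rfl
  rw [h]
  simp only [simI, tauS_apply]
  have : poi hL a x - WithLp.toLp 2 a = lamE hL x := by
    simp [poi]
  rw [this]
  simp only [compCLMOfContinuousLinearEquiv_apply, Function.comp_apply,
    ContinuousLinearEquiv.symm_apply_apply]

lemma conjS_simS (s : ℝ) (hs : 0 < s) {L : Ix → V} (hL : GF.IsLor L) (a : V) (f : 𝓢(Mink, ℂ)) :
    conjS (simS s hs hL a f) = simS s hs hL a (conjS f) := by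
  ext x
  simp [simS_apply]

lemma mft_of_simS {L : Ix → V} (hL : GF.IsLor L) (a : V) (f : 𝓢(Mink, ℂ)) (p : Mink) :
    mft f (lam L p) = chr (WithLp.toLp 2 a) (lam L p) * mft (simS 1 one_pos hL a f) p := by
  rw [mft_simS]
  simp only [inv_one, one_smul, one_pow, ofReal_one, one_mul]
  rw [chr_neg, ← mul_assoc]
  have : chr (WithLp.toLp 2 a) (lam L p) * conj (chr (WithLp.toLp 2 a) (lam L p)) = 1 := by
    rw [mul_conj, normSq_eq_norm_sq, norm_chr]; simp
  rw [this, one_mul]

section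

variable (S : SymMeasure μ 4)
include S

lemma transport_l {L : Ix → V} (hL : GF.IsLor L) (a : V) (f : 𝓢(Mink, ℂ)) (η : Mink → ℂ) :
    ∫ p, mft f p * η p ∂μ = ∫ p, mft (simS 1 one_pos hL a f) p *
      (chr (WithLp.toLp 2 a) (lam L p) * η (lam L p)) ∂μ := by
  rw [← (S.lor L hL).integral_comp (lamE hL).toHomeomorph.measurableEmbedding]
  congr 1
  ext p
  rw [mft_of_simS hL a]
  ring

lemma transport_r {L : Ix → V} (hL : GF.IsLor L) (a : V) (f : 𝓢(Mink, ℂ)) (ζ : Mink → ℂ) :
    ∫ p, conj (mft (conjS f) p) * ζ p ∂μ = ∫ p, conj (mft (conjS (simS 1 one_pos hL a f)) p) *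
      (conj (chr (WithLp.toLp 2 a) (lam L p)) * ζ (lam L p)) ∂μ := by
  rw [← (S.lor L hL).integral_comp (lamE hL).toHomeomorph.measurableEmbedding]
  congr 1
  ext p
  rw [mft_of_simS hL a, conjS_simS, map_mul]
  ring

lemma wed_im {L : Ix → V} (hL : GF.IsLor L) (a : V) {η ζ : Mink → ℂ} (hη : MemLp η 2 μ)
    (hζ : MemLp ζ 2 μ)
    (h : ∀ f, IsTest (MW (Wed L a 1)) f →
      ∫ p, mft f p * η p ∂μ = ∫ p, conj (mft (conjS f) p) * ζ p ∂μ)
    (f : 𝓢(Mink, ℂ)) (hf : IsTest (MW (Wed L a 1)) f) :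
    ∫ p, mft f p * ((im p : ℂ) * η p) ∂μ =
      ∫ p, conj (mft (conjS f) p) * ((im p : ℂ) * ζ p) ∂μ := by
  have hη' : MemLp (fun p => chr (WithLp.toLp 2 a) (lam L p) * η (lam L p)) 2 μ :=
    (memLp_chr_mul hη _).comp_measurePreserving (S.lor L hL)
  have hζ' : MemLp (fun p => conj (chr (WithLp.toLp 2 a) (lam L p)) * ζ (lam L p)) 2 μ :=
    (memLp_conj_chr_mul hζ _).comp_measurePreserving (S.lor L hL)
  have key := wedge_im S hη' hζ' (fun g hg => by
    have := h (simI hL a g) ((isTest_simS hL a _).1 (by rwa [simS_simI]))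
    rw [transport_l S hL a, transport_r S hL a, simS_simI] at this
    exact this) (simS 1 one_pos hL a f) ((isTest_simS hL a f).2 hf)
  have him : ∀ p, im (lam L p) = im p := by
    intro p
    unfold im
    have em : mass2 (lam L p) = mass2 p := mdot_lam hL p p
    rw [em]
  rw [transport_l S hL a, transport_r S hL a]
  simp only [him]
  convert key using 1
  · congr 1
    ext p
    ring
  · congr 1
    ext p
    ring

end

end Vale.Agent.P352.H246

end
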