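import Vale.Agent.P352.H246.Dense

set_option linter.all false

noncomputable section

open MeasureTheory SchwartzMap Complex Filter Topology
open scoped SchwartzMap ComplexConjugate ENNReal LineDeriv NNReal

namespace Vale.Agent.P352.H246

open GF (Ix V Fn Sch ev pd bar sim one bas o)

variable {D : Type*} [NormedAddCommGroup D] [InnerProductSpace ℂ D]
variable {Q : GF.Theory D} {W : Set Mink}

lemma bas_eq (m : Ix) (t : ℝ) : bas m t = (t • eb m : Mink).ofLp := by
  funext n
  simp only [bas, PiLp.smul_apply, eb, smul_eq_mul]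
  by_cases h : n = m
  · subst h; simp
  · simp [h]

lemma Dv_eq {m : Ix} {v v' : D} (h : HasDerivAt (fun t : ℝ => U1 Q (t • eb m) v) v' 0) :
    Dv Q m v = v' := by
  unfold Dv
  simp only [bas_eq]
  exact h.deriv

lemma hasDeriv {v : D} (m : Ix) (hv : PW Q W v) :
    HasDerivAt (fun t : ℝ => U1 Q (t • eb m) v) (Dv Q m v) 0 := by
  obtain ⟨v', _, h⟩ := pw_deriv m hv
  rwa [Dv_eq h]

lemma pw_Dv {v : D} (m : Ix) (hv : PW Q W v) : PW Q W (Dv Q m v) := by
  obtain ⟨v', p, h⟩ := pw_deriv m hv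
  rwa [Dv_eq h]

lemma Dv_add {v w : D} (m : Ix) (hv : PW Q W v) (hw : PW Q W w) :
    Dv Q m (v + w) = Dv Q m v + Dv Q m w := by
  apply Dv_eq
  simp only [U1_add]
  exact (hasDeriv m hv).add (hasDeriv m hw)

lemma Dv_smul {v : D} (m : Ix) (c : ℂ) (hv : PW Q W v) : Dv Q m (c • v) = c • Dv Q m v := by
  apply Dv_eq
  simp only [U1_smul]
  exact (hasDeriv m hv).const_smul c

lemma hasDerivAt_U1 (a : Mink) {f : ℝ → D} {f' : D} {t : ℝ} (h : HasDerivAt f f' t) :
    HasDerivAt (fun s => U1 Q a (f s)) (U1 Q a f') t := by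
  rw [hasDerivAt_iff_isLittleO_nhds_zero] at h ⊢
  refine Asymptotics.IsLittleO.congr_left (f₁ := fun h => U1 Q a (f (t + h) - f t - h • f')) ?_ ?_
  · exact Asymptotics.IsLittleO.of_norm_left (by
      simp only [U1_norm]; exact h.norm_left)
  · intro s
    have : s • f' = (s : ℂ) • f' := rfl
    have h2 : s • U1 Q a f' = (s : ℂ) • U1 Q a f' := rfl
    rw [this, h2, U1_sub, U1_sub, U1_smul]

lemma Dv_U1 {v : D} (m : Ix) (a : Mink) (hv : PW Q W v) :
    Dv Q m (U1 Q a v) = U1 Q a (Dv Q m v) := by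
  apply Dv_eq
  have h := hasDerivAt_U1 (Q := Q) a (hasDeriv m hv)
  refine h.congr_of_eventuallyEq (Eventually.of_forall fun t => ?_)
  show U1 Q (t • eb m) (U1 Q a v) = U1 Q a (U1 Q (t • eb m) v)
  rw [U1_U1 hv, U1_U1 hv, add_comm]

lemma Dv_fld {B : GF.Fld D} {g : 𝓢(Mink, ℂ)} {v : D} (m : Ix) (hB : Q.fld B)
    (hg : IsTest W g) (hv : PW Q W v) : Dv Q m (B (fl g) v) =
      B (fl (-(∂_{eb m} g : 𝓢(Mink, ℂ)))) v + B (fl g) (Dv Q m v) :=
  Dv_eq (deriv_fld (eb m) hB hg hv (pw_Dv m hv) (hasDeriv m hv))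

/-- iterated derivatives -/
def Dw (Q : GF.Theory D) : List Ix → D → D
  | [], v => v
  | m :: l, v => Dw Q l (Dv Q m v)

/-- linear operators on the polynomial vectors that commute with translations -/
structure TR (Q : GF.Theory D) (R : D → D) : Prop where
  pw : ∀ v, PW Q Set.univ v → PW Q Set.univ (R v)
  add : ∀ v w, PW Q Set.univ v → PW Q Set.univ w → R (v + w) = R v + R w
  smul : ∀ (c : ℂ) v, PW Q Set.univ v → R (c • v) = c • R v
  comm : ∀ a v, PW Q Set.univ v → R (U1 Q a v) = U1 Q a (R v)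

lemma TR.id : TR Q (fun v => v) := ⟨fun _ h => h, fun _ _ _ _ => rfl, fun _ _ _ => rfl,
  fun _ _ _ => rfl⟩

lemma TR.Dv {R : D → D} (h : TR Q R) (m : Ix) : TR Q (fun v => Dv Q m (R v)) where
  pw v hv := pw_Dv m (h.pw v hv)
  add v w hv hw := by rw [h.add v w hv hw, Dv_add m (h.pw v hv) (h.pw w hw)]
  smul c v hv := by rw [h.smul c v hv, Dv_smul m c (h.pw v hv)]
  comm a v hv := by rw [h.comm a v hv, Dv_U1 m a (h.pw v hv)]

lemma TR.Dw {R : D → D} (h : TR Q R) (l : List Ix) : TR Q (fun v => Dw Q l (R v)) := by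
  induction l generalizing R with
  | nil => exact h
  | cons m l ih => exact ih (h.Dv m)

lemma TR.top {R : D → D} (h : TR Q R) : TOp Q R where
  add := h.add
  smul := h.smul
  hol y v hv := by
    have : (fun a => inner ℂ y ((R (U1 Q a v) : D) : UniformSpace.Completion D)) =
        fun a => inner ℂ y ((U1 Q a (R v) : D) : UniformSpace.Completion D) := by
      funext a; rw [h.comm a v hv]
    rw [this]
    exact hol_vec y (R v)

lemma TOp.congr {R R' : D → D} (h : TOp Q R') (e : ∀ v, PW Q Set.univ v → R v = R' v) :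
    TOp Q R where
  add v w hv hw := by rw [e _ hv, e _ hw, e _ (.add hv hw), h.add v w hv hw]
  smul c v hv := by rw [e _ hv, e _ (.smul c hv), h.smul c v hv]
  hol y v hv := by
    have : (fun a => inner ℂ y ((R (U1 Q a v) : D) : UniformSpace.Completion D)) =
        fun a => inner ℂ y ((R' (U1 Q a v) : D) : UniformSpace.Completion D) := by
      funext a; rw [e _ (pw_U1 hv a)]
    rw [this]
    exact h.hol y v hv

lemma TOp.sum {R R' : D → D} (h : TOp Q R) (h' : TOp Q R') : TOp Q (fun v => R v + R' v) where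
  add v w hv hw := by rw [h.add v w hv hw, h'.add v w hv hw]; abel
  smul c v hv := by rw [h.smul c v hv, h'.smul c v hv, smul_add]
  hol y v hv := by
    have : (fun a => inner ℂ y ((R (U1 Q a v) + R' (U1 Q a v) : D) :
        UniformSpace.Completion D)) = fun a =>
        inner ℂ y ((R (U1 Q a v) : D) : UniformSpace.Completion D) +
          inner ℂ y ((R' (U1 Q a v) : D) : UniformSpace.Completion D) := by
      funext a; rw [UniformSpace.Completion.coe_add, inner_add_right]
    rw [this]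
    exact (h.hol y v hv).add (h'.hol y v hv)

lemma top_fld {A : GF.Fld D} (hA : Q.fld A) (l : List Ix) {g : 𝓢(Mink, ℂ)}
    (hg : IsTest Set.univ g) {R : D → D} (h : TR Q R) :
    TOp Q (fun v => Dw Q l (A (fl g) (R v))) := by
  induction l generalizing g R with
  | nil =>
    constructor
    · intro v w hv hw
      simp only [Dw]
      rw [h.add v w hv hw, fld_add hA]
    · intro c v hv
      simp only [Dw]
      rw [h.smul c v hv, fld_smul hA]
    · intro y v hv
      simp only [Dw]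
      have : (fun a => inner ℂ y ((A (fl g) (R (U1 Q a v)) : D) : UniformSpace.Completion D)) =
          fun a => inner ℂ y ((A (fl g) (U1 Q a (R v)) : D) : UniformSpace.Completion D) := by
        funext a; rw [h.comm a v hv]
      rw [this]
      exact hol_fld hA g y (R v)
  | cons m l ih =>
    have h1 := ih (g := -(∂_{eb m} g : 𝓢(Mink, ℂ))) (isTest_neg (isTest_lineDeriv hg _)) h
    have h2 := ih hg (h.Dv m)
    refine (h1.sum h2).congr fun v hv => ?_
    simp only [Dw]
    rw [Dv_fld m hA hg (h.pw v hv)]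
    have hD := (TR.id (Q := Q)).Dw l
    exact hD.add _ _ (.fld hA (isTest_neg (isTest_lineDeriv hg _)) (h.pw v hv))
      (.fld hA hg (pw_Dv m (h.pw v hv)))

/-- the energy norms as sums over words -/
lemma exists_words (Q : GF.Theory D) (k : ℕ) : ∃ (ι : Type) (_ : Fintype ι) (w : ι → List Ix),
    ∀ v, en Q k v = ∑ i, ‖Dw Q (w i) v‖ := by
  induction k with
  | zero => exact ⟨Unit, inferInstance, fun _ => [], fun v => by simp [en, Dw]⟩
  | succ k ih =>
    obtain ⟨ι, hι, w, hw⟩ := ih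
    refine ⟨ι ⊕ (Ix × ι), inferInstance, Sum.elim w fun p => p.1 :: w p.2, fun v => ?_⟩
    rw [Fintype.sum_sum_type, Fintype.sum_prod_type]
    simp only [en, hw, Sum.elim_inl, Sum.elim_inr, Dw]

lemma Dw_add (l : List Ix) {v w : D} (hv : PW Q Set.univ v) (hw : PW Q Set.univ w) :
    Dw Q l (v + w) = Dw Q l v + Dw Q l w := ((TR.id (Q := Q)).Dw l).add v w hv hw

lemma Dw_smul (l : List Ix) (c : ℂ) {v : D} (hv : PW Q Set.univ v) :
    Dw Q l (c • v) = c • Dw Q l v := ((TR.id (Q := Q)).Dw l).smul c v hv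

lemma Dw_sub (l : List Ix) {v w : D} (hv : PW Q Set.univ v) (hw : PW Q Set.univ w) :
    Dw Q l (v - w) = Dw Q l v - Dw Q l w := by
  have h1 : v - w = v + (-1 : ℂ) • w := by rw [neg_one_smul, sub_eq_add_neg]
  rw [h1, Dw_add l hv (.smul _ hw), Dw_smul l _ hw, neg_one_smul, ← sub_eq_add_neg]

lemma en_nonneg (k : ℕ) (v : D) : 0 ≤ en Q k v := by
  obtain ⟨ι, hι, w, hw⟩ := exists_words Q k
  rw [hw]; exact Finset.sum_nonneg fun i _ => norm_nonneg _

lemma en_add (k : ℕ) {v w : D} (hv : PW Q Set.univ v) (hw : PW Q Set.univ w) :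
    en Q k (v + w) ≤ en Q k v + en Q k w := by
  obtain ⟨ι, hι, W, hW⟩ := exists_words Q k
  rw [hW, hW, hW, ← Finset.sum_add_distrib]
  refine Finset.sum_le_sum fun i _ => ?_
  rw [Dw_add _ hv hw]
  exact norm_add_le _ _

lemma en_smul (k : ℕ) (c : ℂ) {v : D} (hv : PW Q Set.univ v) :
    en Q k (c • v) = ‖c‖ * en Q k v := by
  obtain ⟨ι, hι, W, hW⟩ := exists_words Q k
  rw [hW, hW, Finset.mul_sum]
  refine Finset.sum_congr rfl fun i _ => ?_
  rw [Dw_smul _ c hv, norm_smul]

lemma en_sub_comm (k : ℕ) {v w : D} (hv : PW Q Set.univ v) (hw : PW Q Set.univ w) :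
    en Q k (v - w) = en Q k (w - v) := by
  have : v - w = (-1 : ℂ) • (w - v) := by rw [neg_one_smul, neg_sub]
  rw [this, en_smul k _ (pw_sub hw hv)]
  simp

lemma en_zero (k : ℕ) : en Q k (0 : D) = 0 := by
  have := en_smul k 0 (pw_zero (Q := Q) (W := Set.univ))
  rwa [zero_smul, norm_zero, zero_mul] at this

lemma norm_le_en (k : ℕ) (v : D) : ‖v‖ ≤ en Q k v := by
  induction k with
  | zero => exact le_rfl
  | succ k ih =>
    have : 0 ≤ ∑ m, en Q k (Dv Q m v) := Finset.sum_nonneg fun m _ => en_nonneg k _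
    simp only [en]
    linarith

/-- density in the energy norms -/
theorem dense_en {S : Set Mink} (hS : Big S) (k : ℕ) {v : D} (hv : PW Q Set.univ v) {ε : ℝ}
    (hε : 0 < ε) : ∃ v', PW Q S v' ∧ en Q k (v - v') < ε := by
  obtain ⟨ι, hι, w, hw⟩ := exists_words Q k
  obtain ⟨v', hv', h⟩ := dense_gen (R := fun i => Dw Q (w i))
    (fun i => ((TR.id (Q := Q)).Dw (w i)).top) hS hv
    (ε := ε / (Fintype.card ι + 1)) (by positivity)
  refine ⟨v', hv', ?_⟩
  rw [hw]
  have hv'' := pw_mono (Set.subset_univ _) hv'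
  calc ∑ i, ‖Dw Q (w i) (v - v')‖ ≤ ∑ i : ι, ε / (Fintype.card ι + 1) := by
        refine Finset.sum_le_sum fun i _ => ?_
        rw [Dw_sub _ hv hv'']
        exact (h i).le
    _ = Fintype.card ι * (ε / (Fintype.card ι + 1)) := by simp
    _ < (Fintype.card ι + 1) * (ε / (Fintype.card ι + 1)) := by
        have : 0 < ε / ((Fintype.card ι : ℝ) + 1) := by positivity
        linarith
    _ = ε := by field_simp

/-- density in the energy norms, jointly with the action of a field -/
theorem dense_en_fld {S : Set Mink} (hS : Big S) (k : ℕ) {A : GF.Fld D} (hA : Q.fld A)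
    {g : 𝓢(Mink, ℂ)} (hg : IsTest Set.univ g) {v : D} (hv : PW Q Set.univ v) {ε : ℝ}
    (hε : 0 < ε) : ∃ v', PW Q S v' ∧ en Q k (v - v') < ε ∧
      en Q k (A (fl g) v - A (fl g) v') < ε := by
  obtain ⟨ι, hι, w, hw⟩ := exists_words Q k
  obtain ⟨v', hv', h⟩ := dense_gen (ι := ι ⊕ ι)
    (R := Sum.elim (fun i => Dw Q (w i)) (fun i v => Dw Q (w i) (A (fl g) v)))
    (by
      rintro (i | i)
      · exact ((TR.id (Q := Q)).Dw (w i)).top
      · exact top_fld hA (w i) hg TR.id) hS hv
    (ε := ε / (Fintype.card ι + 1)) (by positivity)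
  have hv'' := pw_mono (Set.subset_univ _) hv'
  have hsum : ∀ F : ι → ℝ, (∀ i, F i < ε / (Fintype.card ι + 1)) → ∑ i, F i < ε := by
    intro F hF
    calc ∑ i, F i ≤ ∑ i : ι, ε / (Fintype.card ι + 1) :=
          Finset.sum_le_sum fun i _ => (hF i).le
      _ = Fintype.card ι * (ε / (Fintype.card ι + 1)) := by simp
      _ < (Fintype.card ι + 1) * (ε / (Fintype.card ι + 1)) := by
          have : 0 < ε / ((Fintype.card ι : ℝ) + 1) := by positivity
          linarith
      _ = ε := by field_simp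
  refine ⟨v', hv', ?_, ?_⟩
  · rw [hw]
    apply hsum
    intro i
    rw [Dw_sub _ hv hv'']
    exact h (Sum.inl i)
  · rw [hw]
    apply hsum
    intro i
    rw [Dw_sub _ (.fld hA hg hv) (.fld hA hg hv'')]
    exact h (Sum.inr i)

end Vale.Agent.P352.H246

end
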